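import Vale.Agent.Lib.P046.HDefs

/-!
# The hyperedge with the smallest label is uniformly distributed and independent of the order of
the other labels
-/

namespace Vale.Agent.P046.H

open Finset MeasureTheory

/-- the uniform law on the unit interval -/
noncomputable def MinLemma_nu : Measure ℝ := volume.restrict (Set.Icc (0 : ℝ) 1)

instance MinLemma_inst1 : IsProbabilityMeasure (MinLemma_nu) := by
  constructor
  simp [MinLemma_nu]

instance MinLemma_inst2 : NullSingletonClass (MinLemma_nu) := by
  unfold MinLemma_nu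
  infer_instance

theorem MinLemma_mu_eq (V : Type*) [Fintype V] :
    mu V = Measure.pi fun _ : Finset V => MinLemma_nu := rfl

variable {V : Type*} [Fintype V]

instance : IsProbabilityMeasure (mu V) := by
  rw [MinLemma_mu_eq]
  infer_instance

variable [DecidableEq V]

/-- resampling one label -/
theorem MinLemma_update (s : Finset V) :
    MeasurePreserving (fun p : ℝ × (Finset V → ℝ) => Function.update p.2 s p.1)
      ((MinLemma_nu).prod (mu V)) (mu V) := by
  have hmeas : Measurable (fun p : ℝ × (Finset V → ℝ) => Function.update p.2 s p.1) := by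
    rw [measurable_pi_iff]
    intro T
    by_cases h : T = s
    · subst h
      simp only [Function.update_self]
      exact measurable_fst
    · simp only [Function.update_of_ne h]
      exact (measurable_pi_apply T).comp measurable_snd
  refine ⟨hmeas, ?_⟩
  symm
  rw [MinLemma_mu_eq]
  apply Measure.pi_eq
  intro B hB
  rw [Measure.map_apply hmeas (MeasurableSet.univ_pi hB)]
  have hpre : (fun p : ℝ × (Finset V → ℝ) => Function.update p.2 s p.1) ⁻¹' (Set.univ.pi B) =
      (B s) ×ˢ (Set.univ.pi (Function.update B s Set.univ)) := by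
    ext p
    simp only [Set.mem_preimage, Set.mem_pi, Set.mem_univ, forall_true_left, Set.mem_prod]
    constructor
    · intro h
      refine ⟨by simpa using h s, fun T => ?_⟩
      by_cases hT : T = s
      · subst hT
        simp
      · have := h T
        rw [Function.update_of_ne hT] at this
        rw [Function.update_of_ne hT]
        exact this
    · rintro ⟨h1, h2⟩ T
      by_cases hT : T = s
      · subst hT
        simpa using h1
      · have := h2 T
        rw [Function.update_of_ne hT] at this
        rw [Function.update_of_ne hT]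
        exact this
  rw [hpre, Measure.prod_prod, Measure.pi_pi]
  rw [← Finset.mul_prod_erase Finset.univ (fun T => MinLemma_nu (B T)) (Finset.mem_univ s),
    ← Finset.mul_prod_erase Finset.univ (fun T => MinLemma_nu (Function.update B s Set.univ T))
      (Finset.mem_univ s)]
  rw [Function.update_self, measure_univ, one_mul]
  congr 1
  apply Finset.prod_congr rfl
  intro T hT
  rw [Function.update_of_ne (Finset.ne_of_mem_erase hT)]

omit [DecidableEq V] in
theorem MinLemma_eval (T : Finset V) :
    MeasurePreserving (fun l : Finset V → ℝ => l T) (mu V) MinLemma_nu := by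
  rw [MinLemma_mu_eq]
  exact measurePreserving_eval _ T

theorem MinLemma_lt_one : ∀ᵐ x ∂(MinLemma_nu), 0 ≤ x ∧ x < 1 := by
  have h1 : ∀ᵐ x ∂(MinLemma_nu), x ∈ Set.Icc (0 : ℝ) 1 := by
    unfold MinLemma_nu
    exact ae_restrict_mem measurableSet_Icc
  have h2 : ∀ᵐ x ∂(MinLemma_nu), x ≠ (1 : ℝ) := by
    rw [ae_iff]
    have : {a : ℝ | ¬ a ≠ 1} = {1} := by
      ext a
      simp
    rw [this]
    exact measure_singleton 1
  filter_upwards [h1, h2] with x h3 h4
  exact ⟨h3.1, lt_of_le_of_ne h3.2 h4⟩

/-- Almost all labels of `S` are different and lie in `[0, 1)`. -/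
theorem ae_labels (S : Finset (Finset V)) :
    ∀ᵐ l ∂(mu V), (∀ T ∈ S, ∀ T' ∈ S, T ≠ T' → l T ≠ l T') ∧ ∀ T ∈ S, l T < 1 := by
  have h1 : ∀ T : Finset V, ∀ᵐ l ∂(mu V), l T < 1 := by
    intro T
    have h2 : ∀ᵐ x ∂(MinLemma_nu), x < 1 := MinLemma_lt_one.mono fun x hx => hx.2
    exact (MinLemma_eval T).quasiMeasurePreserving.ae h2
  have h3 : ∀ T T' : Finset V, T ≠ T' → ∀ᵐ l ∂(mu V), l T ≠ l T' := by
    intro T T' hT
    have hme : MeasurableSet {l : Finset V → ℝ | l T = l T'} :=
      measurableSet_eq_fun (measurable_pi_apply T) (measurable_pi_apply T')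
    rw [ae_iff]
    have h4 : {l : Finset V → ℝ | ¬ l T ≠ l T'} = {l | l T = l T'} := by
      ext l
      simp
    rw [h4, ← (MinLemma_update T).measure_preimage hme.nullMeasurableSet]
    have h5 : (fun p : ℝ × (Finset V → ℝ) => Function.update p.2 T p.1) ⁻¹' {l | l T = l T'} =
        {p | p.1 = p.2 T'} := by
      ext p
      simp only [Set.mem_preimage, Set.mem_ofPred_eq, Function.update_self,
        Function.update_of_ne hT.symm]
    rw [h5]
    have h6 : MeasurableSet {p : ℝ × (Finset V → ℝ) | p.1 = p.2 T'} :=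
      measurableSet_eq_fun measurable_fst ((measurable_pi_apply T').comp measurable_snd)
    rw [Measure.prod_apply_symm h6]
    have h7 : ∀ y : Finset V → ℝ, MinLemma_nu ((fun x => (x, y)) ⁻¹' {p | p.1 = p.2 T'}) = 0 := by
      intro y
      have h8 : (fun x : ℝ => (x, y)) ⁻¹' {p | p.1 = p.2 T'} = {y T'} := by
        ext x
        simp
      rw [h8]
      exact measure_singleton _
    simp only [h7, lintegral_zero]
  have h9 : ∀ᵐ l ∂(mu V), ∀ T T' : Finset V, T ≠ T' → l T ≠ l T' := by
    rw [ae_all_iff]
    intro T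
    rw [ae_all_iff]
    intro T'
    by_cases h : T = T'
    · exact Filter.Eventually.of_forall fun l h' => absurd h h'
    · exact (h3 T T' h).mono fun l hl _ => hl
  have h10 : ∀ᵐ l ∂(mu V), ∀ T : Finset V, l T < 1 := by
    rw [ae_all_iff]
    exact h1
  filter_upwards [h9, h10] with l h11 h12
  exact ⟨fun T _ T' _ h => h11 T T' h, fun T _ => h12 T⟩

/-- the affine map on the coordinates in `A` -/
noncomputable def MinLemma_F (A : Finset (Finset V)) (x : ℝ) (l : Finset V → ℝ) : Finset V → ℝ :=
  fun T => if T ∈ A then x + (1 - x) * l T else l T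

omit [Fintype V] in
theorem MinLemma_F_meas (A : Finset (Finset V)) (x : ℝ) : Measurable (MinLemma_F A x) := by
  rw [measurable_pi_iff]
  intro T
  unfold MinLemma_F
  by_cases h : T ∈ A
  · simp only [if_pos h]
    have hT : Measurable fun l : Finset V → ℝ => l T := measurable_pi_apply T
    exact (hT.const_mul (1 - x)).const_add x
  · simp only [if_neg h]
    exact measurable_pi_apply T

/-- one coordinate -/
theorem MinLemma_one {x : ℝ} (h0 : 0 ≤ x) (h1 : x < 1) (B : Set ℝ) (hB : MeasurableSet B) :
    MinLemma_nu (B ∩ Set.Ioi x) =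
      ENNReal.ofReal (1 - x) * MinLemma_nu ((fun z => x + (1 - x) * z) ⁻¹' B) := by
  have hpos : 0 < 1 - x := by linarith
  have e1 : MinLemma_nu (B ∩ Set.Ioi x) = volume (B ∩ Set.Ioc x 1) := by
    unfold MinLemma_nu
    rw [Measure.restrict_apply (hB.inter measurableSet_Ioi)]
    congr 1
    ext z
    simp only [Set.mem_inter_iff, Set.mem_Ioi, Set.mem_Icc, Set.mem_Ioc]
    constructor
    · rintro ⟨⟨h2, h3⟩, h4, h5⟩
      exact ⟨h2, h3, h5⟩
    · rintro ⟨h2, h3, h5⟩
      exact ⟨⟨h2, h3⟩, le_of_lt (lt_of_le_of_lt h0 h3), h5⟩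
  have hm : Measurable fun z : ℝ => x + (1 - x) * z := by fun_prop
  have e2 : MinLemma_nu ((fun z => x + (1 - x) * z) ⁻¹' B) =
      volume ((fun z => x + (1 - x) * z) ⁻¹' (B ∩ Set.Ioc x 1)) := by
    unfold MinLemma_nu
    rw [← restrict_Ioc_eq_restrict_Icc, Measure.restrict_apply (hm hB)]
    congr 1
    ext z
    simp only [Set.mem_inter_iff, Set.mem_preimage, Set.mem_Ioc]
    constructor
    · rintro ⟨h2, h3, h4⟩
      exact ⟨h2, by nlinarith, by nlinarith⟩
    · rintro ⟨h2, h3, h4⟩
      exact ⟨h2, by
        by_contra hz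
        nlinarith, by
        by_contra hz
        nlinarith⟩
  rw [e1, e2]
  have e3 : (fun z : ℝ => x + (1 - x) * z) ⁻¹' (B ∩ Set.Ioc x 1) =
      (fun z : ℝ => (1 - x) * z) ⁻¹' ((fun z => x + z) ⁻¹' (B ∩ Set.Ioc x 1)) := rfl
  rw [e3, Real.volume_preimage_mul_left (ne_of_gt hpos)]
  rw [measure_preimage_add, ← mul_assoc, ← ENNReal.ofReal_mul (le_of_lt hpos)]
  rw [abs_of_pos (inv_pos.mpr hpos), mul_inv_cancel₀ (ne_of_gt hpos), ENNReal.ofReal_one, one_mul]

theorem MinLemma_restrict (A : Finset (Finset V)) {x : ℝ} (h0 : 0 ≤ x) (h1 : x < 1) :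
    (mu V).restrict {l | ∀ T ∈ A, x < l T} =
      (ENNReal.ofReal (1 - x)) ^ A.card • (mu V).map (MinLemma_F A x) := by
  have hset : {l : Finset V → ℝ | ∀ T ∈ A, x < l T} =
      Set.univ.pi (fun T => if T ∈ A then Set.Ioi x else Set.univ) := by
    ext l
    simp only [Set.mem_ofPred_eq, Set.mem_pi, Set.mem_univ, forall_true_left]
    constructor
    · intro h T
      by_cases hT : T ∈ A
      · rw [if_pos hT]
        exact h T hT
      · rw [if_neg hT]
        trivial
    · intro h T hT
      have := h T
      rw [if_pos hT] at this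
      exact this
  rw [hset, MinLemma_mu_eq, Measure.restrict_pi_pi]
  apply Measure.pi_eq
  intro B hB
  rw [Measure.smul_apply, Measure.map_apply (MinLemma_F_meas A x) (MeasurableSet.univ_pi hB)]
  have hpre : MinLemma_F A x ⁻¹' Set.univ.pi B = Set.univ.pi fun T =>
      if T ∈ A then (fun z => x + (1 - x) * z) ⁻¹' (B T) else B T := by
    ext l
    simp only [Set.mem_preimage, Set.mem_pi, Set.mem_univ, forall_true_left, MinLemma_F]
    apply forall_congr'
    intro T
    by_cases hT : T ∈ A
    · simp only [if_pos hT, Set.mem_preimage]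
    · simp only [if_neg hT]
  rw [hpre, Measure.pi_pi, smul_eq_mul]
  have hprod : (ENNReal.ofReal (1 - x)) ^ A.card =
      ∏ T : Finset V, if T ∈ A then ENNReal.ofReal (1 - x) else 1 := by
    rw [Finset.prod_ite_mem, Finset.univ_inter, Finset.prod_const]
  rw [hprod, ← Finset.prod_mul_distrib]
  apply Finset.prod_congr rfl
  intro T _
  by_cases hT : T ∈ A
  · simp only [if_pos hT]
    rw [Measure.restrict_apply (hB T), MinLemma_one h0 h1 (B T) (hB T)]
  · simp only [if_neg hT, Measure.restrict_univ, one_mul]

theorem MinLemma_slice (S : Finset (Finset V)) (s : Finset V)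
    (Psi : (Finset V → ℝ) → ℝ) (hm : Measurable Psi)
    (hPsi : ∀ l l' : Finset V → ℝ, (∀ T ∈ S.erase s, ∀ T' ∈ S.erase s, (l T < l T' ↔ l' T < l' T')) →
      Psi l = Psi l') {x : ℝ} (h0 : 0 ≤ x) (h1 : x < 1) :
    ∫ l in {l | ∀ T ∈ S.erase s, x < l T}, Psi l ∂(mu V) =
      (1 - x) ^ (S.erase s).card * ∫ l, Psi l ∂(mu V) := by
  rw [MinLemma_restrict _ h0 h1, integral_smul_measure,
    integral_map (MinLemma_F_meas _ x).aemeasurable hm.aestronglyMeasurable]
  have hpos : 0 < 1 - x := by linarith
  rw [ENNReal.toReal_pow, ENNReal.toReal_ofReal (le_of_lt hpos), smul_eq_mul]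
  congr 1
  apply integral_congr_ae
  refine Filter.Eventually.of_forall fun l => ?_
  apply hPsi
  intro T hT T' hT'
  simp only [MinLemma_F, if_pos hT, if_pos hT']
  constructor
  · intro h
    by_contra hz
    nlinarith
  · intro h
    nlinarith

open Classical in
/-- If `Psi` only depends on the order of the labels in `S \ {s}`, then conditioning on `s` having
the smallest label in `S` does not change its mean, and this event has probability `1 / #S`. -/
theorem integral_min (S : Finset (Finset V)) (s : Finset V) (hs : s ∈ S)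
    (Psi : (Finset V → ℝ) → ℝ) (hm : Measurable Psi) (C : ℝ) (hC : ∀ l, |Psi l| ≤ C)
    (hPsi : ∀ l l' : Finset V → ℝ, (∀ T ∈ S.erase s, ∀ T' ∈ S.erase s, (l T < l T' ↔ l' T < l' T')) →
      Psi l = Psi l') :
    ∫ l, (if ∀ T ∈ S, T ≠ s → l s < l T then Psi l else 0) ∂(mu V) =
      (∫ l, Psi l ∂(mu V)) / S.card := by
  have hC0 : 0 ≤ C := le_trans (abs_nonneg _) (hC 0)
  have hmset : MeasurableSet {l : Finset V → ℝ | ∀ T ∈ S, T ≠ s → l s < l T} := by
    have : {l : Finset V → ℝ | ∀ T ∈ S, T ≠ s → l s < l T} =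
        ⋂ T ∈ S.erase s, {l | l s < l T} := by
      ext l
      simp only [Set.mem_ofPred_eq, Set.mem_iInter, Finset.mem_erase]
      constructor
      · intro h T hT
        exact h T hT.2 hT.1
      · intro h T h1 h2
        exact h T ⟨h2, h1⟩
    rw [this]
    apply Finset.measurableSet_biInter
    intro T _
    exact measurableSet_lt (measurable_pi_apply s) (measurable_pi_apply T)
  have hGm : Measurable fun l : Finset V → ℝ =>
      (if ∀ T ∈ S, T ≠ s → l s < l T then Psi l else 0) :=
    Measurable.ite hmset hm measurable_const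
  have hGb : ∀ l : Finset V → ℝ,
      ‖(if ∀ T ∈ S, T ≠ s → l s < l T then Psi l else 0)‖ ≤ C := by
    intro l
    split
    · exact hC l
    · simpa using hC0
  set I : ℝ := ∫ l, Psi l ∂(mu V) with hI
  have hup := (MinLemma_update s).measurable
  have e1 : ∫ l, (if ∀ T ∈ S, T ≠ s → l s < l T then Psi l else 0) ∂(mu V) =
      ∫ p : ℝ × (Finset V → ℝ), (fun l : Finset V → ℝ =>
        (if ∀ T ∈ S, T ≠ s → l s < l T then Psi l else 0)) (Function.update p.2 s p.1)
        ∂((MinLemma_nu).prod (mu V)) := by
    rw [← integral_map hup.aemeasurable hGm.aestronglyMeasurable, (MinLemma_update s).map_eq]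
  have hint : Integrable (fun p : ℝ × (Finset V → ℝ) => (fun l : Finset V → ℝ =>
        (if ∀ T ∈ S, T ≠ s → l s < l T then Psi l else 0)) (Function.update p.2 s p.1))
        ((MinLemma_nu).prod (mu V)) := by
    apply Integrable.of_bound (hGm.comp hup).aestronglyMeasurable C
    exact Filter.Eventually.of_forall fun p => hGb _
  rw [e1, integral_prod _ hint]
  have e2 : ∀ x : ℝ, 0 ≤ x → x < 1 →
      ∫ l : Finset V → ℝ, (fun l : Finset V → ℝ =>
        (if ∀ T ∈ S, T ≠ s → l s < l T then Psi l else 0)) (Function.update l s x) ∂(mu V) =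
      (1 - x) ^ (S.erase s).card * I := by
    intro x h0 h1
    rw [hI, ← MinLemma_slice S s Psi hm hPsi h0 h1]
    have hms : MeasurableSet {l : Finset V → ℝ | ∀ T ∈ S.erase s, x < l T} := by
      have : {l : Finset V → ℝ | ∀ T ∈ S.erase s, x < l T} =
          ⋂ T ∈ S.erase s, {l | x < l T} := by
        ext l
        simp only [Set.mem_ofPred_eq, Set.mem_iInter]
      rw [this]
      apply Finset.measurableSet_biInter
      intro T _
      exact measurableSet_lt measurable_const (measurable_pi_apply T)
    rw [← integral_indicator hms]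
    apply integral_congr_ae
    refine Filter.Eventually.of_forall fun l => ?_
    have hP : Psi (Function.update l s x) = Psi l := by
      apply hPsi
      intro T hT T' hT'
      rw [Function.update_of_ne (Finset.ne_of_mem_erase hT),
        Function.update_of_ne (Finset.ne_of_mem_erase hT')]
    by_cases hl : ∀ T ∈ S.erase s, x < l T
    · have h2 : ∀ T ∈ S, T ≠ s → Function.update l s x s < Function.update l s x T := by
        intro T hT hTs
        rw [Function.update_self, Function.update_of_ne hTs]
        exact hl T (Finset.mem_erase.mpr ⟨hTs, hT⟩)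
      change (if _ then _ else _) = _
      rw [if_pos h2, hP, Set.indicator_of_mem (show l ∈ {l | ∀ T ∈ S.erase s, x < l T} from hl)]
    · have h2 : ¬ ∀ T ∈ S, T ≠ s → Function.update l s x s < Function.update l s x T := by
        intro h3
        apply hl
        intro T hT
        have h4 := h3 T (Finset.mem_of_mem_erase hT) (Finset.ne_of_mem_erase hT)
        rw [Function.update_self, Function.update_of_ne (Finset.ne_of_mem_erase hT)] at h4
        exact h4
      change (if _ then _ else _) = _
      rw [if_neg h2, Set.indicator_of_notMem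
        (show l ∉ {l | ∀ T ∈ S.erase s, x < l T} from hl)]
  have e3 : ∫ x : ℝ, ∫ l : Finset V → ℝ, (fun l : Finset V → ℝ =>
        (if ∀ T ∈ S, T ≠ s → l s < l T then Psi l else 0)) (Function.update l s x) ∂(mu V)
        ∂(MinLemma_nu) = ∫ x : ℝ, (1 - x) ^ (S.erase s).card * I ∂(MinLemma_nu) := by
    apply integral_congr_ae
    filter_upwards [MinLemma_lt_one] with x hx
    exact e2 x hx.1 hx.2
  have e4 : ∫ x : ℝ, (1 - x) ^ (S.erase s).card ∂(MinLemma_nu) = 1 / S.card := by
    unfold MinLemma_nu
    rw [integral_Icc_eq_integral_Ioc, ← intervalIntegral.integral_of_le zero_le_one]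
    rw [intervalIntegral.integral_comp_sub_left (fun y : ℝ => y ^ (S.erase s).card) 1]
    rw [integral_pow, Finset.card_erase_of_mem hs]
    have hc : 1 ≤ S.card := Finset.card_pos.mpr ⟨s, hs⟩
    have h5 : S.card - 1 + 1 = S.card := Nat.sub_add_cancel hc
    rw [h5]
    have h6 : ((S.card - 1 : ℕ) : ℝ) + 1 = S.card := by
      exact_mod_cast h5
    rw [h6]
    simp only [sub_self, sub_zero, one_pow]
    rw [zero_pow (by omega), sub_zero]
  refine e3.trans ?_
  rw [integral_mul_const, e4]
  ring

end Vale.Agent.P046.H
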