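import Vale.Agent.Lib.P046.Stop

/-!
# Histories of the lazy chain

A history is a list of ordered triples, the most recent one first.  `gr l` is the graph after the
history `l` (from the complete graph) and `EL i f` is the expectation of `f` of the history of
length `i`.
-/

namespace Vale.Agent.P046

open Finset

variable {n : ℕ}

/-- The graph after the history `l` (most recent triple first). -/
noncomputable def gr : List (Tr n) → SimpleGraph (Fin n)
  | [] => ⊤
  | t :: l => lstep (gr l) t

/-- The average over the next triple. -/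
noncomputable def avg (f : Tr n → ℝ) : ℝ := (∑ t, f t) / (n : ℝ) ^ 3

/-- The expectation of a function of the history of length `i`. -/
noncomputable def EL : ℕ → (List (Tr n) → ℝ) → ℝ
  | 0, f => f []
  | i + 1, f => EL i fun l => avg fun t => f (t :: l)

theorem card_Tr (n : ℕ) : (Fintype.card (Tr n) : ℝ) = (n : ℝ) ^ 3 := by
  simp [Fintype.card_prod, Fintype.card_fin]
  ring

theorem avg_const (hn : 0 < n) (c : ℝ) : avg (n := n) (fun _ => c) = c := by
  have hn' : (n : ℝ) ^ 3 ≠ 0 := by positivity
  unfold avg
  rw [Finset.sum_const, card_univ, nsmul_eq_mul, card_Tr]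
  field_simp

theorem avg_add (f g : Tr n → ℝ) : avg (fun t => f t + g t) = avg f + avg g := by
  unfold avg
  rw [Finset.sum_add_distrib, add_div]

theorem avg_sub (f g : Tr n → ℝ) : avg (fun t => f t - g t) = avg f - avg g := by
  unfold avg
  rw [Finset.sum_sub_distrib, sub_div]

theorem avg_mul (c : ℝ) (f : Tr n → ℝ) : avg (fun t => c * f t) = c * avg f := by
  unfold avg
  rw [← Finset.mul_sum, mul_div_assoc]

theorem avg_mono {f g : Tr n → ℝ} (h : ∀ t, f t ≤ g t) : avg f ≤ avg g := by
  unfold avg
  gcongr
  exact h _

theorem EL_mono_len (i : ℕ) (f g : List (Tr n) → ℝ) (h : ∀ l, l.length = i → f l ≤ g l) :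
    EL i f ≤ EL i g := by
  induction i generalizing f g with
  | zero => exact h [] rfl
  | succ i ih =>
    refine ih _ _ fun l hl => avg_mono fun t => h _ ?_
    simp [hl]

theorem EL_mono (i : ℕ) {f g : List (Tr n) → ℝ} (h : ∀ l, f l ≤ g l) : EL i f ≤ EL i g :=
  EL_mono_len i f g fun l _ => h l

theorem EL_congr_len (i : ℕ) (f g : List (Tr n) → ℝ) (h : ∀ l, l.length = i → f l = g l) :
    EL i f = EL i g :=
  le_antisymm (EL_mono_len i f g fun l hl => (h l hl).le)
    (EL_mono_len i g f fun l hl => (h l hl).ge)

theorem EL_const (hn : 0 < n) (i : ℕ) (c : ℝ) : EL (n := n) i (fun _ => c) = c := by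
  induction i with
  | zero => rfl
  | succ i ih =>
    rw [EL]
    simp only [avg_const hn]
    exact ih

theorem EL_add (i : ℕ) (f g : List (Tr n) → ℝ) :
    EL i (fun l => f l + g l) = EL i f + EL i g := by
  induction i generalizing f g with
  | zero => rfl
  | succ i ih =>
    simp only [EL, avg_add]
    exact ih _ _

theorem EL_sub (i : ℕ) (f g : List (Tr n) → ℝ) :
    EL i (fun l => f l - g l) = EL i f - EL i g := by
  induction i generalizing f g with
  | zero => rfl
  | succ i ih =>
    simp only [EL, avg_sub]
    exact ih _ _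

theorem EL_mul (i : ℕ) (c : ℝ) (f : List (Tr n) → ℝ) :
    EL i (fun l => c * f l) = c * EL i f := by
  induction i generalizing f with
  | zero => rfl
  | succ i ih =>
    simp only [EL, avg_mul]
    exact ih _

theorem EL_sum {ι : Type*} (s : Finset ι) (i : ℕ) (f : ι → List (Tr n) → ℝ) :
    EL i (fun l => ∑ a ∈ s, f a l) = ∑ a ∈ s, EL i (f a) := by
  classical
  induction s using Finset.induction_on with
  | empty =>
    simp only [Finset.sum_empty]
    have := EL_mul (n := n) i 0 fun _ => 0
    simpa using this
  | insert a s ha ih =>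
    simp only [Finset.sum_insert ha]
    rw [EL_add, ih]

theorem EL_nonneg (i : ℕ) {f : List (Tr n) → ℝ} (h : ∀ l, 0 ≤ f l) : 0 ≤ EL i f := by
  have := EL_mono i (f := fun _ => 0) (g := f) h
  have h0 := EL_mul (n := n) i 0 fun _ => 0
  simp only [zero_mul, mul_zero] at h0
  linarith

/-- The tower property. -/
theorem EL_gr (i : ℕ) (f : SimpleGraph (Fin n) → ℝ) : EL i (fun l => f (gr l)) = L^[i] f ⊤ := by
  induction i generalizing f with
  | zero => rfl
  | succ i ih =>
    rw [Function.iterate_succ_apply, ← ih (L f)]
    rfl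

/-- The final expectation is the mean of the final expectation from the graph after `i` steps of
the lazy chain. -/
theorem EL_Ef (hn : 0 < n) (i : ℕ) (f : SimpleGraph (Fin n) → ℝ) :
    EL i (fun l => Ef f (gr l)) = Ef f ⊤ := by
  rw [EL_gr]
  have h : L (Ef f) = Ef f := L_Ef hn f
  rw [Function.iterate_fixed h]

theorem gr_cons_le (t : Tr n) (l : List (Tr n)) : gr (t :: l) ≤ gr l := by
  classical
  rw [gr, lstep]
  split_ifs with h
  · exact SimpleGraph.deleteEdges_le _
  · exact le_rfl

end Vale.Agent.P046
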