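import Mathlib

/-!
# The greedy matching for given labels

`κ` is a finite type of hyperedges, `inc h` is the finite set of vertices of the hyperedge `h`, and
`U h` is its label.  The hyperedges of `S` are examined in the order of their labels and accepted
if they are disjoint from all hyperedges accepted before.
-/

namespace Vale.Agent.P046

open Finset

variable {ι κ : Type*} [DecidableEq ι] [DecidableEq κ]

/-- `M` is the set of accepted hyperedges of `S` for the labels `U`. -/
def Stable (inc : κ → Finset ι) (S : Finset κ) (U : κ → ℝ) (M : Finset κ) : Prop :=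
  ∀ h, h ∈ M ↔ h ∈ S ∧ ∀ h' ∈ M, U h' < U h → Disjoint (inc h) (inc h')

theorem exists_stable (inc : κ → Finset ι) (S : Finset κ) (U : κ → ℝ) :
    ∃ M, Stable inc S U M := by
  classical
  induction S using Finset.induction_on_max_value U with
  | empty => exact ⟨∅, by intro h; simp⟩
  | insert a s has hmax ih =>
    obtain ⟨M, hM⟩ := ih
    have hMs : ∀ h ∈ M, h ∈ s := fun h hh => ((hM h).1 hh).1
    by_cases hd : ∀ h' ∈ M, U h' < U a → Disjoint (inc a) (inc h')
    · refine ⟨insert a M, fun h => ⟨fun hh => ?_, fun hh => ?_⟩⟩
      · rcases mem_insert.1 hh with rfl | hh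
        · refine ⟨mem_insert_self _ _, fun h' hh' hU => ?_⟩
          rcases mem_insert.1 hh' with rfl | hh'
          · exact absurd hU (lt_irrefl _)
          · exact hd h' hh' hU
        · have hhs := hMs h hh
          refine ⟨mem_insert_of_mem hhs, fun h' hh' hU => ?_⟩
          rcases mem_insert.1 hh' with hh' | hh'
          · rw [hh'] at hU
            exact absurd (hmax h hhs) (not_le.2 hU)
          · exact ((hM h).1 hh).2 h' hh' hU
      · obtain ⟨h1, h2⟩ := hh
        rcases mem_insert.1 h1 with rfl | h1
        · exact mem_insert_self _ _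
        · exact mem_insert_of_mem ((hM h).2 ⟨h1, fun h' hh' hU => h2 h' (mem_insert_of_mem hh') hU⟩)
    · refine ⟨M, fun h => ⟨fun hh => ?_, fun hh => ?_⟩⟩
      · exact ⟨mem_insert_of_mem (hMs h hh), ((hM h).1 hh).2⟩
      · obtain ⟨h1, h2⟩ := hh
        rcases mem_insert.1 h1 with rfl | h1
        · exact absurd h2 hd
        · exact (hM h).2 ⟨h1, h2⟩

theorem Stable.unique {inc : κ → Finset ι} {S : Finset κ} {U : κ → ℝ} {M M' : Finset κ}
    (h : Stable inc S U M) (h' : Stable inc S U M') : M = M' := by
  classical
  have key : ∀ (N : ℕ) (a : κ), (S.filter fun b => U b < U a).card ≤ N → (a ∈ M ↔ a ∈ M') := by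
    intro N
    induction N with
    | zero =>
      intro a ha
      have hno : ∀ b ∈ S, ¬ U b < U a := by
        intro b hb hlt
        have : b ∈ S.filter fun b => U b < U a := mem_filter.2 ⟨hb, hlt⟩
        have h0 : (S.filter fun b => U b < U a) = ∅ := by
          rw [← Finset.card_eq_zero]; omega
        rw [h0] at this
        exact absurd this (Finset.notMem_empty _)
      rw [h a, h' a]
      refine and_congr_right fun _ => ⟨fun _ b hb hlt => ?_, fun _ b hb hlt => ?_⟩
      · exact absurd hlt (hno b ((h' b).1 hb).1)
      · exact absurd hlt (hno b ((h b).1 hb).1)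
    | succ N ih =>
      intro a ha
      have hlow : ∀ b ∈ S, U b < U a → (b ∈ M ↔ b ∈ M') := by
        intro b hb hlt
        apply ih
        have hss : (S.filter fun c => U c < U b) ⊂ (S.filter fun c => U c < U a) := by
          rw [Finset.ssubset_iff_of_subset]
          · exact ⟨b, mem_filter.2 ⟨hb, hlt⟩, fun hc => lt_irrefl _ (mem_filter.1 hc).2⟩
          · intro c hc
            rw [mem_filter] at hc ⊢
            exact ⟨hc.1, hc.2.trans hlt⟩
        have := Finset.card_lt_card hss
        omega
      rw [h a, h' a]
      refine and_congr_right fun _ => ⟨fun hh b hb hlt => ?_, fun hh b hb hlt => ?_⟩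
      · exact hh b ((hlow b ((h' b).1 hb).1 hlt).2 hb) hlt
      · exact hh b ((hlow b ((h b).1 hb).1 hlt).1 hb) hlt
  ext a
  exact key _ a le_rfl

/-- The set of accepted hyperedges. -/
noncomputable def greedy (inc : κ → Finset ι) (S : Finset κ) (U : κ → ℝ) : Finset κ :=
  Classical.choose (exists_stable inc S U)

theorem greedy_stable (inc : κ → Finset ι) (S : Finset κ) (U : κ → ℝ) :
    Stable inc S U (greedy inc S U) :=
  Classical.choose_spec (exists_stable inc S U)

theorem greedy_eq_iff (inc : κ → Finset ι) (S : Finset κ) (U : κ → ℝ) (M : Finset κ) :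
    greedy inc S U = M ↔ Stable inc S U M :=
  ⟨fun h => h ▸ greedy_stable inc S U, fun h => (greedy_stable inc S U).unique h⟩

/-- The accepted set only depends on the order of the labels in `S`. -/
theorem greedy_congr (inc : κ → Finset ι) (S : Finset κ) (U U' : κ → ℝ)
    (h : ∀ a ∈ S, ∀ b ∈ S, (U a < U b ↔ U' a < U' b)) : greedy inc S U = greedy inc S U' := by
  rw [greedy_eq_iff]
  intro a
  rw [greedy_stable inc S U' a]
  refine and_congr_right fun ha => forall₂_congr fun b hb => ?_
  rw [h b ((greedy_stable inc S U' b).1 hb).1 a ha]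

/-- If `s` has the smallest label of all hyperedges, then it is accepted, and the rest is the
greedy matching among the hyperedges disjoint from `s`. -/
theorem greedy_of_min (inc : κ → Finset ι) (S : Finset κ)
    (U : κ → ℝ) (s : κ) (hs : s ∈ S) (hmin : ∀ t ∈ S, t ≠ s → U s < U t) :
    greedy inc S U = insert s (greedy inc (S.filter fun t => Disjoint (inc t) (inc s)) U) := by
  rw [greedy_eq_iff]
  set S' := S.filter fun t => Disjoint (inc t) (inc s) with hS'
  have hst := greedy_stable inc S' U
  have hsub : ∀ h ∈ greedy inc S' U, h ∈ S' := fun h hh => ((hst h).1 hh).1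
  intro h
  constructor
  · intro hh
    rcases mem_insert.1 hh with rfl | hh
    · refine ⟨hs, fun h' hh' hU => ?_⟩
      rcases mem_insert.1 hh' with rfl | hh'
      · exact absurd hU (lt_irrefl _)
      · exact ((mem_filter.1 (hsub h' hh')).2).symm
    · have hhS := mem_filter.1 (hsub h hh)
      refine ⟨hhS.1, fun h' hh' hU => ?_⟩
      rcases mem_insert.1 hh' with rfl | hh'
      · exact hhS.2
      · exact ((hst h).1 hh).2 h' hh' hU
  · rintro ⟨hS, hh⟩
    by_cases hhs : h = s
    · exact hhs ▸ mem_insert_self _ _
    · refine mem_insert_of_mem ((hst h).2 ⟨mem_filter.2 ⟨hS, ?_⟩, fun h' hh' hU => ?_⟩)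
      · exact hh s (mem_insert_self _ _) (hmin h hS hhs)
      · exact hh h' (mem_insert_of_mem hh') hU

end Vale.Agent.P046
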