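import Vale.Agent.Lib.P046.HDefs
import Vale.Agent.Lib.P046.Greedy

/-!
# The exploration recursion computes the greedy matching
-/

namespace Vale.Agent.P046.H

open Finset

variable {V : Type*} [Fintype V] [DecidableEq V]

/-- `v` is not matched before time `u` by the greedy matching of the hyperedges avoiding `D`. -/
def Unhit (E : Finset (Finset V)) (l : Finset V → ℝ) (D : Finset V) (v : V) (u : ℝ) : Prop :=
  ∀ T ∈ greedy (fun T : Finset V => T) (E.filter fun T => Disjoint T D) l, v ∈ T → u ≤ l T

omit [Fintype V] in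
theorem surv_mem_iff (E : Finset (Finset V)) (l : Finset V → ℝ) (D T : Finset V) :
    T ∈ greedy (fun T : Finset V => T) (E.filter fun T => Disjoint T D) l ↔
      (T ∈ E ∧ Disjoint T D) ∧
        ∀ T' ∈ greedy (fun T : Finset V => T) (E.filter fun T => Disjoint T D) l,
          l T' < l T → Disjoint T T' := by
  rw [greedy_stable (fun T : Finset V => T) (E.filter fun T => Disjoint T D) l T, mem_filter]

omit [Fintype V] in
theorem surv_restrict (E : Finset (Finset V)) (l : Finset V → ℝ) (D : Finset V) (v : V) (x : ℝ)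
    (hU : Unhit E l D v x) : ∀ (N : ℕ) (T : Finset V), (E.filter fun S => l S < l T).card ≤ N →
      l T < x → (T ∈ greedy (fun T : Finset V => T) (E.filter fun T => Disjoint T D) l ↔
        T ∈ greedy (fun T : Finset V => T) (E.filter fun T => Disjoint T (insert v D)) l) := by
  have hlow : ∀ (N : ℕ) (T : Finset V), (E.filter fun S => l S < l T).card ≤ N → l T < x →
      (∀ T' ∈ E, l T' < l T → (T' ∈ greedy (fun T : Finset V => T)
        (E.filter fun T => Disjoint T D) l ↔
        T' ∈ greedy (fun T : Finset V => T) (E.filter fun T => Disjoint T (insert v D)) l)) →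
      (T ∈ greedy (fun T : Finset V => T) (E.filter fun T => Disjoint T D) l ↔
        T ∈ greedy (fun T : Finset V => T) (E.filter fun T => Disjoint T (insert v D)) l) := by
    intro N T _ hx hlow
    constructor
    · intro hT
      have hvT : v ∉ T := fun h => absurd (hU T hT h) (not_le.2 hx)
      obtain ⟨⟨hTE, hTD⟩, hall⟩ := (surv_mem_iff E l D T).1 hT
      rw [surv_mem_iff]
      refine ⟨⟨hTE, ?_⟩, fun T' hT' hlt => ?_⟩
      · rw [Finset.disjoint_insert_right]
        exact ⟨hvT, hTD⟩
      · have hT'E : T' ∈ E := ((surv_mem_iff E l (insert v D) T').1 hT').1.1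
        exact hall T' ((hlow T' hT'E hlt).2 hT') hlt
    · intro hT
      obtain ⟨⟨hTE, hTD⟩, hall⟩ := (surv_mem_iff E l (insert v D) T).1 hT
      rw [surv_mem_iff]
      rw [Finset.disjoint_insert_right] at hTD
      refine ⟨⟨hTE, hTD.2⟩, fun T' hT' hlt => ?_⟩
      have hT'E : T' ∈ E := ((surv_mem_iff E l D T').1 hT').1.1
      exact hall T' ((hlow T' hT'E hlt).1 hT') hlt
  intro N
  induction N with
  | zero =>
    intro T hT hx
    refine hlow 0 T hT hx fun T' hT' hlt => ?_
    have h0 : T' ∈ E.filter fun S => l S < l T := mem_filter.2 ⟨hT', hlt⟩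
    have h1 := Finset.card_pos.2 ⟨T', h0⟩
    omega
  | succ N ih =>
    intro T hT hx
    refine hlow (N + 1) T hT hx fun T' hT' hlt => ?_
    refine ih T' ?_ (hlt.trans hx)
    have hss : (E.filter fun c => l c < l T') ⊂ (E.filter fun c => l c < l T) := by
      rw [Finset.ssubset_iff_of_subset]
      · exact ⟨T', mem_filter.2 ⟨hT', hlt⟩, fun hc => lt_irrefl _ (mem_filter.1 hc).2⟩
      · intro c hc
        rw [mem_filter] at hc ⊢
        exact ⟨hc.1, hc.2.trans hlt⟩
    have := Finset.card_lt_card hss
    omega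

/-- The recursion for `Unhit`. -/
theorem unhit_iff (E : Finset (Finset V)) (l : Finset V → ℝ) (D : Finset V) (v : V) (u : ℝ)
    (hv : v ∉ D) :
    Unhit E l D v u ↔ ∀ T ∈ inc E D v, l T < u → ¬ ∀ f ∈ T.erase v, Unhit E l (insert v D) f (l T) := by
  have _ := hv
  constructor
  · intro hU T hT hTu hall
    rw [inc, mem_filter] at hT
    obtain ⟨hTE, hvT, hTD⟩ := hT
    have hTM : T ∈ greedy (fun T : Finset V => T) (E.filter fun T => Disjoint T D) l := by
      rw [surv_mem_iff]
      refine ⟨⟨hTE, hTD⟩, fun T' hT' hlt => ?_⟩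
      rw [Finset.disjoint_left]
      intro f hfT hfT'
      have hvT' : v ∉ T' := fun h => absurd (hU T' hT' h) (not_le.2 (hlt.trans hTu))
      have hfv : f ≠ v := fun h => hvT' (h ▸ hfT')
      have h1 := (surv_restrict E l D v u hU _ T' le_rfl (hlt.trans hTu)).1 hT'
      exact absurd (hall f (mem_erase.2 ⟨hfv, hfT⟩) T' h1 hfT') (not_le.2 hlt)
    exact absurd (hU T hTM hvT) (not_le.2 hTu)
  · intro h
    by_contra hU
    unfold Unhit at hU
    push Not at hU
    obtain ⟨T0, hT0, hvT0, hT0u⟩ := hU
    obtain ⟨T, hT, hmin⟩ := Finset.exists_min_image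
      ((greedy (fun T : Finset V => T) (E.filter fun T => Disjoint T D) l).filter fun T => v ∈ T) l
      ⟨T0, mem_filter.2 ⟨hT0, hvT0⟩⟩
    rw [mem_filter] at hT
    obtain ⟨hTM, hvT⟩ := hT
    have hTu : l T < u := (hmin T0 (mem_filter.2 ⟨hT0, hvT0⟩)).trans_lt hT0u
    have hUT : Unhit E l D v (l T) := fun T' hT' hvT' => hmin T' (mem_filter.2 ⟨hT', hvT'⟩)
    obtain ⟨⟨hTE, hTD⟩, hall⟩ := (surv_mem_iff E l D T).1 hTM
    refine h T (by rw [inc, mem_filter]; exact ⟨hTE, hvT, hTD⟩) hTu ?_
    intro f hf T' hT' hfT'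
    by_contra hlt
    rw [not_le] at hlt
    have h1 := (surv_restrict E l D v (l T) hUT _ T' le_rfl hlt).2 hT'
    have h2 := hall T' h1 hlt
    exact (Finset.disjoint_left.1 h2) (mem_erase.1 hf).2 hfT'

open Classical in
theorem a_eq (E : Finset (Finset V)) (l : Finset V → ℝ) (k : ℕ) (D : Finset V) (v : V) (u : ℝ)
    (hv : v ∉ D) (hk : (univ \ D).card < k) :
    a E k D v u l = if Unhit E l D v u then 1 else 0 := by
  induction k generalizing D v u with
  | zero => omega
  | succ k ih =>
    rw [a]
    have hcard : (univ \ insert v D).card < k := by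
      have h1 : (univ \ insert v D) ⊂ (univ \ D) := by
        rw [Finset.ssubset_iff_of_subset]
        · exact ⟨v, by simp [hv], by simp⟩
        · intro c hc
          simp only [mem_sdiff, mem_univ, true_and, mem_insert, not_or] at hc ⊢
          exact hc.2
      have := Finset.card_lt_card h1
      omega
    have hstep : ∀ T ∈ inc E D v,
        (1 - if l T < u then ∏ f ∈ T.erase v, a E k (insert v D) f (l T) l else 0) =
        if (l T < u → ¬ ∀ f ∈ T.erase v, Unhit E l (insert v D) f (l T)) then (1 : ℝ) else 0 := by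
      intro T hT
      rw [inc, mem_filter] at hT
      obtain ⟨hTE, hvT, hTD⟩ := hT
      have hprod : ∏ f ∈ T.erase v, a E k (insert v D) f (l T) l =
          if ∀ f ∈ T.erase v, Unhit E l (insert v D) f (l T) then (1 : ℝ) else 0 := by
        rw [Finset.prod_congr rfl (fun f hf => ih (insert v D) f (l T) (by
          rw [mem_erase] at hf
          rw [mem_insert, not_or]
          exact ⟨hf.1, Finset.disjoint_left.1 hTD hf.2⟩) hcard)]
        rw [Finset.prod_ite_zero]
        simp
      rw [hprod]
      by_cases h1 : l T < u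
      · by_cases h2 : ∀ f ∈ T.erase v, Unhit E l (insert v D) f (l T)
        · rw [if_pos h1, if_pos h2, if_neg (fun h => h h1 h2), sub_self]
        · rw [if_pos h1, if_neg h2, if_pos (fun _ => h2), sub_zero]
      · rw [if_neg h1, if_pos (fun h => absurd h h1), sub_zero]
    rw [Finset.prod_congr rfl hstep, Finset.prod_ite_zero]
    have hiff := unhit_iff E l D v u hv
    by_cases h : Unhit E l D v u
    · rw [if_pos h, if_pos (hiff.1 h)]
      simp
    · rw [if_neg h, if_neg (fun h' => h (hiff.2 h'))]

open Classical in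
theorem surv_eq (E : Finset (Finset V)) (v : V) (l : Finset V → ℝ) :
    surv E v l = if ∀ T ∈ greedy (fun T : Finset V => T) E l, v ∈ T → 1 ≤ l T then 1 else 0 := by
  unfold surv
  rw [a_eq E l _ ∅ v 1 (by simp) (by simp)]
  have h : (E.filter fun T => Disjoint T (∅ : Finset V)) = E := by
    rw [Finset.filter_true_of_mem]
    intro T _
    simp
  have h2 : Unhit E l ∅ v 1 ↔
      ∀ T ∈ greedy (fun T : Finset V => T) E l, v ∈ T → 1 ≤ l T := by
    unfold Unhit
    rw [h]
  by_cases h3 : Unhit E l ∅ v 1
  · rw [if_pos h3, if_pos (h2.1 h3)]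
  · rw [if_neg h3, if_neg (fun h4 => h3 (h2.2 h4))]

end Vale.Agent.P046.H
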