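import Vale.Agent.Lib.P046.Hyp
import Vale.Agent.Lib.P046.Surv
import Vale.Agent.Lib.P046.MinLemma
import Vale.Agent.Lib.P046.Path

/-!
# The law of the final graph through independent labels
-/

namespace Vale.Agent.P046

open Finset MeasureTheory

variable {n : ℕ}

open Classical in
/-- A function that only depends on the order of the labels in `S` is measurable. -/
theorem measurable_of_order {κ : Type*} [Finite κ] (S : Finset κ) (Psi : (κ → ℝ) → ℝ)
    (h : ∀ l l' : κ → ℝ, (∀ T ∈ S, ∀ T' ∈ S, (l T < l T' ↔ l' T < l' T')) → Psi l = Psi l') :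
    Measurable Psi := by
  set pat : (κ → ℝ) → (κ × κ → Bool) := fun l q => decide (l q.1 < l q.2) with hpat
  have hpm : Measurable pat := by
    refine measurable_pi_lambda _ fun q => ?_
    have hs : MeasurableSet {l : κ → ℝ | l q.1 < l q.2} :=
      measurableSet_lt (measurable_pi_apply _) (measurable_pi_apply _)
    refine measurable_to_bool ?_
    convert hs using 1
    ext l
    simp [hpat]
  have hfac : Function.FactorsThrough Psi pat := by
    intro l l' hll
    apply h
    intro T _ T' _
    have := congrFun hll (T, T')
    simpa [hpat] using this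
  have : Psi = (Function.extend pat Psi (fun _ => 0)) ∘ pat := by
    funext l
    rw [Function.comp_apply, hfac.extend_apply]
  rw [this]
  exact (measurable_of_finite _).comp hpm

/-- The edges of `G` that are left by the greedy matching of the triangles. -/
noncomputable def rem (G : SimpleGraph (Fin n)) (l : Finset (Sym2 (Fin n)) → ℝ) :
    Finset (Sym2 (Fin n)) :=
  edges G \ (greedy (fun T : Finset (Sym2 (Fin n)) => T) (hyp G) l).biUnion id

theorem rem_congr (G : SimpleGraph (Fin n)) (l l' : Finset (Sym2 (Fin n)) → ℝ)
    (h : ∀ T ∈ hyp G, ∀ T' ∈ hyp G, (l T < l T' ↔ l' T < l' T')) : rem G l = rem G l' := by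
  unfold rem
  rw [greedy_congr _ _ _ _ h]

/-- The mean of `F` of the set of edges left by the greedy matching. -/
noncomputable def gl (F : Finset (Sym2 (Fin n)) → ℝ) (G : SimpleGraph (Fin n)) : ℝ :=
  ∫ l, F (rem G l) ∂(H.mu (Sym2 (Fin n)))

theorem measurable_F_rem (F : Finset (Sym2 (Fin n)) → ℝ) (G : SimpleGraph (Fin n)) :
    Measurable fun l => F (rem G l) :=
  measurable_of_order (hyp G) _ fun l l' h => by rw [rem_congr G l l' h]

theorem exists_bound (F : Finset (Sym2 (Fin n)) → ℝ) : ∃ C, ∀ s, |F s| ≤ C := by
  refine ⟨∑ s, |F s|, fun s => ?_⟩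
  exact Finset.single_le_sum (f := fun s => |F s|) (fun _ _ => abs_nonneg _) (mem_univ s)

theorem rem_of_min (G : SimpleGraph (Fin n)) (s : Finset (Fin n))
    (hs : s ∈ (by classical exact G.cliqueFinset 3)) (l : Finset (Sym2 (Fin n)) → ℝ)
    (hmin : ∀ T ∈ hyp G, T ≠ edgesOf s → l (edgesOf s) < l T) :
    rem G l = rem (removeTriangle G s) l := by
  classical
  have hs' : s ∈ G.cliqueFinset 3 := by convert hs
  have hS : edgesOf s ∈ hyp G := by
    unfold hyp
    exact Finset.mem_image_of_mem _ (by convert hs')
  unfold rem
  rw [greedy_of_min _ _ _ _ hS hmin, Finset.biUnion_insert, edges_removeTriangle]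
  have h2 : hyp (removeTriangle G s) = (hyp G).filter fun T => Disjoint T (edgesOf s) := by
    convert hyp_removeTriangle G s (by convert hs')
  rw [h2]
  ext e
  simp only [mem_sdiff, mem_union, id]
  tauto

theorem T_gl (F : Finset (Sym2 (Fin n)) → ℝ) : T (gl F) = gl F := by
  classical
  funext G
  by_cases hne : (G.cliqueFinset 3).Nonempty
  · rw [T_of_nonempty _ _ (by convert hne)]
    have hcard : (hyp G).card = (G.cliqueFinset 3).card := by convert card_hyp G
    have hinj : ∀ s ∈ G.cliqueFinset 3, ∀ t ∈ G.cliqueFinset 3,
        edgesOf s = edgesOf t → s = t := by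
      intro s hs t ht h
      exact edgesOf_injOn s t (SimpleGraph.mem_cliqueFinset_iff.1 hs).card_eq
        (SimpleGraph.mem_cliqueFinset_iff.1 ht).card_eq h
    have hmem : ∀ s ∈ G.cliqueFinset 3, edgesOf s ∈ hyp G := by
      intro s hs
      unfold hyp
      exact Finset.mem_image_of_mem _ (by convert hs)
    -- the integrals over the event that `edgesOf s` is the first one
    have key : ∀ s ∈ G.cliqueFinset 3,
        ∫ l, (if ∀ T ∈ hyp G, T ≠ edgesOf s → l (edgesOf s) < l T then F (rem G l) else 0)
          ∂(H.mu (Sym2 (Fin n))) = gl F (removeTriangle G s) / (hyp G).card := by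
      intro s hs
      obtain ⟨C, hC⟩ := exists_bound F
      have h2 : hyp (removeTriangle G s) = (hyp G).filter fun T => Disjoint T (edgesOf s) := by
        convert hyp_removeTriangle G s (by convert hs)
      have hsub : ∀ T ∈ hyp (removeTriangle G s), T ∈ (hyp G).erase (edgesOf s) := by
        intro T hT
        rw [h2, mem_filter] at hT
        refine mem_erase.2 ⟨?_, hT.1⟩
        rintro rfl
        have hc : (edgesOf s).card = 3 :=
          card_edgesOf s (SimpleGraph.mem_cliqueFinset_iff.1 hs).card_eq
        have h0 : edgesOf s = ∅ := by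
          have := hT.2
          rwa [Finset.disjoint_self_iff_empty] at this
        rw [h0] at hc
        simp at hc
      have := H.integral_min (hyp G) (edgesOf s) (hmem s hs)
        (fun l => F (rem (removeTriangle G s) l)) (measurable_F_rem F _) C (fun l => hC _) ?_
      · unfold gl
        rw [← this]
        congr 1
        funext l
        by_cases hl : ∀ T ∈ hyp G, T ≠ edgesOf s → l (edgesOf s) < l T
        · rw [if_pos hl, if_pos (by convert hl), rem_of_min G s (by convert hs) l hl]
        · rw [if_neg hl, if_neg (by convert hl)]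
      · intro l l' hll
        show F _ = F _
        rw [rem_congr _ l l' fun T hT T' hT' => hll T (hsub T hT) T' (hsub T' hT')]
    have hsum : gl F G = ∑ s ∈ G.cliqueFinset 3,
        ∫ l, (if ∀ T ∈ hyp G, T ≠ edgesOf s → l (edgesOf s) < l T then F (rem G l) else 0)
          ∂(H.mu (Sym2 (Fin n))) := by
      obtain ⟨C, hC⟩ := exists_bound F
      rw [← integral_finsetSum]
      · unfold gl
        refine integral_congr_ae ?_
        filter_upwards [H.ae_labels (hyp G)] with l hl
        have hhne : (hyp G).Nonempty := by
          rw [← Finset.card_pos, hcard]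
          exact Finset.card_pos.2 hne
        obtain ⟨S, hS, hSmin⟩ := Finset.exists_min_image (hyp G) l hhne
        have hSimg : S ∈ (G.cliqueFinset 3).image edgesOf := by
          have := hS
          unfold hyp at this
          convert this
        obtain ⟨s, hs, rfl⟩ := Finset.mem_image.1 hSimg
        have hlt : ∀ T ∈ hyp G, T ≠ edgesOf s → l (edgesOf s) < l T := fun T hT hTS =>
          lt_of_le_of_ne (hSmin T hT) (hl.1 _ hS _ hT hTS.symm)
        rw [Finset.sum_eq_single s]
        · rw [if_pos hlt]
        · intro t ht hts
          rw [if_neg]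
          intro hcon
          have hne' : edgesOf s ≠ edgesOf t := fun h => hts (hinj s hs t ht h).symm
          exact lt_irrefl _ ((hcon _ hS hne').trans (hlt _ (hmem t ht) hne'.symm))
        · intro h
          exact absurd hs h
      · intro s hs
        have hms : MeasurableSet {l : Finset (Sym2 (Fin n)) → ℝ |
            ∀ T ∈ hyp G, T ≠ edgesOf s → l (edgesOf s) < l T} := by
          have : {l : Finset (Sym2 (Fin n)) → ℝ |
              ∀ T ∈ hyp G, T ≠ edgesOf s → l (edgesOf s) < l T} =
              ⋂ T ∈ (hyp G).erase (edgesOf s), {l | l (edgesOf s) < l T} := by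
            ext l
            simp only [Set.mem_ofPred_eq, Set.mem_iInter, mem_erase]
            exact ⟨fun h T hT => h T hT.2 hT.1, fun h T hT hTS => h T ⟨hTS, hT⟩⟩
          rw [this]
          exact Finset.measurableSet_biInter _ fun T _ =>
            measurableSet_lt (measurable_pi_apply _) (measurable_pi_apply _)
        refine Integrable.of_bound (C := C)
          (Measurable.ite hms (measurable_F_rem F G) measurable_const).aestronglyMeasurable ?_
        refine Filter.Eventually.of_forall fun l => ?_
        rw [Real.norm_eq_abs]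
        split_ifs
        · exact hC _
        · rw [abs_zero]
          exact (abs_nonneg _).trans (hC ∅)
    rw [hsum, Finset.sum_congr rfl key, ← Finset.sum_div, hcard]
  · exact T_of_empty _ _ (by convert hne)

/-- The law of the edge set of the final graph. -/
theorem Ef_eq_gl (F : Finset (Sym2 (Fin n)) → ℝ) :
    Ef (fun G => F (edges G)) = gl F := by
  classical
  have h1 : Ef (fun G => F (edges G)) = Ef (gl F) := by
    apply Ef_congr
    intro G hG
    have hempty : hyp G = ∅ := by
      unfold hyp
      have : G.cliqueFinset 3 = ∅ := by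
        rw [SimpleGraph.cliqueFinset_eq_empty_iff]
        exact hG
      have h2 := congrArg (Finset.image edgesOf) this
      rw [Finset.image_empty] at h2
      convert h2
    have hg : ∀ l, rem G l = edges G := by
      intro l
      unfold rem
      have : greedy (fun T : Finset (Sym2 (Fin n)) => T) (hyp G) l = ∅ := by
        rw [greedy_eq_iff, hempty]
        intro h
        simp
      rw [this]
      simp
    unfold gl
    simp only [hg]
    simp
  rw [h1]
  have h2 : T (gl F) = gl F := T_gl F
  unfold Ef
  funext G
  rw [Function.iterate_fixed h2]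

/-- The law of the number of edges of the final graph. -/
theorem Ef_card (phi : ℝ → ℝ) (G : SimpleGraph (Fin n)) :
    Ef (fun G' => phi (Nat.card G'.edgeSet)) G =
      ∫ l, phi (∑ e ∈ edges G, H.surv (hyp G) e l) ∂(H.mu (Sym2 (Fin n))) := by
  classical
  have h1 : (fun G' : SimpleGraph (Fin n) => phi (Nat.card G'.edgeSet)) =
      fun G' => (fun s : Finset (Sym2 (Fin n)) => phi s.card) (edges G') := by
    funext G'
    simp only [card_edges]
  rw [h1, Ef_eq_gl (fun s : Finset (Sym2 (Fin n)) => phi s.card)]
  unfold gl
  refine integral_congr_ae ?_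
  filter_upwards [H.ae_labels (hyp G)] with l hl
  have h2 : ∀ e ∈ edges G, H.surv (hyp G) e l = if e ∈ rem G l then 1 else 0 := by
    intro e he
    rw [H.surv_eq]
    congr 1
    apply propext
    unfold rem
    rw [mem_sdiff, mem_biUnion]
    constructor
    · intro h
      refine ⟨he, ?_⟩
      rintro ⟨T, hT, heT⟩
      have hT' : T ∈ hyp G := ((greedy_stable _ _ _ T).1 hT).1
      exact absurd (h T hT heT) (not_le.2 (hl.2 T hT'))
    · rintro ⟨_, h⟩ T hT heT
      exact absurd ⟨T, hT, heT⟩ h
  rw [Finset.sum_congr rfl h2]
  have h3 : (edges G).filter (fun e => e ∈ rem G l) = rem G l := by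
    ext e
    simp only [mem_filter, and_iff_right_iff_imp]
    intro he
    unfold rem at he
    exact (mem_sdiff.1 he).1
  rw [← Finset.sum_filter, h3]
  simp

end Vale.Agent.P046
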