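import Vale.Agent.Lib.P046.DenseCount
import Vale.Agent.Lib.P046.Law

/-!
# Assembly of the final expectation
-/

namespace Vale.Agent.P046

open Finset MeasureTheory Filter Topology

variable {n : ℕ}

open Classical in
theorem assemble (hn : 0 < n) (J m : ℕ) (P : List (Tr n) → Prop)
    (φ : SimpleGraph (Fin n) → ℝ) (ε1 B2 B3 p1 p2 thr : ℝ) (hthr : 0 < thr) (hB2 : 0 ≤ B2)
    (hB3 : 0 ≤ B3) (hε1 : 0 ≤ ε1)
    (hbad : EL J (fun l => if P l ∧ HistOK P l then (0 : ℝ) else 1) ≤ p1)
    (hcase1 : ∀ l : List (Tr n), l.length = J → P l →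
      (((edges (gr l)).filter (Dense (gr l) m)).card : ℝ) ≤ thr → Ef φ (gr l) ≤ ε1)
    (hcase2 : ∀ l : List (Tr n), l.length = J → P l → Ef φ (gr l) ≤ B2)
    (hcase3 : ∀ l : List (Tr n), l.length = J → Ef φ (gr l) ≤ B3)
    (hdense : EL J (fun l => if HistOK P l then
      (((edges (gr l)).filter (Dense (gr l) m)).card : ℝ) else 0) ≤ thr * p2) :
    Ef φ ⊤ ≤ ε1 + B2 * p2 + B3 * p1 := by
  rw [← EL_Ef hn J φ]
  have h1 : EL J (fun l => Ef φ (gr l)) ≤ EL J (fun l => ε1 + ((B2 / thr) * (if HistOK P l then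
      (((edges (gr l)).filter (Dense (gr l) m)).card : ℝ) else 0) +
        B3 * (if P l ∧ HistOK P l then (0 : ℝ) else 1))) := by
    apply EL_mono_len
    intro l hl
    by_cases h : P l ∧ HistOK P l
    · rw [if_pos h.2, if_pos h, mul_zero, add_zero]
      by_cases hd : (((edges (gr l)).filter (Dense (gr l) m)).card : ℝ) ≤ thr
      · have := hcase1 l hl h.1 hd
        have h2 : 0 ≤ B2 / thr * (((edges (gr l)).filter (Dense (gr l) m)).card : ℝ) := by
          positivity
        linarith
      · have := hcase2 l hl h.1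
        have h2 : B2 ≤ B2 / thr * (((edges (gr l)).filter (Dense (gr l) m)).card : ℝ) := by
          rw [div_mul_eq_mul_div, le_div_iff₀ hthr]
          exact mul_le_mul_of_nonneg_left (not_le.1 hd).le hB2
        linarith
    · rw [if_neg h, mul_one]
      have := hcase3 l hl
      have h2 : 0 ≤ B2 / thr * (if HistOK P l then
          (((edges (gr l)).filter (Dense (gr l) m)).card : ℝ) else 0) := by
        split_ifs <;> positivity
      linarith
  refine h1.trans ?_
  rw [EL_add, EL_add, EL_mul, EL_mul, EL_const hn]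
  have h3 : B2 / thr * EL J (fun l => if HistOK P l then
      (((edges (gr l)).filter (Dense (gr l) m)).card : ℝ) else 0) ≤ B2 / thr * (thr * p2) := by
    gcongr
  have h4 : B2 / thr * (thr * p2) = B2 * p2 := by field_simp
  have h5 : B3 * EL J (fun l => if P l ∧ HistOK P l then (0 : ℝ) else 1) ≤ B3 * p1 := by gcongr
  linarith

/-- The normalisation. -/
noncomputable def NN (n : ℕ) : ℝ := (n : ℝ) ^ (3 / 2 : ℝ) / (2 * √2)

/-- The normalised error of the number of edges. -/
noncomputable def er (G : SimpleGraph (Fin n)) : ℝ := |(Nat.card G.edgeSet : ℝ) / NN n - 1|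

theorem NN_pos (hn : 0 < n) : 0 < NN n := by
  unfold NN
  have : (0 : ℝ) < n := by exact_mod_cast hn
  positivity

theorem Ef_le_of_le (f : SimpleGraph (Fin n) → ℝ) (G : SimpleGraph (Fin n)) (c : ℝ)
    (h : ∀ G' ≤ G, f G' ≤ c) : Ef f G ≤ c := by
  classical
  have h1 : Ef f G = Ef (fun G' => if G' ≤ G then f G' else c) G :=
    T_iter_congr_le _ _ _ _ fun G' hG' => by rw [if_pos hG']
  have hc : ∀ k : ℕ, T^[k] (fun _ : SimpleGraph (Fin n) => c) G = c := by
    intro k
    have hT : T (fun _ : SimpleGraph (Fin n) => c) = fun _ => c := by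
      funext G'
      unfold T
      split_ifs with hne
      · rw [Finset.sum_const, nsmul_eq_mul]
        have : ((G'.cliqueFinset 3).card : ℝ) ≠ 0 := by
          exact_mod_cast (Finset.card_pos.2 hne).ne'
        field_simp
      · rfl
    rw [Function.iterate_fixed hT]
  rw [h1]
  refine (Ef_mono _ (fun _ => c) (fun G' => ?_) G).trans (hc _).le
  split_ifs with h2
  · exact h G' h2
  · exact le_rfl

/-- The trivial bound of the error. -/
theorem Ef_er_le (hn : 0 < n) (G : SimpleGraph (Fin n)) :
    Ef er G ≤ (edges G).card / NN n + 1 := by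
  apply Ef_le_of_le
  intro G' hG'
  unfold er
  have h1 : (0 : ℝ) ≤ (Nat.card G'.edgeSet : ℝ) / NN n := by
    have := NN_pos hn
    positivity
  have h2 : (Nat.card G'.edgeSet : ℝ) / NN n ≤ (edges G).card / NN n := by
    have h3 : (Nat.card G'.edgeSet : ℝ) ≤ (edges G).card := by
      rw [← card_edges]
      have : edges G' ⊆ edges G := by
        intro e he
        rw [mem_edges] at he ⊢
        exact SimpleGraph.edgeSet_mono hG' he
      exact_mod_cast Finset.card_le_card this
    have := NN_pos hn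
    gcongr
  rw [abs_le]
  constructor <;> linarith

/-- The error through the labels. -/
theorem Ef_er_eq (G : SimpleGraph (Fin n)) :
    Ef er G = ∫ l, |(∑ e ∈ edges G, H.surv (hyp G) e l) / NN n - 1|
      ∂(H.mu (Sym2 (Fin n))) :=
  Ef_card (fun x => |x / NN n - 1|) G

end Vale.Agent.P046
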