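import Vale.Agent.Lib.P046.Assemble

/-!
# The final error from a regular graph
-/

namespace Vale.Agent.P046

open Finset MeasureTheory Filter Topology

variable {n : ℕ}

theorem a_measurable {V : Type*} [Fintype V] [DecidableEq V] (E : Finset (Finset V)) (k : ℕ) :
    ∀ (D : Finset V) (v : V),
      Measurable fun p : ℝ × (Finset V → ℝ) => H.a E k D v p.1 p.2 := by
  induction k with
  | zero =>
    intro D v
    simp only [H.a]
    exact measurable_const
  | succ k ih =>
    intro D v
    simp only [H.a]
    refine Finset.measurable_prod _ fun T _ => ?_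
    refine measurable_const.sub (Measurable.ite ?_ ?_ measurable_const)
    · exact measurableSet_lt ((measurable_pi_apply T).comp measurable_snd) measurable_fst
    · refine Finset.measurable_prod _ fun f _ => ?_
      have h1 : Measurable fun p : ℝ × (Finset V → ℝ) => ((p.2 T, p.2) : ℝ × (Finset V → ℝ)) :=
        ((measurable_pi_apply T).comp measurable_snd).prodMk measurable_snd
      exact (ih (insert v D) f).comp h1

theorem surv_measurable {V : Type*} [Fintype V] [DecidableEq V] (E : Finset (Finset V)) (v : V) :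
    Measurable (H.surv E v) := by
  have h1 : Measurable fun l : Finset V → ℝ => (((1 : ℝ), l) : ℝ × (Finset V → ℝ)) :=
    measurable_const.prodMk measurable_id
  exact (a_measurable E (Fintype.card V + 1) ∅ v).comp h1

theorem surv_mem {V : Type*} [Fintype V] [DecidableEq V] (E : Finset (Finset V)) (v : V)
    (l : Finset V → ℝ) : 0 ≤ H.surv E v l ∧ H.surv E v l ≤ 1 := by
  classical
  rw [H.surv_eq]
  split_ifs <;> norm_num

theorem case_one (hn : 0 < n) (G : SimpleGraph (Fin n)) (y η δ : ℝ) (hy : 0 < y) (hη : 0 < η)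
    (hδ : δ ≤ 1) (he : 0 < (edges G).card)
    (hS2 : ∫ l, ((∑ e ∈ edges G, H.surv (hyp G) e l) / ((edges G).card / √(2 * y)) - 1) ^ 2
      ∂(H.mu (Sym2 (Fin n))) ≤ η ^ 2)
    (hcard : |((edges G).card : ℝ) / √(2 * y) / NN n - 1| ≤ δ) :
    Ef er G ≤ 2 * η + δ := by
  rw [Ef_er_eq]
  set A : ℝ := (edges G).card / √(2 * y) with hA
  set Z : (Finset (Sym2 (Fin n)) → ℝ) → ℝ := fun l => ∑ e ∈ edges G, H.surv (hyp G) e l with hZ
  have hN := NN_pos hn
  have he' : (0 : ℝ) < (edges G).card := by exact_mod_cast he
  have hA0 : 0 < A := by positivity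
  have hZm : Measurable Z := Finset.measurable_sum _ fun e _ => surv_measurable _ _
  have hZb : ∀ l, 0 ≤ Z l ∧ Z l ≤ (edges G).card := by
    intro l
    refine ⟨Finset.sum_nonneg fun e _ => (surv_mem _ _ _).1, ?_⟩
    refine (Finset.sum_le_sum fun e _ => (surv_mem (hyp G) e l).2).trans ?_
    simp
  have hρ : A / NN n ≤ 2 := by
    have := abs_le.1 hcard
    linarith [this.2]
  have hρ0 : 0 ≤ A / NN n := by positivity
  have hpt : ∀ l, |Z l / NN n - 1| ≤ (η + δ) + (Z l / A - 1) ^ 2 / η := by
    intro l
    have h1 : Z l / NN n - 1 = (Z l / A - 1) * (A / NN n) + (A / NN n - 1) := by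
      field_simp
      ring
    rw [h1]
    refine (abs_add_le _ _).trans ?_
    rw [abs_mul, abs_of_nonneg hρ0]
    have h2 : |Z l / A - 1| * (A / NN n) ≤ |Z l / A - 1| * 2 := by gcongr
    have h3 : |Z l / A - 1| * 2 ≤ η + (Z l / A - 1) ^ 2 / η := by
      rw [← sq_abs (Z l / A - 1)]
      have h4 : 0 ≤ (|Z l / A - 1| - η) ^ 2 / η := by positivity
      have h5 : (|Z l / A - 1| - η) ^ 2 / η = |Z l / A - 1| ^ 2 / η - 2 * |Z l / A - 1| + η := by
        field_simp
        ring
      linarith
    linarith
  have hint : Integrable (fun l => (Z l / A - 1) ^ 2) (H.mu (Sym2 (Fin n))) := by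
    refine Integrable.of_bound (C := ((edges G).card / A + 1) ^ 2)
      (((hZm.div_const A).sub_const 1).pow_const 2).aestronglyMeasurable
      (Eventually.of_forall fun l => ?_)
    rw [Real.norm_eq_abs, abs_of_nonneg (sq_nonneg _), sq_le_sq]
    have h1 : Z l / A ≤ (edges G).card / A := by
      gcongr
      exact (hZb l).2
    have h2 : 0 ≤ Z l / A := div_nonneg (hZb l).1 hA0.le
    have h3 : 0 ≤ (edges G).card / A := by positivity
    rw [abs_of_nonneg (a := (edges G).card / A + 1) (by linarith), abs_le]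
    constructor <;> linarith
  have h6 : ∫ l, |Z l / NN n - 1| ∂(H.mu (Sym2 (Fin n))) ≤
      ∫ l, ((η + δ) + (Z l / A - 1) ^ 2 / η) ∂(H.mu (Sym2 (Fin n))) := by
    apply integral_mono_of_nonneg
    · exact Eventually.of_forall fun l => abs_nonneg _
    · exact (integrable_const _).add (hint.div_const η)
    · exact Eventually.of_forall hpt
  refine h6.trans ?_
  rw [integral_add (integrable_const _) (hint.div_const η), integral_div, integral_const]
  simp only [probReal_univ, smul_eq_mul, one_mul]
  have h7 : (∫ l, (Z l / A - 1) ^ 2 ∂(H.mu (Sym2 (Fin n)))) / η ≤ η ^ 2 / η := by gcongr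
  have h8 : η ^ 2 / η = η := by field_simp
  linarith

end Vale.Agent.P046
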