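import Vale.Agent.Lib.P046.Defs

/-!
# Expectations for the random triangle removal process
-/

namespace Vale.Agent.P046

open Finset

section Ex

variable {α β : Type*} [Fintype α] [Fintype β]

/-- Expectation of a real function under a probability mass function on a finite type. -/
noncomputable def ex (μ : PMF α) (f : α → ℝ) : ℝ := ∑ a, (μ a).toReal * f a

theorem ex_pure (a : α) (f : α → ℝ) : ex (PMF.pure a) f = f a := by
  classical
  unfold ex
  rw [Finset.sum_eq_single a]
  · simp [PMF.pure_apply]
  · intro b _ hb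
    simp [PMF.pure_apply, hb]
  · simp

theorem ex_bind (μ : PMF α) (ν : α → PMF β) (f : β → ℝ) :
    ex (μ.bind ν) f = ex μ fun a => ex (ν a) f := by
  unfold ex
  have h : ∀ b, ((μ.bind ν) b).toReal = ∑ a, (μ a).toReal * (ν a b).toReal := by
    intro b
    rw [PMF.bind_apply, tsum_fintype, ENNReal.toReal_sum]
    · simp [ENNReal.toReal_mul]
    · intro a _
      exact ENNReal.mul_ne_top (PMF.apply_ne_top _ _) (PMF.apply_ne_top _ _)
  simp only [h, Finset.sum_mul, Finset.mul_sum]
  rw [Finset.sum_comm]
  refine Finset.sum_congr rfl fun a _ => Finset.sum_congr rfl fun b _ => ?_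
  ring

theorem ex_map (μ : PMF α) (g : α → β) (f : β → ℝ) : ex (μ.map g) f = ex μ fun a => f (g a) := by
  rw [← PMF.bind_pure_comp, ex_bind]
  simp only [Function.comp_apply, ex_pure]

theorem ex_uniform (s : Finset α) (hs : s.Nonempty) (f : α → ℝ) :
    ex (PMF.uniformOfFinset s hs) f = (∑ a ∈ s, f a) / s.card := by
  classical
  unfold ex
  simp only [PMF.uniformOfFinset_apply]
  rw [← Finset.sum_subset (Finset.subset_univ s)]
  · rw [Finset.sum_div]
    refine Finset.sum_congr rfl fun a ha => ?_
    rw [if_pos ha]
    simp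
    ring
  · intro a _ ha
    rw [if_neg ha]
    simp

theorem ex_mono (μ : PMF α) (f g : α → ℝ) (h : ∀ a, f a ≤ g a) : ex μ f ≤ ex μ g :=
  Finset.sum_le_sum fun a _ => mul_le_mul_of_nonneg_left (h a) ENNReal.toReal_nonneg

theorem ex_add (μ : PMF α) (f g : α → ℝ) : ex μ (fun a => f a + g a) = ex μ f + ex μ g := by
  unfold ex
  rw [← Finset.sum_add_distrib]
  exact Finset.sum_congr rfl fun a _ => by ring

theorem ex_mul (μ : PMF α) (c : ℝ) (f : α → ℝ) : ex μ (fun a => c * f a) = c * ex μ f := by
  unfold ex
  rw [Finset.mul_sum]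
  exact Finset.sum_congr rfl fun a _ => by ring

theorem ex_const (μ : PMF α) (c : ℝ) : ex μ (fun _ => c) = c := by
  have h : ∑ a, μ a = 1 := by
    have := μ.tsum_coe
    rwa [tsum_fintype] at this
  unfold ex
  rw [← Finset.sum_mul, ← ENNReal.toReal_sum (fun a _ => PMF.apply_ne_top _ _), h]
  simp

open Classical in
/-- The probability of a set is the expectation of its indicator. -/
theorem toOuterMeasure_toReal (μ : PMF α) (S : Set α) :
    (μ.toOuterMeasure S).toReal = ex μ fun a => if a ∈ S then 1 else 0 := by
  rw [PMF.toOuterMeasure_apply_fintype, ENNReal.toReal_sum]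
  · unfold ex
    refine Finset.sum_congr rfl fun a _ => ?_
    by_cases h : a ∈ S <;> simp [h]
  · intro a _
    by_cases h : a ∈ S
    · simp [h, PMF.apply_ne_top]
    · simp [h]

end Ex

variable {n : ℕ}

open Classical in
/-- The expectation operator of one step. -/
noncomputable def T (f : SimpleGraph (Fin n) → ℝ) (G : SimpleGraph (Fin n)) : ℝ :=
  if (G.cliqueFinset 3).Nonempty then
    (∑ s ∈ G.cliqueFinset 3, f (removeTriangle G s)) / (G.cliqueFinset 3).card
  else f G

open Classical in
theorem ex_step (G : SimpleGraph (Fin n)) (f : SimpleGraph (Fin n) → ℝ) :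
    ex (step G) f = T f G := by
  unfold step T
  split_ifs with h
  · rw [ex_map, ex_uniform]
  · rw [ex_pure]

open Classical in
theorem ex_processFrom (G : SimpleGraph (Fin n)) (k : ℕ) (f : SimpleGraph (Fin n) → ℝ) :
    ex (processFrom G k) f = T^[k] f G := by
  induction k generalizing f with
  | zero => simp [processFrom, ex_pure]
  | succ k ih =>
    rw [processFrom, ex_bind]
    simp only [ex_step]
    rw [ih, Function.iterate_succ_apply]

/-- The expectation of `f` at the final graph of the process started from `G`. -/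
noncomputable def Ef (f : SimpleGraph (Fin n) → ℝ) (G : SimpleGraph (Fin n)) : ℝ :=
  T^[n.choose 2] f G

open Classical in
theorem ex_finalGraph (n : ℕ) (f : SimpleGraph (Fin n) → ℝ) :
    ex (finalGraph n) f = Ef f ⊤ := ex_processFrom _ _ _

end Vale.Agent.P046
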