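import Vale.Agent.Lib.P046.HDefs

/-!
# P046, part S2 (last phase): definitions, second part

Abstract finite hypergraph: vertex type V, finset Vs of vertices, finset E of hyperedges (all of
card 3).  For the triangle process V = Sym2 (Fin n), Vs = edges of the graph, E = triangles.
-/

namespace Vale.Agent.P046.H

open Finset MeasureTheory

noncomputable section

variable {V : Type} [Fintype V] [DecidableEq V]

/-- hyperedges at the vertex v -/
abbrev star (E : Finset (Finset V)) (v : V) : Finset (Finset V) := E.filter fun T => v ∈ T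

/-- the recursion operator for survival functions on pairs (vertex, hyperedge to the parent) -/
def R (E : Finset (Finset V)) (X : V → Finset V → ℝ → ℝ) (v : V) (P : Finset V) (u : ℝ) : ℝ :=
  ∏ T ∈ (star E v).erase P, (1 - ∫ s in (0 : ℝ)..u, ∏ f ∈ T.erase v, X f T s)

/-- iteration of the recursion operator -/
def It (E : Finset (Finset V)) (X0 : V → Finset V → ℝ → ℝ) : ℕ → V → Finset V → ℝ → ℝ
  | 0 => X0
  | k + 1 => R E (It E X0 k)

/-- iterates with start 1 -/
def Xit (E : Finset (Finset V)) : ℕ → V → Finset V → ℝ → ℝ := It E (fun _ _ _ => 1)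

/-- regular hypergraph: degrees and neighbour averages of degrees are controlled -/
structure HReg (Vs : Finset V) (E : Finset (Finset V)) (y L : ℝ) : Prop where
  sub : ∀ T ∈ E, T ⊆ Vs
  card3 : ∀ T ∈ E, T.card = 3
  p1 : ∀ v ∈ Vs, |(deg E v : ℝ) - y| ≤ L * Real.sqrt y
  p2 : ∀ v ∈ Vs, |∑ T ∈ star E v, ∑ f ∈ T.erase v, ((deg E f : ℝ) - y)| ≤ L * y

/-- the parameters of S2: ell = 2 log (1+2y), y2 = degree at which the local phase starts, b = the
corresponding time -/
structure Par (y L y2 b ell : ℝ) : Prop where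
  hL : 1 ≤ L
  hell : ell = 2 * Real.log (1 + 2 * y)
  hell1 : 1 ≤ ell
  hy2 : 10 ^ 8 * L ^ 8 * ell ^ 8 ≤ y2
  hy : y2 ^ 100 ≤ y
  hb : b = (y / y2 - 1) / (2 * y)

/-- exact solution of the recursion on [0,1/2] (Bethe solution) -/
structure Bethe (E : Finset (Finset V)) (X : V → Finset V → ℝ → ℝ) : Prop where
  cont : ∀ v P, Continuous (X v P)
  mem : ∀ v P u, u ∈ Set.Icc (0 : ℝ) (1 / 2) → X v P u ∈ Set.Icc (0 : ℝ) 1
  eq : ∀ v P u, u ∈ Set.Icc (0 : ℝ) (1 / 2) → X v P u = R E X v P u

/-! ### quantities of the ODE -/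

variable (E : Finset (Finset V)) (y : ℝ) (X : V → Finset V → ℝ → ℝ)

/-- probability that T has been born before u while the other two vertices were alive -/
def II (v : V) (T : Finset V) (u : ℝ) : ℝ := ∫ s in (0 : ℝ)..u, ∏ f ∈ T.erase v, X f T s

/-- symmetric weight of a hyperedge -/
def rho (T : Finset V) (u : ℝ) : ℝ := ∏ f ∈ T, (1 - II X f T u)⁻¹

/-- mean degree at time u -/
def lam (u : ℝ) : ℝ := y / (1 + 2 * y * u)

/-- mean field survival function -/
def xb (u : ℝ) : ℝ := 1 / Real.sqrt (1 + 2 * y * u)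

/-- normalised weight of T at v -/
def cc (v : V) (T : Finset V) (u : ℝ) : ℝ := (∏ f ∈ T.erase v, X f ∅ u) * rho X T u / lam y u

/-- relative deviation of the degree -/
def al (v : V) (u : ℝ) : ℝ := (∑ T ∈ star E v, cc y X v T u) - 1

/-- logarithmic derivative of rho divided by lam -/
def rr (T : Finset V) (u : ℝ) : ℝ := (∑ i ∈ T, rho X T u * ∏ f ∈ T.erase i, X f ∅ u) / lam y u

def hh (v : V) (u : ℝ) : ℝ := ∑ T ∈ star E v, cc y X v T u * rr y X T u

/-- neighbour average of al -/
def gg (v : V) (u : ℝ) : ℝ := ∑ T ∈ star E v, cc y X v T u * ∑ f ∈ T.erase v, al E y X f u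

/-- survival function divided by its mean field value -/
def XX (v : V) (u : ℝ) : ℝ := X v ∅ u / xb y u

/-- weighted L2 norm of al -/
def A2 (Vs : Finset V) (u : ℝ) : ℝ := ∑ v ∈ Vs, XX y X v u * al E y X v u ^ 2

/-- the energy -/
def En (Vs : Finset V) (u : ℝ) : ℝ := lam y u * ∑ v ∈ Vs, XX y X v u * gg E y X v u ^ 2

/-- pointwise bound of al -/
def ab (L : ℝ) (u : ℝ) : ℝ := 2 * L / Real.sqrt y + 80 * L ^ 2 / lam y u

/-- homogeneous iterates on [b,1] -/
def wh (b : ℝ) : ℕ → ℝ → ℝ
  | 0, _ => xb y b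
  | k + 1, u => xb y b * Real.exp (-(y * ∫ s in b..u, wh b k s ^ 2))

/-- iterates restarted at time b with frozen values -/
def Wt (b : ℝ) (J : ℕ) : ℕ → V → Finset V → ℝ → ℝ :=
  It E (fun v P u => Xit E (2 * J) v P (min u b))

/-- linear recursion bounding the differences -/
def Dk (K : ℝ) (err : V → ℝ) : ℕ → V → Finset V → ℝ
  | 0, v, _ => err v
  | k + 1, v, P => err v + K * ∑ T ∈ (star E v).erase P, ∑ f ∈ T.erase v, Dk K err k f T

end

end Vale.Agent.P046.H
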