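import Vale.Agent.Lib.P046.HDefs2

/-!
# P046, part S2, module H03: continuity and monotonicity of the recursion operator
-/

namespace Vale.Agent.P046.H

open Finset MeasureTheory

noncomputable section

variable {V : Type} [Fintype V] [DecidableEq V]

private theorem hiter_prod_cont (X : V → Finset V → ℝ → ℝ) (hX : ∀ v P, Continuous (X v P))
    (v : V) (T : Finset V) : Continuous fun s => ∏ f ∈ T.erase v, X f T s :=
  continuous_finsetProd _ fun f _ => hX f T

private theorem hiter_int_cont (X : V → Finset V → ℝ → ℝ) (hX : ∀ v P, Continuous (X v P))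
    (v : V) (T : Finset V) : Continuous fun u => ∫ s in (0 : ℝ)..u, ∏ f ∈ T.erase v, X f T s :=
  intervalIntegral.continuous_primitive
    (fun a b => (hiter_prod_cont X hX v T).intervalIntegrable a b) 0

theorem R_cont (E : Finset (Finset V)) (X : V → Finset V → ℝ → ℝ) (hX : ∀ v P, Continuous (X v P))
    (v : V) (P : Finset V) : Continuous (R E X v P) := by
  unfold R
  exact continuous_finsetProd _ fun T _ => continuous_const.sub (hiter_int_cont X hX v T)

private theorem hiter_prod_mem (X : V → Finset V → ℝ → ℝ) {c : ℝ}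
    (h01 : ∀ v P u, u ∈ Set.Icc 0 c → X v P u ∈ Set.Icc (0 : ℝ) 1) (v : V) (T : Finset V) {s : ℝ}
    (hs : s ∈ Set.Icc 0 c) : ∏ f ∈ T.erase v, X f T s ∈ Set.Icc (0 : ℝ) 1 :=
  ⟨Finset.prod_nonneg fun f _ => (h01 f T s hs).1,
    Finset.prod_le_one (fun f _ => (h01 f T s hs).1) fun f _ => (h01 f T s hs).2⟩

private theorem hiter_int_mem (X : V → Finset V → ℝ → ℝ) (hX : ∀ v P, Continuous (X v P))
    {c : ℝ} (hc : c ≤ 1) (h01 : ∀ v P u, u ∈ Set.Icc 0 c → X v P u ∈ Set.Icc (0 : ℝ) 1)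
    (v : V) (T : Finset V) {u : ℝ} (hu : u ∈ Set.Icc 0 c) :
    (∫ s in (0 : ℝ)..u, ∏ f ∈ T.erase v, X f T s) ∈ Set.Icc (0 : ℝ) 1 := by
  have hmem : ∀ s ∈ Set.Icc 0 u, s ∈ Set.Icc 0 c := fun s hs => ⟨hs.1, hs.2.trans hu.2⟩
  constructor
  · exact intervalIntegral.integral_nonneg hu.1 fun s hs => (hiter_prod_mem X h01 v T (hmem s hs)).1
  · have h1 : (∫ s in (0 : ℝ)..u, ∏ f ∈ T.erase v, X f T s) ≤ ∫ _ in (0 : ℝ)..u, (1 : ℝ) := by
      apply intervalIntegral.integral_mono_on hu.1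
      · exact (hiter_prod_cont X hX v T).intervalIntegrable _ _
      · exact continuous_const.intervalIntegrable _ _
      · exact fun s hs => (hiter_prod_mem X h01 v T (hmem s hs)).2
    refine h1.trans ?_
    rw [intervalIntegral.integral_const, smul_eq_mul, mul_one, sub_zero]
    exact hu.2.trans hc

private theorem hiter_int_mono_time (X : V → Finset V → ℝ → ℝ) (hX : ∀ v P, Continuous (X v P))
    {c : ℝ} (h01 : ∀ v P u, u ∈ Set.Icc 0 c → X v P u ∈ Set.Icc (0 : ℝ) 1)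
    (v : V) (T : Finset V) {u u' : ℝ} (h0 : 0 ≤ u) (huu : u ≤ u') (hc' : u' ≤ c) :
    (∫ s in (0 : ℝ)..u, ∏ f ∈ T.erase v, X f T s) ≤
      ∫ s in (0 : ℝ)..u', ∏ f ∈ T.erase v, X f T s := by
  have hcont := hiter_prod_cont X hX v T
  have h1 := intervalIntegral.integral_add_adjacent_intervals
    (hcont.intervalIntegrable (μ := volume) 0 u) (hcont.intervalIntegrable (μ := volume) u u')
  have h2 : 0 ≤ ∫ s in u..u', ∏ f ∈ T.erase v, X f T s :=
    intervalIntegral.integral_nonneg huu fun s hs =>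
      (hiter_prod_mem X h01 v T ⟨h0.trans hs.1, hs.2.trans hc'⟩).1
  linarith

theorem R_mem (E : Finset (Finset V)) (X : V → Finset V → ℝ → ℝ) (hX : ∀ v P, Continuous (X v P))
    (c : ℝ) (hc : c ≤ 1) (h01 : ∀ v P u, u ∈ Set.Icc 0 c → X v P u ∈ Set.Icc (0 : ℝ) 1) :
    ∀ v P u, u ∈ Set.Icc 0 c → R E X v P u ∈ Set.Icc (0 : ℝ) 1 := by
  intro v P u hu
  have h1 : ∀ T, (1 - ∫ s in (0 : ℝ)..u, ∏ f ∈ T.erase v, X f T s) ∈ Set.Icc (0 : ℝ) 1 := by
    intro T
    have h2 := hiter_int_mem X hX hc h01 v T hu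
    exact ⟨by linarith [h2.2], by linarith [h2.1]⟩
  unfold R
  exact ⟨Finset.prod_nonneg fun T _ => (h1 T).1,
    Finset.prod_le_one (fun T _ => (h1 T).1) fun T _ => (h1 T).2⟩

theorem R_anti_time (E : Finset (Finset V)) (X : V → Finset V → ℝ → ℝ)
    (hX : ∀ v P, Continuous (X v P)) (c : ℝ) (hc : c ≤ 1)
    (h01 : ∀ v P u, u ∈ Set.Icc 0 c → X v P u ∈ Set.Icc (0 : ℝ) 1) :
    ∀ v P u u', 0 ≤ u → u ≤ u' → u' ≤ c → R E X v P u' ≤ R E X v P u := by
  intro v P u u' h0 huu hc'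
  unfold R
  apply Finset.prod_le_prod
  · intro T _
    have h2 := hiter_int_mem X hX hc h01 v T (u := u') ⟨h0.trans huu, hc'⟩
    linarith [h2.2]
  · intro T _
    have h2 := hiter_int_mono_time X hX h01 v T h0 huu hc'
    linarith

theorem R_anti (E : Finset (Finset V)) (X X' : V → Finset V → ℝ → ℝ)
    (hX : ∀ v P, Continuous (X v P)) (hX' : ∀ v P, Continuous (X' v P)) (c : ℝ) (hc : c ≤ 1)
    (h01 : ∀ v P u, u ∈ Set.Icc 0 c → X v P u ∈ Set.Icc (0 : ℝ) 1)
    (h01' : ∀ v P u, u ∈ Set.Icc 0 c → X' v P u ∈ Set.Icc (0 : ℝ) 1)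
    (hle : ∀ v P u, u ∈ Set.Icc 0 c → X v P u ≤ X' v P u) :
    ∀ v P u, u ∈ Set.Icc 0 c → R E X' v P u ≤ R E X v P u := by
  intro v P u hu
  unfold R
  apply Finset.prod_le_prod
  · intro T _
    have h2 := hiter_int_mem X' hX' hc h01' v T hu
    linarith [h2.2]
  · intro T _
    have h2 : (∫ s in (0 : ℝ)..u, ∏ f ∈ T.erase v, X f T s) ≤
        ∫ s in (0 : ℝ)..u, ∏ f ∈ T.erase v, X' f T s := by
      apply intervalIntegral.integral_mono_on hu.1
      · exact (hiter_prod_cont X hX v T).intervalIntegrable _ _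
      · exact (hiter_prod_cont X' hX' v T).intervalIntegrable _ _
      · intro s hs
        have hs' : s ∈ Set.Icc 0 c := ⟨hs.1, hs.2.trans hu.2⟩
        exact Finset.prod_le_prod (fun f _ => (h01 f T s hs').1) fun f _ => hle f T s hs'
    linarith

theorem It_cont (E : Finset (Finset V)) (X0 : V → Finset V → ℝ → ℝ)
    (hX : ∀ v P, Continuous (X0 v P)) (k : ℕ) (v : V) (P : Finset V) :
    Continuous (It E X0 k v P) := by
  induction k generalizing v P with
  | zero => exact hX v P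
  | succ k ih => exact R_cont E (It E X0 k) ih v P

theorem It_mem (E : Finset (Finset V)) (X0 : V → Finset V → ℝ → ℝ)
    (hX : ∀ v P, Continuous (X0 v P)) (h01 : ∀ v P u, u ∈ Set.Icc 0 1 → X0 v P u ∈ Set.Icc (0 : ℝ) 1)
    (k : ℕ) : ∀ v P u, u ∈ Set.Icc 0 1 → It E X0 k v P u ∈ Set.Icc (0 : ℝ) 1 := by
  induction k with
  | zero => exact h01
  | succ k ih => exact R_mem E (It E X0 k) (It_cont E X0 hX k) 1 le_rfl ih

private theorem hiter_Xit_cont (E : Finset (Finset V)) (k : ℕ) (v : V) (P : Finset V) :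
    Continuous (Xit E k v P) :=
  It_cont E _ (fun _ _ => continuous_const) k v P

private theorem hiter_Xit_mem (E : Finset (Finset V)) (k : ℕ) (v : V) (P : Finset V) (u : ℝ)
    (hu : u ∈ Set.Icc (0 : ℝ) 1) : Xit E k v P u ∈ Set.Icc (0 : ℝ) 1 :=
  It_mem E _ (fun _ _ => continuous_const) (fun _ _ _ _ => ⟨zero_le_one, le_rfl⟩) k v P u hu

theorem Xit_alt (E : Finset (Finset V)) (k m : ℕ) (hkm : k ≤ m) (v : V) (P : Finset V) (u : ℝ)
    (hu : u ∈ Set.Icc (0 : ℝ) 1) :
    (Even k → Xit E m v P u ≤ Xit E k v P u) ∧ (¬ Even k → Xit E k v P u ≤ Xit E m v P u) := by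
  induction k generalizing m v P u with
  | zero =>
    refine ⟨fun _ => (hiter_Xit_mem E m v P u hu).2, fun h => absurd Even.zero h⟩
  | succ k ih =>
    obtain ⟨m', rfl⟩ : ∃ m', m = m' + 1 := ⟨m - 1, by omega⟩
    have hk : k ≤ m' := by omega
    constructor
    · intro he
      have hk' : ¬ Even k := by
        rw [Nat.even_add_one] at he
        exact he
      exact R_anti E (Xit E k) (Xit E m') (hiter_Xit_cont E k) (hiter_Xit_cont E m') 1 le_rfl
        (hiter_Xit_mem E k) (hiter_Xit_mem E m')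
        (fun v P u hu => (ih m' hk v P u hu).2 hk') v P u hu
    · intro he
      have hk' : Even k := by
        rw [Nat.even_add_one, not_not] at he
        exact he
      exact R_anti E (Xit E m') (Xit E k) (hiter_Xit_cont E m') (hiter_Xit_cont E k) 1 le_rfl
        (hiter_Xit_mem E m') (hiter_Xit_mem E k)
        (fun v P u hu => (ih m' hk v P u hu).1 hk') v P u hu

end

end Vale.Agent.P046.H
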