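import Mathlib
import Vale.Agent.Lib.P046.HDefs2
import Vale.Agent.Lib.P046.HIter

/-!
# P046, part S2, module H04: the exact solution of the recursion on `[0,1/2]`

The integrals `∫_0^u ∏ X` satisfy a Lipschitz differential equation (after truncation), solved by the
Picard-Lindelöf theorem.
-/

namespace Vale.Agent.P046.H

open Finset MeasureTheory

noncomputable section

variable {V : Type} [Fintype V] [DecidableEq V]

/-- truncation to `[0,1]` -/
private def HBethe_cl (z : ℝ) : ℝ := max 0 (min 1 z)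

private theorem HBethe_cl_mem (z : ℝ) : HBethe_cl z ∈ Set.Icc (0 : ℝ) 1 :=
  ⟨le_max_left _ _, max_le zero_le_one (min_le_left _ _)⟩

private theorem HBethe_cl_eq {z : ℝ} (hz : z ∈ Set.Icc (0 : ℝ) 1) : HBethe_cl z = z := by
  unfold HBethe_cl
  rw [min_eq_right hz.2, max_eq_right hz.1]

private theorem HBethe_cl_lip (z w : ℝ) : |HBethe_cl z - HBethe_cl w| ≤ |z - w| := by
  unfold HBethe_cl
  refine (abs_max_sub_max_le_max _ _ _ _).trans ?_
  rw [sub_self, abs_zero, max_eq_right (abs_nonneg _)]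
  refine (abs_min_sub_min_le_max _ _ _ _).trans ?_
  rw [sub_self, abs_zero, max_eq_right (abs_nonneg _)]

private theorem HBethe_prod_mem {ι : Type*} (s : Finset ι) (a : ι → ℝ)
    (ha : ∀ i ∈ s, a i ∈ Set.Icc (0 : ℝ) 1) : ∏ i ∈ s, a i ∈ Set.Icc (0 : ℝ) 1 :=
  ⟨Finset.prod_nonneg fun i hi => (ha i hi).1,
    Finset.prod_le_one (fun i hi => (ha i hi).1) fun i hi => (ha i hi).2⟩

private theorem HBethe_prod {ι : Type*} (s : Finset ι) (a b : ι → ℝ)
    (ha : ∀ i ∈ s, a i ∈ Set.Icc (0 : ℝ) 1) (hb : ∀ i ∈ s, b i ∈ Set.Icc (0 : ℝ) 1) :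
    |∏ i ∈ s, a i - ∏ i ∈ s, b i| ≤ ∑ i ∈ s, |a i - b i| := by
  classical
  induction s using Finset.induction_on with
  | empty => simp
  | insert i s hi ih =>
    rw [Finset.prod_insert hi, Finset.prod_insert hi, Finset.sum_insert hi]
    have h1 := ih (fun j hj => ha j (mem_insert_of_mem hj)) (fun j hj => hb j (mem_insert_of_mem hj))
    have h2 := ha i (mem_insert_self i s)
    have h3 := HBethe_prod_mem s b fun j hj => hb j (mem_insert_of_mem hj)
    have e1 : a i * ∏ j ∈ s, a j - b i * ∏ j ∈ s, b j =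
        a i * (∏ j ∈ s, a j - ∏ j ∈ s, b j) + (a i - b i) * ∏ j ∈ s, b j := by ring
    rw [e1]
    refine (abs_add_le _ _).trans ?_
    rw [abs_mul, abs_mul, abs_of_nonneg h2.1, abs_of_nonneg h3.1, add_comm]
    refine add_le_add ?_ ?_
    · exact mul_le_of_le_one_right (abs_nonneg _) h3.2
    · exact (mul_le_of_le_one_left (abs_nonneg _) h2.2).trans h1

/-- the vector field -/
private def HBethe_F (E : Finset (Finset V)) (x : V × Finset V → ℝ) (i : V × Finset V) : ℝ :=
  ∏ f ∈ i.2.erase i.1, ∏ T ∈ (star E f).erase i.2, HBethe_cl (1 - x (f, T))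

omit [Fintype V] in
private theorem HBethe_F_mem (E : Finset (Finset V)) (x : V × Finset V → ℝ) (i : V × Finset V) :
    HBethe_F E x i ∈ Set.Icc (0 : ℝ) 1 :=
  HBethe_prod_mem _ _ fun _ _ => HBethe_prod_mem _ _ fun _ _ => HBethe_cl_mem _

private theorem HBethe_F_lip (E : Finset (Finset V)) :
    LipschitzWith (Fintype.card V * Fintype.card (Finset V)) (HBethe_F E) := by
  apply LipschitzWith.of_dist_le_mul
  intro x y
  rw [dist_pi_le_iff (by positivity)]
  intro i
  rw [Real.dist_eq]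
  push_cast
  have hxy : ∀ j, |x j - y j| ≤ dist x y := fun j => by
    rw [← Real.dist_eq]
    exact dist_le_pi_dist x y j
  have h1 : ∀ f : V, |∏ T ∈ (star E f).erase i.2, HBethe_cl (1 - x (f, T)) -
      ∏ T ∈ (star E f).erase i.2, HBethe_cl (1 - y (f, T))| ≤ Fintype.card (Finset V) * dist x y := by
    intro f
    refine (HBethe_prod _ _ _ (fun _ _ => HBethe_cl_mem _) (fun _ _ => HBethe_cl_mem _)).trans ?_
    calc ∑ T ∈ (star E f).erase i.2, |HBethe_cl (1 - x (f, T)) - HBethe_cl (1 - y (f, T))|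
        ≤ ∑ T ∈ (star E f).erase i.2, dist x y := by
          refine Finset.sum_le_sum fun T _ => (HBethe_cl_lip _ _).trans ?_
          rw [sub_sub_sub_cancel_left, abs_sub_comm]
          exact hxy _
      _ = ((star E f).erase i.2).card * dist x y := by
          rw [Finset.sum_const, nsmul_eq_mul]
      _ ≤ Fintype.card (Finset V) * dist x y := by
          gcongr
          exact Finset.card_le_univ _
  unfold HBethe_F
  refine (HBethe_prod _ _ _ (fun _ _ => HBethe_prod_mem _ _ fun _ _ => HBethe_cl_mem _)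
    (fun _ _ => HBethe_prod_mem _ _ fun _ _ => HBethe_cl_mem _)).trans ?_
  calc ∑ f ∈ i.2.erase i.1, |∏ T ∈ (star E f).erase i.2, HBethe_cl (1 - x (f, T)) -
        ∏ T ∈ (star E f).erase i.2, HBethe_cl (1 - y (f, T))|
      ≤ ∑ f ∈ i.2.erase i.1, Fintype.card (Finset V) * dist x y :=
        Finset.sum_le_sum fun f _ => h1 f
    _ = (i.2.erase i.1).card * (Fintype.card (Finset V) * dist x y) := by
        rw [Finset.sum_const, nsmul_eq_mul]
    _ ≤ Fintype.card V * (Fintype.card (Finset V) * dist x y) := by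
        gcongr
        exact Finset.card_le_univ _
    _ = Fintype.card V * Fintype.card (Finset V) * dist x y := by ring

/-- the solution of the differential equation -/
private theorem HBethe_ode (E : Finset (Finset V)) : ∃ α : ℝ → V × Finset V → ℝ,
    (∀ i, ContinuousOn (fun t => α t i) (Set.Icc 0 (1 / 2))) ∧
    (∀ t ∈ Set.Icc (0 : ℝ) (1 / 2), ∀ i, α t i = ∫ s in (0 : ℝ)..t, HBethe_F E (α s) i) ∧
    (∀ t ∈ Set.Icc (0 : ℝ) (1 / 2), ∀ i, α t i ∈ Set.Icc 0 t) := by
  have h0 : (0 : ℝ) ∈ Set.Icc (0 : ℝ) (1 / 2) := by norm_num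
  have hPL : IsPicardLindelof (fun _ => HBethe_F E) (tmin := 0) (tmax := 1 / 2) ⟨0, h0⟩ 0
      (1 / 2) 0 1 (Fintype.card V * Fintype.card (Finset V)) := by
    apply IsPicardLindelof.of_time_independent
    · intro x _
      rw [pi_norm_le_iff_of_nonneg (by positivity)]
      intro i
      have h1 := HBethe_F_mem E x i
      rw [Real.norm_of_nonneg h1.1]
      exact h1.2
    · exact (HBethe_F_lip E).lipschitzOnWith
    · norm_num
  obtain ⟨α, hα0, hα⟩ := hPL.exists_eq_forall_mem_Icc_hasDerivWithinAt₀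
  have hαc : ∀ i, ContinuousOn (fun t => α t i) (Set.Icc 0 (1 / 2)) := by
    intro i t ht
    exact (hasDerivWithinAt_pi.1 (hα t ht) i).continuousWithinAt
  have hαc' : ContinuousOn α (Set.Icc 0 (1 / 2)) := fun t ht => (hα t ht).continuousWithinAt
  have hFc : ∀ i, ContinuousOn (fun t => HBethe_F E (α t) i) (Set.Icc 0 (1 / 2)) := by
    intro i
    exact (continuous_apply i).comp_continuousOn ((HBethe_F_lip E).continuous.comp_continuousOn hαc')
  have hint : ∀ t ∈ Set.Icc (0 : ℝ) (1 / 2), ∀ i,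
      IntervalIntegrable (fun s => HBethe_F E (α s) i) volume 0 t := by
    intro t ht i
    apply ContinuousOn.intervalIntegrable
    rw [Set.uIcc_of_le ht.1]
    exact (hFc i).mono (Set.Icc_subset_Icc_right ht.2)
  have hI : ∀ t ∈ Set.Icc (0 : ℝ) (1 / 2), ∀ i,
      α t i = ∫ s in (0 : ℝ)..t, HBethe_F E (α s) i := by
    intro t ht i
    have h1 := intervalIntegral.integral_eq_sub_of_hasDerivAt_of_le (f := fun s => α s i)
      (f' := fun s => HBethe_F E (α s) i) ht.1 ((hαc i).mono (Set.Icc_subset_Icc_right ht.2))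
      (fun s hs => by
        have h2 := hasDerivWithinAt_pi.1 (hα s ⟨hs.1.le, hs.2.le.trans ht.2⟩) i
        exact h2.hasDerivAt (Icc_mem_nhds hs.1 (hs.2.trans_le ht.2))) (hint t ht i)
    rw [h1, hα0]
    simp
  refine ⟨α, hαc, hI, ?_⟩
  intro t ht i
  rw [hI t ht i]
  refine ⟨intervalIntegral.integral_nonneg ht.1 fun s _ => (HBethe_F_mem E _ i).1, ?_⟩
  have h1 := intervalIntegral.integral_mono_on ht.1 (hint t ht i) (intervalIntegrable_const (c := (1 : ℝ)))
    (fun s _ => (HBethe_F_mem E (α s) i).2)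
  simpa using h1

theorem exists_bethe (E : Finset (Finset V)) : ∃ X, Bethe E X := by
  obtain ⟨α, hαc, hI, hmem⟩ := HBethe_ode E
  set pr : ℝ → ℝ := fun u => max 0 (min (1 / 2) u) with hpr
  have hprm : ∀ u, pr u ∈ Set.Icc (0 : ℝ) (1 / 2) := fun u =>
    ⟨le_max_left _ _, max_le (by norm_num) (min_le_left _ _)⟩
  have hpre : ∀ u ∈ Set.Icc (0 : ℝ) (1 / 2), pr u = u := by
    intro u hu
    simp only [hpr]
    rw [min_eq_right hu.2, max_eq_right hu.1]
  have hprc : Continuous pr := by fun_prop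
  have hβc : ∀ i, Continuous (fun u => α (pr u) i) := fun i =>
    (hαc i).comp_continuous hprc hprm
  have hm : ∀ u i, 1 - α (pr u) i ∈ Set.Icc (0 : ℝ) 1 := by
    intro u i
    have h1 := hmem (pr u) (hprm u) i
    have h2 := (hprm u).2
    constructor <;> linarith [h1.1, h1.2]
  refine ⟨fun v P u => ∏ T ∈ (star E v).erase P, (1 - α (pr u) (v, T)), ?_, ?_, ?_⟩
  · intro v P
    exact continuous_finsetProd _ fun T _ => continuous_const.sub (hβc (v, T))
  · intro v P u _
    exact HBethe_prod_mem _ _ fun T _ => hm u (v, T)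
  · intro v P u hu
    unfold R
    refine Finset.prod_congr rfl fun T _ => ?_
    rw [hpre u hu, hI u hu (v, T)]
    congr 1
    apply intervalIntegral.integral_congr
    intro s hs
    rw [Set.uIcc_of_le hu.1] at hs
    have hs' : s ∈ Set.Icc (0 : ℝ) (1 / 2) := ⟨hs.1, hs.2.trans hu.2⟩
    simp only [HBethe_F]
    refine Finset.prod_congr rfl fun f _ => Finset.prod_congr rfl fun T' _ => ?_
    have h1 := hm s (f, T')
    rw [hpre s hs'] at h1 ⊢
    rw [HBethe_cl_eq h1]

theorem bethe_alt (E : Finset (Finset V)) (X : V → Finset V → ℝ → ℝ) (hB : Bethe E X) (k : ℕ)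
    (v : V) (P : Finset V) (u : ℝ) (hu : u ∈ Set.Icc (0 : ℝ) (1 / 2)) :
    Xit E (2 * k + 1) v P u ≤ X v P u ∧ X v P u ≤ Xit E (2 * k) v P u := by
  have hc : ∀ k v P, Continuous (Xit E k v P) := fun k v P =>
    It_cont E _ (fun _ _ => continuous_const) k v P
  have hx01 : ∀ k, ∀ v P u, u ∈ Set.Icc (0 : ℝ) (1 / 2) → Xit E k v P u ∈ Set.Icc (0 : ℝ) 1 := by
    intro k v P u hu
    exact It_mem E _ (fun _ _ => continuous_const) (fun _ _ _ _ => ⟨zero_le_one, le_rfl⟩) k v P u
      ⟨hu.1, hu.2.trans (by norm_num)⟩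
  have hhalf : (1 / 2 : ℝ) ≤ 1 := by norm_num
  have hodd : ∀ k, (∀ v P u, u ∈ Set.Icc (0 : ℝ) (1 / 2) → X v P u ≤ Xit E k v P u) →
      ∀ v P u, u ∈ Set.Icc (0 : ℝ) (1 / 2) → Xit E (k + 1) v P u ≤ X v P u := by
    intro k hk v P u hu
    rw [hB.eq v P u hu]
    exact R_anti E X (Xit E k) hB.cont (hc k) (1 / 2) hhalf hB.mem (hx01 k) hk v P u hu
  have heven : ∀ k, (∀ v P u, u ∈ Set.Icc (0 : ℝ) (1 / 2) → Xit E k v P u ≤ X v P u) →
      ∀ v P u, u ∈ Set.Icc (0 : ℝ) (1 / 2) → X v P u ≤ Xit E (k + 1) v P u := by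
    intro k hk v P u hu
    rw [hB.eq v P u hu]
    exact R_anti E (Xit E k) X (hc k) hB.cont (1 / 2) hhalf (hx01 k) hB.mem hk v P u hu
  have hev : ∀ k, ∀ v P u, u ∈ Set.Icc (0 : ℝ) (1 / 2) → X v P u ≤ Xit E (2 * k) v P u := by
    intro k
    induction k with
    | zero =>
      intro v P u hu
      exact (hB.mem v P u hu).2
    | succ k ih => exact heven (2 * k + 1) (hodd (2 * k) ih)
  exact ⟨hodd (2 * k) (hev k) v P u hu, hev k v P u hu⟩

end

end Vale.Agent.P046.H
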