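import Vale.Agent.Lib.P046.HDefs2

/-!
# P046, part S2: the derivative of the vertex survival function
-/

namespace Vale.Agent.P046.H

open Finset MeasureTheory

noncomputable section

section ode

variable {V : Type} [Fintype V] [DecidableEq V]

variable (E : Finset (Finset V)) (y : ℝ) (X : V → Finset V → ℝ → ℝ)

variable {E X} in
private theorem odeA_prod_mem (hB : Bethe E X) (v : V) (T : Finset V) (s : ℝ)
    (hs : s ∈ Set.Icc (0 : ℝ) (1 / 2)) :
    0 ≤ ∏ f ∈ T.erase v, X f T s ∧ ∏ f ∈ T.erase v, X f T s ≤ 1 :=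
  ⟨Finset.prod_nonneg fun f _ => (hB.mem f T s hs).1,
    Finset.prod_le_one (fun f _ => (hB.mem f T s hs).1) fun f _ => (hB.mem f T s hs).2⟩

variable {E X} in
private theorem odeA_prod_cont (hB : Bethe E X) (v : V) (T : Finset V) :
    Continuous fun s => ∏ f ∈ T.erase v, X f T s :=
  continuous_finsetProd _ fun f _ => hB.cont f T

theorem II_mem (hB : Bethe E X) (v : V) (T : Finset V) (u : ℝ) (hu : u ∈ Set.Icc (0 : ℝ) (1 / 2)) :
    II X v T u ∈ Set.Icc 0 u := by
  have hc := odeA_prod_cont hB v T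
  constructor
  · refine intervalIntegral.integral_nonneg hu.1 fun s hs => ?_
    exact (odeA_prod_mem hB v T s ⟨hs.1, hs.2.trans hu.2⟩).1
  · have h : ∫ s in (0 : ℝ)..u, ∏ f ∈ T.erase v, X f T s ≤ ∫ s in (0 : ℝ)..u, (1 : ℝ) := by
      refine intervalIntegral.integral_mono_on hu.1 (hc.intervalIntegrable _ _)
        (continuous_const.intervalIntegrable _ _) fun s hs => ?_
      exact (odeA_prod_mem hB v T s ⟨hs.1, hs.2.trans hu.2⟩).2
    simpa [II] using h

private theorem odeA_eq (hB : Bethe E X) (v : V) (P : Finset V) (u : ℝ)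
    (hu : u ∈ Set.Icc (0 : ℝ) (1 / 2)) :
    X v P u = ∏ T ∈ (star E v).erase P, (1 - II X v T u) := hB.eq v P u hu

theorem x_pos (hB : Bethe E X) (v : V) (P : Finset V) (u : ℝ) (hu : u ∈ Set.Icc (0 : ℝ) (1 / 2)) :
    0 < X v P u := by
  rw [odeA_eq E X hB v P u hu]
  refine Finset.prod_pos fun T _ => ?_
  have h := (II_mem E X hB v T u hu).2
  have h2 := hu.2
  linarith

private theorem odeA_star (v : V) : (star E v).erase ∅ = star E v := by
  refine Finset.erase_eq_of_notMem fun h => ?_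
  simp at h

/-- relation between the vertex function and the directed function -/
theorem x_split (hB : Bethe E X) (hE : ∀ T ∈ E, T.card = 3) (f : V) (T : Finset V) (hT : T ∈ E)
    (hf : f ∈ T) (u : ℝ) (hu : u ∈ Set.Icc (0 : ℝ) (1 / 2)) :
    X f ∅ u = X f T u * (1 - II X f T u) := by
  rw [odeA_eq E X hB f ∅ u hu, odeA_eq E X hB f T u hu, odeA_star]
  refine (Finset.prod_erase_mul (star E f) (fun T => 1 - II X f T u) ?_).symm
  simp [hT, hf]

theorem x_noparent (hB : Bethe E X) (f : V) (P : Finset V) (hP : P ∉ star E f) (u : ℝ)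
    (hu : u ∈ Set.Icc (0 : ℝ) (1 / 2)) (hE : ∀ T ∈ E, T.card = 3) : X f P u = X f ∅ u := by
  rw [odeA_eq E X hB f ∅ u hu, odeA_eq E X hB f P u hu, odeA_star, Finset.erase_eq_of_notMem hP]

theorem d_x (hB : Bethe E X) (hE : ∀ T ∈ E, T.card = 3) (hy : 0 < y) (v : V) (u : ℝ)
    (hu : u ∈ Set.Ioo (0 : ℝ) (1 / 2)) :
    HasDerivAt (fun u => X v ∅ u) (-(X v ∅ u * lam y u * (1 + al E y X v u))) u := by
  have huI : u ∈ Set.Icc (0 : ℝ) (1 / 2) := ⟨hu.1.le, hu.2.le⟩
  have hpos : ∀ (w : V) (T : Finset V), 0 < 1 - II X w T u := fun w T => by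
    have h := (II_mem E X hB w T u huI).2
    have h2 := hu.2
    linarith
  have hev : (fun t => X v ∅ t) =ᶠ[nhds u] fun t => ∏ T ∈ star E v, (1 - II X v T t) := by
    filter_upwards [isOpen_Ioo.mem_nhds hu] with t ht
    rw [odeA_eq E X hB v ∅ t ⟨ht.1.le, ht.2.le⟩, odeA_star]
  have hII : ∀ T ∈ star E v, HasDerivAt (fun t => 1 - II X v T t)
      (-(∏ f ∈ T.erase v, X f T u)) u := by
    intro T _
    have h := intervalIntegral.integral_hasDerivAt_right
      ((odeA_prod_cont hB v T).intervalIntegrable 0 u)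
      ((odeA_prod_cont hB v T).stronglyMeasurableAtFilter _ _)
      (odeA_prod_cont hB v T).continuousAt
    exact h.const_sub 1
  have hprod := HasDerivAt.fun_finsetProd hII
  refine (hprod.congr_of_eventuallyEq hev).congr_deriv ?_
  have hlam : 0 < lam y u := by
    unfold lam
    have : 0 < 1 + 2 * y * u := by have := hu.1; positivity
    positivity
  have hXv : X v ∅ u = ∏ T ∈ star E v, (1 - II X v T u) := by
    rw [odeA_eq E X hB v ∅ u huI, odeA_star]
  have hsum : lam y u * (1 + al E y X v u) =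
      ∑ T ∈ star E v, (∏ f ∈ T.erase v, X f ∅ u) * rho X T u := by
    unfold al cc
    rw [add_sub_cancel, Finset.mul_sum]
    refine Finset.sum_congr rfl fun T _ => ?_
    field_simp
  rw [mul_assoc, hsum, Finset.mul_sum, ← Finset.sum_neg_distrib]
  refine Finset.sum_congr rfl fun T hT => ?_
  have hTE : T ∈ E := (Finset.mem_filter.1 hT).1
  have hvT : v ∈ T := (Finset.mem_filter.1 hT).2
  have h1 : ∏ f ∈ T.erase v, X f ∅ u =
      (∏ f ∈ T.erase v, X f T u) * ∏ f ∈ T.erase v, (1 - II X f T u) := by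
    rw [← Finset.prod_mul_distrib]
    refine Finset.prod_congr rfl fun f hf => ?_
    exact x_split E X hB hE f T hTE (Finset.mem_of_mem_erase hf) u huI
  have h2 : rho X T u = (1 - II X v T u)⁻¹ * ∏ f ∈ T.erase v, (1 - II X f T u)⁻¹ := by
    unfold rho
    exact (Finset.mul_prod_erase T (fun f => (1 - II X f T u)⁻¹) hvT).symm
  have h3 : X v ∅ u = (∏ S ∈ (star E v).erase T, (1 - II X v S u)) * (1 - II X v T u) := by
    rw [hXv]
    exact (Finset.prod_erase_mul (star E v) (fun S => 1 - II X v S u) hT).symm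
  rw [h1, h2, h3, Finset.prod_inv_distrib]
  have hne : (1 - II X v T u) ≠ 0 := (hpos v T).ne'
  have hne2 : ∏ f ∈ T.erase v, (1 - II X f T u) ≠ 0 :=
    Finset.prod_ne_zero_iff.2 fun f _ => (hpos f T).ne'
  simp only [smul_eq_mul]
  field_simp

end ode

end

end Vale.Agent.P046.H
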