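import Vale.Agent.Lib.P046.HDefs2

/-!
# P046, part S2, module H08: numerical consequences of the parameter conditions
-/

namespace Vale.Agent.P046.H

open Finset MeasureTheory

noncomputable section

private theorem HPar_pos {y u : ℝ} (hy : 0 < y) (hu : 0 ≤ u) : 0 < 1 + 2 * y * u := by
  positivity

theorem par_facts {y L y2 b ell : ℝ} (h : Par y L y2 b ell) :
    0 < y ∧ 10 ^ 8 ≤ y2 ∧ y2 ≤ y ∧ 0 < b ∧ b ≤ 1 / (2 * y2) ∧ b ≤ 1 / 2 ∧ lam y b = y2 ∧
      xb y b = Real.sqrt (y2 / y) ∧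
      (∀ u ∈ Set.Icc 0 b, y2 ≤ lam y u ∧ lam y u ≤ y ∧ Real.log (1 + 2 * y * u) ≤ ell / 2) ∧
      (∀ u ∈ Set.Icc (0:ℝ) b, u ≤ 1 / (2 * lam y u)) ∧
      L * ell * y2 ^ 20 ≤ Real.sqrt y / 10 ^ 8 := by
  have hL := h.hL
  have hell1 := h.hell1
  have hL8 : L ≤ L ^ 8 := le_self_pow₀ hL (by norm_num)
  have he8 : ell ≤ ell ^ 8 := le_self_pow₀ hell1 (by norm_num)
  have hL0 : 0 < L := by linarith
  have he0 : 0 < ell := by linarith
  have hLe : L * ell ≤ L ^ 8 * ell ^ 8 := mul_le_mul hL8 he8 he0.le (by positivity)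
  have hLe1 : 1 ≤ L * ell := one_le_mul_of_one_le_of_one_le hL hell1
  have hy2a : 10 ^ 8 * (L * ell) ≤ y2 := by
    have := h.hy2
    nlinarith
  have hy2 : (10 : ℝ) ^ 8 ≤ y2 := by
    have h1 : (10 : ℝ) ^ 8 * 1 ≤ 10 ^ 8 * (L * ell) := by
      apply mul_le_mul_of_nonneg_left hLe1 (by norm_num)
    linarith
  have hy20 : 0 < y2 := lt_of_lt_of_le (by norm_num) hy2
  have hy21 : 1 ≤ y2 := le_trans (by norm_num) hy2
  have hy22 : 2 ≤ y2 := le_trans (by norm_num) hy2
  have hlt : y2 < y2 ^ 100 := by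
    have h1 : y2 ^ 2 ≤ y2 ^ 100 := pow_le_pow_right₀ hy21 (by norm_num)
    nlinarith
  have hlty : y2 < y := lt_of_lt_of_le hlt h.hy
  have hy0 : 0 < y := hy20.trans hlty
  have hyb : 1 + 2 * y * b = y / y2 := by
    rw [h.hb]
    field_simp
    ring
  have hb0 : 0 < b := by
    rw [h.hb]
    apply div_pos _ (by linarith)
    rw [sub_pos, one_lt_div hy20]
    exact hlty
  have hb1 : b ≤ 1 / (2 * y2) := by
    rw [h.hb]
    have e1 : (y / y2 - 1) / (2 * y) = 1 / (2 * y2) - 1 / (2 * y) := by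
      field_simp
    rw [e1]
    have : 0 < 1 / (2 * y) := by positivity
    linarith
  have hb2 : b ≤ 1 / 2 := by
    refine hb1.trans ?_
    apply one_div_le_one_div_of_le (by norm_num)
    linarith
  have hmono : ∀ u ∈ Set.Icc 0 b, 1 ≤ 1 + 2 * y * u ∧ 1 + 2 * y * u ≤ y / y2 ∧
      1 + 2 * y * u ≤ 1 + 2 * y := by
    intro u hu
    have h1 : 0 ≤ 2 * y * u := mul_nonneg (by linarith) hu.1
    have h2 : 2 * y * u ≤ 2 * y * b := mul_le_mul_of_nonneg_left hu.2 (by linarith)
    have h3 : 2 * y * u ≤ 2 * y * 1 :=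
      mul_le_mul_of_nonneg_left (hu.2.trans (by linarith)) (by linarith)
    refine ⟨by linarith, by linarith, by linarith⟩
  refine ⟨hy0, hy2, hlty.le, hb0, hb1, hb2, ?_, ?_, ?_, ?_, ?_⟩
  · unfold lam
    rw [hyb]
    field_simp
  · unfold xb
    rw [hyb, one_div, ← Real.sqrt_inv, inv_div]
  · intro u hu
    obtain ⟨h1, h2, h3⟩ := hmono u hu
    have hpos : 0 < 1 + 2 * y * u := by linarith
    refine ⟨?_, ?_, ?_⟩
    · unfold lam
      rw [le_div_iff₀ hpos]
      rw [le_div_iff₀ hy20] at h2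
      linarith
    · unfold lam
      rw [div_le_iff₀ hpos]
      nlinarith
    · rw [h.hell]
      have := Real.log_le_log hpos h3
      linarith
  · intro u hu
    obtain ⟨h1, -, -⟩ := hmono u hu
    have hpos : 0 < 1 + 2 * y * u := by linarith
    unfold lam
    have e1 : 1 / (2 * (y / (1 + 2 * y * u))) = 1 / (2 * y) + u := by
      field_simp
    rw [e1]
    have : 0 < 1 / (2 * y) := by positivity
    linarith
  · rw [le_div_iff₀ (by norm_num)]
    have h1 : L * ell * y2 ^ 20 * 10 ^ 8 ≤ y2 ^ 21 := by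
      have h2 : (10 ^ 8 * (L * ell)) * y2 ^ 20 ≤ y2 * y2 ^ 20 :=
        mul_le_mul_of_nonneg_right hy2a (by positivity)
      calc L * ell * y2 ^ 20 * 10 ^ 8 = (10 ^ 8 * (L * ell)) * y2 ^ 20 := by ring
        _ ≤ y2 * y2 ^ 20 := h2
        _ = y2 ^ 21 := by ring
    refine h1.trans ?_
    have h2 : y2 ^ 21 ≤ y2 ^ 50 := pow_le_pow_right₀ hy21 (by norm_num)
    refine h2.trans ?_
    apply Real.le_sqrt_of_sq_le
    rw [← pow_mul]
    exact h.hy

/-- derivatives and integrals of lam and xb -/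
theorem lam_facts {y : ℝ} (hy : 0 < y) :
    (∀ u, 0 ≤ u → HasDerivAt (lam y) (-(2 * lam y u ^ 2)) u) ∧
    (∀ u, 0 ≤ u → HasDerivAt (fun u => 1 / lam y u) 2 u) ∧
    (∀ u, 0 ≤ u → HasDerivAt (xb y) (-(lam y u * xb y u)) u) ∧
    (∀ u, 0 ≤ u → HasDerivAt (fun u => Real.log (1 + 2 * y * u)) (2 * lam y u) u) ∧
    (∀ u, 0 ≤ u → xb y u ^ 2 = lam y u / y) ∧
    (∀ u, 0 ≤ u → ∫ s in (0:ℝ)..u, lam y s = Real.log (1 + 2 * y * u) / 2) ∧
    (∀ u, 0 ≤ u → ∫ s in (0:ℝ)..u, lam y s ^ 2 = (y - lam y u) / 2) := by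
  have hd : ∀ u, HasDerivAt (fun u : ℝ => 1 + 2 * y * u) (2 * y) u := by
    intro u
    have := ((hasDerivAt_id u).const_mul (2 * y)).const_add 1
    simpa using this
  have h1 : ∀ u, 0 ≤ u → HasDerivAt (lam y) (-(2 * lam y u ^ 2)) u := by
    intro u hu
    have hpos := HPar_pos hy hu
    have := (hasDerivAt_const u y).div (hd u) hpos.ne'
    have e1 : (0 * (1 + 2 * y * u) - y * (2 * y)) / (1 + 2 * y * u) ^ 2 =
        -(2 * lam y u ^ 2) := by
      unfold lam
      field_simp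
      ring
    rw [e1] at this
    exact this
  have h2 : ∀ u, 0 ≤ u → HasDerivAt (fun u => 1 / lam y u) 2 u := by
    intro u _
    have h3 : (fun u => 1 / lam y u) = fun u => (1 + 2 * y * u) / y := by
      funext v
      unfold lam
      rw [one_div_div]
    rw [h3]
    have := (hd u).div_const y
    have e1 : 2 * y / y = 2 := by field_simp
    rw [e1] at this
    exact this
  have h3 : ∀ u, 0 ≤ u → HasDerivAt (xb y) (-(lam y u * xb y u)) u := by
    intro u hu
    have hpos := HPar_pos hy hu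
    have hs : 0 < Real.sqrt (1 + 2 * y * u) := Real.sqrt_pos.mpr hpos
    have hsq : Real.sqrt (1 + 2 * y * u) ^ 2 = 1 + 2 * y * u := Real.sq_sqrt hpos.le
    have := (hasDerivAt_const u (1 : ℝ)).div ((hd u).sqrt hpos.ne') hs.ne'
    have e1 : (0 * Real.sqrt (1 + 2 * y * u) - 1 * (2 * y / (2 * Real.sqrt (1 + 2 * y * u)))) /
        Real.sqrt (1 + 2 * y * u) ^ 2 = -(lam y u * xb y u) := by
      unfold lam xb
      rw [hsq]
      field_simp
      ring
    rw [e1] at this
    exact this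
  have h4 : ∀ u, 0 ≤ u →
      HasDerivAt (fun u => Real.log (1 + 2 * y * u)) (2 * lam y u) u := by
    intro u hu
    have hpos := HPar_pos hy hu
    have := (hd u).log hpos.ne'
    have e1 : 2 * y / (1 + 2 * y * u) = 2 * lam y u := by
      unfold lam
      ring
    rw [e1] at this
    exact this
  have hcont : ∀ u : ℝ, 0 ≤ u → ContinuousOn (lam y) (Set.uIcc 0 u) := by
    intro u hu x hx
    rw [Set.uIcc_of_le hu] at hx
    exact (h1 x hx.1).continuousAt.continuousWithinAt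
  refine ⟨h1, h2, h3, h4, ?_, ?_, ?_⟩
  · intro u hu
    have hpos := HPar_pos hy hu
    unfold xb lam
    rw [div_pow, one_pow, Real.sq_sqrt hpos.le]
    field_simp
  · intro u hu
    have h5 : ∀ x ∈ Set.uIcc 0 u,
        HasDerivAt (fun u => Real.log (1 + 2 * y * u) / 2) (lam y x) x := by
      intro x hx
      rw [Set.uIcc_of_le hu] at hx
      have := (h4 x hx.1).div_const 2
      have e1 : 2 * lam y x / 2 = lam y x := by ring
      rw [e1] at this
      exact this
    rw [intervalIntegral.integral_eq_sub_of_hasDerivAt h5 (hcont u hu).intervalIntegrable]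
    simp
  · intro u hu
    have h5 : ∀ x ∈ Set.uIcc 0 u,
        HasDerivAt (fun u => -(lam y u / 2)) (lam y x ^ 2) x := by
      intro x hx
      rw [Set.uIcc_of_le hu] at hx
      have := ((h1 x hx.1).div_const 2).neg
      have e1 : -(-(2 * lam y x ^ 2) / 2) = lam y x ^ 2 := by ring
      rw [e1] at this
      exact this
    rw [intervalIntegral.integral_eq_sub_of_hasDerivAt h5
      ((hcont u hu).pow 2).intervalIntegrable]
    have e0 : lam y 0 = y := by
      unfold lam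
      simp
    rw [e0]
    ring

end

end Vale.Agent.P046.H
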