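import Vale.Agent.Lib.P046.HOdeA

/-!
# P046, part S2, H06: derivatives of the auxiliary quantities
-/

namespace Vale.Agent.P046.H

open Finset MeasureTheory

noncomputable section

variable {V : Type} [Fintype V] [DecidableEq V]

section ode

variable (E : Finset (Finset V)) (y : ℝ) (X : V → Finset V → ℝ → ℝ)

theorem HOdeB_prod {ι : Type*} (s : Finset ι) (f : ι → ℝ → ℝ) (c : ι → ℝ) (u : ℝ)
    (h : ∀ i ∈ s, HasDerivAt (f i) (c i * f i u) u) :
    HasDerivAt (fun x => ∏ i ∈ s, f i x) ((∑ i ∈ s, c i) * ∏ i ∈ s, f i u) u := by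
  classical
  induction s using Finset.induction_on with
  | empty =>
    simp only [Finset.prod_empty, Finset.sum_empty, zero_mul]
    exact hasDerivAt_const u (1 : ℝ)
  | insert i s hi ih =>
    have h1 := h i (Finset.mem_insert_self i s)
    have h2 := ih fun j hj => h j (Finset.mem_insert_of_mem hj)
    have h3 := h1.fun_mul h2
    simp only [Finset.prod_insert hi, Finset.sum_insert hi]
    refine h3.congr_deriv ?_
    ring

theorem HOdeB_dII (hB : Bethe E X) (v : V) (T : Finset V) (u : ℝ) :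
    HasDerivAt (II X v T) (∏ f ∈ T.erase v, X f T u) u := by
  have hc : Continuous fun s : ℝ => ∏ f ∈ T.erase v, X f T s :=
    continuous_finsetProd _ fun f _ => hB.cont f T
  exact (hc.integral_hasStrictDerivAt 0 u).hasDerivAt

theorem HOdeB_one_sub_II (hB : Bethe E X) (v : V) (T : Finset V) (u : ℝ)
    (hu : u ∈ Set.Icc (0 : ℝ) (1 / 2)) : 0 < 1 - II X v T u := by
  have h1 := (II_mem E X hB v T u hu).2
  have h2 := hu.2
  linarith

theorem HOdeB_lam_pos (hy : 0 < y) (u : ℝ) (hu : 0 ≤ u) : 0 < lam y u := by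
  unfold lam
  positivity

theorem HOdeB_d_inv (hB : Bethe E X) (hE : ∀ T ∈ E, T.card = 3) (T : Finset V) (hT : T ∈ E)
    (v : V) (hv : v ∈ T) (u : ℝ) (hu : u ∈ Set.Ioo (0 : ℝ) (1 / 2)) :
    HasDerivAt (fun x => (1 - II X v T x)⁻¹)
      ((rho X T u * ∏ f ∈ T.erase v, X f ∅ u) * (1 - II X v T u)⁻¹) u := by
  have hu' : u ∈ Set.Icc (0 : ℝ) (1 / 2) := ⟨hu.1.le, hu.2.le⟩
  have hp := HOdeB_one_sub_II E X hB v T u hu'
  have h1 : HasDerivAt (fun x => 1 - II X v T x) (-∏ f ∈ T.erase v, X f T u) u :=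
    (HOdeB_dII E X hB v T u).const_sub 1
  have h2 := h1.fun_inv hp.ne'
  refine h2.congr_deriv ?_
  have h3 : ∏ f ∈ T.erase v, X f ∅ u
      = (∏ f ∈ T.erase v, X f T u) * ∏ f ∈ T.erase v, (1 - II X f T u) := by
    rw [← Finset.prod_mul_distrib]
    exact Finset.prod_congr rfl fun f hf =>
      x_split E X hB hE f T hT (Finset.mem_of_mem_erase hf) u hu'
  have h4 : rho X T u = (1 - II X v T u)⁻¹ * ∏ f ∈ T.erase v, (1 - II X f T u)⁻¹ := by
    unfold rho
    exact (Finset.mul_prod_erase T (fun f => (1 - II X f T u)⁻¹) hv).symm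
  have h5 : (∏ f ∈ T.erase v, (1 - II X f T u)⁻¹) * ∏ f ∈ T.erase v, (1 - II X f T u) = 1 := by
    rw [← Finset.prod_mul_distrib]
    exact Finset.prod_eq_one fun f _ =>
      inv_mul_cancel₀ (HOdeB_one_sub_II E X hB f T u hu').ne'
  rw [h3, h4, neg_neg, div_eq_mul_inv]
  calc (∏ f ∈ T.erase v, X f T u) * ((1 - II X v T u) ^ 2)⁻¹
      = (∏ f ∈ T.erase v, X f T u) * ((1 - II X v T u) ^ 2)⁻¹ *
        ((∏ f ∈ T.erase v, (1 - II X f T u)⁻¹) * ∏ f ∈ T.erase v, (1 - II X f T u)) := by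
        rw [h5, mul_one]
    _ = _ := by
        rw [← inv_pow]
        ring

theorem HOdeB_d_rho (hB : Bethe E X) (hE : ∀ T ∈ E, T.card = 3) (hy : 0 < y) (T : Finset V)
    (hT : T ∈ E) (u : ℝ) (hu : u ∈ Set.Ioo (0 : ℝ) (1 / 2)) :
    HasDerivAt (rho X T) ((lam y u * rr y X T u) * rho X T u) u := by
  have hl := HOdeB_lam_pos y hy u hu.1.le
  have h := HOdeB_prod T (fun f x => (1 - II X f T x)⁻¹)
    (fun f => rho X T u * ∏ g ∈ T.erase f, X g ∅ u) u
    fun f hf => HOdeB_d_inv E X hB hE T hT f hf u hu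
  refine h.congr_deriv ?_
  have h1 : lam y u * rr y X T u = ∑ i ∈ T, rho X T u * ∏ f ∈ T.erase i, X f ∅ u := by
    unfold rr
    exact mul_div_cancel₀ _ hl.ne'
  rw [h1]
  rfl

theorem HOdeB_d_lam_inv (hy : 0 < y) (u : ℝ) (hu : 0 ≤ u) :
    HasDerivAt (fun x => (lam y x)⁻¹) ((2 * lam y u) * (lam y u)⁻¹) u := by
  have hl := HOdeB_lam_pos y hy u hu
  have h1 : HasDerivAt (fun x : ℝ => (1 + 2 * y * x) / y) ((2 * y * 1) / y) u :=
    (((hasDerivAt_id u).const_mul (2 * y)).const_add 1).div_const y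
  have h2 : (fun x => (lam y x)⁻¹) = fun x : ℝ => (1 + 2 * y * x) / y := by
    funext x
    unfold lam
    rw [inv_div]
  rw [h2]
  refine h1.congr_deriv ?_
  field_simp

/-! ### the main statements -/

theorem d_cc (hB : Bethe E X) (hE : ∀ T ∈ E, T.card = 3) (hy : 0 < y) (T : Finset V) (hT : T ∈ E)
    (v : V) (hv : v ∈ T) (u : ℝ) (hu : u ∈ Set.Ioo (0 : ℝ) (1 / 2)) :
    HasDerivAt (cc y X v T)
      (lam y u * cc y X v T u * (rr y X T u - ∑ f ∈ T.erase v, al E y X f u)) u := by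
  have h1 := HOdeB_prod (T.erase v) (fun f x => X f ∅ x) (fun f => -(lam y u * (1 + al E y X f u))) u
    (fun f _ => (d_x E y X hB hE hy f u hu).congr_deriv (by ring))
  have h2 := HOdeB_d_rho E y X hB hE hy T hT u hu
  have h3 := HOdeB_d_lam_inv y hy u hu.1.le
  have h4 := (h1.fun_mul h2).fun_mul h3
  have hcard : ((T.erase v).card : ℝ) = 2 := by
    rw [Finset.card_erase_of_mem hv, hE T hT]
    norm_num
  have h5 : ∑ f ∈ T.erase v, -(lam y u * (1 + al E y X f u))
      = -(lam y u * (2 + ∑ f ∈ T.erase v, al E y X f u)) := by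
    rw [Finset.sum_neg_distrib, ← Finset.mul_sum, Finset.sum_add_distrib, Finset.sum_const,
      nsmul_eq_mul, mul_one, hcard]
  have h6 : cc y X v T = fun x => (∏ i ∈ T.erase v, X i ∅ x) * rho X T x * (lam y x)⁻¹ := by
    funext x
    unfold cc
    rw [div_eq_mul_inv]
  rw [h6]
  refine h4.congr_deriv ?_
  rw [h5]
  ring

theorem d_al (hB : Bethe E X) (hE : ∀ T ∈ E, T.card = 3) (hy : 0 < y) (v : V) (u : ℝ)
    (hu : u ∈ Set.Ioo (0 : ℝ) (1 / 2)) :
    HasDerivAt (al E y X v) (-(lam y u * (gg E y X v u - hh E y X v u))) u := by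
  have h1 : HasDerivAt (fun x => ∑ T ∈ star E v, cc y X v T x)
      (∑ T ∈ star E v, lam y u * cc y X v T u * (rr y X T u - ∑ f ∈ T.erase v, al E y X f u)) u :=
    HasDerivAt.fun_sum fun T hT =>
      d_cc E y X hB hE hy T (Finset.mem_filter.1 hT).1 v (Finset.mem_filter.1 hT).2 u hu
  refine (h1.sub_const 1).congr_deriv ?_
  unfold gg hh
  rw [← Finset.sum_sub_distrib, Finset.mul_sum, ← Finset.sum_neg_distrib]
  refine Finset.sum_congr rfl fun T _ => ?_
  ring

theorem d_gg (hB : Bethe E X) (hE : ∀ T ∈ E, T.card = 3) (hy : 0 < y) (v : V) (u : ℝ)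
    (hu : u ∈ Set.Ioo (0 : ℝ) (1 / 2)) :
    HasDerivAt (gg E y X v) (lam y u * ∑ T ∈ star E v, cc y X v T u *
      ((rr y X T u - ∑ f ∈ T.erase v, al E y X f u) * (∑ f ∈ T.erase v, al E y X f u)
        - ∑ f ∈ T.erase v, (gg E y X f u - hh E y X f u))) u := by
  have h1 : HasDerivAt (fun x => ∑ T ∈ star E v, cc y X v T x * ∑ f ∈ T.erase v, al E y X f x)
      (∑ T ∈ star E v, (lam y u * cc y X v T u * (rr y X T u - ∑ f ∈ T.erase v, al E y X f u) *
        (∑ f ∈ T.erase v, al E y X f u) +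
        cc y X v T u * ∑ f ∈ T.erase v, -(lam y u * (gg E y X f u - hh E y X f u)))) u :=
    HasDerivAt.fun_sum fun T hT =>
      (d_cc E y X hB hE hy T (Finset.mem_filter.1 hT).1 v (Finset.mem_filter.1 hT).2 u hu).fun_mul
        (HasDerivAt.fun_sum fun f _ => d_al E y X hB hE hy f u hu)
  refine h1.congr_deriv ?_
  rw [Finset.mul_sum]
  refine Finset.sum_congr rfl fun T _ => ?_
  rw [Finset.sum_neg_distrib, ← Finset.mul_sum]
  ring

theorem HOdeB_d_xb_inv (hy : 0 < y) (u : ℝ) (hu : 0 ≤ u) :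
    HasDerivAt (fun x => (xb y x)⁻¹) (lam y u * (xb y u)⁻¹) u := by
  have hp : 0 < 1 + 2 * y * u := by positivity
  have h1 : HasDerivAt (fun x : ℝ => 1 + 2 * y * x) (2 * y * 1) u :=
    ((hasDerivAt_id u).const_mul (2 * y)).const_add 1
  have h2 := h1.sqrt hp.ne'
  have h3 : (fun x => (xb y x)⁻¹) = fun x : ℝ => Real.sqrt (1 + 2 * y * x) := by
    funext x
    unfold xb
    rw [one_div, inv_inv]
  rw [h3]
  refine h2.congr_deriv ?_
  unfold lam xb
  rw [one_div, inv_inv]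
  have h4 : 0 < Real.sqrt (1 + 2 * y * u) := Real.sqrt_pos.2 hp
  have h5 : Real.sqrt (1 + 2 * y * u) * Real.sqrt (1 + 2 * y * u) = 1 + 2 * y * u :=
    Real.mul_self_sqrt hp.le
  rw [div_mul_eq_mul_div, div_eq_div_iff (by positivity) hp.ne']
  calc 2 * y * 1 * (1 + 2 * y * u)
      = 2 * y * (Real.sqrt (1 + 2 * y * u) * Real.sqrt (1 + 2 * y * u)) := by rw [h5]; ring
    _ = y * Real.sqrt (1 + 2 * y * u) * (2 * Real.sqrt (1 + 2 * y * u)) := by ring

theorem d_XX (hB : Bethe E X) (hE : ∀ T ∈ E, T.card = 3) (hy : 0 < y) (v : V) (u : ℝ)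
    (hu : u ∈ Set.Ioo (0 : ℝ) (1 / 2)) :
    HasDerivAt (XX y X v) (-(lam y u * XX y X v u * al E y X v u)) u := by
  have h1 := (d_x E y X hB hE hy v u hu).fun_mul (HOdeB_d_xb_inv y hy u hu.1.le)
  have h2 : XX y X v = fun x => X v ∅ x * (xb y x)⁻¹ := by
    funext x
    unfold XX
    rw [div_eq_mul_inv]
  rw [h2]
  refine h1.congr_deriv ?_
  ring

theorem HOdeB_cont_II (hB : Bethe E X) (v : V) (T : Finset V) : Continuous (II X v T) :=
  continuous_iff_continuousAt.2 fun u => (HOdeB_dII E X hB v T u).continuousAt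

theorem HOdeB_cont_rho (hB : Bethe E X) (T : Finset V) :
    ContinuousOn (rho X T) (Set.Icc 0 (1 / 2)) := by
  unfold rho
  refine continuousOn_finsetProd _ fun f _ => ?_
  exact (continuous_const.sub (HOdeB_cont_II E X hB f T)).continuousOn.inv₀
    fun u hu => (HOdeB_one_sub_II E X hB f T u hu).ne'

theorem cont_cc (hB : Bethe E X) (hE : ∀ T ∈ E, T.card = 3) (hy : 0 < y) (v : V) (T : Finset V) :
    ContinuousOn (cc y X v T) (Set.Icc 0 (1 / 2)) := by
  have hx : Continuous fun u => ∏ f ∈ T.erase v, X f ∅ u :=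
    continuous_finsetProd _ fun f _ => hB.cont f ∅
  have hl : ContinuousOn (lam y) (Set.Icc 0 (1 / 2)) := by
    unfold lam
    refine ContinuousOn.div continuousOn_const (by fun_prop) fun u hu => ?_
    have := hu.1
    positivity
  exact (hx.continuousOn.mul (HOdeB_cont_rho E X hB T)).div hl
    fun u hu => (HOdeB_lam_pos y hy u hu.1).ne'

theorem cont_al (hB : Bethe E X) (hE : ∀ T ∈ E, T.card = 3) (hy : 0 < y) (v : V) :
    ContinuousOn (al E y X v) (Set.Icc 0 (1 / 2)) :=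
  (continuousOn_finsetSum _ fun T _ => cont_cc E y X hB hE hy v T).sub continuousOn_const

theorem cont_gg (hB : Bethe E X) (hE : ∀ T ∈ E, T.card = 3) (hy : 0 < y) (v : V) :
    ContinuousOn (gg E y X v) (Set.Icc 0 (1 / 2)) :=
  continuousOn_finsetSum _ fun T _ => (cont_cc E y X hB hE hy v T).mul
    (continuousOn_finsetSum _ fun f _ => cont_al E y X hB hE hy f)

theorem cont_XX (hB : Bethe E X) (hE : ∀ T ∈ E, T.card = 3) (hy : 0 < y) (v : V) :
    ContinuousOn (XX y X v) (Set.Icc 0 (1 / 2)) := by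
  have hxb : ContinuousOn (xb y) (Set.Icc 0 (1 / 2)) := by
    unfold xb
    refine ContinuousOn.div continuousOn_const (by fun_prop) fun u hu => ?_
    have := hu.1
    exact (Real.sqrt_pos.2 (by positivity)).ne'
  refine (hB.cont v ∅).continuousOn.div hxb fun u hu => ?_
  have := hu.1
  unfold xb
  have h1 : 0 < Real.sqrt (1 + 2 * y * u) := Real.sqrt_pos.2 (by positivity)
  positivity

theorem HOdeB_X0 (hB : Bethe E X) (v : V) (P : Finset V) : X v P 0 = 1 := by
  rw [hB.eq v P 0 ⟨le_refl _, by norm_num⟩]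
  unfold R
  refine Finset.prod_eq_one fun T _ => ?_
  rw [intervalIntegral.integral_same, sub_zero]

theorem HOdeB_cc0 (hB : Bethe E X) (v : V) (T : Finset V) : cc y X v T 0 = 1 / y := by
  have h1 : rho X T 0 = 1 := by
    unfold rho II
    refine Finset.prod_eq_one fun f _ => ?_
    rw [intervalIntegral.integral_same, sub_zero, inv_one]
  have h2 : ∏ f ∈ T.erase v, X f ∅ 0 = 1 := Finset.prod_eq_one fun f _ => HOdeB_X0 E X hB f ∅
  have h3 : lam y 0 = y := by
    unfold lam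
    rw [mul_zero, add_zero, div_one]
  unfold cc
  rw [h1, h2, h3, mul_one]

theorem init_al (hB : Bethe E X) (hE : ∀ T ∈ E, T.card = 3) (hy : 0 < y) (v : V) :
    al E y X v 0 = (deg E v : ℝ) / y - 1 := by
  unfold al
  rw [Finset.sum_congr rfl fun T _ => HOdeB_cc0 E y X hB v T, Finset.sum_const, nsmul_eq_mul,
    mul_one_div]
  rfl

theorem init_gg (hB : Bethe E X) (hE : ∀ T ∈ E, T.card = 3) (hy : 0 < y) (v : V) :
    gg E y X v 0 = (∑ T ∈ star E v, ∑ f ∈ T.erase v, ((deg E f : ℝ) - y)) / y ^ 2 := by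
  unfold gg
  rw [Finset.sum_div]
  refine Finset.sum_congr rfl fun T _ => ?_
  rw [HOdeB_cc0 E y X hB v T, Finset.mul_sum, Finset.sum_div]
  refine Finset.sum_congr rfl fun f _ => ?_
  rw [init_al E y X hB hE hy f]
  field_simp

theorem init_XX (hB : Bethe E X) (hy : 0 < y) (v : V) : XX y X v 0 = 1 := by
  unfold XX xb
  rw [HOdeB_X0 E X hB v ∅, mul_zero, add_zero, Real.sqrt_one, div_one, div_one]

end ode

end

end Vale.Agent.P046.H
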