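import Vale.Agent.Lib.P046.HBarrier
import Vale.Agent.Lib.P046.HOdeB
import Vale.Agent.Lib.P046.HPar

/-!
# P046, S2, module H09: pointwise bounds on [0,b]
-/

namespace Vale.Agent.P046.H

open Finset MeasureTheory

noncomputable section

/-! ### real inequalities -/

private theorem hPoint_alg {L P Q φ A W : ℝ} (hL : 1 ≤ L) (hP : 0 ≤ P) (hQ : 0 ≤ Q)
    (hPQ : P ^ 2 = L ^ 2 * Q) (hW : W = 2 * P + 80 * L ^ 2) (hφ : φ ≤ 7 / 5)
    (hA' : A ≤ 1 / 100) :
    200 * L ^ 2 * φ * W + (1 + A) * (4 * W ^ 2 + 7 * Q) <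
      100 * L ^ 2 * (6 * P + 800 * L ^ 2 + 44 / 100 * Q) := by
  have hL2 : 1 ≤ L ^ 2 := one_le_pow₀ hL
  have hL4 : 1 ≤ L ^ 4 := one_le_pow₀ hL
  have hW0 : 0 ≤ W := by rw [hW]; positivity
  have h1 : L ^ 2 * W * φ ≤ L ^ 2 * W * (7 / 5) :=
    mul_le_mul_of_nonneg_left hφ (by positivity)
  have h2 : W ^ 2 ≤ 8 * (L ^ 2 * Q) + 12800 * L ^ 4 := by
    have h3 : 0 ≤ (2 * P - 80 * L ^ 2) ^ 2 := sq_nonneg _
    have h4 : W ^ 2 = 4 * P ^ 2 + 320 * (P * L ^ 2) + 6400 * L ^ 4 := by rw [hW]; ring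
    have h5 : (2 * P - 80 * L ^ 2) ^ 2 = 4 * P ^ 2 - 320 * (P * L ^ 2) + 6400 * L ^ 4 := by ring
    rw [h5] at h3
    rw [h4]
    linarith
  have h6 : (1 + A) * (4 * W ^ 2 + 7 * Q) ≤ 101 / 100 * (4 * W ^ 2 + 7 * Q) :=
    mul_le_mul_of_nonneg_right (by linarith) (by positivity)
  have h7 : Q ≤ L ^ 2 * Q := le_mul_of_one_le_left hQ hL2
  have h8 : L ^ 2 * W = 2 * (L ^ 2 * P) + 80 * L ^ 4 := by rw [hW]; ring
  have h9 : 0 ≤ L ^ 2 * P := by positivity
  have h10 : 200 * L ^ 2 * φ * W = 200 * (L ^ 2 * W * φ) := by ring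
  have h11 : 100 * L ^ 2 * (6 * P + 800 * L ^ 2 + 44 / 100 * Q) =
      600 * (L ^ 2 * P) + 80000 * L ^ 4 + 44 * (L ^ 2 * Q) := by ring
  have h12 : L ^ 2 * W * φ ≤ 7 / 5 * (2 * (L ^ 2 * P) + 80 * L ^ 4) := by
    rw [← h8]
    linarith
  rw [h10, h11]
  linarith

private theorem hPoint_exp_le : Real.exp (1 / 100) ≤ 100 / 99 := by
  have h := Real.add_one_le_exp (-(1 / 100) : ℝ)
  rw [Real.exp_neg] at h
  have h1 : 0 < Real.exp (1 / 100) := Real.exp_pos _
  have h2 : (99 / 100 : ℝ) ≤ (Real.exp (1 / 100))⁻¹ := by linarith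
  have h3 := inv_anti₀ (by norm_num) h2
  rw [inv_inv] at h3
  linarith

private theorem hPoint_XX {x : ℝ} (hx : 0 < x) (h : |Real.log x| ≤ 1 / 100) :
    98 / 100 ≤ x ∧ x ≤ 100 / 99 := by
  obtain ⟨h1, h2⟩ := abs_le.1 h
  constructor
  · have h3 : Real.exp (-(1 / 100)) ≤ x := by
      rw [← Real.exp_log hx]
      exact Real.exp_le_exp.2 h1
    have h4 := Real.add_one_le_exp (-(1 / 100) : ℝ)
    linarith
  · have h3 : x ≤ Real.exp (1 / 100) := by
      rw [← Real.exp_log hx]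
      exact Real.exp_le_exp.2 h2
    exact h3.trans hPoint_exp_le

variable {V : Type} [Fintype V] [DecidableEq V]

/-! ### one time instant -/

private theorem hPoint_lam_pos {y u : ℝ} (hy : 0 < y) (hu : 0 ≤ u) : 0 < lam y u := by
  unfold lam
  positivity

private theorem hPoint_xb_pos {y u : ℝ} (hy : 0 < y) (hu : 0 ≤ u) : 0 < xb y u := by
  unfold xb
  positivity

private theorem hPoint_XX_pos (E : Finset (Finset V)) {y u : ℝ} (hy : 0 < y)
    (X : V → Finset V → ℝ → ℝ) (hB : Bethe E X) (hu : u ∈ Set.Icc (0 : ℝ) (1 / 2)) (v : V) :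
    0 < XX y X v u :=
  div_pos (x_pos E X hB v ∅ u hu) (hPoint_xb_pos hy hu.1)

private theorem hPoint_rho (E : Finset (Finset V)) (X : V → Finset V → ℝ → ℝ) (hB : Bethe E X)
    {u : ℝ} (hu0 : 0 ≤ u) (hu : u ≤ 1 / 10 ^ 8) (T : Finset V) (hT : T.card = 3) :
    1 ≤ rho X T u ∧ rho X T u ≤ 1001 / 1000 := by
  have hII : ∀ f, 0 ≤ II X f T u ∧ II X f T u ≤ 1 / 10 ^ 8 := fun f => by
    have := II_mem E X hB f T u ⟨hu0, hu.trans (by norm_num)⟩
    exact ⟨this.1, this.2.trans hu⟩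
  have h1 : ∀ f, 1 ≤ (1 - II X f T u)⁻¹ := fun f => by
    rw [one_le_inv₀ (by linarith [(hII f).2, (hII f).1,
      (by norm_num : (1 : ℝ) / 10 ^ 8 < 1)])]
    linarith [(hII f).1]
  have h2 : ∀ f, (1 - II X f T u)⁻¹ ≤ 10001 / 10000 := fun f => by
    have h3 : (10000 / 10001 : ℝ) ≤ 1 - II X f T u := by
      have := (hII f).2
      have h4 : (1 : ℝ) / 10 ^ 8 ≤ 1 - 10000 / 10001 := by norm_num
      linarith
    have h4 := inv_anti₀ (by norm_num) h3
    refine h4.trans (by norm_num)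
  constructor
  · calc (1 : ℝ) = ∏ _f ∈ T, (1 : ℝ) := by simp
      _ ≤ rho X T u := Finset.prod_le_prod (fun _ _ => by norm_num) fun f _ => h1 f
  · calc rho X T u ≤ ∏ _f ∈ T, (10001 / 10000 : ℝ) :=
          Finset.prod_le_prod (fun f _ => by linarith [h1 f]) fun f _ => h2 f
      _ = (10001 / 10000) ^ 3 := by rw [Finset.prod_const, hT]
      _ ≤ 1001 / 1000 := by norm_num

omit [Fintype V] [DecidableEq V] in
private theorem hPoint_prod {y u : ℝ} (hy : 0 < y) (hu : 0 ≤ u) (X : V → Finset V → ℝ → ℝ)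
    (S : Finset V) (hS : S.card = 2)
    (hXX : ∀ f ∈ S, 98 / 100 ≤ XX y X f u ∧ XX y X f u ≤ 100 / 99) :
    0 ≤ (∏ f ∈ S, X f ∅ u) / lam y u ∧
      (∏ f ∈ S, X f ∅ u) / lam y u ≤ (100 / 99) ^ 2 / y := by
  have hlam := hPoint_lam_pos hy hu
  have hxb := hPoint_xb_pos hy hu
  have hsq : xb y u ^ 2 / lam y u = 1 / y := by
    unfold xb lam
    have h1 : 0 < 1 + 2 * y * u := by positivity
    rw [div_pow, Real.sq_sqrt h1.le, one_pow]
    field_simp
  have hX : ∀ f ∈ S, X f ∅ u = xb y u * XX y X f u := fun f _ => by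
    unfold XX
    field_simp
  have h0 : ∏ f ∈ S, X f ∅ u = xb y u ^ 2 * ∏ f ∈ S, XX y X f u := by
    rw [Finset.prod_congr rfl hX, Finset.prod_mul_distrib, Finset.prod_const, hS]
  have h1 : 0 ≤ ∏ f ∈ S, XX y X f u :=
    Finset.prod_nonneg fun f hf => by linarith [(hXX f hf).1]
  have h2 : ∏ f ∈ S, XX y X f u ≤ (100 / 99) ^ 2 := by
    calc ∏ f ∈ S, XX y X f u ≤ ∏ _f ∈ S, (100 / 99 : ℝ) :=
          Finset.prod_le_prod (fun f hf => by linarith [(hXX f hf).1]) fun f hf => (hXX f hf).2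
      _ = (100 / 99) ^ 2 := by rw [Finset.prod_const, hS]
  have h3 : (∏ f ∈ S, X f ∅ u) / lam y u = (∏ f ∈ S, XX y X f u) / y := by
    rw [h0]
    calc (xb y u ^ 2 * ∏ f ∈ S, XX y X f u) / lam y u
        = (xb y u ^ 2 / lam y u) * ∏ f ∈ S, XX y X f u := by ring
      _ = _ := by rw [hsq]; ring
  rw [h3]
  exact ⟨by positivity, by gcongr⟩

/-- consequences of the bounds at one time instant -/
private theorem hPoint_snap (Vs : Finset V) (E : Finset (Finset V)) {y L : ℝ}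
    (hR : HReg Vs E y L) (hy : 0 < y) (X : V → Finset V → ℝ → ℝ) (hB : Bethe E X) {u a : ℝ}
    (hu0 : 0 ≤ u) (hu : u ≤ 1 / 10 ^ 8) (ha : a ≤ 1 / 100)
    (hal : ∀ v ∈ Vs, |al E y X v u| ≤ a) (hlog : ∀ v ∈ Vs, |Real.log (XX y X v u)| ≤ 1 / 100) :
    (∀ v ∈ Vs, 98 / 100 ≤ XX y X v u ∧ XX y X v u ≤ 100 / 99) ∧
    (∀ T ∈ E, 1 ≤ rho X T u ∧ rho X T u ≤ 1001 / 1000) ∧
    (∀ T ∈ E, 0 ≤ rr y X T u ∧ rr y X T u ≤ 31 / 10 / y) ∧
    (∀ T ∈ E, ∀ v ∈ T, 0 ≤ cc y X v T u) ∧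
    (∀ v ∈ Vs, 0 ≤ hh E y X v u ∧ hh E y X v u ≤ 16 / 5 / y) := by
  have hlam := hPoint_lam_pos hy hu0
  have hu2 : u ∈ Set.Icc (0 : ℝ) (1 / 2) := ⟨hu0, hu.trans (by norm_num)⟩
  have hXX : ∀ v ∈ Vs, 98 / 100 ≤ XX y X v u ∧ XX y X v u ≤ 100 / 99 := fun v hv =>
    hPoint_XX (hPoint_XX_pos E hy X hB hu2 v) (hlog v hv)
  have hrho : ∀ T ∈ E, 1 ≤ rho X T u ∧ rho X T u ≤ 1001 / 1000 := fun T hT =>
    hPoint_rho E X hB hu0 hu T (hR.card3 T hT)
  have hprod : ∀ T ∈ E, ∀ i ∈ T, 0 ≤ (∏ f ∈ T.erase i, X f ∅ u) / lam y u ∧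
      (∏ f ∈ T.erase i, X f ∅ u) / lam y u ≤ (100 / 99) ^ 2 / y := fun T hT i hi => by
    refine hPoint_prod hy hu0 X (T.erase i) ?_ fun f hf => hXX f (hR.sub T hT
      (Finset.mem_of_mem_erase hf))
    rw [Finset.card_erase_of_mem hi, hR.card3 T hT]
  have hcc : ∀ T ∈ E, ∀ v ∈ T, 0 ≤ cc y X v T u := fun T hT v hv => by
    have h1 := (hprod T hT v hv).1
    have h2 := (hrho T hT).1
    have : cc y X v T u = (∏ f ∈ T.erase v, X f ∅ u) / lam y u * rho X T u := by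
      unfold cc
      ring
    rw [this]
    exact mul_nonneg h1 (by linarith)
  have hrr : ∀ T ∈ E, 0 ≤ rr y X T u ∧ rr y X T u ≤ 31 / 10 / y := fun T hT => by
    have h2 := hrho T hT
    have h3 : rr y X T u = ∑ i ∈ T, rho X T u * ((∏ f ∈ T.erase i, X f ∅ u) / lam y u) := by
      unfold rr
      rw [Finset.sum_div]
      refine Finset.sum_congr rfl fun i _ => ?_
      ring
    rw [h3]
    constructor
    · exact Finset.sum_nonneg fun i hi => mul_nonneg (by linarith) (hprod T hT i hi).1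
    · calc ∑ i ∈ T, rho X T u * ((∏ f ∈ T.erase i, X f ∅ u) / lam y u)
          ≤ ∑ _i ∈ T, 1001 / 1000 * ((100 / 99) ^ 2 / y) :=
            Finset.sum_le_sum fun i hi =>
              mul_le_mul h2.2 (hprod T hT i hi).2 (hprod T hT i hi).1 (by norm_num)
        _ = 3 * (1001 / 1000 * ((100 / 99) ^ 2 / y)) := by
            rw [Finset.sum_const, hR.card3 T hT]
            norm_num
        _ = (3 * (1001 / 1000) * (100 / 99) ^ 2) / y := by ring
        _ ≤ 31 / 10 / y := by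
            gcongr
            norm_num
  refine ⟨hXX, hrho, hrr, hcc, fun v hv => ?_⟩
  have hmem : ∀ T ∈ star E v, T ∈ E ∧ v ∈ T := fun T hT => Finset.mem_filter.1 hT
  constructor
  · exact Finset.sum_nonneg fun T hT =>
      mul_nonneg (hcc T (hmem T hT).1 v (hmem T hT).2) (hrr T (hmem T hT).1).1
  · have h1 : hh E y X v u ≤ ∑ T ∈ star E v, cc y X v T u * (31 / 10 / y) :=
      Finset.sum_le_sum fun T hT => mul_le_mul_of_nonneg_left (hrr T (hmem T hT).1).2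
        (hcc T (hmem T hT).1 v (hmem T hT).2)
    rw [← Finset.sum_mul] at h1
    have h2 : ∑ T ∈ star E v, cc y X v T u = 1 + al E y X v u := by
      unfold al
      ring
    have h3 : 1 + al E y X v u ≤ 101 / 100 := by
      have := (abs_le.1 (hal v hv)).2
      linarith
    rw [h2] at h1
    calc hh E y X v u ≤ (1 + al E y X v u) * (31 / 10 / y) := h1
      _ ≤ 101 / 100 * (31 / 10 / y) := by gcongr
      _ = (101 / 100 * (31 / 10)) / y := by ring
      _ ≤ 16 / 5 / y := by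
          gcongr
          norm_num

/-- bound of the derivative of `gg` at one time instant -/
private theorem hPoint_gg (Vs : Finset V) (E : Finset (Finset V)) {y L : ℝ}
    (hR : HReg Vs E y L) (hy : 0 < y) (X : V → Finset V → ℝ → ℝ) (hB : Bethe E X) {u a G : ℝ}
    (hu0 : 0 ≤ u) (hu : u ≤ 1 / 10 ^ 8) (ha : a ≤ 1 / 100)
    (hal : ∀ v ∈ Vs, |al E y X v u| ≤ a) (hgg : ∀ v ∈ Vs, |gg E y X v u| ≤ G)
    (hlog : ∀ v ∈ Vs, |Real.log (XX y X v u)| ≤ 1 / 100) (v : V) (hv : v ∈ Vs) :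
    |∑ T ∈ star E v, cc y X v T u *
      ((rr y X T u - ∑ f ∈ T.erase v, al E y X f u) * (∑ f ∈ T.erase v, al E y X f u)
        - ∑ f ∈ T.erase v, (gg E y X f u - hh E y X f u))| ≤
      (1 + a) * (2 * G + 4 * a ^ 2 + 7 / y) := by
  obtain ⟨-, -, hrr, hcc, hhh⟩ := hPoint_snap Vs E hR hy X hB hu0 hu ha hal hlog
  have hmem : ∀ T ∈ star E v, T ∈ E ∧ v ∈ T := fun T hT => Finset.mem_filter.1 hT
  have ha0 : 0 ≤ a := (abs_nonneg _).trans (hal v hv)
  have hG0 : 0 ≤ G := (abs_nonneg _).trans (hgg v hv)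
  have hterm : ∀ T ∈ star E v, |(rr y X T u - ∑ f ∈ T.erase v, al E y X f u) *
      (∑ f ∈ T.erase v, al E y X f u) - ∑ f ∈ T.erase v, (gg E y X f u - hh E y X f u)| ≤
      2 * G + 4 * a ^ 2 + 7 / y := by
    intro T hT
    obtain ⟨hTE, hvT⟩ := hmem T hT
    have hcard : (T.erase v).card = 2 := by
      rw [Finset.card_erase_of_mem hvT, hR.card3 T hTE]
    have hsub : ∀ f ∈ T.erase v, f ∈ Vs := fun f hf =>
      hR.sub T hTE (Finset.mem_of_mem_erase hf)
    have hs : |∑ f ∈ T.erase v, al E y X f u| ≤ 2 * a := by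
      calc |∑ f ∈ T.erase v, al E y X f u| ≤ ∑ f ∈ T.erase v, |al E y X f u| :=
            Finset.abs_sum_le_sum_abs _ _
        _ ≤ ∑ _f ∈ T.erase v, a := Finset.sum_le_sum fun f hf => hal f (hsub f hf)
        _ = 2 * a := by rw [Finset.sum_const, hcard]; norm_num
    have hg : |∑ f ∈ T.erase v, (gg E y X f u - hh E y X f u)| ≤ 2 * (G + 16 / 5 / y) := by
      calc |∑ f ∈ T.erase v, (gg E y X f u - hh E y X f u)|
          ≤ ∑ f ∈ T.erase v, |gg E y X f u - hh E y X f u| := Finset.abs_sum_le_sum_abs _ _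
        _ ≤ ∑ _f ∈ T.erase v, (G + 16 / 5 / y) := Finset.sum_le_sum fun f hf => by
            refine (abs_sub _ _).trans (add_le_add (hgg f (hsub f hf)) ?_)
            rw [abs_of_nonneg (hhh f (hsub f hf)).1]
            exact (hhh f (hsub f hf)).2
        _ = 2 * (G + 16 / 5 / y) := by
            rw [Finset.sum_const, hcard, nsmul_eq_mul]
            push_cast
            ring
    obtain ⟨hr0, hr1⟩ := hrr T hTE
    have hrs : |rr y X T u - ∑ f ∈ T.erase v, al E y X f u| ≤ 31 / 10 / y + 2 * a := by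
      refine (abs_sub _ _).trans (add_le_add ?_ hs)
      rw [abs_of_nonneg hr0]
      exact hr1
    have hmul : |(rr y X T u - ∑ f ∈ T.erase v, al E y X f u) *
        (∑ f ∈ T.erase v, al E y X f u)| ≤ (31 / 10 / y + 2 * a) * (2 * a) := by
      rw [abs_mul]
      exact mul_le_mul hrs hs (abs_nonneg _) (by positivity)
    have hfin : (31 / 10 / y + 2 * a) * (2 * a) + 2 * (G + 16 / 5 / y) ≤
        2 * G + 4 * a ^ 2 + 7 / y := by
      have h1 : (31 / 10 / y) * (2 * a) ≤ (31 / 10 / y) * (2 * (1 / 100)) := by gcongr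
      have h2 : (31 / 10 / y) * (2 * (1 / 100)) + 2 * (16 / 5 / y) ≤ 7 / y := by
        have h3 : (31 / 10 / y) * (2 * (1 / 100)) + 2 * (16 / 5 / y) =
            (31 / 10 * (2 * (1 / 100)) + 2 * (16 / 5)) / y := by ring
        rw [h3]
        gcongr
        norm_num
      nlinarith
    exact (abs_sub _ _).trans ((add_le_add hmul hg).trans hfin)
  have hsum : ∑ T ∈ star E v, cc y X v T u = 1 + al E y X v u := by
    unfold al
    ring
  have hK0 : 0 ≤ 2 * G + 4 * a ^ 2 + 7 / y := by positivity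
  calc _ ≤ ∑ T ∈ star E v, |cc y X v T u *
      ((rr y X T u - ∑ f ∈ T.erase v, al E y X f u) * (∑ f ∈ T.erase v, al E y X f u)
        - ∑ f ∈ T.erase v, (gg E y X f u - hh E y X f u))| := Finset.abs_sum_le_sum_abs _ _
    _ ≤ ∑ T ∈ star E v, cc y X v T u * (2 * G + 4 * a ^ 2 + 7 / y) :=
        Finset.sum_le_sum fun T hT => by
          have h0 := hcc T (hmem T hT).1 v (hmem T hT).2
          rw [abs_mul, abs_of_nonneg h0]
          exact mul_le_mul_of_nonneg_left (hterm T hT) h0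
    _ = (1 + al E y X v u) * (2 * G + 4 * a ^ 2 + 7 / y) := by
        rw [← Finset.sum_mul, hsum]
    _ ≤ (1 + a) * (2 * G + 4 * a ^ 2 + 7 / y) := by
        have := (abs_le.1 (hal v hv)).2
        gcongr

/-! ### parameters and barriers -/

private theorem hPoint_par {y L y2 b ell : ℝ} (h : Par y L y2 b ell) :
    0 < y ∧ 0 < b ∧ b ≤ 1 / 2 ∧ L / Real.sqrt y ≤ 1 / 10 ^ 8 ∧
    ∀ u ∈ Set.Icc 0 b, u ≤ 1 / 10 ^ 8 ∧ L ^ 2 * u ≤ 1 / 10 ^ 8 ∧
      L / Real.sqrt y * Real.log (1 + 2 * y * u) ≤ 1 / 10 ^ 8 ∧ L ^ 2 / lam y u ≤ 1 / 10 ^ 8 ∧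
      0 ≤ Real.log (1 + 2 * y * u) ∧ 0 < lam y u ∧ lam y u ≤ y := by
  obtain ⟨hy, hy2, hy2y, hb0, hb1, hb2, -, -, hlam, -, hLe⟩ := par_facts h
  have hL := h.hL
  have hell := h.hell1
  have hL0 : 0 < L := by linarith
  have hs : 0 < Real.sqrt y := Real.sqrt_pos.2 hy
  have hy20 : 0 < y2 := by linarith [(by norm_num : (0 : ℝ) < 10 ^ 8)]
  have hL2 : 1 ≤ L ^ 2 := one_le_pow₀ hL
  -- `10^8 L^2 ≤ y2`
  have hLy2 : 10 ^ 8 * L ^ 2 ≤ y2 := by
    refine le_trans ?_ h.hy2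
    have h1 : L ^ 2 ≤ L ^ 8 := pow_le_pow_right₀ hL (by norm_num)
    have h2 : 1 ≤ ell ^ 8 := one_le_pow₀ hell
    have h3 : L ^ 8 ≤ L ^ 8 * ell ^ 8 := le_mul_of_one_le_right (by positivity) h2
    calc 10 ^ 8 * L ^ 2 ≤ 10 ^ 8 * (L ^ 8 * ell ^ 8) := by
          refine mul_le_mul_of_nonneg_left (h1.trans h3) (by positivity)
      _ = 10 ^ 8 * L ^ 8 * ell ^ 8 := by ring
  have hLell : L * ell ≤ Real.sqrt y / 10 ^ 8 := by
    refine le_trans ?_ hLe
    have h1 : 1 ≤ y2 ^ 20 := one_le_pow₀ (by linarith [(by norm_num : (1 : ℝ) ≤ 10 ^ 8)])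
    exact le_mul_of_one_le_right (by positivity) h1
  have hLell' : L / Real.sqrt y * ell ≤ 1 / 10 ^ 8 := by
    rw [div_mul_eq_mul_div, div_le_iff₀ hs]
    linarith
  have hLs : L / Real.sqrt y ≤ 1 / 10 ^ 8 :=
    le_trans (le_mul_of_one_le_right (by positivity) hell) hLell'
  refine ⟨hy, hb0, hb2, hLs, fun u hu => ?_⟩
  obtain ⟨h1, h2, h3⟩ := hlam u hu
  have hlp : 0 < lam y u := by linarith
  have hlog0 : 0 ≤ Real.log (1 + 2 * y * u) := by
    apply Real.log_nonneg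
    have := hu.1
    have : 0 ≤ 2 * y * u := by positivity
    linarith
  have hu1 : L ^ 2 * u ≤ 1 / 10 ^ 8 := by
    have h4 : u ≤ 1 / (2 * y2) := hu.2.trans hb1
    have h5 : L ^ 2 * u ≤ L ^ 2 * (1 / (2 * y2)) := mul_le_mul_of_nonneg_left h4 (by positivity)
    refine h5.trans ?_
    rw [mul_one_div, div_le_div_iff₀ (by positivity) (by positivity)]
    linarith
  refine ⟨?_, hu1, ?_, ?_, hlog0, hlp, h2⟩
  · exact (le_mul_of_one_le_left hu.1 hL2).trans hu1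
  · refine le_trans ?_ hLell'
    refine mul_le_mul_of_nonneg_left ?_ (by positivity)
    linarith
  · rw [div_le_div_iff₀ hlp (by positivity)]
    linarith

/-- auxiliary factor of the barrier of `gg` -/
private def hPointPhi (y L u : ℝ) : ℝ :=
  1 + 3 * (L / Real.sqrt y) * Real.log (1 + 2 * y * u) + 800 * L ^ 2 * u +
    22 / 100 * (1 - lam y u / y)

private def hPointPhi' (y L u : ℝ) : ℝ :=
  6 * (L * lam y u / Real.sqrt y) + 800 * L ^ 2 + 44 / 100 * (lam y u ^ 2 / y)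

/-- barrier of `gg` -/
private def hPointBg (y L u : ℝ) : ℝ := 100 * L ^ 2 * (hPointPhi y L u * (1 / lam y u))

private def hPointBg' (y L u : ℝ) : ℝ :=
  100 * L ^ 2 * (hPointPhi' y L u * (1 / lam y u) + hPointPhi y L u * 2)

/-- barrier of `log XX` -/
private def hPointBx (y L u : ℝ) : ℝ :=
  1 / 10 ^ 4 + 2 * (L / Real.sqrt y) * Real.log (1 + 2 * y * u) + 100 * L ^ 2 * u

private def hPointBx' (y L u : ℝ) : ℝ :=
  4 * (L * lam y u / Real.sqrt y) + 100 * L ^ 2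

private theorem hPoint_dPhi {y L u : ℝ} (hy : 0 < y) (hu : 0 ≤ u) :
    HasDerivAt (hPointPhi y L) (hPointPhi' y L u) u := by
  obtain ⟨h1, -, -, h4, -⟩ := lam_facts hy
  have e1 := (h4 u hu).const_mul (3 * (L / Real.sqrt y))
  have e2 := (hasDerivAt_id u).const_mul (800 * L ^ 2)
  have e3 := (((h1 u hu).div_const y).const_sub 1).const_mul (22 / 100 : ℝ)
  have e4 := ((e1.const_add 1).add e2).add e3
  refine (e4.congr_deriv ?_)
  unfold hPointPhi'
  ring

private theorem hPoint_dBg {y L u : ℝ} (hy : 0 < y) (hu : 0 ≤ u) :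
    HasDerivAt (hPointBg y L) (hPointBg' y L u) u := by
  obtain ⟨-, h2, -⟩ := lam_facts hy
  have e1 := ((hPoint_dPhi (L := L) hy hu).mul (h2 u hu)).const_mul (100 * L ^ 2)
  exact e1

private theorem hPoint_dBx {y L u : ℝ} (hy : 0 < y) (hu : 0 ≤ u) :
    HasDerivAt (hPointBx y L) (hPointBx' y L u) u := by
  obtain ⟨-, -, -, h4, -⟩ := lam_facts hy
  have e1 := (h4 u hu).const_mul (2 * (L / Real.sqrt y))
  have e2 := (hasDerivAt_id u).const_mul (100 * L ^ 2)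
  have e4 := (e1.const_add (1 / 10 ^ 4)).add e2
  refine (e4.congr_deriv ?_)
  unfold hPointBx'
  ring

private theorem hPoint_dab {y L u : ℝ} (hy : 0 < y) (hu : 0 ≤ u) :
    HasDerivAt (ab y L) (160 * L ^ 2) u := by
  obtain ⟨-, h2, -⟩ := lam_facts hy
  have e1 := ((h2 u hu).const_mul (80 * L ^ 2)).const_add (2 * L / Real.sqrt y)
  have e2 : (ab y L) = fun u => 2 * L / Real.sqrt y + 80 * L ^ 2 * (1 / lam y u) := by
    funext u
    unfold ab
    ring
  rw [e2]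
  refine (e1.congr_deriv ?_)
  ring

private theorem hPoint_sizes {y L y2 b ell : ℝ} (h : Par y L y2 b ell) {u : ℝ}
    (hu : u ∈ Set.Icc 0 b) : ab y L u ≤ 1 / 100 ∧ hPointPhi y L u ≤ 7 / 5 ∧
      hPointBx y L u ≤ 1 / 100 := by
  obtain ⟨hy, -, -, hLs, hfacts⟩ := hPoint_par h
  obtain ⟨-, h2, h3, h4, -, h6, h7⟩ := hfacts u hu
  refine ⟨?_, ?_, ?_⟩
  · have : ab y L u = 2 * (L / Real.sqrt y) + 80 * (L ^ 2 / lam y u) := by
      unfold ab
      ring
    rw [this]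
    have e1 : (2 : ℝ) * (1 / 10 ^ 8) + 80 * (1 / 10 ^ 8) ≤ 1 / 100 := by norm_num
    linarith
  · have h8 : 0 ≤ lam y u / y := by positivity
    have : hPointPhi y L u = 1 + 3 * (L / Real.sqrt y * Real.log (1 + 2 * y * u)) +
        800 * (L ^ 2 * u) + 22 / 100 * (1 - lam y u / y) := by
      unfold hPointPhi
      ring
    rw [this]
    have e1 : (1 : ℝ) + 3 * (1 / 10 ^ 8) + 800 * (1 / 10 ^ 8) + 22 / 100 ≤ 7 / 5 := by norm_num
    linarith
  · have : hPointBx y L u = 1 / 10 ^ 4 + 2 * (L / Real.sqrt y * Real.log (1 + 2 * y * u)) +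
        100 * (L ^ 2 * u) := by
      unfold hPointBx
      ring
    rw [this]
    have e1 : (1 : ℝ) / 10 ^ 4 + 2 * (1 / 10 ^ 8) + 100 * (1 / 10 ^ 8) ≤ 1 / 100 := by norm_num
    linarith

/-- the derivative of the barrier of `gg` dominates -/
private theorem hPoint_gg_lt {y L y2 b ell : ℝ} (h : Par y L y2 b ell) {u : ℝ}
    (hu : u ∈ Set.Icc 0 b) :
    lam y u * ((1 + ab y L u) * (2 * hPointBg y L u + 4 * ab y L u ^ 2 + 7 / y)) <
      hPointBg' y L u := by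
  obtain ⟨hy, -, -, hLs, hfacts⟩ := hPoint_par h
  obtain ⟨-, -, -, -, -, hl, -⟩ := hfacts u hu
  obtain ⟨hA, hphi, -⟩ := hPoint_sizes h hu
  have hL := h.hL
  have hs : 0 < Real.sqrt y := Real.sqrt_pos.2 hy
  have hss : Real.sqrt y ^ 2 = y := Real.sq_sqrt hy.le
  have hL0 : 0 < L := by linarith
  have hP : 0 ≤ L * lam y u / Real.sqrt y := by positivity
  have hQ : 0 ≤ lam y u ^ 2 / y := by positivity
  have hPQ : (L * lam y u / Real.sqrt y) ^ 2 = L ^ 2 * (lam y u ^ 2 / y) := by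
    rw [div_pow, hss]
    ring
  have hW : ab y L u * lam y u = 2 * (L * lam y u / Real.sqrt y) + 80 * L ^ 2 := by
    unfold ab
    field_simp
  have halg := hPoint_alg hL hP hQ hPQ hW hphi hA
  refine lt_of_mul_lt_mul_left ?_ hl.le
  have e1 : lam y u * (lam y u * ((1 + ab y L u) *
      (2 * hPointBg y L u + 4 * ab y L u ^ 2 + 7 / y))) =
      200 * L ^ 2 * hPointPhi y L u * lam y u +
      (200 * L ^ 2 * hPointPhi y L u * (ab y L u * lam y u) +
      (1 + ab y L u) * (4 * (ab y L u * lam y u) ^ 2 + 7 * (lam y u ^ 2 / y))) := by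
    unfold hPointBg
    field_simp
    ring
  have e2 : lam y u * hPointBg' y L u = 200 * L ^ 2 * hPointPhi y L u * lam y u +
      100 * L ^ 2 * (6 * (L * lam y u / Real.sqrt y) + 800 * L ^ 2 +
        44 / 100 * (lam y u ^ 2 / y)) := by
    unfold hPointBg' hPointPhi'
    field_simp
    ring
  rw [e1, e2]
  linarith

/-- the functions to be bounded -/
private def hPointF (E : Finset (Finset V)) (y : ℝ) (X : V → Finset V → ℝ → ℝ) :
    V × Fin 3 → ℝ → ℝ
  | (v, 0) => al E y X v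
  | (v, 1) => gg E y X v
  | (v, 2) => fun u => Real.log (XX y X v u)

private def hPointF' (E : Finset (Finset V)) (y : ℝ) (X : V → Finset V → ℝ → ℝ) :
    V × Fin 3 → ℝ → ℝ
  | (v, 0) => fun u => -(lam y u * (gg E y X v u - hh E y X v u))
  | (v, 1) => fun u => lam y u * ∑ T ∈ star E v, cc y X v T u *
      ((rr y X T u - ∑ f ∈ T.erase v, al E y X f u) * (∑ f ∈ T.erase v, al E y X f u)
        - ∑ f ∈ T.erase v, (gg E y X f u - hh E y X f u))
  | (v, 2) => fun u => -(lam y u * al E y X v u)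

private def hPointB (y L : ℝ) : V × Fin 3 → ℝ → ℝ
  | (_, 0) => ab y L
  | (_, 1) => hPointBg y L
  | (_, 2) => hPointBx y L

private def hPointB' (y L : ℝ) : V × Fin 3 → ℝ → ℝ
  | (_, 0) => fun _ => 160 * L ^ 2
  | (_, 1) => hPointBg' y L
  | (_, 2) => hPointBx' y L

private theorem hPoint_dF (E : Finset (Finset V)) {y : ℝ} (X : V → Finset V → ℝ → ℝ)
    (hB : Bethe E X) (hE : ∀ T ∈ E, T.card = 3) (hy : 0 < y) (i : V × Fin 3) {u : ℝ}
    (hu : u ∈ Set.Ioo (0 : ℝ) (1 / 2)) :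
    HasDerivAt (hPointF E y X i) (hPointF' E y X i u) u := by
  obtain ⟨v, j⟩ := i
  fin_cases j
  · exact d_al E y X hB hE hy v u hu
  · exact d_gg E y X hB hE hy v u hu
  · have hpos : 0 < XX y X v u := hPoint_XX_pos E hy X hB ⟨hu.1.le, hu.2.le⟩ v
    have h := (d_XX E y X hB hE hy v u hu).log hpos.ne'
    refine h.congr_deriv ?_
    change -(lam y u * XX y X v u * al E y X v u) / XX y X v u = -(lam y u * al E y X v u)
    field_simp

private theorem hPoint_cF (E : Finset (Finset V)) {y : ℝ} (X : V → Finset V → ℝ → ℝ)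
    (hB : Bethe E X) (hE : ∀ T ∈ E, T.card = 3) (hy : 0 < y) (i : V × Fin 3) :
    ContinuousOn (hPointF E y X i) (Set.Icc 0 (1 / 2)) := by
  obtain ⟨v, j⟩ := i
  fin_cases j
  · exact cont_al E y X hB hE hy v
  · exact cont_gg E y X hB hE hy v
  · exact (cont_XX E y X hB hE hy v).log fun u hu => (hPoint_XX_pos E hy X hB hu v).ne'

omit [Fintype V] [DecidableEq V] in
private theorem hPoint_dB {y L : ℝ} (hy : 0 < y) (i : V × Fin 3) {u : ℝ} (hu : 0 ≤ u) :
    HasDerivAt (hPointB y L i) (hPointB' y L i u) u := by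
  obtain ⟨v, j⟩ := i
  fin_cases j
  · exact hPoint_dab hy hu
  · exact hPoint_dBg hy hu
  · exact hPoint_dBx hy hu

private theorem hPoint_init (Vs : Finset V) (E : Finset (Finset V)) {y L : ℝ}
    (hR : HReg Vs E y L) (hL : 1 ≤ L) (hy : 0 < y) (X : V → Finset V → ℝ → ℝ)
    (hB : Bethe E X) (i : V × Fin 3) (hi : i.1 ∈ Vs) :
    |hPointF E y X i 0| < hPointB y L i 0 := by
  obtain ⟨v, j⟩ := i
  have hs : 0 < Real.sqrt y := Real.sqrt_pos.2 hy
  have hss : Real.sqrt y * Real.sqrt y = y := Real.mul_self_sqrt hy.le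
  have hL0 : 0 < L := by linarith
  have hlam0 : lam y 0 = y := by unfold lam; simp
  fin_cases j
  · change |al E y X v 0| < ab y L 0
    rw [init_al E y X hB hR.card3 hy v]
    have h1 := hR.p1 v hi
    have h2 : (deg E v : ℝ) / y - 1 = ((deg E v : ℝ) - y) / y := by field_simp
    rw [h2, abs_div, abs_of_pos hy]
    have h3 : |(deg E v : ℝ) - y| / y ≤ L / Real.sqrt y := by
      rw [div_le_div_iff₀ hy hs]
      calc |(deg E v : ℝ) - y| * Real.sqrt y ≤ (L * Real.sqrt y) * Real.sqrt y := by gcongr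
        _ = L * y := by rw [mul_assoc, hss]
    refine h3.trans_lt ?_
    unfold ab
    rw [hlam0]
    have h4 : 0 < L / Real.sqrt y := by positivity
    have h5 : 0 < 80 * L ^ 2 / y := by positivity
    have h6 : 2 * L / Real.sqrt y = 2 * (L / Real.sqrt y) := by ring
    rw [h6]
    linarith
  · change |gg E y X v 0| < hPointBg y L 0
    rw [init_gg E y X hB hR.card3 hy v]
    have h1 := hR.p2 v hi
    rw [abs_div, abs_of_pos (by positivity : (0 : ℝ) < y ^ 2)]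
    have h2 : hPointBg y L 0 = 100 * L ^ 2 / y := by
      unfold hPointBg hPointPhi
      rw [hlam0]
      simp
      field_simp
      simp
    rw [h2, div_lt_div_iff₀ (by positivity) hy]
    have h3 : L < 100 * L ^ 2 := by nlinarith
    calc |∑ T ∈ star E v, ∑ f ∈ T.erase v, ((deg E f : ℝ) - y)| * y ≤ (L * y) * y := by gcongr
      _ = L * y ^ 2 := by ring
      _ < 100 * L ^ 2 * y ^ 2 := by gcongr
  · change |Real.log (XX y X v 0)| < hPointBx y L 0
    rw [init_XX E y X hB hy v]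
    unfold hPointBx
    simp

private theorem hPoint_step (Vs : Finset V) (E : Finset (Finset V)) {y L y2 b ell : ℝ}
    (hR : HReg Vs E y L) (hP : Par y L y2 b ell) (X : V → Finset V → ℝ → ℝ)
    (hB : Bethe E X) {u : ℝ} (hu : u ∈ Set.Icc 0 b)
    (hall : ∀ j ∈ Vs ×ˢ (Finset.univ : Finset (Fin 3)), |hPointF E y X j u| ≤ hPointB y L j u)
    (i : V × Fin 3) (hi : i.1 ∈ Vs) : |hPointF' E y X i u| < hPointB' y L i u := by
  obtain ⟨hy, -, -, hLs, hfacts⟩ := hPoint_par hP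
  obtain ⟨hu8, -, -, -, -, hl, hly⟩ := hfacts u hu
  obtain ⟨hA, hphi, hBx⟩ := hPoint_sizes hP hu
  have hL := hP.hL
  have hL2 : 1 ≤ L ^ 2 := one_le_pow₀ hL
  have hs : 0 < Real.sqrt y := Real.sqrt_pos.2 hy
  have hal : ∀ v ∈ Vs, |al E y X v u| ≤ ab y L u := fun v hv =>
    hall (v, 0) (Finset.mem_product.2 ⟨hv, Finset.mem_univ _⟩)
  have hgg : ∀ v ∈ Vs, |gg E y X v u| ≤ hPointBg y L u := fun v hv =>
    hall (v, 1) (Finset.mem_product.2 ⟨hv, Finset.mem_univ _⟩)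
  have hlog : ∀ v ∈ Vs, |Real.log (XX y X v u)| ≤ 1 / 100 := fun v hv =>
    (hall (v, 2) (Finset.mem_product.2 ⟨hv, Finset.mem_univ _⟩)).trans hBx
  obtain ⟨v, j⟩ := i
  have hv : v ∈ Vs := hi
  obtain ⟨-, -, -, -, hhh⟩ := hPoint_snap Vs E hR hy X hB hu.1 hu8 hA hal hlog
  fin_cases j
  · change |-(lam y u * (gg E y X v u - hh E y X v u))| < 160 * L ^ 2
    rw [abs_neg, abs_mul, abs_of_pos hl]
    have h1 : |gg E y X v u - hh E y X v u| ≤ hPointBg y L u + 16 / 5 / y := by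
      refine (abs_sub _ _).trans (add_le_add (hgg v hv) ?_)
      rw [abs_of_nonneg (hhh v hv).1]
      exact (hhh v hv).2
    have h2 : lam y u * hPointBg y L u = 100 * L ^ 2 * hPointPhi y L u := by
      unfold hPointBg
      field_simp
    have h3 : lam y u * (16 / 5 / y) ≤ 16 / 5 := by
      rw [mul_div_assoc', div_le_iff₀ hy]
      linarith
    have h4 : L ^ 2 * hPointPhi y L u ≤ L ^ 2 * (7 / 5) :=
      mul_le_mul_of_nonneg_left hphi (by positivity)
    calc lam y u * |gg E y X v u - hh E y X v u|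
        ≤ lam y u * (hPointBg y L u + 16 / 5 / y) := mul_le_mul_of_nonneg_left h1 hl.le
      _ = lam y u * hPointBg y L u + lam y u * (16 / 5 / y) := by ring
      _ ≤ 100 * L ^ 2 * hPointPhi y L u + 16 / 5 := by rw [h2]; linarith
      _ < 160 * L ^ 2 := by linarith
  · change |lam y u * ∑ T ∈ star E v, cc y X v T u *
      ((rr y X T u - ∑ f ∈ T.erase v, al E y X f u) * (∑ f ∈ T.erase v, al E y X f u)
        - ∑ f ∈ T.erase v, (gg E y X f u - hh E y X f u))| < hPointBg' y L u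
    rw [abs_mul, abs_of_pos hl]
    refine lt_of_le_of_lt ?_ (hPoint_gg_lt hP hu)
    exact mul_le_mul_of_nonneg_left
      (hPoint_gg Vs E hR hy X hB hu.1 hu8 hA hal hgg hlog v hv) hl.le
  · change |-(lam y u * al E y X v u)| < hPointBx' y L u
    rw [abs_neg, abs_mul, abs_of_pos hl]
    have h1 : lam y u * ab y L u = 2 * (L * lam y u / Real.sqrt y) + 80 * L ^ 2 := by
      unfold ab
      field_simp
    have h2 : 0 ≤ L * lam y u / Real.sqrt y := by positivity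
    calc lam y u * |al E y X v u| ≤ lam y u * ab y L u :=
          mul_le_mul_of_nonneg_left (hal v hv) hl.le
      _ < hPointBx' y L u := by
          rw [h1]
          unfold hPointBx'
          linarith

private theorem hPoint_main (Vs : Finset V) (E : Finset (Finset V)) {y L y2 b ell : ℝ}
    (hR : HReg Vs E y L) (hP : Par y L y2 b ell) (X : V → Finset V → ℝ → ℝ)
    (hB : Bethe E X) : ∀ u ∈ Set.Icc 0 b, ∀ i ∈ Vs ×ˢ (Finset.univ : Finset (Fin 3)),
      |hPointF E y X i u| ≤ hPointB y L i u := by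
  obtain ⟨hy, hb0, hb2, -, -⟩ := hPoint_par hP
  refine barrier (Vs ×ˢ (Finset.univ : Finset (Fin 3))) (hPointF E y X) (hPointF' E y X)
    (hPointB y L) (hPointB' y L) b hb0.le ?_ ?_ ?_ ?_ ?_ ?_
  · intro i _
    exact (hPoint_cF E X hB hR.card3 hy i).mono (Set.Icc_subset_Icc_right hb2)
  · intro i _ u hu
    exact (hPoint_dB hy i hu.1).continuousAt.continuousWithinAt
  · intro i _ u hu
    exact hPoint_dF E X hB hR.card3 hy i ⟨hu.1, hu.2.trans_le hb2⟩
  · intro i _ u hu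
    exact hPoint_dB hy i hu.1.le
  · intro i hi
    exact hPoint_init Vs E hR hP.hL hy X hB i (Finset.mem_product.1 hi).1
  · intro u hu hall i hi _
    exact hPoint_step Vs E hR hP X hB ⟨hu.1.le, hu.2.le⟩ hall i (Finset.mem_product.1 hi).1

theorem pointwise (Vs : Finset V) (E : Finset (Finset V)) (y L y2 b ell : ℝ) (hR : HReg Vs E y L)
    (hP : Par y L y2 b ell) (X : V → Finset V → ℝ → ℝ) (hB : Bethe E X) :
    ∀ u ∈ Set.Icc 0 b, ∀ v ∈ Vs, |al E y X v u| ≤ ab y L u ∧ |gg E y X v u| ≤ 140 * L ^ 2 / lam y u ∧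
      |Real.log (XX y X v u)| ≤ 1 / 100 := by
  intro u hu v hv
  obtain ⟨-, -, -, -, hfacts⟩ := hPoint_par hP
  obtain ⟨-, -, -, -, -, hl, -⟩ := hfacts u hu
  obtain ⟨-, hphi, hBx⟩ := hPoint_sizes hP hu
  have hmain := hPoint_main Vs E hR hP X hB u hu
  refine ⟨hmain (v, 0) (Finset.mem_product.2 ⟨hv, Finset.mem_univ _⟩), ?_,
    (hmain (v, 2) (Finset.mem_product.2 ⟨hv, Finset.mem_univ _⟩)).trans hBx⟩
  refine (hmain (v, 1) (Finset.mem_product.2 ⟨hv, Finset.mem_univ _⟩)).trans ?_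
  change hPointBg y L u ≤ _
  unfold hPointBg
  rw [le_div_iff₀ hl]
  have h1 : 100 * L ^ 2 * (hPointPhi y L u * (1 / lam y u)) * lam y u =
      100 * L ^ 2 * hPointPhi y L u := by
    field_simp
  rw [h1]
  have h2 : L ^ 2 * hPointPhi y L u ≤ L ^ 2 * (7 / 5) :=
    mul_le_mul_of_nonneg_left hphi (by positivity)
  linarith

/-- consequences of the pointwise bounds -/
theorem pointwise' (Vs : Finset V) (E : Finset (Finset V)) (y L y2 b ell : ℝ) (hR : HReg Vs E y L)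
    (hP : Par y L y2 b ell) (X : V → Finset V → ℝ → ℝ) (hB : Bethe E X) :
    ∀ u ∈ Set.Icc 0 b, ab y L u ≤ 1 / 100 ∧ (∀ v ∈ Vs, hh E y X v u ∈ Set.Icc 0 (16 / 5 / y) ∧
      XX y X v u ∈ Set.Icc (98 / 100 : ℝ) (102 / 100)) ∧
      (∀ T ∈ E, rho X T u ∈ Set.Icc (1 : ℝ) (1001 / 1000) ∧ rr y X T u ∈ Set.Icc 0 (4 / y)) := by
  intro u hu
  obtain ⟨hy, -, -, -, hfacts⟩ := hPoint_par hP
  obtain ⟨hu8, -⟩ := hfacts u hu
  obtain ⟨hA, -, -⟩ := hPoint_sizes hP hu
  have hpw := pointwise Vs E y L y2 b ell hR hP X hB u hu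
  obtain ⟨hXX, hrho, hrr, -, hhh⟩ := hPoint_snap Vs E hR hy X hB hu.1 hu8 hA
    (fun v hv => (hpw v hv).1) fun v hv => (hpw v hv).2.2
  refine ⟨hA, fun v hv => ⟨⟨(hhh v hv).1, (hhh v hv).2⟩, ⟨(hXX v hv).1,
    (hXX v hv).2.trans (by norm_num)⟩⟩, fun T hT => ⟨⟨(hrho T hT).1, (hrho T hT).2⟩,
    ⟨(hrr T hT).1, (hrr T hT).2.trans ?_⟩⟩⟩
  gcongr
  norm_num

end

end Vale.Agent.P046.H
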