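import Vale.Agent.Lib.P046.HIter
import Vale.Agent.Lib.P046.HBethe
import Vale.Agent.Lib.P046.HOdeA
import Vale.Agent.Lib.P046.HPar
import Vale.Agent.Lib.P046.HPoint

/-!
# P046, part S2, H12: the iterates converge to the Bethe solution on `[0,b]`
-/

namespace Vale.Agent.P046.H

open Finset MeasureTheory

noncomputable section

variable {V : Type} [Fintype V] [DecidableEq V]

namespace HSup

/-- product comparison -/
theorem prod_comp {ι : Type*} (S : Finset ι) (A B : ι → ℝ) (β : ℝ) (hβ : β < 1)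
    (hAB : ∀ i ∈ S, A i ≤ B i) (hB : ∀ i ∈ S, B i ≤ β) :
    ∏ i ∈ S, (1 - A i) ≤
      (∏ i ∈ S, (1 - B i)) * Real.exp ((∑ i ∈ S, (B i - A i)) / (1 - β)) := by
  rw [Finset.sum_div, Real.exp_sum, ← Finset.prod_mul_distrib]
  apply Finset.prod_le_prod
  · intro i hi
    have h1 := hAB i hi
    have h2 := hB i hi
    linarith
  · intro i hi
    have h1 := hAB i hi
    have h2 := hB i hi
    have h3 : 0 < 1 - B i := by linarith
    have h5 : 0 < 1 - β := by linarith
    have h4 : (B i - A i) / (1 - B i) ≤ (B i - A i) / (1 - β) := by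
      apply div_le_div_of_nonneg_left (by linarith) h5 (by linarith)
    calc 1 - A i = (1 - B i) * ((B i - A i) / (1 - B i) + 1) := by
          field_simp
          ring
      _ ≤ (1 - B i) * Real.exp ((B i - A i) / (1 - B i)) := by
          apply mul_le_mul_of_nonneg_left _ h3.le
          exact Real.add_one_le_exp _
      _ ≤ (1 - B i) * Real.exp ((B i - A i) / (1 - β)) := by
          apply mul_le_mul_of_nonneg_left _ h3.le
          exact Real.exp_le_exp.2 h4

theorem exp_le {x : ℝ} (hx : 0 ≤ x) (hx1 : x ≤ 1 / 10) : Real.exp x - 1 ≤ 10 / 9 * x := by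
  have h1 : 1 - x ≤ Real.exp (-x) := by
    have := Real.add_one_le_exp (-x)
    linarith
  have h2 : Real.exp x * (1 - x) ≤ 1 := by
    calc Real.exp x * (1 - x) ≤ Real.exp x * Real.exp (-x) :=
          mul_le_mul_of_nonneg_left h1 (Real.exp_pos x).le
      _ = 1 := by rw [← Real.exp_add]; simp
  have h3 : (1 : ℝ) ≤ (1 + 10 / 9 * x) * (1 - x) := by nlinarith
  have h4 : 0 < 1 - x := by linarith
  have h5 : Real.exp x * (1 - x) ≤ (1 + 10 / 9 * x) * (1 - x) := h2.trans h3
  have h6 := le_of_mul_le_mul_right h5 h4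
  linarith

/-- the barrier -/
def mm (y : ℝ) (j : ℕ) (u : ℝ) : ℝ := (1 / 2) ^ j * (1 + 2 * y * u) ^ 21

theorem mm_cont (y : ℝ) (j : ℕ) : Continuous (mm y j) := by
  unfold mm
  fun_prop

theorem mm_nonneg {y : ℝ} (hy : 0 < y) (j : ℕ) {u : ℝ} (hu : 0 ≤ u) : 0 ≤ mm y j u := by
  unfold mm
  positivity

theorem mm_mono {y : ℝ} (hy : 0 < y) (j : ℕ) {u v : ℝ} (hu : 0 ≤ u) (huv : u ≤ v) :
    mm y j u ≤ mm y j v := by
  unfold mm
  gcongr

theorem lam_contOn {y : ℝ} (hy : 0 < y) (u : ℝ) : ContinuousOn (lam y) (Set.Icc 0 u) := by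
  unfold lam
  apply ContinuousOn.div
  · fun_prop
  · fun_prop
  · intro s hs
    have : 0 ≤ s := hs.1
    positivity

theorem lam_nonneg {y : ℝ} (hy : 0 < y) {s : ℝ} (hs : 0 ≤ s) : 0 ≤ lam y s := by
  unfold lam
  positivity

theorem int_lam_mm {y : ℝ} (hy : 0 < y) (j : ℕ) {u : ℝ} (hu : 0 ≤ u) :
    ∫ s in (0 : ℝ)..u, lam y s * mm y j s ≤ mm y j u / 42 := by
  have hderiv : ∀ x ∈ Set.uIcc (0 : ℝ) u,
      HasDerivAt (fun s => mm y j s / 42) (lam y x * mm y j x) x := by
    intro x hx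
    rw [Set.uIcc_of_le hu] at hx
    have hx0 : 0 ≤ x := hx.1
    have h1 : HasDerivAt (fun s : ℝ => 1 + 2 * y * s) (2 * y) x := by
      simpa using ((hasDerivAt_id x).const_mul (2 * y)).const_add 1
    have h2 := ((h1.pow 21).const_mul ((1 / 2 : ℝ) ^ j)).div_const 42
    unfold mm lam
    refine h2.congr_deriv ?_
    have h3 : (1 + 2 * y * x) ≠ 0 := by positivity
    rw [div_mul_eq_mul_div, eq_div_iff h3]
    push_cast
    ring
  have hint : IntervalIntegrable (fun s => lam y s * mm y j s) volume 0 u := by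
    apply ContinuousOn.intervalIntegrable
    rw [Set.uIcc_of_le hu]
    exact (lam_contOn hy u).mul (mm_cont y j).continuousOn
  rw [intervalIntegral.integral_eq_sub_of_hasDerivAt hderiv hint]
  have := mm_nonneg hy j (le_refl (0 : ℝ))
  linarith

section

variable (Vs : Finset V) (E : Finset (Finset V)) (y L y2 b ell : ℝ) (hR : HReg Vs E y L)
    (hP : Par y L y2 b ell) (X : V → Finset V → ℝ → ℝ) (hB : Bethe E X)

include hR hP hB

theorem inner {s : ℝ} (hs : s ∈ Set.Icc 0 b) {v : V} (hv : v ∈ Vs) (P : Finset V) :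
    ∑ T ∈ (star E v).erase P, ∏ f ∈ T.erase v, X f T s ≤ 101 / 100 * lam y s := by
  obtain ⟨hy, -, -, -, -, hb2, -⟩ := par_facts hP
  have hE := hR.card3
  have hs2 : s ∈ Set.Icc (0 : ℝ) (1 / 2) := ⟨hs.1, hs.2.trans hb2⟩
  have hlam : 0 < lam y s := by
    unfold lam
    have := hs.1
    positivity
  have hpt := (pointwise Vs E y L y2 b ell hR hP X hB s hs v hv).1
  have hab := (pointwise' Vs E y L y2 b ell hR hP X hB s hs).1
  have hnn : ∀ T : Finset V, 0 ≤ ∏ f ∈ T.erase v, X f T s := fun T =>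
    Finset.prod_nonneg fun f _ => (hB.mem f T s hs2).1
  have hterm : ∀ T ∈ star E v, ∏ f ∈ T.erase v, X f T s ≤ cc y X v T s * lam y s := by
    intro T hT
    obtain ⟨hTE, hvT⟩ := Finset.mem_filter.1 hT
    have hII : ∀ f, II X f T s ∈ Set.Icc 0 s := fun f => II_mem E X hB f T s hs2
    have hpos : ∀ f, 0 < 1 - II X f T s := by
      intro f
      have h1 := (hII f).2
      have h2 := hs2.2
      linarith
    have h1 : cc y X v T s * lam y s =
        (∏ f ∈ T.erase v, X f T s) * (1 - II X v T s)⁻¹ := by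
      unfold cc
      rw [div_mul_cancel₀ _ hlam.ne']
      unfold rho
      rw [← Finset.mul_prod_erase T _ hvT]
      have h2 : (∏ f ∈ T.erase v, X f ∅ s) * ((1 - II X v T s)⁻¹ *
          ∏ f ∈ T.erase v, (1 - II X f T s)⁻¹) =
          (∏ f ∈ T.erase v, X f ∅ s * (1 - II X f T s)⁻¹) * (1 - II X v T s)⁻¹ := by
        rw [Finset.prod_mul_distrib]
        ring
      rw [h2]
      congr 1
      apply Finset.prod_congr rfl
      intro f hf
      rw [x_split E X hB hE f T hTE (Finset.mem_of_mem_erase hf) s hs2, mul_assoc,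
        mul_inv_cancel₀ (hpos f).ne', mul_one]
    rw [h1]
    have h3 : 1 ≤ (1 - II X v T s)⁻¹ := by
      rw [one_le_inv₀ (hpos v)]
      have := (hII v).1
      linarith
    exact le_mul_of_one_le_right (hnn T) h3
  calc ∑ T ∈ (star E v).erase P, ∏ f ∈ T.erase v, X f T s
      ≤ ∑ T ∈ star E v, ∏ f ∈ T.erase v, X f T s :=
        Finset.sum_le_sum_of_subset_of_nonneg (Finset.erase_subset _ _) fun T _ _ => hnn T
    _ ≤ ∑ T ∈ star E v, cc y X v T s * lam y s := Finset.sum_le_sum hterm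
    _ = (1 + al E y X v s) * lam y s := by
        rw [← Finset.sum_mul]
        unfold al
        ring
    _ ≤ 101 / 100 * lam y s := by
        apply mul_le_mul_of_nonneg_right _ hlam.le
        have := (abs_le.1 hpt).2
        linarith

theorem sum_int {g : ℝ → ℝ} (hg : ContinuousOn g (Set.Icc 0 b))
    (hg0 : ∀ s ∈ Set.Icc 0 b, 0 ≤ g s) {u : ℝ} (hu : u ∈ Set.Icc 0 b) {v : V} (hv : v ∈ Vs)
    (P : Finset V) :
    ∑ T ∈ (star E v).erase P, ∫ s in (0 : ℝ)..u, (∏ f ∈ T.erase v, X f T s) * g s ≤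
      101 / 100 * ∫ s in (0 : ℝ)..u, lam y s * g s := by
  obtain ⟨hy, -, -, -, -, hb2, -⟩ := par_facts hP
  have hsub : Set.Icc 0 u ⊆ Set.Icc 0 b := Set.Icc_subset_Icc_right hu.2
  have hgu : ContinuousOn g (Set.Icc 0 u) := hg.mono hsub
  have hcX : ∀ T : Finset V, Continuous fun s => ∏ f ∈ T.erase v, X f T s := fun T =>
    continuous_finsetProd _ fun f _ => hB.cont f T
  have hint : ∀ T ∈ (star E v).erase P, IntervalIntegrable
      (fun s => (∏ f ∈ T.erase v, X f T s) * g s) volume 0 u := by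
    intro T _
    apply ContinuousOn.intervalIntegrable
    rw [Set.uIcc_of_le hu.1]
    exact (hcX T).continuousOn.mul hgu
  have hint2 : IntervalIntegrable (fun s => lam y s * g s) volume 0 u := by
    apply ContinuousOn.intervalIntegrable
    rw [Set.uIcc_of_le hu.1]
    exact (lam_contOn hy u).mul hgu
  rw [← intervalIntegral.integral_finsetSum hint, ← intervalIntegral.integral_const_mul]
  apply intervalIntegral.integral_mono_on hu.1
  · apply ContinuousOn.intervalIntegrable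
    rw [Set.uIcc_of_le hu.1]
    apply continuousOn_finsetSum
    intro T _
    exact (hcX T).continuousOn.mul hgu
  · exact hint2.const_mul _
  · intro s hs
    rw [← Finset.sum_mul]
    have h1 := inner Vs E y L y2 b ell hR hP X hB (hsub hs) hv P
    have h2 := hg0 s (hsub hs)
    calc (∑ T ∈ (star E v).erase P, ∏ f ∈ T.erase v, X f T s) * g s
        ≤ (101 / 100 * lam y s) * g s := mul_le_mul_of_nonneg_right h1 h2
      _ = 101 / 100 * (lam y s * g s) := by ring

theorem step_gen (big small : V → Finset V → ℝ → ℝ) (hbc : ∀ v P, Continuous (big v P))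
    (hsc : ∀ v P, Continuous (small v P))
    (hb01 : ∀ v P, ∀ s ∈ Set.Icc 0 b, big v P s ∈ Set.Icc (0 : ℝ) 1)
    (hs01 : ∀ v P, ∀ s ∈ Set.Icc 0 b, small v P s ∈ Set.Icc (0 : ℝ) 1)
    (hle : ∀ v P, ∀ s ∈ Set.Icc 0 b, small v P s ≤ big v P s)
    {g : ℝ → ℝ} (hg : ContinuousOn g (Set.Icc 0 b)) (hg0 : ∀ s ∈ Set.Icc 0 b, 0 ≤ g s)
    (hdiff : ∀ v ∈ Vs, ∀ T ∈ star E v, ∀ s ∈ Set.Icc 0 b,
      ∏ f ∈ T.erase v, big f T s - ∏ f ∈ T.erase v, small f T s ≤
        (∏ f ∈ T.erase v, X f T s) * g s)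
    {u : ℝ} (hu : u ∈ Set.Icc 0 b) {v : V} (hv : v ∈ Vs) (P : Finset V) :
    R E small v P u ≤ R E big v P u *
      Real.exp (102 / 100 * ∫ s in (0 : ℝ)..u, lam y s * g s) := by
  obtain ⟨hy, hy2, -, hb0, hb1, hb2, -⟩ := par_facts hP
  have hb3 : b ≤ 1 / (2 * 10 ^ 8) := by
    refine hb1.trans ?_
    apply one_div_le_one_div_of_le (by norm_num)
    linarith
  have hsub : Set.Icc 0 u ⊆ Set.Icc 0 b := Set.Icc_subset_Icc_right hu.2
  have hcb : ∀ T : Finset V, Continuous fun s => ∏ f ∈ T.erase v, big f T s := fun T =>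
    continuous_finsetProd _ fun f _ => hbc f T
  have hcs : ∀ T : Finset V, Continuous fun s => ∏ f ∈ T.erase v, small f T s := fun T =>
    continuous_finsetProd _ fun f _ => hsc f T
  have hcX : ∀ T : Finset V, Continuous fun s => ∏ f ∈ T.erase v, X f T s := fun T =>
    continuous_finsetProd _ fun f _ => hB.cont f T
  have hAB : ∀ T ∈ (star E v).erase P, ∫ s in (0 : ℝ)..u, ∏ f ∈ T.erase v, small f T s ≤
      ∫ s in (0 : ℝ)..u, ∏ f ∈ T.erase v, big f T s := by
    intro T _
    apply intervalIntegral.integral_mono_on hu.1 ((hcs T).intervalIntegrable _ _)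
      ((hcb T).intervalIntegrable _ _)
    intro s hs
    exact Finset.prod_le_prod (fun f _ => (hs01 f T s (hsub hs)).1)
      fun f _ => hle f T s (hsub hs)
  have hBb : ∀ T ∈ (star E v).erase P,
      ∫ s in (0 : ℝ)..u, ∏ f ∈ T.erase v, big f T s ≤ b := by
    intro T _
    have h1 : ∫ s in (0 : ℝ)..u, ∏ f ∈ T.erase v, big f T s ≤ ∫ _s in (0 : ℝ)..u, (1 : ℝ) := by
      apply intervalIntegral.integral_mono_on hu.1 ((hcb T).intervalIntegrable _ _)
        (continuous_const.intervalIntegrable _ _)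
      intro s hs
      exact Finset.prod_le_one (fun f _ => (hb01 f T s (hsub hs)).1)
        fun f _ => (hb01 f T s (hsub hs)).2
    rw [intervalIntegral.integral_const] at h1
    simp only [sub_zero, smul_eq_mul, mul_one] at h1
    exact h1.trans hu.2
  have hmain := prod_comp ((star E v).erase P)
    (fun T => ∫ s in (0 : ℝ)..u, ∏ f ∈ T.erase v, small f T s)
    (fun T => ∫ s in (0 : ℝ)..u, ∏ f ∈ T.erase v, big f T s) b (by linarith) hAB hBb
  unfold R
  refine hmain.trans ?_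
  apply mul_le_mul_of_nonneg_left _
    (Finset.prod_nonneg fun T hT => by
      have h1 := hBb T hT
      linarith)
  apply Real.exp_le_exp.2
  have hsum : ∑ T ∈ (star E v).erase P, ((∫ s in (0 : ℝ)..u, ∏ f ∈ T.erase v, big f T s) -
      ∫ s in (0 : ℝ)..u, ∏ f ∈ T.erase v, small f T s) ≤
      101 / 100 * ∫ s in (0 : ℝ)..u, lam y s * g s := by
    refine le_trans ?_ (sum_int Vs E y L y2 b ell hR hP X hB hg hg0 hu hv P)
    apply Finset.sum_le_sum
    intro T hT
    rw [← intervalIntegral.integral_sub ((hcb T).intervalIntegrable _ _)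
      ((hcs T).intervalIntegrable _ _)]
    apply intervalIntegral.integral_mono_on hu.1
      (((hcb T).sub (hcs T)).intervalIntegrable _ _)
    · apply ContinuousOn.intervalIntegrable
      rw [Set.uIcc_of_le hu.1]
      exact (hcX T).continuousOn.mul (hg.mono hsub)
    · intro s hs
      exact hdiff v hv T (Finset.mem_of_mem_erase hT) s (hsub hs)
  have hI : 0 ≤ ∫ s in (0 : ℝ)..u, lam y s * g s := by
    apply intervalIntegral.integral_nonneg hu.1
    intro s hs
    exact mul_nonneg (lam_nonneg hy hs.1) (hg0 s (hsub hs))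
  rw [div_le_iff₀ (by linarith)]
  have h5 : (101 / 100 : ℝ) ≤ 102 / 100 * (1 - b) := by
    have : (1 : ℝ) / (2 * 10 ^ 8) ≤ 1 / 1000 := by norm_num
    linarith
  calc _ ≤ 101 / 100 * ∫ s in (0 : ℝ)..u, lam y s * g s := hsum
    _ ≤ (102 / 100 * (1 - b)) * ∫ s in (0 : ℝ)..u, lam y s * g s :=
        mul_le_mul_of_nonneg_right h5 hI
    _ = _ := by ring

end

/-- the increasing bound -/
def dd (y : ℝ) (j : ℕ) (u : ℝ) : ℝ :=
  102 / 100 * ∫ s in (0 : ℝ)..u, lam y s * (Real.exp (2 * mm y j s) - 1)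

theorem dd_small {y : ℝ} (hy : 0 < y) (j : ℕ) {u : ℝ} (hu : 0 ≤ u) (hm : mm y j u ≤ 1 / 20) :
    dd y j u ≤ 6 / 100 * mm y j u := by
  unfold dd
  have h1 : ∫ s in (0 : ℝ)..u, lam y s * (Real.exp (2 * mm y j s) - 1) ≤
      ∫ s in (0 : ℝ)..u, 20 / 9 * (lam y s * mm y j s) := by
    apply intervalIntegral.integral_mono_on hu
    · apply ContinuousOn.intervalIntegrable
      rw [Set.uIcc_of_le hu]
      apply (lam_contOn hy u).mul
      apply Continuous.continuousOn
      have := mm_cont y j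
      fun_prop
    · apply IntervalIntegrable.const_mul
      apply ContinuousOn.intervalIntegrable
      rw [Set.uIcc_of_le hu]
      exact (lam_contOn hy u).mul (mm_cont y j).continuousOn
    · intro s hs
      have h2 := mm_mono hy j hs.1 hs.2
      have h3 := mm_nonneg hy j hs.1
      have h4 : Real.exp (2 * mm y j s) - 1 ≤ 10 / 9 * (2 * mm y j s) :=
        exp_le (by linarith) (by linarith)
      calc lam y s * (Real.exp (2 * mm y j s) - 1)
          ≤ lam y s * (10 / 9 * (2 * mm y j s)) :=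
            mul_le_mul_of_nonneg_left h4 (lam_nonneg hy hs.1)
        _ = 20 / 9 * (lam y s * mm y j s) := by ring
  rw [intervalIntegral.integral_const_mul] at h1
  have h5 := int_lam_mm hy j hu
  have h6 := mm_nonneg hy j hu
  linarith

section

variable (Vs : Finset V) (E : Finset (Finset V)) (y L y2 b ell : ℝ) (hR : HReg Vs E y L)
    (hP : Par y L y2 b ell) (X : V → Finset V → ℝ → ℝ) (hB : Bethe E X)

include hR hP hB

theorem prod_erase_exp {T : Finset V} {v : V} (hT : T ∈ star E v) (s c : ℝ) :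
    ∏ f ∈ T.erase v, (X f T s * Real.exp c) =
      (∏ f ∈ T.erase v, X f T s) * Real.exp (2 * c) := by
  obtain ⟨hTE, hvT⟩ := Finset.mem_filter.1 hT
  rw [Finset.prod_mul_distrib, Finset.prod_const, Finset.card_erase_of_mem hvT,
    hR.card3 T hTE, ← Real.exp_nat_mul]
  norm_num

theorem odd_step (j : ℕ) (ih : ∀ u ∈ Set.Icc 0 b, ∀ v ∈ Vs, ∀ P, Xit E (2 * j) v P u ≤
      X v P u * Real.exp (mm y j u)) {u : ℝ} (hu : u ∈ Set.Icc 0 b) {v : V} (hv : v ∈ Vs)
    (P : Finset V) : X v P u ≤ Xit E (2 * j + 1) v P u * Real.exp (dd y j u) := by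
  obtain ⟨hy, hy2, -, hb0, hb1, hb2, -⟩ := par_facts hP
  have hI12 : ∀ s ∈ Set.Icc 0 b, s ∈ Set.Icc (0 : ℝ) (1 / 2) := fun s hs =>
    ⟨hs.1, hs.2.trans hb2⟩
  have hI1 : ∀ s ∈ Set.Icc 0 b, s ∈ Set.Icc (0 : ℝ) 1 := fun s hs =>
    ⟨hs.1, (hs.2.trans hb2).trans (by norm_num)⟩
  have h := step_gen Vs E y L y2 b ell hR hP X hB (Xit E (2 * j)) X
    (fun v P => It_cont E _ (fun _ _ => continuous_const) _ v P) hB.cont
    (fun v P s hs => It_mem E _ (fun _ _ => continuous_const)
      (fun _ _ _ _ => ⟨zero_le_one, le_refl _⟩) _ v P s (hI1 s hs))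
    (fun v P s hs => hB.mem v P s (hI12 s hs))
    (fun v P s hs => (bethe_alt E X hB j v P s (hI12 s hs)).2)
    (g := fun s => Real.exp (2 * mm y j s) - 1)
    (by
      apply Continuous.continuousOn
      have := mm_cont y j
      fun_prop)
    (fun s hs => by
      have := mm_nonneg hy j hs.1
      have h2 : 1 ≤ Real.exp (2 * mm y j s) := Real.one_le_exp (by linarith)
      linarith)
    (fun w hw T hT s hs => by
      have h2 : ∏ f ∈ T.erase w, Xit E (2 * j) f T s ≤
          ∏ f ∈ T.erase w, (X f T s * Real.exp (mm y j s)) := by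
        apply Finset.prod_le_prod
        · intro f _
          exact (It_mem E _ (fun _ _ => continuous_const)
            (fun _ _ _ _ => ⟨zero_le_one, le_refl _⟩) _ f T s (hI1 s hs)).1
        · intro f hf
          apply ih s hs f _ T
          obtain ⟨hTE, -⟩ := Finset.mem_filter.1 hT
          exact hR.sub T hTE (Finset.mem_of_mem_erase hf)
      rw [prod_erase_exp Vs E y L y2 b ell hR hP X hB hT] at h2
      linarith) hu hv P
  have h3 : X v P u = R E X v P u := hB.eq v P u (hI12 u hu)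
  rw [h3]
  exact h

theorem even_bound (j : ℕ) (ih : ∀ u ∈ Set.Icc 0 b, ∀ v ∈ Vs, ∀ P, Xit E (2 * j) v P u ≤
      X v P u * Real.exp (mm y j u)) {u : ℝ} (hu : u ∈ Set.Icc 0 b) {v : V} (hv : v ∈ Vs)
    (P : Finset V) : X v P u * Real.exp (-(dd y j u)) ≤ Xit E (2 * j + 1) v P u := by
  have h := odd_step Vs E y L y2 b ell hR hP X hB j ih hu hv P
  calc X v P u * Real.exp (-(dd y j u))
      ≤ Xit E (2 * j + 1) v P u * Real.exp (dd y j u) * Real.exp (-(dd y j u)) :=
        mul_le_mul_of_nonneg_right h (Real.exp_pos _).le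
    _ = Xit E (2 * j + 1) v P u := by
        rw [mul_assoc, ← Real.exp_add]
        simp

theorem even_step (j : ℕ) (ih : ∀ u ∈ Set.Icc 0 b, ∀ v ∈ Vs, ∀ P, Xit E (2 * j) v P u ≤
      X v P u * Real.exp (mm y j u)) {u : ℝ} (hu : u ∈ Set.Icc 0 b) {v : V} (hv : v ∈ Vs)
    (P : Finset V) : Xit E (2 * (j + 1)) v P u ≤ X v P u * Real.exp (mm y (j + 1) u) := by
  obtain ⟨hy, hy2, -, hb0, hb1, hb2, -⟩ := par_facts hP
  have hI12 : ∀ s ∈ Set.Icc 0 b, s ∈ Set.Icc (0 : ℝ) (1 / 2) := fun s hs =>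
    ⟨hs.1, hs.2.trans hb2⟩
  have hI1 : ∀ s ∈ Set.Icc 0 b, s ∈ Set.Icc (0 : ℝ) 1 := fun s hs =>
    ⟨hs.1, (hs.2.trans hb2).trans (by norm_num)⟩
  have hX01 : ∀ v P, ∀ s ∈ Set.Icc 0 b, X v P s ∈ Set.Icc (0 : ℝ) 1 := fun v P s hs =>
    hB.mem v P s (hI12 s hs)
  -- the pointwise inequality
  have hdd : ∀ s ∈ Set.Icc 0 b, 1 - Real.exp (-(2 * dd y j s)) ≤ 350 / 17 * mm y j s := by
    intro s hs
    rcases le_or_gt (mm y j s) (1 / 20) with hm | hm
    · have h1 := dd_small hy j hs.1 hm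
      have h2 := Real.add_one_le_exp (-(2 * dd y j s))
      have h3 := mm_nonneg hy j hs.1
      linarith
    · have h2 := Real.exp_pos (-(2 * dd y j s))
      linarith
  have h := step_gen Vs E y L y2 b ell hR hP X hB X (Xit E (2 * j + 1)) hB.cont
    (fun v P => It_cont E _ (fun _ _ => continuous_const) _ v P) hX01
    (fun v P s hs => It_mem E _ (fun _ _ => continuous_const)
      (fun _ _ _ _ => ⟨zero_le_one, le_refl _⟩) _ v P s (hI1 s hs))
    (fun v P s hs => (bethe_alt E X hB j v P s (hI12 s hs)).1)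
    (g := fun s => 350 / 17 * mm y j s)
    (by
      apply Continuous.continuousOn
      have := mm_cont y j
      fun_prop)
    (fun s hs => by
      have := mm_nonneg hy j hs.1
      linarith)
    (fun w hw T hT s hs => by
      have h2 : ∏ f ∈ T.erase w, (X f T s * Real.exp (-(dd y j s))) ≤
          ∏ f ∈ T.erase w, Xit E (2 * j + 1) f T s := by
        apply Finset.prod_le_prod
        · intro f _
          exact mul_nonneg (hX01 f T s hs).1 (Real.exp_pos _).le
        · intro f hf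
          apply even_bound Vs E y L y2 b ell hR hP X hB j ih hs _ T
          obtain ⟨hTE, -⟩ := Finset.mem_filter.1 hT
          exact hR.sub T hTE (Finset.mem_of_mem_erase hf)
      rw [prod_erase_exp Vs E y L y2 b ell hR hP X hB hT] at h2
      have h3 : 0 ≤ ∏ f ∈ T.erase w, X f T s :=
        Finset.prod_nonneg fun f _ => (hX01 f T s hs).1
      have h4 := mul_le_mul_of_nonneg_left (hdd s hs) h3
      have h5 : (2 : ℝ) * -(dd y j s) = -(2 * dd y j s) := by ring
      rw [h5] at h2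
      linarith) hu hv P
  have h3 : X v P u = R E X v P u := hB.eq v P u (hI12 u hu)
  rw [← h3] at h
  have h4 : Xit E (2 * (j + 1)) v P u = R E (Xit E (2 * j + 1)) v P u := rfl
  rw [h4]
  refine h.trans ?_
  apply mul_le_mul_of_nonneg_left _ (hX01 v P u hu).1
  apply Real.exp_le_exp.2
  have h5 : ∫ s in (0 : ℝ)..u, lam y s * (350 / 17 * mm y j s) =
      350 / 17 * ∫ s in (0 : ℝ)..u, lam y s * mm y j s := by
    rw [← intervalIntegral.integral_const_mul]
    congr 1
    ext s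
    ring
  rw [h5]
  have h6 := int_lam_mm hy j hu.1
  have h7 : mm y (j + 1) u = mm y j u / 2 := by
    unfold mm
    rw [pow_succ]
    ring
  rw [h7]
  linarith

theorem base (u : ℝ) (hu : u ∈ Set.Icc 0 b) (v : V) (hv : v ∈ Vs) (P : Finset V) :
    Xit E (2 * 0) v P u ≤ X v P u * Real.exp (mm y 0 u) := by
  obtain ⟨hy, hy2, -, hb0, hb1, hb2, -⟩ := par_facts hP
  have hu2 : u ∈ Set.Icc (0 : ℝ) (1 / 2) := ⟨hu.1, hu.2.trans hb2⟩
  have h1 : Xit E (2 * 0) v P u = 1 := rfl
  rw [h1]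
  have hE := hR.card3
  -- the directed function is at least the vertex function
  have h2 : X v ∅ u ≤ X v P u := by
    by_cases hPs : P ∈ star E v
    · obtain ⟨hPE, hvP⟩ := Finset.mem_filter.1 hPs
      rw [x_split E X hB hE v P hPE hvP u hu2]
      have h3 := (II_mem E X hB v P u hu2).1
      have h4 := (hB.mem v P u hu2).1
      nlinarith
    · rw [x_noparent E X hB v P hPs u hu2 hE]
  have hXX := ((pointwise' Vs E y L y2 b ell hR hP X hB u hu).2.1 v hv).2.1
  have ht : (1 : ℝ) ≤ 1 + 2 * y * u := by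
    have := hu.1
    have h3 : 0 ≤ 2 * y * u := by positivity
    linarith
  set t : ℝ := 1 + 2 * y * u with htdef
  have hsq : 1 ≤ Real.sqrt t := Real.one_le_sqrt.2 ht
  have hsq2 : Real.sqrt t * Real.sqrt t = t := Real.mul_self_sqrt (by linarith)
  have hxb : xb y u = 1 / Real.sqrt t := rfl
  have h5 : 98 / 100 ≤ X v ∅ u * Real.sqrt t := by
    have h6 : XX y X v u = X v ∅ u * Real.sqrt t := by
      unfold XX
      rw [hxb]
      field_simp
    rw [← h6]
    exact hXX
  have h7 : t ≤ mm y 0 u := by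
    unfold mm
    rw [pow_zero, one_mul]
    exact le_self_pow₀ ht (by norm_num)
  have h8 : 1 + t ≤ Real.exp (mm y 0 u) := by
    have := Real.add_one_le_exp (mm y 0 u)
    linarith
  -- combine
  have h9 : 2 * Real.sqrt t ≤ 1 + t := by nlinarith
  have hX0 : 0 ≤ X v ∅ u := (hB.mem v ∅ u hu2).1
  calc (1 : ℝ) ≤ X v ∅ u * (2 * Real.sqrt t) := by linarith
    _ ≤ X v ∅ u * Real.exp (mm y 0 u) := mul_le_mul_of_nonneg_left (h9.trans h8) hX0
    _ ≤ X v P u * Real.exp (mm y 0 u) := mul_le_mul_of_nonneg_right h2 (Real.exp_pos _).le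

end

end HSup

open HSup in
theorem iter_sup (Vs : Finset V) (E : Finset (Finset V)) (y L y2 b ell : ℝ) (hR : HReg Vs E y L)
    (hP : Par y L y2 b ell) (X : V → Finset V → ℝ → ℝ) (hB : Bethe E X) (j : ℕ) :
    ∀ u ∈ Set.Icc 0 b, ∀ v ∈ Vs, ∀ P, Xit E (2 * j) v P u ≤
      X v P u * Real.exp ((1 / 2) ^ j * (1 + 2 * y * u) ^ 21) := by
  induction j with
  | zero =>
    intro u hu v hv P
    exact base Vs E y L y2 b ell hR hP X hB u hu v hv P
  | succ j ih =>
    intro u hu v hv P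
    exact even_step Vs E y L y2 b ell hR hP X hB j ih hu hv P

open HSup in
theorem iter_sup_odd (Vs : Finset V) (E : Finset (Finset V)) (y L y2 b ell : ℝ) (hR : HReg Vs E y L)
    (hP : Par y L y2 b ell) (X : V → Finset V → ℝ → ℝ) (hB : Bethe E X) (j : ℕ)
    (hj : (1 / 2 : ℝ) ^ j * (1 + 2 * y * b) ^ 21 ≤ 1 / 20) :
    ∀ u ∈ Set.Icc 0 b, ∀ v ∈ Vs, ∀ P, X v P u * Real.exp (-(3 * ((1 / 2) ^ j * (1 + 2 * y * u) ^ 21))) ≤
      Xit E (2 * j + 1) v P u := by
  intro u hu v hv P
  obtain ⟨hy, -, -, -, -, hb2, -⟩ := par_facts hP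
  have h1 := even_bound Vs E y L y2 b ell hR hP X hB j
    (iter_sup Vs E y L y2 b ell hR hP X hB j) hu hv P
  refine le_trans ?_ h1
  apply mul_le_mul_of_nonneg_left _ (hB.mem v P u ⟨hu.1, hu.2.trans hb2⟩).1
  apply Real.exp_le_exp.2
  have h2 : mm y j u ≤ 1 / 20 := (mm_mono hy j hu.1 hu.2).trans hj
  have h3 := dd_small hy j hu.1 h2
  have h4 := mm_nonneg hy j hu.1
  have h5 : (1 / 2 : ℝ) ^ j * (1 + 2 * y * u) ^ 21 = mm y j u := rfl
  rw [h5]
  linarith

end

end Vale.Agent.P046.H
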