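import Vale.Agent.Lib.P046.HDefs2
import Vale.Agent.Lib.P046.HIter
import Vale.Agent.Lib.P046.HBethe
import Vale.Agent.Lib.P046.HOdeA
import Vale.Agent.Lib.P046.HPar
import Vale.Agent.Lib.P046.HPoint
import Vale.Agent.Lib.P046.HSup

/-!
# P046, S2, module HComp: comparison of the iterates with the homogeneous recursion on [b,1]
-/

namespace Vale.Agent.P046.H

open Finset MeasureTheory

noncomputable section

/-! ### elementary inequalities -/

theorem hcomp_sub_le {p q M : ℝ} (hp : 0 < p) (hq : 0 < q) (hpM : p ≤ M) (hqM : q ≤ M) :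
    |p - q| ≤ M * |Real.log p - Real.log q| := by
  have key : ∀ a c : ℝ, 0 < a → 0 < c → a ≤ M → c ≤ a → a - c ≤ M * (Real.log a - Real.log c) := by
    intro a c ha hc haM hca
    have h1 : Real.log (c / a) ≤ c / a - 1 := Real.log_le_sub_one_of_pos (by positivity)
    rw [Real.log_div hc.ne' ha.ne'] at h1
    have h2 : 0 ≤ Real.log a - Real.log c := by
      have := Real.log_le_log hc hca
      linarith
    have h3 : a - c ≤ a * (Real.log a - Real.log c) := by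
      have h4 : a * (c / a - 1) = c - a := by
        field_simp
      nlinarith
    exact h3.trans (mul_le_mul_of_nonneg_right haM h2)
  rcases le_total q p with h | h
  · have h1 := key p q hp hq hpM h
    have h2 : 0 ≤ Real.log p - Real.log q := by
      have := Real.log_le_log hq h
      linarith
    rw [abs_of_nonneg (by linarith), abs_of_nonneg h2]
    exact h1
  · have h1 := key q p hq hp hqM h
    have h2 : 0 ≤ Real.log q - Real.log p := by
      have := Real.log_le_log hp h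
      linarith
    rw [abs_sub_comm p q, abs_sub_comm (Real.log p), abs_of_nonneg (by linarith),
      abs_of_nonneg h2]
    exact h1

theorem hcomp_log_one_sub {z : ℝ} (h0 : 0 ≤ z) (h1 : z ≤ 1 / 2) :
    -z - 2 * z ^ 2 ≤ Real.log (1 - z) ∧ Real.log (1 - z) ≤ -z := by
  have hpos : 0 < 1 - z := by linarith
  constructor
  · have h2 := Real.one_sub_inv_le_log_of_pos hpos
    have h3 : -z - 2 * z ^ 2 ≤ 1 - (1 - z)⁻¹ := by
      have h4 : 1 - (1 - z)⁻¹ = -z / (1 - z) := by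
        field_simp
        ring
      rw [h4, le_div_iff₀ hpos]
      nlinarith [mul_nonneg (sq_nonneg z) (sub_nonneg.2 h1), sq_nonneg z]
    linarith
  · have h2 := Real.log_le_sub_one_of_pos hpos
    linarith

/-- one factor -/
theorem hcomp_factor {A B α β : ℝ} (hA : 0 ≤ A) (hB : 0 ≤ B) (hAα : A ≤ α) (hBβ : B ≤ β)
    (hα : α ≤ 1 / 4) (hβ : β ≤ 1 / 4) :
    |Real.log (1 - A - B) - Real.log (1 - A) + B| ≤ 2 * α * β + 4 * β ^ 2 := by
  have h1 : 0 < 1 - A := by linarith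
  have h2 : 0 < 1 - A - B := by linarith
  obtain ⟨z, hz⟩ : ∃ z, z = B / (1 - A) := ⟨_, rfl⟩
  have hzB : z * (1 - A) = B := by
    rw [hz]
    field_simp
  have hz0 : 0 ≤ z := by
    rw [hz]
    positivity
  have hz1 : z ≤ 4 / 3 * β := by
    rw [hz, div_le_iff₀ h1]
    nlinarith
  have hz2 : z ≤ 1 / 2 := by linarith
  have hlog : Real.log (1 - A - B) - Real.log (1 - A) = Real.log (1 - z) := by
    rw [← Real.log_div h2.ne' h1.ne']
    congr 1
    rw [hz]
    field_simp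
  obtain ⟨h3, h4⟩ := hcomp_log_one_sub hz0 hz2
  have hβ0 : 0 ≤ β := hB.trans hBβ
  have hα0 : 0 ≤ α := hA.trans hAα
  have h5 : z - B = z * A := by
    rw [← hzB]
    ring
  have h6 : z * A ≤ 4 / 3 * β * α := mul_le_mul hz1 hAα hA (by positivity)
  have h7 : z ^ 2 ≤ (4 / 3 * β) ^ 2 := pow_le_pow_left₀ hz0 hz1 2
  have h8 : 0 ≤ z * A := mul_nonneg hz0 hA
  have h9 : 0 ≤ α * β := mul_nonneg hα0 hβ0
  rw [hlog, abs_le]
  constructor
  · nlinarith [sq_nonneg β]
  · nlinarith [sq_nonneg β]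

/-- the product -/
theorem hcomp_prod {ι : Type*} (S : Finset ι) (A B : ι → ℝ) {α β : ℝ}
    (hA : ∀ T ∈ S, 0 ≤ A T) (hB : ∀ T ∈ S, 0 ≤ B T) (hAα : ∀ T ∈ S, A T ≤ α)
    (hBβ : ∀ T ∈ S, B T ≤ β) (hα : α ≤ 1 / 4) (hβ : β ≤ 1 / 4) :
    |Real.log (∏ T ∈ S, (1 - A T - B T)) - Real.log (∏ T ∈ S, (1 - A T)) + ∑ T ∈ S, B T| ≤
      S.card * (2 * α * β + 4 * β ^ 2) := by
  rw [Real.log_prod (fun T hT => by
      have := hA T hT
      have := hB T hT
      have := hAα T hT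
      have := hBβ T hT
      exact (show 0 < 1 - A T - B T by linarith).ne'),
    Real.log_prod (fun T hT => by
      have := hA T hT
      have := hAα T hT
      exact (show 0 < 1 - A T by linarith).ne'), ← Finset.sum_sub_distrib,
    ← Finset.sum_add_distrib]
  refine (Finset.abs_sum_le_sum_abs _ _).trans ?_
  rw [← nsmul_eq_mul]
  exact Finset.sum_le_card_nsmul _ _ _ fun T hT =>
    hcomp_factor (hA T hT) (hB T hT) (hAα T hT) (hBβ T hT) hα hβ

/-! ### the step, abstract form -/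

/-- integrals over `[0,b]` and `[b,u]` -/
theorem hcomp_step {ι : Type*} (S : Finset ι) (g : ι → ℝ → ℝ) (w : ℝ → ℝ) (b u y : ℝ)
    (hb : 0 ≤ b) (hbu : b ≤ u) (hu1 : u ≤ 1) (hg : ∀ T ∈ S, Continuous (g T)) (hw : Continuous w)
    {α γ γ' : ℝ} (δ : ι → ℝ)
    (hg0 : ∀ T ∈ S, ∀ s ∈ Set.Icc 0 u, 0 ≤ g T s)
    (hA : ∀ T ∈ S, ∫ s in (0 : ℝ)..b, g T s ≤ α)
    (hγ : ∀ T ∈ S, ∀ s ∈ Set.Icc b u, g T s ≤ γ) (hγ0 : 0 ≤ γ)
    (hδ : ∀ T ∈ S, ∀ s ∈ Set.Icc b u, |g T s - w s ^ 2| ≤ δ T)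
    (hw2 : ∀ s ∈ Set.Icc b u, w s ^ 2 ≤ γ')
    (hα : α ≤ 1 / 4) (hγ4 : γ ≤ 1 / 4) :
    |Real.log (∏ T ∈ S, (1 - ∫ s in (0 : ℝ)..u, g T s)) -
        Real.log (∏ T ∈ S, (1 - ∫ s in (0 : ℝ)..b, g T s)) + y * ∫ s in b..u, w s ^ 2| ≤
      S.card * (2 * α * γ + 4 * γ ^ 2) + ∑ T ∈ S, δ T + |(S.card : ℝ) - y| * γ' := by
  have hsplit : ∀ T ∈ S, (1 - ∫ s in (0 : ℝ)..u, g T s) =
      1 - (∫ s in (0 : ℝ)..b, g T s) - ∫ s in b..u, g T s := by
    intro T hT
    rw [← intervalIntegral.integral_add_adjacent_intervals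
      ((hg T hT).intervalIntegrable 0 b) ((hg T hT).intervalIntegrable b u)]
    ring
  rw [Finset.prod_congr rfl hsplit]
  have hA0 : ∀ T ∈ S, 0 ≤ ∫ s in (0 : ℝ)..b, g T s := fun T hT =>
    intervalIntegral.integral_nonneg hb fun s hs => hg0 T hT s ⟨hs.1, hs.2.trans hbu⟩
  have hB0 : ∀ T ∈ S, 0 ≤ ∫ s in b..u, g T s := fun T hT =>
    intervalIntegral.integral_nonneg hbu fun s hs => hg0 T hT s ⟨hb.trans hs.1, hs.2⟩
  have hub1 : u - b ≤ 1 := by linarith
  have hub0 : 0 ≤ u - b := by linarith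
  have hBγ : ∀ T ∈ S, ∫ s in b..u, g T s ≤ γ := by
    intro T hT
    have h1 : ∫ s in b..u, g T s ≤ ∫ s in b..u, γ :=
      intervalIntegral.integral_mono_on hbu ((hg T hT).intervalIntegrable b u)
        intervalIntegrable_const fun s hs => hγ T hT s hs
    rw [intervalIntegral.integral_const, smul_eq_mul] at h1
    nlinarith
  have h1 := hcomp_prod S (fun T => ∫ s in (0 : ℝ)..b, g T s) (fun T => ∫ s in b..u, g T s)
    hA0 hB0 hA hBγ hα hγ4
  have hγ'0 : 0 ≤ γ' := (sq_nonneg (w b)).trans (hw2 b ⟨le_refl b, hbu⟩)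
  have hI : Continuous fun s => w s ^ 2 := hw.pow 2
  have hint0 : 0 ≤ ∫ s in b..u, w s ^ 2 :=
    intervalIntegral.integral_nonneg hbu fun s _ => sq_nonneg _
  have hint1 : ∫ s in b..u, w s ^ 2 ≤ γ' := by
    have h2 : ∫ s in b..u, w s ^ 2 ≤ ∫ s in b..u, γ' :=
      intervalIntegral.integral_mono_on hbu (hI.intervalIntegrable b u)
        intervalIntegrable_const fun s hs => hw2 s hs
    rw [intervalIntegral.integral_const, smul_eq_mul] at h2
    nlinarith
  have hδ' : ∀ T ∈ S, |(∫ s in b..u, g T s) - ∫ s in b..u, w s ^ 2| ≤ δ T := by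
    intro T hT
    rw [← intervalIntegral.integral_sub ((hg T hT).intervalIntegrable b u)
      (hI.intervalIntegrable b u)]
    have hd0 : 0 ≤ δ T := (abs_nonneg _).trans (hδ T hT b ⟨le_refl b, hbu⟩)
    have h3 : ‖∫ s in b..u, (g T s - w s ^ 2)‖ ≤ δ T * |u - b| := by
      apply intervalIntegral.norm_integral_le_of_norm_le_const
      intro s hs
      rw [Set.uIoc_of_le hbu] at hs
      exact hδ T hT s ⟨hs.1.le, hs.2⟩
    rw [Real.norm_eq_abs, abs_of_nonneg hub0] at h3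
    nlinarith
  have h4 : |∑ T ∈ S, (∫ s in b..u, g T s) - y * ∫ s in b..u, w s ^ 2| ≤
      ∑ T ∈ S, δ T + |(S.card : ℝ) - y| * γ' := by
    have h5 : ∑ T ∈ S, (∫ s in b..u, g T s) - y * ∫ s in b..u, w s ^ 2 =
        ∑ T ∈ S, ((∫ s in b..u, g T s) - ∫ s in b..u, w s ^ 2) +
          ((S.card : ℝ) - y) * ∫ s in b..u, w s ^ 2 := by
      rw [Finset.sum_sub_distrib, Finset.sum_const, nsmul_eq_mul]
      ring
    rw [h5]
    refine (abs_add_le _ _).trans (add_le_add ?_ ?_)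
    · exact (Finset.abs_sum_le_sum_abs _ _).trans (Finset.sum_le_sum hδ')
    · rw [abs_mul, abs_of_nonneg hint0]
      exact mul_le_mul_of_nonneg_left hint1 (abs_nonneg _)
  have h6 : Real.log (∏ T ∈ S, (1 - (∫ s in (0 : ℝ)..b, g T s) - ∫ s in b..u, g T s)) -
      Real.log (∏ T ∈ S, (1 - ∫ s in (0 : ℝ)..b, g T s)) + y * ∫ s in b..u, w s ^ 2 =
      (Real.log (∏ T ∈ S, (1 - (∫ s in (0 : ℝ)..b, g T s) - ∫ s in b..u, g T s)) -
      Real.log (∏ T ∈ S, (1 - ∫ s in (0 : ℝ)..b, g T s)) + ∑ T ∈ S, ∫ s in b..u, g T s) -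
      (∑ T ∈ S, (∫ s in b..u, g T s) - y * ∫ s in b..u, w s ^ 2) := by ring
  rw [h6]
  refine (abs_sub _ _).trans ?_
  linarith

/-! ### iterates -/

variable {V : Type} [Fintype V] [DecidableEq V]

theorem hcomp_Xit_cont (E : Finset (Finset V)) (i : ℕ) (v : V) (P : Finset V) :
    Continuous (Xit E i v P) :=
  It_cont E (fun _ _ _ => 1) (fun _ _ => continuous_const) i v P

theorem hcomp_Xit_mem (E : Finset (Finset V)) (i : ℕ) (v : V) (P : Finset V) (u : ℝ)
    (hu : u ∈ Set.Icc (0 : ℝ) 1) : Xit E i v P u ∈ Set.Icc (0 : ℝ) 1 :=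
  It_mem E (fun _ _ _ => 1) (fun _ _ => continuous_const)
    (fun _ _ _ _ => ⟨zero_le_one, le_refl _⟩) i v P u hu

theorem hcomp_W0_cont (E : Finset (Finset V)) (b : ℝ) (J : ℕ) (v : V) (P : Finset V) :
    Continuous (fun u => Xit E (2 * J) v P (min u b)) :=
  (hcomp_Xit_cont E (2 * J) v P).comp (continuous_id.min continuous_const)

theorem hcomp_Wt_cont (E : Finset (Finset V)) (b : ℝ) (J k : ℕ) (v : V) (P : Finset V) :
    Continuous (Wt E b J k v P) :=
  It_cont E _ (hcomp_W0_cont E b J) k v P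

theorem hcomp_Wt_mem (E : Finset (Finset V)) {b : ℝ} (hb : 0 ≤ b) (J k : ℕ) (v : V)
    (P : Finset V) (u : ℝ) (hu : u ∈ Set.Icc (0 : ℝ) 1) :
    Wt E b J k v P u ∈ Set.Icc (0 : ℝ) 1 :=
  It_mem E _ (hcomp_W0_cont E b J)
    (fun v P u hu => hcomp_Xit_mem E (2 * J) v P (min u b)
      ⟨le_min hu.1 hb, (min_le_left u b).trans hu.2⟩) k v P u hu

theorem hcomp_Wt_eq (E : Finset (Finset V)) (b : ℝ) (J k : ℕ) :
    ∀ (v : V) (P : Finset V) (u : ℝ), u ∈ Set.Icc 0 b →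
      Wt E b J k v P u = Xit E (2 * J + k) v P u := by
  induction k with
  | zero =>
    intro v P u hu
    show Xit E (2 * J) v P (min u b) = Xit E (2 * J) v P u
    rw [min_eq_left hu.2]
  | succ k ih =>
    intro v P u hu
    show R E (Wt E b J k) v P u = R E (Xit E (2 * J + k)) v P u
    unfold R
    apply Finset.prod_congr rfl
    intro T _
    congr 1
    apply intervalIntegral.integral_congr
    intro s hs
    rw [Set.uIcc_of_le hu.1] at hs
    exact Finset.prod_congr rfl fun f _ => ih f T s ⟨hs.1, hs.2.trans hu.2⟩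

theorem hcomp_Wt_anti (E : Finset (Finset V)) {b : ℝ} (hb : 0 ≤ b) (J k : ℕ) (v : V)
    (P : Finset V) (u : ℝ) (hbu : b ≤ u) (hu1 : u ≤ 1) :
    Wt E b J k v P u ≤ Wt E b J k v P b := by
  cases k with
  | zero =>
    show Xit E (2 * J) v P (min u b) ≤ Xit E (2 * J) v P (min b b)
    rw [min_eq_right hbu, min_self]
  | succ k =>
    exact R_anti_time E (Wt E b J k) (hcomp_Wt_cont E b J k) 1 le_rfl
      (fun v P u hu => hcomp_Wt_mem E hb J k v P u hu) v P b u hb hbu hu1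

theorem hcomp_wh_cont (y b : ℝ) (k : ℕ) : Continuous (wh y b k) := by
  induction k with
  | zero => exact continuous_const
  | succ k ih =>
    have h1 : Continuous fun u => ∫ s in b..u, wh y b k s ^ 2 :=
      intervalIntegral.continuous_primitive
        (fun a c => (ih.pow 2).intervalIntegrable a c) b
    exact continuous_const.mul (Real.continuous_exp.comp (continuous_const.mul h1).neg)

theorem hcomp_xb_pos {y u : ℝ} (hy : 0 < y) (hu : 0 ≤ u) : 0 < xb y u := by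
  unfold xb
  have : 0 < 1 + 2 * y * u := by positivity
  positivity

theorem hcomp_wh_mem {y b : ℝ} (hy : 0 < y) (hb : 0 ≤ b) (k : ℕ) (u : ℝ) (hbu : b ≤ u) :
    0 < wh y b k u ∧ wh y b k u ≤ xb y b := by
  have hx := hcomp_xb_pos hy hb
  cases k with
  | zero => exact ⟨hx, le_refl _⟩
  | succ k =>
    refine ⟨mul_pos hx (Real.exp_pos _), ?_⟩
    show xb y b * Real.exp (-(y * ∫ s in b..u, wh y b k s ^ 2)) ≤ xb y b
    have h1 : 0 ≤ ∫ s in b..u, wh y b k s ^ 2 :=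
      intervalIntegral.integral_nonneg hbu fun s _ => sq_nonneg _
    have h2 : Real.exp (-(y * ∫ s in b..u, wh y b k s ^ 2)) ≤ 1 := by
      rw [Real.exp_le_one_iff]
      have := mul_nonneg hy.le h1
      linarith
    nlinarith

/-! ### numerical facts -/

theorem hcomp_num {y L y2 b ell : ℝ} (hP : Par y L y2 b ell) :
    ell / y ≤ (L * y2 / Real.sqrt y) / 10 ^ 8 ∧ 1 / y ≤ (L * y2 / Real.sqrt y) / 10 ^ 8 ∧
    y2 / y ≤ (L * y2 / Real.sqrt y) / 10 ^ 8 ∧ y2 ^ 2 / y ≤ (L * y2 / Real.sqrt y) / 10 ^ 8 ∧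
    ell * y2 / y ≤ (L * y2 / Real.sqrt y) / 10 ^ 8 ∧ L * y2 / Real.sqrt y ≤ 1 / 10 ^ 8 := by
  obtain ⟨hy, hy2, _, _, _, _, _, _, _, _, hbig⟩ := par_facts hP
  have hL := hP.hL
  have hell := hP.hell1
  obtain ⟨s, hs⟩ : ∃ s, s = Real.sqrt y := ⟨_, rfl⟩
  have hs0 : 0 < s := by
    rw [hs]
    exact Real.sqrt_pos.2 hy
  have hsy : y = s * s := by rw [hs, Real.mul_self_sqrt hy.le]
  rw [← hs] at hbig ⊢
  have hy21 : (1 : ℝ) ≤ y2 := le_trans (by norm_num) hy2
  have hp1 : y2 ≤ y2 ^ 20 := by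
    calc y2 = y2 ^ 1 := (pow_one _).symm
      _ ≤ y2 ^ 20 := pow_le_pow_right₀ hy21 (by norm_num)
  have h1 : L * ell * y2 * 10 ^ 8 ≤ s := by
    rw [le_div_iff₀ (by norm_num)] at hbig
    refine le_trans ?_ hbig
    have : L * ell * y2 ≤ L * ell * y2 ^ 20 :=
      mul_le_mul_of_nonneg_left hp1 (by positivity)
    nlinarith
  have hLe : 1 ≤ L * ell := by nlinarith
  have hLy : 1 ≤ L * y2 := by nlinarith
  have hey : 1 ≤ ell * y2 := by nlinarith
  have h2 : ell * 10 ^ 8 ≤ s := by nlinarith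
  have h3 : y2 * 10 ^ 8 ≤ s := by nlinarith
  have h4 : L * y2 * 10 ^ 8 ≤ s := by nlinarith
  have h5 : (10 : ℝ) ^ 8 ≤ s := by nlinarith
  have hL0 : 0 < L := by linarith
  have e0 : (L * y2 / s) / 10 ^ 8 = (L * y2 * s / 10 ^ 8) / (s * s) := by
    field_simp
  rw [e0, hsy]
  have hss : 0 < s * s := mul_pos hs0 hs0
  refine ⟨?_, ?_, ?_, ?_, ?_, ?_⟩
  · rw [div_le_div_iff_of_pos_right hss, le_div_iff₀ (by norm_num)]
    nlinarith
  · rw [div_le_div_iff_of_pos_right hss, le_div_iff₀ (by norm_num)]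
    nlinarith
  · rw [div_le_div_iff_of_pos_right hss, le_div_iff₀ (by norm_num)]
    nlinarith [mul_le_mul_of_nonneg_left h5 (by positivity : (0 : ℝ) ≤ y2), mul_pos hs0 (by linarith : 0 < y2)]
  · rw [div_le_div_iff_of_pos_right hss, le_div_iff₀ (by norm_num)]
    nlinarith [mul_le_mul_of_nonneg_left h3 (by positivity : (0 : ℝ) ≤ y2), mul_pos hs0 (by linarith : 0 < y2)]
  · rw [div_le_div_iff_of_pos_right hss, le_div_iff₀ (by norm_num)]
    nlinarith [mul_le_mul_of_nonneg_left h2 (by positivity : (0 : ℝ) ≤ y2), mul_pos hs0 (by linarith : 0 < y2)]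
  · rw [div_le_div_iff₀ hs0 (by norm_num), one_mul]
    exact h4

/-! ### the Bethe solution on [0,b] -/

theorem hcomp_XX {Vs : Finset V} {E : Finset (Finset V)} {y L y2 b ell : ℝ}
    (hR : HReg Vs E y L) (hP : Par y L y2 b ell) {X : V → Finset V → ℝ → ℝ} (hB : Bethe E X)
    {v : V} (hv : v ∈ Vs) {u : ℝ} (hu : u ∈ Set.Icc 0 b) :
    X v ∅ u = XX y X v u * xb y u ∧ 98 / 100 ≤ XX y X v u ∧ XX y X v u ≤ 102 / 100 := by
  have hy : 0 < y := (par_facts hP).1
  obtain ⟨_, h1, _⟩ := pointwise' Vs E y L y2 b ell hR hP X hB u hu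
  have hx := hcomp_xb_pos hy hu.1
  refine ⟨?_, (h1 v hv).2.1, (h1 v hv).2.2⟩
  unfold XX
  field_simp

theorem hcomp_X_le {Vs : Finset V} {E : Finset (Finset V)} {y L y2 b ell : ℝ}
    (hR : HReg Vs E y L) (hP : Par y L y2 b ell) {X : V → Finset V → ℝ → ℝ} (hB : Bethe E X)
    {v : V} (hv : v ∈ Vs) (P : Finset V) {u : ℝ} (hu : u ∈ Set.Icc 0 b) :
    0 < X v P u ∧ X v P u ≤ 103 / 100 * xb y u := by
  obtain ⟨hy, hy2, _, hb0, hb1, hb2, _⟩ := par_facts hP
  have hu2 : u ∈ Set.Icc (0 : ℝ) (1 / 2) := ⟨hu.1, hu.2.trans hb2⟩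
  have hpos := x_pos E X hB v P u hu2
  refine ⟨hpos, ?_⟩
  obtain ⟨h1, _, h2⟩ := hcomp_XX hR hP hB hv hu
  have hx := hcomp_xb_pos hy hu.1
  have h3 : X v ∅ u ≤ 102 / 100 * xb y u := by
    rw [h1]
    exact mul_le_mul_of_nonneg_right h2 hx.le
  by_cases hPs : P ∈ star E v
  · have hPE : P ∈ E := (Finset.mem_filter.1 hPs).1
    have hvP : v ∈ P := (Finset.mem_filter.1 hPs).2
    have h4 := x_split E X hB hR.card3 v P hPE hvP u hu2
    have h5 := II_mem E X hB v P u hu2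
    have h6 : II X v P u ≤ 1 / 10 ^ 3 := by
      refine h5.2.trans (hu.2.trans (hb1.trans ?_))
      rw [div_le_div_iff₀ (by positivity) (by norm_num)]
      nlinarith
    have h7 : X v P u * (1 - 1 / 10 ^ 3) ≤ X v P u * (1 - II X v P u) :=
      mul_le_mul_of_nonneg_left (by linarith) hpos.le
    nlinarith
  · rw [x_noparent E X hB v P hPs u hu2 hR.card3]
    nlinarith

theorem hcomp_int_xb {y L y2 b ell : ℝ} (hP : Par y L y2 b ell) {c : ℝ} (hc : 0 ≤ c)
    (g : ℝ → ℝ) (hg : Continuous g) (h : ∀ s ∈ Set.Icc 0 b, g s ≤ c * xb y s ^ 2) :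
    ∫ s in (0 : ℝ)..b, g s ≤ c / 4 * (ell / y) := by
  obtain ⟨hy, hy2, _, hb0, hb1, hb2, _, _, hul, _⟩ := par_facts hP
  obtain ⟨hd, _, _, _, hxb, hint, _⟩ := lam_facts hy
  have hcont : ContinuousOn (lam y) (Set.uIcc 0 b) := by
    rw [Set.uIcc_of_le hb0.le]
    exact fun s hs => (hd s hs.1).continuousAt.continuousWithinAt
  have h1 : ∫ s in (0 : ℝ)..b, g s ≤ ∫ s in (0 : ℝ)..b, c / y * lam y s := by
    apply intervalIntegral.integral_mono_on hb0.le (hg.intervalIntegrable 0 b)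
    · exact (hcont.const_smul (c / y)).intervalIntegrable
    · intro s hs
      have h2 := h s hs
      rw [hxb s hs.1] at h2
      calc g s ≤ c * (lam y s / y) := h2
        _ = c / y * lam y s := by ring
  rw [intervalIntegral.integral_const_mul, hint b hb0.le] at h1
  have h3 := (hul b ⟨hb0.le, le_refl b⟩).2.2
  have h4 : 0 ≤ c / y := by positivity
  calc ∫ s in (0 : ℝ)..b, g s ≤ c / y * (Real.log (1 + 2 * y * b) / 2) := h1
    _ ≤ c / y * (ell / 2 / 2) := by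
        apply mul_le_mul_of_nonneg_left _ h4
        linarith
    _ = c / 4 * (ell / y) := by ring

theorem hcomp_prod_two {T : Finset V} (hT : T.card = 3) {v : V} (hv : v ∈ T) (F : V → ℝ)
    {c : ℝ} (h0 : ∀ f ∈ T.erase v, 0 ≤ F f) (hc : ∀ f ∈ T.erase v, F f ≤ c) :
    0 ≤ ∏ f ∈ T.erase v, F f ∧ ∏ f ∈ T.erase v, F f ≤ c ^ 2 := by
  have h1 : (T.erase v).card = 2 := by
    rw [Finset.card_erase_of_mem hv, hT]
  refine ⟨Finset.prod_nonneg h0, ?_⟩
  have h2 := Finset.prod_le_prod h0 hc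
  rwa [Finset.prod_const, h1] at h2

theorem hcomp_II {Vs : Finset V} {E : Finset (Finset V)} {y L y2 b ell : ℝ}
    (hR : HReg Vs E y L) (hP : Par y L y2 b ell) {X : V → Finset V → ℝ → ℝ} (hB : Bethe E X)
    {T : Finset V} (hT : T ∈ E) {v : V} (hv : v ∈ T) :
    0 ≤ II X v T b ∧ II X v T b ≤ 27 / 100 * (ell / y) := by
  obtain ⟨hy, hy2, _, hb0, hb1, hb2, _⟩ := par_facts hP
  have hell := hP.hell1
  have hb : b ∈ Set.Icc (0 : ℝ) (1 / 2) := ⟨hb0.le, hb2⟩
  refine ⟨(II_mem E X hB v T b hb).1, ?_⟩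
  have h1 : II X v T b ≤ (103 / 100) ^ 2 / 4 * (ell / y) := by
    apply hcomp_int_xb hP (by norm_num)
    · exact continuous_finsetProd _ fun f _ => hB.cont f T
    · intro s hs
      have h2 := (hcomp_prod_two (hR.card3 T hT) hv (fun f => X f T s)
        (c := 103 / 100 * xb y s)
        (fun f hf => (hcomp_X_le hR hP hB
          (hR.sub T hT (Finset.mem_of_mem_erase hf)) T hs).1.le)
        (fun f hf => (hcomp_X_le hR hP hB
          (hR.sub T hT (Finset.mem_of_mem_erase hf)) T hs).2)).2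
      calc ∏ f ∈ T.erase v, X f T s ≤ (103 / 100 * xb y s) ^ 2 := h2
        _ = _ := by ring
  have h3 : 0 ≤ ell / y := by positivity
  nlinarith

theorem hcomp_logX {Vs : Finset V} {E : Finset (Finset V)} {y L y2 b ell : ℝ}
    (hR : HReg Vs E y L) (hP : Par y L y2 b ell) {X : V → Finset V → ℝ → ℝ} (hB : Bethe E X)
    {v : V} (hv : v ∈ Vs) (P : Finset V) :
    |Real.log (X v P b) - Real.log (xb y b)| ≤
      |Real.log (XX y X v b)| + 4 / 10 * (ell / y) := by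
  obtain ⟨hy, hy2, _, hb0, hb1, hb2, _⟩ := par_facts hP
  have hell := hP.hell1
  have hb : b ∈ Set.Icc (0 : ℝ) (1 / 2) := ⟨hb0.le, hb2⟩
  have hbb : b ∈ Set.Icc (0 : ℝ) b := ⟨hb0.le, le_refl b⟩
  obtain ⟨h1, h2, _⟩ := hcomp_XX hR hP hB hv hbb
  have hx := hcomp_xb_pos hy hb0.le
  have hXX : 0 < XX y X v b := by linarith
  have h3 : Real.log (X v ∅ b) - Real.log (xb y b) = Real.log (XX y X v b) := by
    rw [h1, Real.log_mul hXX.ne' hx.ne']
    ring
  have h4 : 0 ≤ ell / y := by positivity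
  by_cases hPs : P ∈ star E v
  · have hPE : P ∈ E := (Finset.mem_filter.1 hPs).1
    have hvP : v ∈ P := (Finset.mem_filter.1 hPs).2
    have h5 := x_split E X hB hR.card3 v P hPE hvP b hb
    obtain ⟨h6, h7⟩ := hcomp_II hR hP hB hPE hvP
    have hpos := x_pos E X hB v P b hb
    have hnum := hcomp_num hP
    have h8 : II X v P b ≤ 1 / 10 ^ 3 := by
      have := hnum.1
      have := hnum.2.2.2.2.2
      nlinarith
    have h9 : 0 < 1 - II X v P b := by linarith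
    have h10 : Real.log (X v ∅ b) = Real.log (X v P b) + Real.log (1 - II X v P b) := by
      rw [h5, Real.log_mul hpos.ne' h9.ne']
    obtain ⟨h11, h12⟩ := hcomp_log_one_sub h6 (by linarith)
    have h13 : Real.log (X v P b) - Real.log (xb y b) =
        Real.log (XX y X v b) + (-Real.log (1 - II X v P b)) := by
      rw [← h3, h10]
      ring
    rw [h13]
    refine (abs_add_le _ _).trans (add_le_add le_rfl ?_)
    rw [abs_of_nonneg (by linarith)]
    nlinarith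
  · rw [x_noparent E X hB v P hPs b hb hR.card3, h3]
    linarith

/-! ### iterates on [0,b] -/

theorem hcomp_iter {Vs : Finset V} {E : Finset (Finset V)} {y L y2 b ell : ℝ}
    (hR : HReg Vs E y L) (hP : Par y L y2 b ell) {X : V → Finset V → ℝ → ℝ} (hB : Bethe E X)
    {J : ℕ} (hJ : 3 * ((1 / 2 : ℝ) ^ J * (1 + 2 * y * b) ^ 21) ≤ 1 / y) {i : ℕ} (hi : 2 * J ≤ i)
    {v : V} (hv : v ∈ Vs) (P : Finset V) {u : ℝ} (hu : u ∈ Set.Icc 0 b) :
    X v P u * Real.exp (-(1 / y)) ≤ Xit E i v P u ∧ Xit E i v P u ≤ X v P u * Real.exp (1 / y) := by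
  obtain ⟨hy, hy2, _, hb0, hb1, hb2, _⟩ := par_facts hP
  have hu2 : u ∈ Set.Icc (0 : ℝ) (1 / 2) := ⟨hu.1, hu.2.trans hb2⟩
  have hu1 : u ∈ Set.Icc (0 : ℝ) 1 := ⟨hu.1, (hu.2.trans hb2).trans (by norm_num)⟩
  have hX := (hcomp_X_le hR hP hB hv P hu).1
  obtain ⟨m, hm⟩ : ∃ m : ℝ, m = (1 / 2 : ℝ) ^ J * (1 + 2 * y * b) ^ 21 := ⟨_, rfl⟩
  rw [← hm] at hJ
  have hmu : (1 / 2 : ℝ) ^ J * (1 + 2 * y * u) ^ 21 ≤ m := by
    rw [hm]
    apply mul_le_mul_of_nonneg_left _ (by positivity)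
    apply pow_le_pow_left₀
    · have := mul_nonneg hy.le hu.1
      linarith
    · have := mul_le_mul_of_nonneg_left hu.2 hy.le
      linarith
  have hm0 : 0 ≤ m := by
    rw [hm]
    positivity
  have hnum := hcomp_num hP
  have hy1 : 1 / y ≤ 1 / 10 ^ 8 := by
    have := hnum.2.1
    have := hnum.2.2.2.2.2
    linarith
  have hyp : 0 < 1 / y := by positivity
  constructor
  · rcases Nat.lt_or_ge (2 * J) i with hlt | hge
    · have h1 := iter_sup_odd Vs E y L y2 b ell hR hP X hB J (by rw [← hm]; linarith) u hu v hv P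
      have h2 := (Xit_alt E (2 * J + 1) i hlt v P u hu1).2 (by simp)
      refine le_trans ?_ (h1.trans h2)
      apply mul_le_mul_of_nonneg_left _ hX.le
      rw [Real.exp_le_exp]
      linarith
    · have h3 : i = 2 * J := le_antisymm hge hi
      subst h3
      have h4 := (bethe_alt E X hB J v P u hu2).2
      refine le_trans ?_ h4
      have h5 : Real.exp (-(1 / y)) ≤ 1 := by
        rw [Real.exp_le_one_iff]
        linarith
      nlinarith
  · have h1 := iter_sup Vs E y L y2 b ell hR hP X hB J u hu v hv P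
    have h2 := (Xit_alt E (2 * J) i hi v P u hu1).1 (by simp)
    refine (h2.trans h1).trans ?_
    apply mul_le_mul_of_nonneg_left _ hX.le
    rw [Real.exp_le_exp]
    linarith

theorem hcomp_iter_le {Vs : Finset V} {E : Finset (Finset V)} {y L y2 b ell : ℝ}
    (hR : HReg Vs E y L) (hP : Par y L y2 b ell) {X : V → Finset V → ℝ → ℝ} (hB : Bethe E X)
    {J : ℕ} (hJ : 3 * ((1 / 2 : ℝ) ^ J * (1 + 2 * y * b) ^ 21) ≤ 1 / y) {i : ℕ} (hi : 2 * J ≤ i)
    {v : V} (hv : v ∈ Vs) (P : Finset V) {u : ℝ} (hu : u ∈ Set.Icc 0 b) :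
    0 < Xit E i v P u ∧ Xit E i v P u ≤ 104 / 100 * xb y u := by
  obtain ⟨hy, _⟩ := par_facts hP
  obtain ⟨h1, h2⟩ := hcomp_iter hR hP hB hJ hi hv P hu
  obtain ⟨h3, h4⟩ := hcomp_X_le hR hP hB hv P hu
  have hx := hcomp_xb_pos hy hu.1
  refine ⟨lt_of_lt_of_le (mul_pos h3 (Real.exp_pos _)) h1, h2.trans ?_⟩
  have hnum := hcomp_num hP
  have hy1 : 1 / y ≤ 1 / 10 ^ 8 := by
    have := hnum.2.1
    have := hnum.2.2.2.2.2
    linarith
  have hyp : 0 < 1 / y := by positivity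
  have h5 : Real.exp (1 / y) ≤ 1001 / 1000 := by
    have h6 := Real.exp_bound_div_one_sub_of_interval hyp.le (by linarith)
    refine h6.trans ?_
    rw [div_le_iff₀ (by linarith)]
    linarith
  calc X v P u * Real.exp (1 / y) ≤ (103 / 100 * xb y u) * (1001 / 1000) :=
        mul_le_mul h4 h5 (Real.exp_pos _).le (by positivity)
    _ ≤ 104 / 100 * xb y u := by nlinarith

theorem hcomp_logXit {Vs : Finset V} {E : Finset (Finset V)} {y L y2 b ell : ℝ}
    (hR : HReg Vs E y L) (hP : Par y L y2 b ell) {X : V → Finset V → ℝ → ℝ} (hB : Bethe E X)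
    {J : ℕ} (hJ : 3 * ((1 / 2 : ℝ) ^ J * (1 + 2 * y * b) ^ 21) ≤ 1 / y) {i : ℕ} (hi : 2 * J ≤ i)
    {v : V} (hv : v ∈ Vs) (P : Finset V) :
    |Real.log (Xit E i v P b) - Real.log (xb y b)| ≤
      |Real.log (XX y X v b)| + (L * y2 / Real.sqrt y) / 10 ^ 7 := by
  obtain ⟨hy, _, _, hb0, _⟩ := par_facts hP
  have hbb : b ∈ Set.Icc (0 : ℝ) b := ⟨hb0.le, le_refl b⟩
  obtain ⟨h1, h2⟩ := hcomp_iter hR hP hB hJ hi hv P hbb
  obtain ⟨h3, _⟩ := hcomp_X_le hR hP hB hv P hbb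
  have h4 := hcomp_logX hR hP hB hv P
  have hnum := hcomp_num hP
  have h5 : |Real.log (Xit E i v P b) - Real.log (X v P b)| ≤ 1 / y := by
    have h6 : 0 < Xit E i v P b := lt_of_lt_of_le (mul_pos h3 (Real.exp_pos _)) h1
    have h7 := Real.log_le_log (mul_pos h3 (Real.exp_pos _)) h1
    have h8 := Real.log_le_log h6 h2
    rw [Real.log_mul h3.ne' (Real.exp_pos _).ne', Real.log_exp] at h7 h8
    rw [abs_le]
    constructor <;> linarith
  have h9 : Real.log (Xit E i v P b) - Real.log (xb y b) =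
      (Real.log (Xit E i v P b) - Real.log (X v P b)) +
        (Real.log (X v P b) - Real.log (xb y b)) := by ring
  rw [h9]
  refine (abs_add_le _ _).trans ?_
  have := hnum.1
  have := hnum.2.1
  have : 0 < 1 / y := by positivity
  linarith

theorem hcomp_A {Vs : Finset V} {E : Finset (Finset V)} {y L y2 b ell : ℝ}
    (hR : HReg Vs E y L) (hP : Par y L y2 b ell) {X : V → Finset V → ℝ → ℝ} (hB : Bethe E X)
    {J : ℕ} (hJ : 3 * ((1 / 2 : ℝ) ^ J * (1 + 2 * y * b) ^ 21) ≤ 1 / y) (k : ℕ)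
    {T : Finset V} (hT : T ∈ E) {v : V} (hv : v ∈ T) :
    ∫ s in (0 : ℝ)..b, ∏ f ∈ T.erase v, Wt E b J k f T s ≤ 3 / 10 * (ell / y) := by
  obtain ⟨hy, hy2, _, hb0, hb1, hb2, _⟩ := par_facts hP
  have hell := hP.hell1
  have h1 : ∫ s in (0 : ℝ)..b, ∏ f ∈ T.erase v, Wt E b J k f T s ≤
      (104 / 100) ^ 2 / 4 * (ell / y) := by
    apply hcomp_int_xb hP (by norm_num)
    · exact continuous_finsetProd _ fun f _ => hcomp_Wt_cont E b J k f T
    · intro s hs
      have key : ∀ f ∈ T.erase v, 0 < Wt E b J k f T s ∧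
          Wt E b J k f T s ≤ 104 / 100 * xb y s := by
        intro f hf
        rw [hcomp_Wt_eq E b J k f T s hs]
        exact hcomp_iter_le hR hP hB hJ (Nat.le_add_right _ _)
          (hR.sub T hT (Finset.mem_of_mem_erase hf)) T hs
      have h2 := (hcomp_prod_two (hR.card3 T hT) hv (fun f => Wt E b J k f T s)
        (c := 104 / 100 * xb y s)
        (fun f hf => (key f hf).1.le) (fun f hf => (key f hf).2)).2
      calc ∏ f ∈ T.erase v, Wt E b J k f T s ≤ (104 / 100 * xb y s) ^ 2 := h2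
        _ = _ := by ring
  have h3 : 0 ≤ ell / y := by positivity
  nlinarith

theorem hcomp_W_le {Vs : Finset V} {E : Finset (Finset V)} {y L y2 b ell : ℝ}
    (hR : HReg Vs E y L) (hP : Par y L y2 b ell) {X : V → Finset V → ℝ → ℝ} (hB : Bethe E X)
    {J : ℕ} (hJ : 3 * ((1 / 2 : ℝ) ^ J * (1 + 2 * y * b) ^ 21) ≤ 1 / y) (k : ℕ)
    {v : V} (hv : v ∈ Vs) (P : Finset V) {u : ℝ} (hu : u ∈ Set.Icc b 1) :
    0 ≤ Wt E b J k v P u ∧ Wt E b J k v P u ≤ 104 / 100 * xb y b := by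
  obtain ⟨hy, hy2, _, hb0, hb1, hb2, _⟩ := par_facts hP
  have hbb : b ∈ Set.Icc (0 : ℝ) b := ⟨hb0.le, le_refl b⟩
  refine ⟨(hcomp_Wt_mem E hb0.le J k v P u ⟨hb0.le.trans hu.1, hu.2⟩).1, ?_⟩
  refine (hcomp_Wt_anti E hb0.le J k v P u hu.1 hu.2).trans ?_
  rw [hcomp_Wt_eq E b J k v P b hbb]
  exact (hcomp_iter_le hR hP hB hJ (Nat.le_add_right _ _) hv P hbb).2

theorem hcomp_delta {T : Finset V} (hT : T.card = 3) {v : V} (hv : v ∈ T) (F : V → ℝ) {w x : ℝ}
    (hx : 0 ≤ x) (h0 : ∀ f ∈ T.erase v, 0 ≤ F f) (h1 : ∀ f ∈ T.erase v, F f ≤ 104 / 100 * x)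
    (hw0 : 0 ≤ w) (hw1 : w ≤ x) (D : V → ℝ)
    (hD : ∀ f ∈ T.erase v, |F f - w| ≤ 2 * x * D f) :
    |∏ f ∈ T.erase v, F f - w ^ 2| ≤ 3 * x ^ 2 * ∑ f ∈ T.erase v, D f := by
  have hc : (T.erase v).card = 2 := by
    rw [Finset.card_erase_of_mem hv, hT]
  obtain ⟨p, q, hpq, hTe⟩ := Finset.card_eq_two.1 hc
  rw [hTe] at h0 h1 hD ⊢
  rw [Finset.prod_pair hpq, Finset.sum_pair hpq]
  have hp := h0 p (by simp)
  have hq := h0 q (by simp)
  have hp1 := h1 p (by simp)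
  have hq1 := h1 q (by simp)
  have hpD := hD p (by simp)
  have hqD := hD q (by simp)
  have h2 : F p * F q - w ^ 2 = (F p - w) * F q + w * (F q - w) := by ring
  rw [h2]
  refine (abs_add_le _ _).trans ?_
  rw [abs_mul, abs_mul, abs_of_nonneg hq, abs_of_nonneg hw0]
  have h3 : |F p - w| * F q ≤ (2 * x * D p) * (104 / 100 * x) :=
    mul_le_mul hpD hq1 hq ((abs_nonneg _).trans hpD)
  have h4 : w * |F q - w| ≤ x * (2 * x * D q) :=
    mul_le_mul hw1 hqD (abs_nonneg _) hx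
  have h5 : 0 ≤ x * (2 * x * D p) := mul_nonneg hx ((abs_nonneg _).trans hpD)
  have h6 : 0 ≤ x * (2 * x * D q) := mul_nonneg hx ((abs_nonneg _).trans hqD)
  nlinarith

/-! ### the induction step -/

theorem hcomp_card {Vs : Finset V} {E : Finset (Finset V)} {y L : ℝ} (hR : HReg Vs E y L)
    {v : V} (hv : v ∈ Vs) (P : Finset V) :
    |(((star E v).erase P).card : ℝ) - y| ≤ L * Real.sqrt y + 1 := by
  have hdeg := hR.p1 v hv
  have h2 : ((star E v).erase P).card ≤ deg E v :=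
    Finset.card_le_card (Finset.erase_subset _ _)
  have h3 : deg E v ≤ ((star E v).erase P).card + 1 := by
    have h4 := Finset.pred_card_le_card_erase (s := star E v) (a := P)
    have h5 : deg E v = (star E v).card := rfl
    omega
  have h6 : (((star E v).erase P).card : ℝ) ≤ deg E v := by exact_mod_cast h2
  have h7 : (deg E v : ℝ) ≤ ((star E v).erase P).card + 1 := by exact_mod_cast h3
  rw [abs_le] at hdeg ⊢
  constructor <;> linarith [hdeg.1, hdeg.2]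

theorem hcomp_num2 {y L y2 b ell : ℝ} (hP : Par y L y2 b ell) :
    (L * Real.sqrt y + 1) * (y2 / y) = L * y2 / Real.sqrt y + y2 / y ∧
      L * Real.sqrt y + 1 ≤ y := by
  obtain ⟨hy, hy2, _⟩ := par_facts hP
  have hL := hP.hL
  have n6 := (hcomp_num hP).2.2.2.2.2
  obtain ⟨s, hs⟩ : ∃ s, s = Real.sqrt y := ⟨_, rfl⟩
  have hs0 : 0 < s := by
    rw [hs]
    exact Real.sqrt_pos.2 hy
  have hsy : y = s * s := by rw [hs, Real.mul_self_sqrt hy.le]
  rw [← hs] at n6 ⊢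
  rw [hsy]
  constructor
  · field_simp
  · rw [div_le_div_iff₀ hs0 (by norm_num), one_mul] at n6
    have h3 : L * 10 ^ 8 ≤ L * y2 := mul_le_mul_of_nonneg_left hy2 (by linarith)
    have h4 : L * 10 ^ 8 * 10 ^ 8 ≤ s := by linarith
    have h5 : L * 2 ≤ s := by linarith
    have h6 : 2 ≤ s := by linarith
    nlinarith

theorem hcomp_log_step {Vs : Finset V} {E : Finset (Finset V)} {y L y2 b ell : ℝ}
    (hR : HReg Vs E y L) (hP : Par y L y2 b ell) {X : V → Finset V → ℝ → ℝ} (hB : Bethe E X)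
    {J : ℕ} (hJ : 3 * ((1 / 2 : ℝ) ^ J * (1 + 2 * y * b) ^ 21) ≤ 1 / y) (k : ℕ)
    (D : V → Finset V → ℝ)
    (ih : ∀ u ∈ Set.Icc b 1, ∀ v ∈ Vs, ∀ P,
      |Wt E b J k v P u - wh y b k u| ≤ 2 * xb y b * D v P)
    {v : V} (hv : v ∈ Vs) (P : Finset V) {u : ℝ} (hu : u ∈ Set.Icc b 1) :
    0 < Wt E b J (k + 1) v P u ∧
    |Real.log (Wt E b J (k + 1) v P u) - Real.log (wh y b (k + 1) u)| ≤
      |Real.log (XX y X v b)| + 2 * (L * y2 / Real.sqrt y) +
        3 * (y2 / y) * ∑ T ∈ (star E v).erase P, ∑ f ∈ T.erase v, D f T := by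
  obtain ⟨hy, hy2, hy2y, hb0, hb1, hb2, _, hxb, _⟩ := par_facts hP
  have hell := hP.hell1
  have hL := hP.hL
  obtain ⟨n1, n2, n3, n4, n5, n6⟩ := hcomp_num hP
  obtain ⟨r, hr⟩ : ∃ r, r = L * y2 / Real.sqrt y := ⟨_, rfl⟩
  rw [← hr] at n1 n2 n3 n4 n5 n6 ⊢
  have hyi : 0 < 1 / y := by positivity
  have hr0 : 0 < r := by linarith
  have hxb2 : xb y b ^ 2 = y2 / y := by
    rw [hxb, Real.sq_sqrt (by positivity)]
  have hx := hcomp_xb_pos hy hb0.le
  have hq0 : 0 < y2 / y := by positivity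
  have he0 : 0 < ell / y := by positivity
  obtain ⟨S, hS⟩ : ∃ S, S = (star E v).erase P := ⟨_, rfl⟩
  have hSE : ∀ T ∈ S, T ∈ E ∧ v ∈ T := by
    intro T hT
    rw [hS] at hT
    exact Finset.mem_filter.1 (Finset.mem_of_mem_erase hT)
  obtain ⟨g, hg⟩ : ∃ g : Finset V → ℝ → ℝ, g = fun T s => ∏ f ∈ T.erase v, Wt E b J k f T s :=
    ⟨_, rfl⟩
  have hgc : ∀ T ∈ S, Continuous (g T) := by
    intro T _
    rw [hg]
    exact continuous_finsetProd _ fun f _ => hcomp_Wt_cont E b J k f T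
  have hW : ∀ t, Wt E b J (k + 1) v P t = ∏ T ∈ S, (1 - ∫ s in (0 : ℝ)..t, g T s) := by
    intro t
    rw [hS, hg]
    rfl
  have hu1 : u ≤ 1 := hu.2
  have hbu : b ≤ u := hu.1
  have hg0 : ∀ T ∈ S, ∀ s ∈ Set.Icc 0 u, 0 ≤ g T s := by
    intro T _ s hs
    rw [hg]
    exact Finset.prod_nonneg fun f _ =>
      (hcomp_Wt_mem E hb0.le J k f T s ⟨hs.1, hs.2.trans hu1⟩).1
  have hA : ∀ T ∈ S, ∫ s in (0 : ℝ)..b, g T s ≤ 3 / 10 * (ell / y) := by
    intro T hT
    rw [hg]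
    exact hcomp_A hR hP hB hJ k (hSE T hT).1 (hSE T hT).2
  have hWle : ∀ T ∈ S, ∀ f ∈ T.erase v, ∀ s ∈ Set.Icc b u,
      0 ≤ Wt E b J k f T s ∧ Wt E b J k f T s ≤ 104 / 100 * xb y b := by
    intro T hT f hf s hs
    exact hcomp_W_le hR hP hB hJ k (hR.sub T (hSE T hT).1 (Finset.mem_of_mem_erase hf)) T
      ⟨hs.1, hs.2.trans hu1⟩
  have hγ : ∀ T ∈ S, ∀ s ∈ Set.Icc b u, g T s ≤ 11 / 10 * (y2 / y) := by
    intro T hT s hs
    rw [hg]
    have h1 := (hcomp_prod_two (hR.card3 T (hSE T hT).1) (hSE T hT).2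
      (fun f => Wt E b J k f T s) (c := 104 / 100 * xb y b)
      (fun f hf => (hWle T hT f hf s hs).1) (fun f hf => (hWle T hT f hf s hs).2)).2
    calc ∏ f ∈ T.erase v, Wt E b J k f T s ≤ (104 / 100 * xb y b) ^ 2 := h1
      _ = (104 / 100) ^ 2 * (y2 / y) := by rw [mul_pow, hxb2]
      _ ≤ _ := by nlinarith
  have hw : ∀ s ∈ Set.Icc b u, 0 < wh y b k s ∧ wh y b k s ≤ xb y b := fun s hs =>
    hcomp_wh_mem hy hb0.le k s hs.1
  have hδ : ∀ T ∈ S, ∀ s ∈ Set.Icc b u, |g T s - wh y b k s ^ 2| ≤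
      3 * (y2 / y) * ∑ f ∈ T.erase v, D f T := by
    intro T hT s hs
    rw [hg, ← hxb2]
    exact hcomp_delta (hR.card3 T (hSE T hT).1) (hSE T hT).2 (fun f => Wt E b J k f T s) hx.le
      (fun f hf => (hWle T hT f hf s hs).1) (fun f hf => (hWle T hT f hf s hs).2)
      (hw s hs).1.le (hw s hs).2 (fun f => D f T)
      (fun f hf => ih s ⟨hs.1, hs.2.trans hu1⟩ f
        (hR.sub T (hSE T hT).1 (Finset.mem_of_mem_erase hf)) T)
  have hw2 : ∀ s ∈ Set.Icc b u, wh y b k s ^ 2 ≤ y2 / y := by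
    intro s hs
    rw [← hxb2]
    exact pow_le_pow_left₀ (hw s hs).1.le (hw s hs).2 2
  have hα : 3 / 10 * (ell / y) ≤ 1 / 4 := by linarith
  have hγ4 : 11 / 10 * (y2 / y) ≤ 1 / 4 := by linarith
  have hstep := hcomp_step S g (wh y b k) b u y hb0.le hbu hu1 hgc (hcomp_wh_cont y b k)
    (α := 3 / 10 * (ell / y)) (γ := 11 / 10 * (y2 / y)) (γ' := y2 / y)
    (fun T => 3 * (y2 / y) * ∑ f ∈ T.erase v, D f T) hg0 hA hγ (by positivity) hδ hw2 hα hγ4
  have hbb : b ∈ Set.Icc (0 : ℝ) b := ⟨hb0.le, le_refl b⟩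
  have hWb : ∏ T ∈ S, (1 - ∫ s in (0 : ℝ)..b, g T s) = Xit E (2 * J + (k + 1)) v P b := by
    rw [← hW b]
    exact hcomp_Wt_eq E b J (k + 1) v P b hbb
  rw [hWb, ← hW u] at hstep
  -- positivity
  have hpos : 0 < Wt E b J (k + 1) v P u := by
    rw [hW u]
    apply Finset.prod_pos
    intro T hT
    rw [← intervalIntegral.integral_add_adjacent_intervals
      ((hgc T hT).intervalIntegrable 0 b) ((hgc T hT).intervalIntegrable b u)]
    have h1 := hA T hT
    have h2 : ∫ s in b..u, g T s ≤ ∫ s in b..u, 11 / 10 * (y2 / y) :=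
      intervalIntegral.integral_mono_on hbu ((hgc T hT).intervalIntegrable b u)
        intervalIntegrable_const fun s hs => hγ T hT s hs
    rw [intervalIntegral.integral_const, smul_eq_mul] at h2
    have h3 : (u - b) * (11 / 10 * (y2 / y)) ≤ 1 * (11 / 10 * (y2 / y)) :=
      mul_le_mul_of_nonneg_right (by linarith) (by positivity)
    linarith
  refine ⟨hpos, ?_⟩
  -- the degree
  have hcard := hcomp_card hR hv P
  rw [← hS] at hcard
  obtain ⟨hr1, hy2l⟩ := hcomp_num2 hP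
  rw [← hr] at hr1
  have hcard2 : (S.card : ℝ) ≤ 2 * y := by
    have := (abs_le.1 hcard).2
    linarith
  have hterm1 : (S.card : ℝ) * (2 * (3 / 10 * (ell / y)) * (11 / 10 * (y2 / y)) +
      4 * (11 / 10 * (y2 / y)) ^ 2) ≤ r / 2 := by
    have h1 : (S.card : ℝ) * (2 * (3 / 10 * (ell / y)) * (11 / 10 * (y2 / y)) +
        4 * (11 / 10 * (y2 / y)) ^ 2) ≤ (2 * y) * (2 * (3 / 10 * (ell / y)) *
          (11 / 10 * (y2 / y)) + 4 * (11 / 10 * (y2 / y)) ^ 2) :=
      mul_le_mul_of_nonneg_right hcard2 (by positivity)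
    have h2 : (2 * y) * (2 * (3 / 10 * (ell / y)) *
          (11 / 10 * (y2 / y)) + 4 * (11 / 10 * (y2 / y)) ^ 2) =
        132 / 100 * (ell * y2 / y) + 968 / 100 * (y2 ^ 2 / y) := by
      field_simp
      ring
    rw [h2] at h1
    linarith
  have hterm2 : |(S.card : ℝ) - y| * (y2 / y) ≤ r + y2 / y := by
    rw [← hr1]
    exact mul_le_mul_of_nonneg_right hcard hq0.le
  have hlog := hcomp_logXit hR hP hB hJ (i := 2 * J + (k + 1)) (Nat.le_add_right _ _) hv P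
  rw [← hr] at hlog
  have hwh : Real.log (wh y b (k + 1) u) =
      Real.log (xb y b) - y * ∫ s in b..u, wh y b k s ^ 2 := by
    show Real.log (xb y b * Real.exp (-(y * ∫ s in b..u, wh y b k s ^ 2))) = _
    rw [Real.log_mul hx.ne' (Real.exp_pos _).ne', Real.log_exp]
    ring
  rw [← Finset.mul_sum] at hstep
  have hfin : Real.log (Wt E b J (k + 1) v P u) - Real.log (wh y b (k + 1) u) =
      (Real.log (Wt E b J (k + 1) v P u) - Real.log (Xit E (2 * J + (k + 1)) v P b) +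
        y * ∫ s in b..u, wh y b k s ^ 2) +
      (Real.log (Xit E (2 * J + (k + 1)) v P b) - Real.log (xb y b)) := by
    rw [hwh]
    ring
  rw [hfin, ← hS]
  refine (abs_add_le _ _).trans ?_
  linarith

/-! ### the comparison -/

theorem comp (Vs : Finset V) (E : Finset (Finset V)) (y L y2 b ell : ℝ) (hR : HReg Vs E y L)
    (hP : Par y L y2 b ell) (X : V → Finset V → ℝ → ℝ) (hB : Bethe E X) (J : ℕ)
    (hJ : 3 * ((1 / 2 : ℝ) ^ J * (1 + 2 * y * b) ^ 21) ≤ 1 / y) (k : ℕ) :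
    ∀ u ∈ Set.Icc b 1, ∀ v ∈ Vs, ∀ P,
      |Wt E b J k v P u - wh y b k u| ≤ 2 * xb y b *
        Dk E (4 * y2 / y) (fun v => |Real.log (XX y X v b)| + 3 * L * y2 / Real.sqrt y) k v P := by
  obtain ⟨hy, hy2, hy2y, hb0, hb1, hb2, _, _⟩ := par_facts hP
  obtain ⟨n1, n2, n3, n4, n5, n6⟩ := hcomp_num hP
  have hyi : 0 < 1 / y := by positivity
  have hx := hcomp_xb_pos hy hb0.le
  have hbb : b ∈ Set.Icc (0 : ℝ) b := ⟨hb0.le, le_refl b⟩
  have h3r : 3 * L * y2 / Real.sqrt y = 3 * (L * y2 / Real.sqrt y) := by ring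
  induction k with
  | zero =>
    intro u hu v hv P
    show |Xit E (2 * J) v P (min u b) - xb y b| ≤ 2 * xb y b *
      (|Real.log (XX y X v b)| + 3 * L * y2 / Real.sqrt y)
    rw [min_eq_right hu.1, h3r]
    obtain ⟨h1, h2⟩ := hcomp_iter_le hR hP hB hJ (le_refl (2 * J)) hv P hbb
    have h3 := hcomp_logXit hR hP hB hJ (le_refl (2 * J)) hv P
    have h4 := hcomp_sub_le h1 hx h2 (show xb y b ≤ 104 / 100 * xb y b by linarith)
    refine h4.trans ?_
    have h5 : 104 / 100 * xb y b * |Real.log (Xit E (2 * J) v P b) - Real.log (xb y b)| ≤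
        104 / 100 * xb y b * (|Real.log (XX y X v b)| + (L * y2 / Real.sqrt y) / 10 ^ 7) :=
      mul_le_mul_of_nonneg_left h3 (by positivity)
    refine h5.trans ?_
    have h6 : 0 ≤ xb y b * |Real.log (XX y X v b)| := by positivity
    have h7 : 0 ≤ xb y b * (L * y2 / Real.sqrt y) := mul_nonneg hx.le (by linarith)
    nlinarith
  | succ k ih =>
    intro u hu v hv P
    obtain ⟨h1, h2⟩ := hcomp_log_step hR hP hB hJ k
      (Dk E (4 * y2 / y) (fun v => |Real.log (XX y X v b)| + 3 * L * y2 / Real.sqrt y) k)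
      ih hv P hu
    have h3 := (hcomp_W_le hR hP hB hJ (k + 1) hv P hu).2
    obtain ⟨h4, h5⟩ := hcomp_wh_mem hy hb0.le (k + 1) u hu.1
    have h6 := hcomp_sub_le h1 h4 h3 (show wh y b (k + 1) u ≤ 104 / 100 * xb y b by linarith)
    refine h6.trans ?_
    obtain ⟨Sg, hSg⟩ : ∃ Sg, Sg = ∑ T ∈ (star E v).erase P, ∑ f ∈ T.erase v,
        Dk E (4 * y2 / y) (fun v => |Real.log (XX y X v b)| + 3 * L * y2 / Real.sqrt y) k f T :=
      ⟨_, rfl⟩
    rw [← hSg] at h2
    have hSg0 : 0 ≤ Sg := by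
      rw [hSg]
      apply Finset.sum_nonneg
      intro T hT
      apply Finset.sum_nonneg
      intro f hf
      have hTE : T ∈ E := (Finset.mem_filter.1 (Finset.mem_of_mem_erase hT)).1
      have h7 := (abs_nonneg _).trans
        (ih u hu f (hR.sub T hTE (Finset.mem_of_mem_erase hf)) T)
      exact nonneg_of_mul_nonneg_right h7 (by positivity)
    have hD : Dk E (4 * y2 / y) (fun v => |Real.log (XX y X v b)| + 3 * L * y2 / Real.sqrt y)
        (k + 1) v P = (|Real.log (XX y X v b)| + 3 * (L * y2 / Real.sqrt y)) +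
          4 * (y2 / y) * Sg := by
      have h12 : 4 * y2 / y = 4 * (y2 / y) := mul_div_assoc _ _ _
      rw [hSg, ← h3r, ← h12]
      rfl
    rw [hD]
    have h8 : 104 / 100 * xb y b * |Real.log (Wt E b J (k + 1) v P u) -
        Real.log (wh y b (k + 1) u)| ≤ 104 / 100 * xb y b * (|Real.log (XX y X v b)| +
          2 * (L * y2 / Real.sqrt y) + 3 * (y2 / y) * Sg) :=
      mul_le_mul_of_nonneg_left h2 (by positivity)
    refine h8.trans ?_
    have h9 : 0 ≤ xb y b * |Real.log (XX y X v b)| := by positivity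
    have h10 : 0 ≤ xb y b * (L * y2 / Real.sqrt y) := mul_nonneg hx.le (by linarith)
    have h11 : 0 ≤ xb y b * ((y2 / y) * Sg) := by
      have : 0 ≤ y2 / y := by positivity
      positivity
    nlinarith

end

end Vale.Agent.P046.H
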