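import Vale.Agent.Lib.P046.HDefs2
import Vale.Agent.Lib.P046.HOdeA

/-!
# P046, part S2, module H07: symmetric double sums over the hyperedges
-/

namespace Vale.Agent.P046.H

open Finset MeasureTheory

noncomputable section

variable {V : Type} [Fintype V] [DecidableEq V]

section ode

variable (E : Finset (Finset V)) (y : ℝ) (X : V → Finset V → ℝ → ℝ)

/-- exchange of summation with the symmetric weights -/
theorem sym_sum (hB : Bethe E X) (hE : ∀ T ∈ E, T.card = 3) (hy : 0 < y) (Vs : Finset V)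
    (hVs : ∀ T ∈ E, T ⊆ Vs) (u : ℝ) (hu : u ∈ Set.Icc (0 : ℝ) (1 / 2)) (F : V → Finset V → ℝ) :
    ∑ v ∈ Vs, XX y X v u * ∑ T ∈ star E v, cc y X v T u * F v T =
      ∑ T ∈ E, ((∏ i ∈ T, X i ∅ u) * rho X T u / (xb y u * lam y u)) * ∑ v ∈ T, F v T := by
  have h1 : ∀ v ∈ Vs, XX y X v u * ∑ T ∈ star E v, cc y X v T u * F v T =
      ∑ T ∈ E, if v ∈ T then
        ((∏ i ∈ T, X i ∅ u) * rho X T u / (xb y u * lam y u)) * F v T else 0 := by
    intro v _
    rw [Finset.mul_sum, ← Finset.sum_filter]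
    refine Finset.sum_congr rfl fun T hT => ?_
    have hvT : v ∈ T := (Finset.mem_filter.1 hT).2
    unfold XX cc
    rw [← Finset.mul_prod_erase T (fun i => X i ∅ u) hvT, ← mul_assoc, div_mul_div_comm]
    congr 2
    ring
  rw [Finset.sum_congr rfl h1, Finset.sum_comm]
  refine Finset.sum_congr rfl fun T hT => ?_
  rw [← Finset.sum_filter, Finset.mul_sum]
  refine Finset.sum_congr ?_ fun _ _ => rfl
  ext v
  rw [Finset.mem_filter]
  exact ⟨fun h => h.2, fun h => ⟨hVs T hT h, h⟩⟩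

private theorem HSym_xb_nonneg (y u : ℝ) : 0 ≤ xb y u := by
  unfold xb
  positivity

private theorem HSym_lam_nonneg {y u : ℝ} (hy : 0 < y) (hu : u ∈ Set.Icc (0 : ℝ) (1 / 2)) :
    0 ≤ lam y u := by
  unfold lam
  have h0 := hu.1
  positivity

private theorem HSym_rho_nonneg {E : Finset (Finset V)} {X : V → Finset V → ℝ → ℝ}
    (hB : Bethe E X) (T : Finset V) {u : ℝ} (hu : u ∈ Set.Icc (0 : ℝ) (1 / 2)) :
    0 ≤ rho X T u := by
  unfold rho
  refine Finset.prod_nonneg fun f _ => ?_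
  have h1 := (II_mem E X hB f T u hu).2
  have h2 := hu.2
  rw [inv_nonneg]
  linarith

private theorem HSym_omega_nonneg {E : Finset (Finset V)} {y : ℝ} {X : V → Finset V → ℝ → ℝ}
    (hB : Bethe E X) (hy : 0 < y) (T : Finset V) {u : ℝ} (hu : u ∈ Set.Icc (0 : ℝ) (1 / 2)) :
    0 ≤ (∏ i ∈ T, X i ∅ u) * rho X T u / (xb y u * lam y u) := by
  refine div_nonneg (mul_nonneg (Finset.prod_nonneg fun i _ => ?_) (HSym_rho_nonneg hB T hu))
    (mul_nonneg (HSym_xb_nonneg y u) (HSym_lam_nonneg hy hu))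
  exact (hB.mem i ∅ u hu).1

private theorem HSym_cc_nonneg {E : Finset (Finset V)} {y : ℝ} {X : V → Finset V → ℝ → ℝ}
    (hB : Bethe E X) (hy : 0 < y) (v : V) (T : Finset V) {u : ℝ}
    (hu : u ∈ Set.Icc (0 : ℝ) (1 / 2)) : 0 ≤ cc y X v T u := by
  unfold cc
  refine div_nonneg (mul_nonneg (Finset.prod_nonneg fun i _ => ?_) (HSym_rho_nonneg hB T hu))
    (HSym_lam_nonneg hy hu)
  exact (hB.mem i ∅ u hu).1

private theorem HSym_XX_nonneg {E : Finset (Finset V)} {y : ℝ} {X : V → Finset V → ℝ → ℝ}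
    (hB : Bethe E X) (v : V) {u : ℝ} (hu : u ∈ Set.Icc (0 : ℝ) (1 / 2)) : 0 ≤ XX y X v u := by
  unfold XX
  exact div_nonneg (hB.mem v ∅ u hu).1 (HSym_xb_nonneg y u)

private theorem HSym_al (v : V) (u : ℝ) :
    1 + al E y X v u = ∑ T ∈ star E v, cc y X v T u := by
  unfold al
  ring

/-- the weighted diagonal as a sum over hyperedges -/
private theorem HSym_diag (hB : Bethe E X) (hE : ∀ T ∈ E, T.card = 3) (hy : 0 < y) (Vs : Finset V)
    (hVs : ∀ T ∈ E, T ⊆ Vs) (u : ℝ) (hu : u ∈ Set.Icc (0 : ℝ) (1 / 2)) (q : V → ℝ) :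
    ∑ v ∈ Vs, XX y X v u * (1 + al E y X v u) * q v ^ 2 =
      ∑ T ∈ E, ((∏ i ∈ T, X i ∅ u) * rho X T u / (xb y u * lam y u)) * ∑ v ∈ T, q v ^ 2 := by
  rw [← sym_sum E y X hB hE hy Vs hVs u hu (fun v _ => q v ^ 2)]
  refine Finset.sum_congr rfl fun v _ => ?_
  rw [HSym_al, ← Finset.sum_mul]
  ring

/-- the quadratic form is bounded below by minus the diagonal -/
theorem quad_lower (hB : Bethe E X) (hE : ∀ T ∈ E, T.card = 3) (hy : 0 < y) (Vs : Finset V)
    (hVs : ∀ T ∈ E, T ⊆ Vs) (u : ℝ) (hu : u ∈ Set.Icc (0 : ℝ) (1 / 2)) (q : V → ℝ) :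
    -∑ v ∈ Vs, XX y X v u * (1 + al E y X v u) * q v ^ 2 ≤
      ∑ v ∈ Vs, XX y X v u * ∑ T ∈ star E v, cc y X v T u * (q v * ∑ f ∈ T.erase v, q f) := by
  rw [HSym_diag E y X hB hE hy Vs hVs u hu q,
    sym_sum E y X hB hE hy Vs hVs u hu (fun v T => q v * ∑ f ∈ T.erase v, q f),
    ← Finset.sum_neg_distrib]
  refine Finset.sum_le_sum fun T _ => ?_
  have hω := HSym_omega_nonneg (y := y) hB hy T hu
  have h1 : ∑ v ∈ T, q v * ∑ f ∈ T.erase v, q f = (∑ v ∈ T, q v) ^ 2 - ∑ v ∈ T, q v ^ 2 := by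
    have h2 : ∀ v ∈ T, q v * ∑ f ∈ T.erase v, q f = q v * (∑ f ∈ T, q f) - q v ^ 2 := by
      intro v hv
      rw [← Finset.add_sum_erase T q hv]
      ring
    rw [Finset.sum_congr rfl h2, Finset.sum_sub_distrib, ← Finset.sum_mul]
    ring
  rw [h1, ← mul_neg]
  refine mul_le_mul_of_nonneg_left ?_ hω
  have := sq_nonneg (∑ v ∈ T, q v)
  linarith

/-- the averaging operator is bounded in L2 -/
theorem avg_bound (hB : Bethe E X) (hE : ∀ T ∈ E, T.card = 3) (hy : 0 < y) (Vs : Finset V)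
    (hVs : ∀ T ∈ E, T ⊆ Vs) (u : ℝ) (hu : u ∈ Set.Icc (0 : ℝ) (1 / 2)) (q : V → ℝ)
    (M : ℝ) (hM : ∀ v ∈ Vs, 1 + al E y X v u ≤ M) :
    ∑ v ∈ Vs, XX y X v u * (∑ T ∈ star E v, cc y X v T u * |∑ f ∈ T.erase v, q f|) ^ 2 ≤
      4 * M ^ 2 * ∑ v ∈ Vs, XX y X v u * q v ^ 2 := by
  rcases Vs.eq_empty_or_nonempty with h0 | h0
  · rw [h0]
    simp
  have hM0 : 0 ≤ M := by
    obtain ⟨v, hv⟩ := h0
    refine le_trans ?_ (hM v hv)
    rw [HSym_al]
    exact Finset.sum_nonneg fun T _ => HSym_cc_nonneg hB hy v T hu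
  have hstep : ∀ v ∈ Vs,
      XX y X v u * (∑ T ∈ star E v, cc y X v T u * |∑ f ∈ T.erase v, q f|) ^ 2 ≤
      (2 * M) * (XX y X v u * ∑ T ∈ star E v, cc y X v T u * ∑ f ∈ T.erase v, q f ^ 2) := by
    intro v hv
    have hXX := HSym_XX_nonneg (y := y) hB v hu
    have hcc : ∀ T, 0 ≤ cc y X v T u := fun T => HSym_cc_nonneg hB hy v T hu
    have h1 : (∑ T ∈ star E v, cc y X v T u * |∑ f ∈ T.erase v, q f|) ^ 2 ≤
        (∑ T ∈ star E v, cc y X v T u) *
          ∑ T ∈ star E v, cc y X v T u * |∑ f ∈ T.erase v, q f| ^ 2 := by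
      have h2 := Finset.sum_sq_le_sum_mul_sum_of_sq_le_mul (star E v)
        (r := fun T => cc y X v T u * |∑ f ∈ T.erase v, q f|)
        (f := fun T => cc y X v T u)
        (g := fun T => cc y X v T u * |∑ f ∈ T.erase v, q f| ^ 2)
        (fun T _ => hcc T) (fun T _ => mul_nonneg (hcc T) (sq_nonneg _))
        (fun T _ => le_of_eq (by ring))
      exact h2
    have h3 : ∀ T ∈ star E v, cc y X v T u * |∑ f ∈ T.erase v, q f| ^ 2 ≤
        cc y X v T u * (2 * ∑ f ∈ T.erase v, q f ^ 2) := by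
      intro T hT
      refine mul_le_mul_of_nonneg_left ?_ (hcc T)
      have hT' := Finset.mem_filter.1 hT
      have hcard : (T.erase v).card = 2 := by
        rw [Finset.card_erase_of_mem hT'.2, hE T hT'.1]
      rw [sq_abs]
      have h4 := sq_sum_le_card_mul_sum_sq (s := T.erase v) (f := q)
      rw [hcard] at h4
      exact_mod_cast h4
    have hS0 : 0 ≤ ∑ T ∈ star E v, cc y X v T u * (2 * ∑ f ∈ T.erase v, q f ^ 2) :=
      Finset.sum_nonneg fun T _ => mul_nonneg (hcc T)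
        (mul_nonneg (by norm_num) (Finset.sum_nonneg fun f _ => sq_nonneg _))
    have h5 : (∑ T ∈ star E v, cc y X v T u * |∑ f ∈ T.erase v, q f|) ^ 2 ≤
        M * ∑ T ∈ star E v, cc y X v T u * (2 * ∑ f ∈ T.erase v, q f ^ 2) := by
      refine h1.trans ?_
      have h6 : (∑ T ∈ star E v, cc y X v T u) ≤ M := by
        rw [← HSym_al E y X v u]
        exact hM v hv
      calc (∑ T ∈ star E v, cc y X v T u) *
            ∑ T ∈ star E v, cc y X v T u * |∑ f ∈ T.erase v, q f| ^ 2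
          ≤ (∑ T ∈ star E v, cc y X v T u) *
            ∑ T ∈ star E v, cc y X v T u * (2 * ∑ f ∈ T.erase v, q f ^ 2) :=
            mul_le_mul_of_nonneg_left (Finset.sum_le_sum h3)
              (Finset.sum_nonneg fun T _ => hcc T)
        _ ≤ _ := mul_le_mul_of_nonneg_right h6 hS0
    calc XX y X v u * (∑ T ∈ star E v, cc y X v T u * |∑ f ∈ T.erase v, q f|) ^ 2
        ≤ XX y X v u * (M * ∑ T ∈ star E v, cc y X v T u * (2 * ∑ f ∈ T.erase v, q f ^ 2)) :=
          mul_le_mul_of_nonneg_left h5 hXX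
      _ = (2 * M) * (XX y X v u * ∑ T ∈ star E v, cc y X v T u * ∑ f ∈ T.erase v, q f ^ 2) := by
          have h7 : ∑ T ∈ star E v, cc y X v T u * (2 * ∑ f ∈ T.erase v, q f ^ 2) =
              2 * ∑ T ∈ star E v, cc y X v T u * ∑ f ∈ T.erase v, q f ^ 2 := by
            rw [Finset.mul_sum]
            refine Finset.sum_congr rfl fun T _ => ?_
            ring
          rw [h7]
          ring
  have hdouble : ∑ v ∈ Vs, XX y X v u * ∑ T ∈ star E v, cc y X v T u * ∑ f ∈ T.erase v, q f ^ 2 =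
      2 * ∑ v ∈ Vs, XX y X v u * (1 + al E y X v u) * q v ^ 2 := by
    rw [HSym_diag E y X hB hE hy Vs hVs u hu q,
      sym_sum E y X hB hE hy Vs hVs u hu (fun v T => ∑ f ∈ T.erase v, q f ^ 2), Finset.mul_sum]
    refine Finset.sum_congr rfl fun T hT => ?_
    have h2 : ∀ v ∈ T, ∑ f ∈ T.erase v, q f ^ 2 = (∑ f ∈ T, q f ^ 2) - q v ^ 2 := by
      intro v hv
      rw [← Finset.add_sum_erase T (fun f => q f ^ 2) hv]
      ring
    rw [Finset.sum_congr rfl h2, Finset.sum_sub_distrib, Finset.sum_const, hE T hT, nsmul_eq_mul]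
    push_cast
    ring
  calc ∑ v ∈ Vs, XX y X v u * (∑ T ∈ star E v, cc y X v T u * |∑ f ∈ T.erase v, q f|) ^ 2
      ≤ ∑ v ∈ Vs, (2 * M) *
        (XX y X v u * ∑ T ∈ star E v, cc y X v T u * ∑ f ∈ T.erase v, q f ^ 2) :=
        Finset.sum_le_sum hstep
    _ = (2 * M) * (2 * ∑ v ∈ Vs, XX y X v u * (1 + al E y X v u) * q v ^ 2) := by
        rw [← Finset.mul_sum, hdouble]
    _ ≤ (2 * M) * (2 * ∑ v ∈ Vs, M * (XX y X v u * q v ^ 2)) := by
        refine mul_le_mul_of_nonneg_left ?_ (by linarith)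
        refine mul_le_mul_of_nonneg_left ?_ (by norm_num)
        refine Finset.sum_le_sum fun v hv => ?_
        have hXX := HSym_XX_nonneg (y := y) hB v hu
        have h8 := mul_le_mul_of_nonneg_left (hM v hv) (mul_nonneg hXX (sq_nonneg (q v)))
        calc XX y X v u * (1 + al E y X v u) * q v ^ 2
            = XX y X v u * q v ^ 2 * (1 + al E y X v u) := by ring
          _ ≤ XX y X v u * q v ^ 2 * M := h8
          _ = _ := by ring
    _ = 4 * M ^ 2 * ∑ v ∈ Vs, XX y X v u * q v ^ 2 := by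
        rw [← Finset.mul_sum]
        ring

end ode

end

end Vale.Agent.P046.H
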