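import Vale.Agent.Lib.P046.HOdeB
import Vale.Agent.Lib.P046.HSym
import Vale.Agent.Lib.P046.HPar
import Vale.Agent.Lib.P046.HPoint

/-!
# P046, H10: differential inequalities for the energies `A2` and `En`
-/

namespace Vale.Agent.P046.H

open Finset MeasureTheory

noncomputable section

variable {V : Type} [Fintype V] [DecidableEq V]

private theorem HEnergy_two_mul_le {x y c : ℝ} (hc : 0 < c) : 2 * (x * y) ≤ x ^ 2 / c + c * y ^ 2 := by
  have h1 : 0 ≤ (x - c * y) ^ 2 / c := by positivity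
  have h2 : (x - c * y) ^ 2 / c = x ^ 2 / c + c * y ^ 2 - 2 * (x * y) := by
    field_simp
    ring
  linarith

theorem d_A2 (Vs : Finset V) (E : Finset (Finset V)) (y L y2 b ell : ℝ) (hR : HReg Vs E y L)
    (hP : Par y L y2 b ell) (X : V → Finset V → ℝ → ℝ) (hB : Bethe E X) :
    ∀ u ∈ Set.Ioo 0 b, ∃ d, HasDerivAt (A2 E y X Vs) d u ∧
      d ≤ lam y u * (ab y L u + 2 / ell) * A2 E y X Vs u +
        (ell * En E y X Vs u + 28 * ell * Vs.card * lam y u / y ^ 2) := by
  intro u hu
  obtain ⟨hy, hy2, hy2y, hb0, hb1, hb2, -, -, hlamb, -⟩ := par_facts hP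
  have hu' : u ∈ Set.Icc 0 b := ⟨hu.1.le, hu.2.le⟩
  have hu2 : u ∈ Set.Ioo (0 : ℝ) (1 / 2) := ⟨hu.1, by linarith [hu.2]⟩
  have hell : 0 < ell := by linarith [hP.hell1]
  have hlam : 0 < lam y u := by
    have := (hlamb u hu').1
    linarith
  have hpt := pointwise Vs E y L y2 b ell hR hP X hB u hu'
  obtain ⟨ha1, hpt1, -⟩ := pointwise' Vs E y L y2 b ell hR hP X hB u hu'
  set lm := lam y u with hlm
  set a' := ab y L u with ha'
  refine ⟨∑ v ∈ Vs, (-(lm * XX y X v u * al E y X v u) * al E y X v u ^ 2 +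
      XX y X v u * (2 * al E y X v u * (-(lm * (gg E y X v u - hh E y X v u))))), ?_, ?_⟩
  · have h1 : HasDerivAt (fun u => ∑ v ∈ Vs, XX y X v u * al E y X v u ^ 2)
        (∑ v ∈ Vs, (-(lm * XX y X v u * al E y X v u) * al E y X v u ^ 2 +
      XX y X v u * (2 * al E y X v u * (-(lm * (gg E y X v u - hh E y X v u)))))) u := by
      apply HasDerivAt.fun_sum
      intro v _
      have e1 := d_XX E y X hB hR.card3 hy v u hu2
      have e2 := d_al E y X hB hR.card3 hy v u hu2
      have e3 := e1.fun_mul (e2.fun_pow 2)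
      refine e3.congr_deriv ?_
      push_cast
      ring
    exact h1
  · have hA2 : A2 E y X Vs u = ∑ v ∈ Vs, XX y X v u * al E y X v u ^ 2 := rfl
    have hEn : En E y X Vs u = lm * ∑ v ∈ Vs, XX y X v u * gg E y X v u ^ 2 := rfl
    have hterm : ∀ v ∈ Vs, (-(lm * XX y X v u * al E y X v u) * al E y X v u ^ 2 +
        XX y X v u * (2 * al E y X v u * (-(lm * (gg E y X v u - hh E y X v u))))) ≤
        lm * (a' + 2 / ell) * (XX y X v u * al E y X v u ^ 2) +
        ell * (lm * (XX y X v u * gg E y X v u ^ 2)) + 28 * ell * lm / y ^ 2 := by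
      intro v hv
      obtain ⟨p1, -, -⟩ := hpt v hv
      obtain ⟨p2, p3⟩ := hpt1 v hv
      set x := XX y X v u with hx
      set α := al E y X v u with hα
      set g := gg E y X v u with hg
      set h := hh E y X v u with hh'
      have hx0 : 0 < x := by linarith [p3.1]
      have q1 : -(α) ≤ a' := by
        have := (abs_le.mp p1).1
        linarith
      have t1 : -(lm * x * α) * α ^ 2 ≤ lm * x * a' * α ^ 2 := by
        have : 0 ≤ lm * x * α ^ 2 := by positivity
        nlinarith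
      have t2 : 2 * (α * (-g)) ≤ α ^ 2 / ell + ell * (-g) ^ 2 := HEnergy_two_mul_le hell
      have t3 : 2 * (α * h) ≤ α ^ 2 / ell + ell * h ^ 2 := HEnergy_two_mul_le hell
      have t4 : h ^ 2 ≤ (16 / 5 / y) ^ 2 := by
        apply pow_le_pow_left₀ p2.1 p2.2
      have hlx : 0 < lm * x := by positivity
      have t5 : lm * x * (2 * (α * (-g))) ≤ lm * x * (α ^ 2 / ell + ell * (-g) ^ 2) :=
        mul_le_mul_of_nonneg_left t2 hlx.le
      have t6 : lm * x * (2 * (α * h)) ≤ lm * x * (α ^ 2 / ell + ell * h ^ 2) :=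
        mul_le_mul_of_nonneg_left t3 hlx.le
      have t7 : lm * x * (ell * h ^ 2) ≤ 28 * ell * lm / y ^ 2 := by
        have e1 : x * h ^ 2 ≤ (102 / 100) * (16 / 5 / y) ^ 2 :=
          mul_le_mul p3.2 t4 (by positivity) (by norm_num)
        have e2 : (102 / 100 : ℝ) * (16 / 5 / y) ^ 2 ≤ 28 / y ^ 2 := by
          rw [div_pow, mul_div_assoc']
          apply div_le_div_of_nonneg_right _ (by positivity)
          norm_num
        have e3 : lm * x * (ell * h ^ 2) = lm * ell * (x * h ^ 2) := by ring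
        have e4 : 28 * ell * lm / y ^ 2 = lm * ell * (28 / y ^ 2) := by ring
        rw [e3, e4]
        exact mul_le_mul_of_nonneg_left (e1.trans e2) (by positivity)
      have e5 : x * (2 * α * (-(lm * (g - h)))) = lm * x * (2 * (α * (-g)))
          + lm * x * (2 * (α * h)) := by ring
      rw [e5]
      have e6 : lm * (a' + 2 / ell) * (x * α ^ 2) = lm * x * a' * α ^ 2
          + lm * x * (α ^ 2 / ell) + lm * x * (α ^ 2 / ell) := by ring
      have e7 : ell * (lm * (x * g ^ 2)) = lm * x * (ell * (-g) ^ 2) := by ring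
      rw [e6, e7]
      have e8 : lm * x * (α ^ 2 / ell + ell * (-g) ^ 2)
          = lm * x * (α ^ 2 / ell) + lm * x * (ell * (-g) ^ 2) := by ring
      have e9 : lm * x * (α ^ 2 / ell + ell * h ^ 2)
          = lm * x * (α ^ 2 / ell) + lm * x * (ell * h ^ 2) := by ring
      rw [e8] at t5
      rw [e9] at t6
      linarith
    refine (Finset.sum_le_sum hterm).trans ?_
    rw [hA2, hEn, Finset.sum_add_distrib, Finset.sum_add_distrib, ← Finset.mul_sum,
      ← Finset.mul_sum, ← Finset.mul_sum, Finset.sum_const, nsmul_eq_mul]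
    apply le_of_eq
    ring

theorem d_En (Vs : Finset V) (E : Finset (Finset V)) (y L y2 b ell : ℝ) (hR : HReg Vs E y L)
    (hP : Par y L y2 b ell) (X : V → Finset V → ℝ → ℝ) (hB : Bethe E X) :
    ∀ u ∈ Set.Ioo 0 b, ∃ d, HasDerivAt (En E y X Vs) d u ∧
      d ≤ lam y u * (ab y L u + 2 / ell) * En E y X Vs u +
        lam y u ^ 2 * ell * (34 * ab y L u ^ 2 * A2 E y X Vs u + 220 * Vs.card / y ^ 2) := by
  intro u hu
  obtain ⟨hy, hy2, hy2y, hb0, hb1, hb2, -, -, hlamb, -⟩ := par_facts hP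
  have hu' : u ∈ Set.Icc 0 b := ⟨hu.1.le, hu.2.le⟩
  have hu2 : u ∈ Set.Ioo (0 : ℝ) (1 / 2) := ⟨hu.1, by linarith [hu.2]⟩
  have hu3 : u ∈ Set.Icc (0 : ℝ) (1 / 2) := ⟨hu2.1.le, hu2.2.le⟩
  have hell : 0 < ell := by linarith [hP.hell1]
  have hlam : 0 < lam y u := by
    have := (hlamb u hu').1
    linarith
  have hpt := pointwise Vs E y L y2 b ell hR hP X hB u hu'
  obtain ⟨ha1, hpt1, hpt2⟩ := pointwise' Vs E y L y2 b ell hR hP X hB u hu'
  set lm := lam y u with hlm
  set a' := ab y L u with ha'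
  have ha0 : 0 ≤ a' := by
    rw [ha']
    unfold ab
    have : 0 < lam y u := hlam
    have h1 : 0 ≤ L := by linarith [hP.hL]
    positivity
  -- the derivative of gg
  set G' : V → ℝ := fun v => lm * ∑ T ∈ star E v, cc y X v T u *
      ((rr y X T u - ∑ f ∈ T.erase v, al E y X f u) * (∑ f ∈ T.erase v, al E y X f u)
        - ∑ f ∈ T.erase v, (gg E y X f u - hh E y X f u)) with hG'
  refine ⟨-(2 * lm ^ 2) * (∑ v ∈ Vs, XX y X v u * gg E y X v u ^ 2) +
      lm * ∑ v ∈ Vs, (-(lm * XX y X v u * al E y X v u) * gg E y X v u ^ 2 +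
      XX y X v u * (2 * gg E y X v u * G' v)), ?_, ?_⟩
  · have h1 : HasDerivAt (fun u => ∑ v ∈ Vs, XX y X v u * gg E y X v u ^ 2)
        (∑ v ∈ Vs, (-(lm * XX y X v u * al E y X v u) * gg E y X v u ^ 2 +
      XX y X v u * (2 * gg E y X v u * G' v))) u := by
      apply HasDerivAt.fun_sum
      intro v _
      have e1 := d_XX E y X hB hR.card3 hy v u hu2
      have e2 := d_gg E y X hB hR.card3 hy v u hu2
      have e3 := e1.fun_mul (e2.fun_pow 2)
      refine e3.congr_deriv ?_
      rw [show G' v = lam y u * ∑ T ∈ star E v, cc y X v T u *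
        ((rr y X T u - ∑ f ∈ T.erase v, al E y X f u) * (∑ f ∈ T.erase v, al E y X f u)
        - ∑ f ∈ T.erase v, (gg E y X f u - hh E y X f u)) from rfl]
      push_cast
      ring
    have h2 := (lam_facts hy).1 u hu.1.le
    exact h2.fun_mul h1
  · have hA2 : A2 E y X Vs u = ∑ v ∈ Vs, XX y X v u * al E y X v u ^ 2 := rfl
    have hEn : En E y X Vs u = lm * ∑ v ∈ Vs, XX y X v u * gg E y X v u ^ 2 := rfl
    -- abbreviations
    set x : V → ℝ := fun v => XX y X v u with hx
    set α : V → ℝ := fun v => al E y X v u with hα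
    set g : V → ℝ := fun v => gg E y X v u with hg
    set c : V → Finset V → ℝ := fun v T => cc y X v T u with hc
    set s : V → Finset V → ℝ := fun v T => ∑ f ∈ T.erase v, α f with hs
    set Err : V → ℝ := fun v => ∑ T ∈ star E v, c v T * ((rr y X T u - s v T) * s v T
      + ∑ f ∈ T.erase v, hh E y X f u) with hErr
    set Sg : V → ℝ := fun v => ∑ T ∈ star E v, c v T * |s v T| with hSg
    have hc0 : ∀ v, ∀ T ∈ star E v, 0 ≤ c v T := by
      intro v T hT
      have hTE : T ∈ E := (Finset.mem_filter.mp hT).1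
      have h1 : 0 ≤ rho X T u := by linarith [(hpt2 T hTE).1.1]
      have h2 : 0 ≤ ∏ f ∈ T.erase v, X f ∅ u :=
        Finset.prod_nonneg fun f _ => (hB.mem f ∅ u hu3).1
      exact div_nonneg (mul_nonneg h2 h1) hlam.le
    have hcsum : ∀ v, ∑ T ∈ star E v, c v T = 1 + α v := by
      intro v
      show ∑ T ∈ star E v, c v T = 1 + ((∑ T ∈ star E v, cc y X v T u) - 1)
      simp only [hc]
      ring
    have hα1 : ∀ v ∈ Vs, |α v| ≤ a' := fun v hv => (hpt v hv).1
    have hα2 : ∀ v ∈ Vs, 1 + α v ≤ 101 / 100 := by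
      intro v hv
      have := (abs_le.mp (hα1 v hv)).2
      linarith
    have hTV : ∀ v, ∀ T ∈ star E v, ∀ f ∈ T.erase v, f ∈ Vs := by
      intro v T hT f hf
      exact hR.sub T (Finset.mem_filter.mp hT).1 (Finset.mem_of_mem_erase hf)
    have hcard : ∀ v, ∀ T ∈ star E v, (T.erase v).card = 2 := by
      intro v T hT
      obtain ⟨hTE, hvT⟩ := Finset.mem_filter.mp hT
      rw [Finset.card_erase_of_mem hvT, hR.card3 T hTE]
    have hs1 : ∀ v, ∀ T ∈ star E v, |s v T| ≤ 2 * a' := by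
      intro v T hT
      calc |s v T| ≤ ∑ f ∈ T.erase v, |α f| := Finset.abs_sum_le_sum_abs _ _
        _ ≤ ∑ f ∈ T.erase v, a' := Finset.sum_le_sum fun f hf => hα1 f (hTV v T hT f hf)
        _ = 2 * a' := by rw [Finset.sum_const, hcard v T hT]; simp
    -- the bound of the error
    have hErr1 : ∀ v ∈ Vs, |Err v| ≤ 2 * a' * Sg v + 7 / y := by
      intro v hv
      have hT1 : ∀ T ∈ star E v, |c v T * ((rr y X T u - s v T) * s v T
          + ∑ f ∈ T.erase v, hh E y X f u)| ≤ 2 * a' * (c v T * |s v T|)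
            + c v T * (8 / 100 / y + 32 / 5 / y) := by
        intro T hT
        have hTE : T ∈ E := (Finset.mem_filter.mp hT).1
        have hrr := (hpt2 T hTE).2
        have hh1 : |∑ f ∈ T.erase v, hh E y X f u| ≤ 32 / 5 / y := by
          calc |∑ f ∈ T.erase v, hh E y X f u| ≤ ∑ f ∈ T.erase v, |hh E y X f u| :=
                Finset.abs_sum_le_sum_abs _ _
            _ ≤ ∑ f ∈ T.erase v, 16 / 5 / y := by
                apply Finset.sum_le_sum
                intro f hf
                have := (hpt1 f (hTV v T hT f hf)).1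
                rw [abs_of_nonneg this.1]
                exact this.2
            _ = 32 / 5 / y := by
                rw [Finset.sum_const, hcard v T hT]
                simp only [nsmul_eq_mul, Nat.cast_ofNat]
                ring
        have hss : |(rr y X T u - s v T) * s v T| ≤ 2 * a' * |s v T| + 8 / 100 / y := by
          rw [abs_mul]
          have e1 : |rr y X T u - s v T| ≤ 4 / y + |s v T| := by
            refine (abs_sub _ _).trans ?_
            rw [abs_of_nonneg hrr.1]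
            linarith [hrr.2]
          have e2 := hs1 v T hT
          have e3 : 0 ≤ |s v T| := abs_nonneg _
          calc |rr y X T u - s v T| * |s v T| ≤ (4 / y + |s v T|) * |s v T| :=
                mul_le_mul_of_nonneg_right e1 e3
            _ = 4 / y * |s v T| + |s v T| * |s v T| := by ring
            _ ≤ 4 / y * (2 * a') + 2 * a' * |s v T| := by
                apply add_le_add
                · exact mul_le_mul_of_nonneg_left e2 (by positivity)
                · exact mul_le_mul_of_nonneg_right e2 e3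
            _ ≤ 2 * a' * |s v T| + 8 / 100 / y := by
                have : 4 / y * (2 * a') ≤ 4 / y * (2 * (1 / 100)) :=
                  mul_le_mul_of_nonneg_left (by linarith) (by positivity)
                have e4 : 4 / y * (2 * (1 / 100)) = 8 / 100 / y := by ring
                linarith
        rw [abs_mul, abs_of_nonneg (hc0 v T hT)]
        have e5 := abs_add_le ((rr y X T u - s v T) * s v T) (∑ f ∈ T.erase v, hh E y X f u)
        calc c v T * |(rr y X T u - s v T) * s v T + ∑ f ∈ T.erase v, hh E y X f u|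
            ≤ c v T * (2 * a' * |s v T| + 8 / 100 / y + 32 / 5 / y) :=
              mul_le_mul_of_nonneg_left (by linarith) (hc0 v T hT)
          _ = _ := by ring
      calc |Err v| ≤ ∑ T ∈ star E v, |c v T * ((rr y X T u - s v T) * s v T
          + ∑ f ∈ T.erase v, hh E y X f u)| := Finset.abs_sum_le_sum_abs _ _
        _ ≤ ∑ T ∈ star E v, (2 * a' * (c v T * |s v T|)
            + c v T * (8 / 100 / y + 32 / 5 / y)) := Finset.sum_le_sum hT1
        _ = 2 * a' * Sg v + (1 + α v) * (8 / 100 / y + 32 / 5 / y) := by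
            rw [Finset.sum_add_distrib, ← Finset.mul_sum, ← Finset.sum_mul, hcsum]
        _ ≤ 2 * a' * Sg v + 7 / y := by
            have e1 : (1 + α v) * (8 / 100 / y + 32 / 5 / y)
                ≤ 101 / 100 * (8 / 100 / y + 32 / 5 / y) :=
              mul_le_mul_of_nonneg_right (hα2 v hv) (by positivity)
            have e2 : 101 / 100 * (8 / 100 / y + 32 / 5 / y) ≤ 7 / y := by
              have : 101 / 100 * (8 / 100 / y + 32 / 5 / y) = (101 / 100 * (8 / 100 + 32 / 5)) / y := by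
                ring
              rw [this]
              apply div_le_div_of_nonneg_right _ hy.le
              norm_num
            linarith
    have hErr2 : ∀ v ∈ Vs, Err v ^ 2 ≤ 8 * a' ^ 2 * Sg v ^ 2 + 98 / y ^ 2 := by
      intro v hv
      have h1 := hErr1 v hv
      have h2 : Err v ^ 2 ≤ (2 * a' * Sg v + 7 / y) ^ 2 := by
        rw [← sq_abs (Err v)]
        exact pow_le_pow_left₀ (abs_nonneg _) h1 2
      have h3 : (2 * a' * Sg v + 7 / y) ^ 2 ≤ 2 * (2 * a' * Sg v) ^ 2 + 2 * (7 / y) ^ 2 := by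
        nlinarith [sq_nonneg (2 * a' * Sg v - 7 / y)]
      have h4 : 2 * (2 * a' * Sg v) ^ 2 + 2 * (7 / y) ^ 2 = 8 * a' ^ 2 * Sg v ^ 2 + 98 / y ^ 2 := by
        rw [div_pow]
        ring
      linarith
    have hxpos : ∀ v ∈ Vs, 0 < x v ∧ x v ≤ 102 / 100 := by
      intro v hv
      have := (hpt1 v hv).2
      exact ⟨by linarith [this.1], this.2⟩
    have hSgsum : ∑ v ∈ Vs, x v * Sg v ^ 2 ≤ 4 * (101 / 100) ^ 2 * ∑ v ∈ Vs, x v * α v ^ 2 :=
      avg_bound E y X hB hR.card3 hy Vs hR.sub u hu3 α (101 / 100) hα2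
    have hErrsum : ∑ v ∈ Vs, x v * Err v ^ 2 ≤
        34 * a' ^ 2 * (∑ v ∈ Vs, x v * α v ^ 2) + 220 * Vs.card / y ^ 2 := by
      calc ∑ v ∈ Vs, x v * Err v ^ 2
          ≤ ∑ v ∈ Vs, (8 * a' ^ 2 * (x v * Sg v ^ 2) + 100 / y ^ 2) := by
            apply Finset.sum_le_sum
            intro v hv
            obtain ⟨k1, k2⟩ := hxpos v hv
            have k3 := mul_le_mul_of_nonneg_left (hErr2 v hv) k1.le
            have k4 : x v * (98 / y ^ 2) ≤ 100 / y ^ 2 := by
              have : x v * (98 / y ^ 2) ≤ 102 / 100 * (98 / y ^ 2) :=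
                mul_le_mul_of_nonneg_right k2 (by positivity)
              have k5 : 102 / 100 * (98 / y ^ 2) = (102 / 100 * 98) / y ^ 2 := by ring
              have k6 : (102 / 100 * 98) / y ^ 2 ≤ 100 / y ^ 2 := by
                apply div_le_div_of_nonneg_right _ (by positivity)
                norm_num
              linarith
            have k7 : x v * (8 * a' ^ 2 * Sg v ^ 2 + 98 / y ^ 2)
                = 8 * a' ^ 2 * (x v * Sg v ^ 2) + x v * (98 / y ^ 2) := by ring
            linarith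
        _ = 8 * a' ^ 2 * (∑ v ∈ Vs, x v * Sg v ^ 2) + Vs.card * (100 / y ^ 2) := by
            rw [Finset.sum_add_distrib, ← Finset.mul_sum, Finset.sum_const, nsmul_eq_mul]
        _ ≤ 34 * a' ^ 2 * (∑ v ∈ Vs, x v * α v ^ 2) + 220 * Vs.card / y ^ 2 := by
            have hA0 : 0 ≤ ∑ v ∈ Vs, x v * α v ^ 2 :=
              Finset.sum_nonneg fun v hv => mul_nonneg (hxpos v hv).1.le (sq_nonneg _)
            have m1 : 8 * a' ^ 2 * (∑ v ∈ Vs, x v * Sg v ^ 2) ≤
                8 * a' ^ 2 * (4 * (101 / 100) ^ 2 * ∑ v ∈ Vs, x v * α v ^ 2) :=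
              mul_le_mul_of_nonneg_left hSgsum (by positivity)
            have m2 : 8 * a' ^ 2 * (4 * (101 / 100) ^ 2 * ∑ v ∈ Vs, x v * α v ^ 2) ≤
                34 * a' ^ 2 * (∑ v ∈ Vs, x v * α v ^ 2) := by
              have : 0 ≤ a' ^ 2 * (∑ v ∈ Vs, x v * α v ^ 2) := by positivity
              nlinarith
            have m3 : (Vs.card : ℝ) * (100 / y ^ 2) ≤ 220 * Vs.card / y ^ 2 := by
              rw [mul_div_assoc']
              apply div_le_div_of_nonneg_right _ (by positivity)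
              have : (0 : ℝ) ≤ Vs.card := Nat.cast_nonneg _
              linarith
            linarith
    -- the quadratic form
    have hquad := quad_lower E y X hB hR.card3 hy Vs hR.sub u hu3 g
    have hsplit : ∀ v, g v * G' v = lm * (g v * Err v
        - ∑ T ∈ star E v, c v T * (g v * ∑ f ∈ T.erase v, g f)) := by
      intro v
      have e1 : G' v = lm * (Err v - ∑ T ∈ star E v, c v T * ∑ f ∈ T.erase v, g f) := by
        show lm * _ = _
        congr 1
        rw [hErr, ← Finset.sum_sub_distrib]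
        apply Finset.sum_congr rfl
        intro T _
        rw [Finset.sum_sub_distrib]
        show c v T * ((rr y X T u - s v T) * s v T - (∑ f ∈ T.erase v, g f
          - ∑ f ∈ T.erase v, hh E y X f u)) = _
        ring
      rw [e1]
      have e2 : ∑ T ∈ star E v, c v T * (g v * ∑ f ∈ T.erase v, g f)
          = g v * ∑ T ∈ star E v, c v T * ∑ f ∈ T.erase v, g f := by
        rw [Finset.mul_sum]
        apply Finset.sum_congr rfl
        intro T _
        ring
      rw [e2]
      ring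
    have hmain : -(2 * lm ^ 2) * (∑ v ∈ Vs, x v * g v ^ 2) +
      lm * ∑ v ∈ Vs, (-(lm * x v * α v) * g v ^ 2 + x v * (2 * g v * G' v)) =
        -(2 * lm ^ 2) * (∑ v ∈ Vs, x v * g v ^ 2) - lm ^ 2 * (∑ v ∈ Vs, x v * α v * g v ^ 2)
        + 2 * lm ^ 2 * (∑ v ∈ Vs, x v * (g v * Err v))
        - 2 * lm ^ 2 * (∑ v ∈ Vs, x v * ∑ T ∈ star E v, c v T * (g v * ∑ f ∈ T.erase v, g f)) := by
      have e1 : ∀ v ∈ Vs, (-(lm * x v * α v) * g v ^ 2 + x v * (2 * g v * G' v)) =
          -(lm * (x v * α v * g v ^ 2)) + 2 * lm * (x v * (g v * Err v))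
          - 2 * lm * (x v * ∑ T ∈ star E v, c v T * (g v * ∑ f ∈ T.erase v, g f)) := by
        intro v _
        have e2 : x v * (2 * g v * G' v) = 2 * x v * (g v * G' v) := by ring
        rw [e2, hsplit v]
        ring
      rw [Finset.sum_congr rfl e1, Finset.sum_sub_distrib, Finset.sum_add_distrib,
        Finset.sum_neg_distrib, ← Finset.mul_sum, ← Finset.mul_sum, ← Finset.mul_sum]
      ring
    have hquad2 : -(∑ v ∈ Vs, x v * ∑ T ∈ star E v, c v T * (g v * ∑ f ∈ T.erase v, g f)) ≤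
        ∑ v ∈ Vs, x v * g v ^ 2 + ∑ v ∈ Vs, x v * α v * g v ^ 2 := by
      have e1 : ∑ v ∈ Vs, x v * (1 + α v) * g v ^ 2
          = ∑ v ∈ Vs, x v * g v ^ 2 + ∑ v ∈ Vs, x v * α v * g v ^ 2 := by
        rw [← Finset.sum_add_distrib]
        apply Finset.sum_congr rfl
        intro v _
        ring
      have e2 : -∑ v ∈ Vs, x v * (1 + α v) * g v ^ 2 ≤
        ∑ v ∈ Vs, x v * ∑ T ∈ star E v, c v T * (g v * ∑ f ∈ T.erase v, g f) := hquad
      linarith
    have hag : ∑ v ∈ Vs, x v * α v * g v ^ 2 ≤ a' * ∑ v ∈ Vs, x v * g v ^ 2 := by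
      rw [Finset.mul_sum]
      apply Finset.sum_le_sum
      intro v hv
      have k1 := (abs_le.mp (hα1 v hv)).2
      have k2 : 0 ≤ x v * g v ^ 2 := mul_nonneg (hxpos v hv).1.le (sq_nonneg _)
      nlinarith
    have hgE : 2 * (∑ v ∈ Vs, x v * (g v * Err v)) ≤ (∑ v ∈ Vs, x v * g v ^ 2) / ell
        + ell * ∑ v ∈ Vs, x v * Err v ^ 2 := by
      rw [Finset.mul_sum, Finset.sum_div, Finset.mul_sum, ← Finset.sum_add_distrib]
      apply Finset.sum_le_sum
      intro v hv
      have k1 : 2 * (g v * Err v) ≤ g v ^ 2 / ell + ell * Err v ^ 2 := HEnergy_two_mul_le hell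
      have k2 := mul_le_mul_of_nonneg_left k1 (hxpos v hv).1.le
      calc 2 * (x v * (g v * Err v)) = x v * (2 * (g v * Err v)) := by ring
        _ ≤ x v * (g v ^ 2 / ell + ell * Err v ^ 2) := k2
        _ = _ := by ring
    have hG0 : 0 ≤ ∑ v ∈ Vs, x v * g v ^ 2 :=
      Finset.sum_nonneg fun v hv => mul_nonneg (hxpos v hv).1.le (sq_nonneg _)
    show -(2 * lm ^ 2) * (∑ v ∈ Vs, x v * g v ^ 2) +
      lm * ∑ v ∈ Vs, (-(lm * x v * α v) * g v ^ 2 + x v * (2 * g v * G' v)) ≤
      lm * (a' + 2 / ell) * En E y X Vs u +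
        lm ^ 2 * ell * (34 * a' ^ 2 * A2 E y X Vs u + 220 * Vs.card / y ^ 2)
    rw [hmain, hA2, hEn]
    have hl2 : 0 ≤ lm ^ 2 := sq_nonneg _
    have r1 : 2 * lm ^ 2 * (-(∑ v ∈ Vs, x v * ∑ T ∈ star E v, c v T * (g v * ∑ f ∈ T.erase v, g f)))
        ≤ 2 * lm ^ 2 * (∑ v ∈ Vs, x v * g v ^ 2 + ∑ v ∈ Vs, x v * α v * g v ^ 2) :=
      mul_le_mul_of_nonneg_left hquad2 (by positivity)
    have r2 : lm ^ 2 * (∑ v ∈ Vs, x v * α v * g v ^ 2) ≤ lm ^ 2 * (a' * ∑ v ∈ Vs, x v * g v ^ 2) :=
      mul_le_mul_of_nonneg_left hag hl2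
    have r3 : lm ^ 2 * (2 * (∑ v ∈ Vs, x v * (g v * Err v))) ≤
        lm ^ 2 * ((∑ v ∈ Vs, x v * g v ^ 2) / ell + ell * ∑ v ∈ Vs, x v * Err v ^ 2) :=
      mul_le_mul_of_nonneg_left hgE hl2
    have r4 : lm ^ 2 * ell * ∑ v ∈ Vs, x v * Err v ^ 2 ≤
        lm ^ 2 * ell * (34 * a' ^ 2 * (∑ v ∈ Vs, x v * α v ^ 2) + 220 * Vs.card / y ^ 2) :=
      mul_le_mul_of_nonneg_left hErrsum (by positivity)
    have r5 : lm ^ 2 * ((∑ v ∈ Vs, x v * g v ^ 2) / ell) ≤
        lm ^ 2 * (2 / ell * ∑ v ∈ Vs, x v * g v ^ 2) := by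
      apply mul_le_mul_of_nonneg_left _ hl2
      have : 2 / ell * ∑ v ∈ Vs, x v * g v ^ 2 = (∑ v ∈ Vs, x v * g v ^ 2) / ell
          + (∑ v ∈ Vs, x v * g v ^ 2) / ell := by ring
      rw [this]
      have : 0 ≤ (∑ v ∈ Vs, x v * g v ^ 2) / ell := by positivity
      linarith
    have r6 : lm * (a' + 2 / ell) * (lm * ∑ v ∈ Vs, x v * g v ^ 2) =
        lm ^ 2 * (a' * ∑ v ∈ Vs, x v * g v ^ 2) + lm ^ 2 * (2 / ell * ∑ v ∈ Vs, x v * g v ^ 2) := by
      ring
    show _ ≤ lm * (a' + 2 / ell) * (lm * ∑ v ∈ Vs, x v * g v ^ 2) +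
      lm ^ 2 * ell * (34 * a' ^ 2 * (∑ v ∈ Vs, x v * α v ^ 2) + 220 * Vs.card / y ^ 2)
    rw [r6]
    nlinarith

end

end Vale.Agent.P046.H
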