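import Vale.Agent.Lib.P046.HGronwall
import Vale.Agent.Lib.P046.HOdeB
import Vale.Agent.Lib.P046.HPar
import Vale.Agent.Lib.P046.HPoint
import Vale.Agent.Lib.P046.HEnergy

/-!
# P046, H11: closing the energy estimate
-/

namespace Vale.Agent.P046.H

open Finset MeasureTheory

noncomputable section

variable {V : Type} [Fintype V] [DecidableEq V]

/-- numerical consequences of the parameters used in this module -/
private theorem HEnergyEnd_num {y L y2 b ell : ℝ} (hP : Par y L y2 b ell) :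
    0 < y ∧ 0 < b ∧ L * ell ≤ Real.sqrt y / 10 ^ 8 ∧ L ^ 2 * ell ^ 3 ≤ y / 10 ^ 16 ∧
      L ^ 4 * ell ^ 2 * b ≤ 1 / 10 ^ 8 := by
  obtain ⟨hy, hy2, -, hb, hb2, -, -, -, -, -, hs⟩ := par_facts hP
  have hL := hP.hL
  have hell := hP.hell1
  have hL0 : 0 ≤ L := by linarith
  have hell0 : 0 ≤ ell := by linarith
  have h1 : (1 : ℝ) ≤ y2 ^ 20 := one_le_pow₀ (by linarith)
  have h2 : L * ell ≤ L * ell * y2 ^ 20 := by
    have : 0 ≤ L * ell := mul_nonneg hL0 hell0
    nlinarith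
  have h3 : L * ell ≤ Real.sqrt y / 10 ^ 8 := h2.trans hs
  have hbig : L ^ 4 * ell ^ 2 * 10 ^ 8 ≤ y2 := by
    have h4 : L ^ 4 * ell ^ 2 ≤ L ^ 8 * ell ^ 8 := by
      have h5 : L ^ 4 ≤ L ^ 8 := pow_le_pow_right₀ hL (by norm_num)
      have h6 : ell ^ 2 ≤ ell ^ 8 := pow_le_pow_right₀ hell (by norm_num)
      exact mul_le_mul h5 h6 (by positivity) (by positivity)
    have := hP.hy2
    nlinarith
  have hell_y2 : ell ≤ y2 := by
    have h4 : ell ≤ L ^ 4 * ell ^ 2 * 10 ^ 8 := by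
      have h5 : (1 : ℝ) ≤ L ^ 4 := one_le_pow₀ hL
      have h6 : ell ≤ ell ^ 2 := by nlinarith
      have h7 : ell ≤ L ^ 4 * ell ^ 2 := by nlinarith [sq_nonneg ell]
      nlinarith [sq_nonneg ell, pow_nonneg hL0 4]
    linarith
  refine ⟨hy, hb, h3, ?_, ?_⟩
  · -- `L² ell³ ≤ (L ell)² y2 ≤ (L ell y2^20)²`
    have h4 : (L * ell * y2 ^ 20) ^ 2 ≤ (Real.sqrt y / 10 ^ 8) ^ 2 :=
      pow_le_pow_left₀ (by positivity) hs 2
    have h5 : (Real.sqrt y / 10 ^ 8) ^ 2 = y / 10 ^ 16 := by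
      rw [div_pow, Real.sq_sqrt hy.le]
      norm_num
    rw [h5] at h4
    refine le_trans ?_ h4
    have h6 : y2 ≤ (y2 ^ 20) ^ 2 := by
      rw [← pow_mul]
      exact le_self_pow₀ (by linarith) (by norm_num)
    calc L ^ 2 * ell ^ 3 = (L * ell) ^ 2 * ell := by ring
      _ ≤ (L * ell) ^ 2 * (y2 ^ 20) ^ 2 :=
          mul_le_mul_of_nonneg_left (hell_y2.trans h6) (sq_nonneg _)
      _ = (L * ell * y2 ^ 20) ^ 2 := by ring
  · have hy2p : 0 < y2 := by linarith
    calc L ^ 4 * ell ^ 2 * b ≤ L ^ 4 * ell ^ 2 * (1 / (2 * y2)) :=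
          mul_le_mul_of_nonneg_left hb2 (by positivity)
      _ = (L ^ 4 * ell ^ 2 * 10 ^ 8) / (2 * y2 * 10 ^ 8) := by
          field_simp
      _ ≤ y2 / (2 * y2 * 10 ^ 8) := div_le_div_of_nonneg_right hbig (by positivity)
      _ ≤ 1 / 10 ^ 8 := by
          rw [div_le_div_iff₀ (by positivity) (by positivity)]
          nlinarith

private theorem HEnergyEnd_exp : Real.exp (51 / 100) ≤ 17 / 10 := by
  have h := Real.exp_bound' (x := 51 / 100) (by norm_num) (by norm_num) (n := 5) (by norm_num)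
  refine h.trans ?_
  norm_num [Finset.sum_range_succ, Nat.factorial]

/-- continuity of `lam` on `[0,b]` -/
private theorem HEnergyEnd_lam_cont {y b : ℝ} (hy : 0 < y) :
    ContinuousOn (lam y) (Set.Icc 0 b) := fun u hu =>
  ((lam_facts hy).1 u hu.1).continuousAt.continuousWithinAt

/-- integral of a combination of `lam²`, `lam`, `1`, `s` -/
private theorem HEnergyEnd_int {y : ℝ} (hy : 0 < y) (C1 C2 C3 C4 u : ℝ) (hu : 0 ≤ u) :
    ∫ s in (0 : ℝ)..u, (C1 * lam y s ^ 2 + C2 * lam y s + C3 + C4 * s) =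
      C1 * ((y - lam y u) / 2) + C2 * (Real.log (1 + 2 * y * u) / 2) + C3 * u +
        C4 * (u ^ 2 / 2) := by
  have hc : ContinuousOn (lam y) (Set.uIcc 0 u) := by
    rw [Set.uIcc_of_le hu]
    exact HEnergyEnd_lam_cont hy
  obtain ⟨-, -, -, -, -, h6, h7⟩ := lam_facts hy
  have i1 : IntervalIntegrable (fun s => C1 * lam y s ^ 2) volume 0 u :=
    (continuousOn_const.mul (hc.pow 2)).intervalIntegrable
  have i2 : IntervalIntegrable (fun s => C2 * lam y s) volume 0 u :=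
    (continuousOn_const.mul hc).intervalIntegrable
  have i3 : IntervalIntegrable (fun _ : ℝ => C3) volume 0 u :=
    continuousOn_const.intervalIntegrable
  have i4 : IntervalIntegrable (fun s => C4 * s) volume 0 u :=
    (continuousOn_const.mul continuousOn_id).intervalIntegrable
  rw [intervalIntegral.integral_add ((i1.add i2).add i3) i4,
    intervalIntegral.integral_add (i1.add i2) i3, intervalIntegral.integral_add i1 i2,
    intervalIntegral.integral_const_mul, intervalIntegral.integral_const_mul,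
    intervalIntegral.integral_const_mul, intervalIntegral.integral_const, h6 u hu, h7 u hu,
    integral_id]
  simp only [smul_eq_mul, sub_zero]
  ring

/-- Gronwall with the rate of this part -/
private theorem HEnergyEnd_gron {y L y2 b ell : ℝ} (hP : Par y L y2 b ell) (f : ℝ → ℝ)
    (hf : ContinuousOn f (Set.Icc 0 b)) (hf0 : ∀ u ∈ Set.Icc 0 b, 0 ≤ f u) {C1 C2 C3 C4 : ℝ}
    (h1 : 0 ≤ C1) (h2 : 0 ≤ C2) (h3 : 0 ≤ C3) (h4 : 0 ≤ C4)
    (hd : ∀ u ∈ Set.Ioo 0 b, ∃ d, HasDerivAt f d u ∧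
      d ≤ lam y u * (ab y L u + 2 / ell) * f u +
        (C1 * lam y u ^ 2 + C2 * lam y u + C3 + C4 * u)) :
    ∀ u ∈ Set.Icc 0 b, f u ≤
      17 / 10 * (f 0 + C1 * (y / 2) + C2 * (ell / 4) + C3 * u + C4 * (u ^ 2 / 2)) := by
  obtain ⟨hy, hb, hn1, hn2, hn3⟩ := HEnergyEnd_num hP
  obtain ⟨-, hy2, -, -, -, -, -, -, hl, -, -⟩ := par_facts hP
  have hL := hP.hL
  have hell := hP.hell1
  have hlamc : ContinuousOn (lam y) (Set.Icc 0 b) := HEnergyEnd_lam_cont hy
  have hlam0 : ∀ u ∈ Set.Icc 0 b, 0 < lam y u := fun u hu => by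
    have := (hl u hu).1
    linarith
  have hsq : 0 < Real.sqrt y := Real.sqrt_pos.2 hy
  set β : ℝ → ℝ := fun s => 0 * lam y s ^ 2 + (2 * L / Real.sqrt y + 2 / ell) * lam y s +
    80 * L ^ 2 + 0 * s with hβ
  set γ : ℝ → ℝ := fun s => C1 * lam y s ^ 2 + C2 * lam y s + C3 + C4 * s with hγ
  have hβc : ContinuousOn β (Set.Icc 0 b) :=
    (((continuousOn_const.mul (hlamc.pow 2)).add (continuousOn_const.mul hlamc)).add
      continuousOn_const).add (continuousOn_const.mul continuousOn_id)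
  have hγc : ContinuousOn γ (Set.Icc 0 b) :=
    (((continuousOn_const.mul (hlamc.pow 2)).add (continuousOn_const.mul hlamc)).add
      continuousOn_const).add (continuousOn_const.mul continuousOn_id)
  have hcoef : 0 ≤ 2 * L / Real.sqrt y + 2 / ell := by positivity
  have hβ0 : ∀ u ∈ Set.Icc 0 b, 0 ≤ β u := by
    intro u hu
    have := hlam0 u hu
    have hu0 := hu.1
    simp only [hβ]
    positivity
  have hγ0 : ∀ u ∈ Set.Icc 0 b, 0 ≤ γ u := by
    intro u hu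
    have := hlam0 u hu
    have hu0 := hu.1
    simp only [hγ]
    positivity
  have hder : ∀ u ∈ Set.Ioo 0 b, HasDerivAt f (deriv f u) u := by
    intro u hu
    obtain ⟨d, hd1, -⟩ := hd u hu
    rw [hd1.deriv]
    exact hd1
  have hineq : ∀ u ∈ Set.Ioo 0 b, deriv f u ≤ β u * f u + γ u := by
    intro u hu
    obtain ⟨d, hd1, hd2⟩ := hd u hu
    rw [hd1.deriv]
    have hl0 := hlam0 u ⟨hu.1.le, hu.2.le⟩
    have e : lam y u * (ab y L u + 2 / ell) = β u := by
      simp only [hβ, ab]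
      field_simp
      ring
    rw [e] at hd2
    exact hd2
  intro u hu
  have hg := gronwall_int f (deriv f) β γ b hb.le hf hder hβc hγc hβ0 hγ0 hineq u hu
  rw [hβ, hγ, HEnergyEnd_int hy _ _ _ _ u hu.1, HEnergyEnd_int hy _ _ _ _ u hu.1] at hg
  have hlog := (hl u hu).2.2
  have hlu := (hl u hu).1
  have hf00 := hf0 0 ⟨le_rfl, hb.le⟩
  have hu0 := hu.1
  have hub := hu.2
  -- the exponent
  have hexp : 0 * ((y - lam y u) / 2) + (2 * L / Real.sqrt y + 2 / ell) *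
      (Real.log (1 + 2 * y * u) / 2) + 80 * L ^ 2 * u + 0 * (u ^ 2 / 2) ≤ 51 / 100 := by
    have e1 : (2 * L / Real.sqrt y + 2 / ell) * (Real.log (1 + 2 * y * u) / 2) ≤
        (2 * L / Real.sqrt y + 2 / ell) * (ell / 4) :=
      mul_le_mul_of_nonneg_left (by linarith) hcoef
    have e2 : (2 * L / Real.sqrt y + 2 / ell) * (ell / 4) = L * ell / (2 * Real.sqrt y) + 1 / 2 := by
      field_simp
      ring
    have e3 : L * ell / (2 * Real.sqrt y) ≤ 1 / 10 ^ 8 := by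
      rw [div_le_div_iff₀ (by positivity) (by positivity)]
      have := hn1
      rw [le_div_iff₀ (by positivity)] at this
      linarith
    have e4 : L ^ 2 * u ≤ 1 / 10 ^ 8 := by
      have h5 : L ^ 2 ≤ L ^ 4 * ell ^ 2 := by
        have h6 : L ^ 2 ≤ L ^ 4 := pow_le_pow_right₀ hL (by norm_num)
        have h7 : (1 : ℝ) ≤ ell ^ 2 := one_le_pow₀ hell
        nlinarith [sq_nonneg L]
      calc L ^ 2 * u ≤ (L ^ 4 * ell ^ 2) * b := mul_le_mul h5 hub hu0 (by positivity)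
        _ ≤ _ := hn3
    linarith
  have hE := (Real.exp_le_exp.2 hexp).trans HEnergyEnd_exp
  have hA : f 0 + (C1 * ((y - lam y u) / 2) + C2 * (Real.log (1 + 2 * y * u) / 2) + C3 * u +
      C4 * (u ^ 2 / 2)) ≤ f 0 + C1 * (y / 2) + C2 * (ell / 4) + C3 * u + C4 * (u ^ 2 / 2) := by
    have e1 : C1 * ((y - lam y u) / 2) ≤ C1 * (y / 2) :=
      mul_le_mul_of_nonneg_left (by linarith) h1
    have e2 : C2 * (Real.log (1 + 2 * y * u) / 2) ≤ C2 * (ell / 4) :=
      mul_le_mul_of_nonneg_left (by linarith) h2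
    linarith
  have hA0 : 0 ≤ f 0 + C1 * (y / 2) + C2 * (ell / 4) + C3 * u + C4 * (u ^ 2 / 2) := by
    positivity
  calc f u ≤ _ := hg
    _ ≤ (f 0 + C1 * (y / 2) + C2 * (ell / 4) + C3 * u + C4 * (u ^ 2 / 2)) * (17 / 10) :=
        mul_le_mul hA hE (Real.exp_pos _).le hA0
    _ = _ := by ring

/-- initial values -/
private theorem HEnergyEnd_init (Vs : Finset V) (E : Finset (Finset V)) (y L : ℝ) (hy : 0 < y)
    (hR : HReg Vs E y L) (X : V → Finset V → ℝ → ℝ) (hB : Bethe E X) :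
    A2 E y X Vs 0 ≤ Vs.card * L ^ 2 / y ∧ En E y X Vs 0 ≤ Vs.card * L ^ 2 / y := by
  constructor
  · unfold A2
    have h1 : ∀ v ∈ Vs, XX y X v 0 * al E y X v 0 ^ 2 ≤ L ^ 2 / y := by
      intro v hv
      rw [init_XX E y X hB hy v, init_al E y X hB hR.card3 hy v, one_mul]
      have h2 := hR.p1 v hv
      have h3 : ((deg E v : ℝ) - y) ^ 2 ≤ (L * Real.sqrt y) ^ 2 := by
        rw [← sq_abs ((deg E v : ℝ) - y)]
        exact pow_le_pow_left₀ (abs_nonneg _) h2 2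
      rw [mul_pow, Real.sq_sqrt hy.le] at h3
      have e1 : ((deg E v : ℝ) / y - 1) ^ 2 = ((deg E v : ℝ) - y) ^ 2 / y ^ 2 := by
        field_simp
      rw [e1, div_le_div_iff₀ (by positivity) hy]
      nlinarith
    have h2 := Finset.sum_le_sum h1
    rw [Finset.sum_const, nsmul_eq_mul] at h2
    refine h2.trans (le_of_eq ?_)
    ring
  · unfold En
    have h1 : ∀ v ∈ Vs, XX y X v 0 * gg E y X v 0 ^ 2 ≤ L ^ 2 / y ^ 2 := by
      intro v hv
      rw [init_XX E y X hB hy v, init_gg E y X hB hR.card3 hy v, one_mul]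
      have h2 := hR.p2 v hv
      set S := ∑ T ∈ star E v, ∑ f ∈ T.erase v, ((deg E f : ℝ) - y) with hS
      have h3 : S ^ 2 ≤ (L * y) ^ 2 := by
        rw [← sq_abs S]
        exact pow_le_pow_left₀ (abs_nonneg _) h2 2
      rw [div_pow, div_le_div_iff₀ (by positivity) (by positivity)]
      have h4 : S ^ 2 * y ^ 2 ≤ (L * y) ^ 2 * y ^ 2 := mul_le_mul_of_nonneg_right h3 (sq_nonneg _)
      calc S ^ 2 * y ^ 2 ≤ (L * y) ^ 2 * y ^ 2 := h4
        _ = L ^ 2 * (y ^ 2) ^ 2 := by ring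
    have h2 := Finset.sum_le_sum h1
    rw [Finset.sum_const, nsmul_eq_mul] at h2
    have e1 : lam y 0 = y := by
      unfold lam
      simp
    rw [e1]
    calc y * ∑ v ∈ Vs, XX y X v 0 * gg E y X v 0 ^ 2 ≤ y * (Vs.card * (L ^ 2 / y ^ 2)) :=
          mul_le_mul_of_nonneg_left h2 hy.le
      _ = Vs.card * L ^ 2 / y := by
          field_simp

private theorem HEnergyEnd_cont (Vs : Finset V) (E : Finset (Finset V)) (y b : ℝ) (hy : 0 < y)
    (hb : b ≤ 1 / 2) (hE : ∀ T ∈ E, T.card = 3) (X : V → Finset V → ℝ → ℝ) (hB : Bethe E X) :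
    ContinuousOn (A2 E y X Vs) (Set.Icc 0 b) ∧ ContinuousOn (En E y X Vs) (Set.Icc 0 b) := by
  have hsub : Set.Icc 0 b ⊆ Set.Icc (0 : ℝ) (1 / 2) := Set.Icc_subset_Icc_right hb
  constructor
  · exact continuousOn_finsetSum Vs fun v _ =>
      ((cont_XX E y X hB hE hy v).mono hsub).mul (((cont_al E y X hB hE hy v).mono hsub).pow 2)
  · exact (HEnergyEnd_lam_cont hy).mul (continuousOn_finsetSum Vs fun v _ =>
      ((cont_XX E y X hB hE hy v).mono hsub).mul (((cont_gg E y X hB hE hy v).mono hsub).pow 2))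

/-- numbers used in the closing argument -/
private theorem HEnergyEnd_num2 {y L y2 b ell : ℝ} (hP : Par y L y2 b ell) :
    L ^ 2 * ell ^ 3 / y ≤ 1 / 10 ^ 16 ∧ ell ^ 2 / y ≤ 1 / 10 ^ 16 ∧ L ^ 4 * b ≤ 1 / 10 ^ 8 ∧
      b ≤ 1 ∧ L ^ 2 ≤ L ^ 4 ∧ 1 ≤ L ^ 2 ∧ L ^ 2 ≤ ell * L ^ 4 ∧ ell ≤ ell * L ^ 4 := by
  obtain ⟨hy, hb, hn1, hn2, hn3⟩ := HEnergyEnd_num hP
  have hL := hP.hL
  have hell := hP.hell1
  have hL0 : 0 < L := by linarith
  have hell0 : 0 < ell := by linarith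
  have hL2 : (1 : ℝ) ≤ L ^ 2 := one_le_pow₀ hL
  have hL4 : (1 : ℝ) ≤ L ^ 4 := one_le_pow₀ hL
  have hLL : L ^ 2 ≤ L ^ 4 := pow_le_pow_right₀ hL (by norm_num)
  have r1 : L ^ 2 * ell ^ 3 / y ≤ 1 / 10 ^ 16 := by
    rw [div_le_iff₀ hy]
    linarith
  have r2 : ell ^ 2 / y ≤ 1 / 10 ^ 16 := by
    refine le_trans ?_ r1
    apply div_le_div_of_nonneg_right _ hy.le
    have h1 : ell ^ 2 ≤ ell ^ 3 := pow_le_pow_right₀ hell (by norm_num)
    calc ell ^ 2 ≤ 1 * ell ^ 3 := by linarith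
      _ ≤ L ^ 2 * ell ^ 3 := mul_le_mul_of_nonneg_right hL2 (by positivity)
  have rb : L ^ 4 * b ≤ 1 / 10 ^ 8 := by
    refine le_trans ?_ hn3
    have h1 : (1 : ℝ) ≤ ell ^ 2 := one_le_pow₀ hell
    calc L ^ 4 * b = L ^ 4 * 1 * b := by ring
      _ ≤ L ^ 4 * ell ^ 2 * b := by
          apply mul_le_mul_of_nonneg_right _ hb.le
          exact mul_le_mul_of_nonneg_left h1 (by positivity)
  have hb1 : b ≤ 1 := by
    have : 1 * b ≤ L ^ 4 * b := mul_le_mul_of_nonneg_right hL4 hb.le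
    linarith
  refine ⟨r1, r2, rb, hb1, hLL, hL2, ?_, ?_⟩
  · calc L ^ 2 ≤ 1 * L ^ 4 := by linarith
      _ ≤ ell * L ^ 4 := mul_le_mul_of_nonneg_right hell (by positivity)
  · calc ell = ell * 1 := by ring
      _ ≤ ell * L ^ 4 := mul_le_mul_of_nonneg_left hL4 hell0.le

/-- bound of the supremum of the energy: numbers only -/
private theorem HEnergyEnd_S {y L y2 b ell c S A0 : ℝ} (hP : Par y L y2 b ell) (hc : 0 ≤ c)
    (hA0 : 0 ≤ A0) (hA : A0 ≤ c / y * (101 / 100 * L ^ 2))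
    (hS : S ≤ 17 / 10 * (c * L ^ 2 / y +
      (220 * ell * c / y ^ 2 + 17 / 10 * (34 * ell) * (8 * L ^ 2 / y) * A0) * (y / 2) +
      17 / 10 * (34 * ell) * (8 * L ^ 2 / y) * (ell * S / 2) * (ell / 4) +
      17 / 10 * (34 * ell) * (12800 * L ^ 4) * A0 * b +
      17 / 10 * (34 * ell) * (12800 * L ^ 4) * (ell * S) * (b ^ 2 / 2))) (hS0 : 0 ≤ S) :
    S ≤ 710 * (ell * L ^ 4 * (c / y)) := by
  obtain ⟨hy, hb, hn1, hn2, hn3⟩ := HEnergyEnd_num hP
  obtain ⟨r1, r2, rb, hb1, hLL, hL2, hLe, hee⟩ := HEnergyEnd_num2 hP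
  have hL := hP.hL
  have hell := hP.hell1
  have hL0 : 0 < L := by linarith
  have hell0 : 0 < ell := by linarith
  have q0 : 0 ≤ c / y := by positivity
  have e0 : c * L ^ 2 / y = c / y * L ^ 2 := by ring
  have e1 : 220 * ell * c / y ^ 2 * (y / 2) = 110 * ell * (c / y) := by
    field_simp
    ring
  set q := c / y with hq
  have hT : 0 ≤ ell * L ^ 4 * q := by positivity
  have g2 : (17 / 10 * (34 * ell) * (8 * L ^ 2 / y) * A0) * (y / 2) =
      17 / 10 * 34 * 4 * ell * L ^ 2 * A0 := by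
    field_simp
    ring
  have g2' : 17 / 10 * 34 * 4 * ell * L ^ 2 * A0 ≤ 234 * (ell * L ^ 4 * q) := by
    calc _ ≤ 17 / 10 * 34 * 4 * ell * L ^ 2 * (q * (101 / 100 * L ^ 2)) :=
          mul_le_mul_of_nonneg_left hA (by positivity)
      _ = (17 / 10 * 34 * 4 * (101 / 100)) * (ell * L ^ 4 * q) := by ring
      _ ≤ 234 * (ell * L ^ 4 * q) := mul_le_mul_of_nonneg_right (by norm_num) hT
  have g3 : 17 / 10 * (34 * ell) * (8 * L ^ 2 / y) * (ell * S / 2) * (ell / 4) =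
      (17 / 10 * 34) * (L ^ 2 * ell ^ 3 / y) * S := by
    field_simp
    ring
  have g3' : (17 / 10 * 34) * (L ^ 2 * ell ^ 3 / y) * S ≤ 1 / 1000 * S := by
    apply mul_le_mul_of_nonneg_right _ hS0
    linarith
  have g4 : 17 / 10 * (34 * ell) * (12800 * L ^ 4) * A0 * b =
      (17 / 10 * 34 * 12800) * (L ^ 4 * b) * (ell * A0) := by ring
  have g4' : (17 / 10 * 34 * 12800) * (L ^ 4 * b) * (ell * A0) ≤ 1 / 100 * (ell * L ^ 4 * q) := by
    have h1 : (17 / 10 * 34 * 12800) * (L ^ 4 * b) ≤ 8 / 1000 := by linarith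
    have h2 : ell * A0 ≤ 101 / 100 * (ell * L ^ 4 * q) := by
      calc ell * A0 ≤ ell * (q * (101 / 100 * L ^ 2)) := mul_le_mul_of_nonneg_left hA hell0.le
        _ = 101 / 100 * (ell * q) * L ^ 2 := by ring
        _ ≤ 101 / 100 * (ell * q) * L ^ 4 := mul_le_mul_of_nonneg_left hLL (by positivity)
        _ = _ := by ring
    calc _ ≤ 8 / 1000 * (ell * A0) := mul_le_mul_of_nonneg_right h1 (by positivity)
      _ ≤ 8 / 1000 * (101 / 100 * (ell * L ^ 4 * q)) :=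
          mul_le_mul_of_nonneg_left h2 (by norm_num)
      _ = (8 / 1000 * (101 / 100)) * (ell * L ^ 4 * q) := by ring
      _ ≤ _ := mul_le_mul_of_nonneg_right (by norm_num) hT
  have g5 : 17 / 10 * (34 * ell) * (12800 * L ^ 4) * (ell * S) * (b ^ 2 / 2) =
      ((17 / 10 * 34 * 6400) * (L ^ 4 * ell ^ 2 * b)) * b * S := by ring
  have g5' : ((17 / 10 * 34 * 6400) * (L ^ 4 * ell ^ 2 * b)) * b * S ≤ 4 / 1000 * S := by
    apply mul_le_mul_of_nonneg_right _ hS0
    have h1 : (17 / 10 * 34 * 6400) * (L ^ 4 * ell ^ 2 * b) ≤ 4 / 1000 := by linarith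
    calc ((17 / 10 * 34 * 6400) * (L ^ 4 * ell ^ 2 * b)) * b ≤ 4 / 1000 * 1 :=
          mul_le_mul h1 hb1 hb.le (by norm_num)
      _ = 4 / 1000 := by ring
  have k1 : q * L ^ 2 ≤ ell * L ^ 4 * q := by
    calc q * L ^ 2 ≤ q * (ell * L ^ 4) := mul_le_mul_of_nonneg_left hLe q0
      _ = _ := by ring
  have k2 : 110 * ell * q ≤ 110 * (ell * L ^ 4 * q) := by
    calc 110 * ell * q = 110 * q * ell := by ring
      _ ≤ 110 * q * (ell * L ^ 4) := mul_le_mul_of_nonneg_left hee (by positivity)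
      _ = _ := by ring
  rw [add_mul, e1, g2, g3, g4, g5, e0] at hS
  linarith

/-- the closing argument: numbers only -/
private theorem HEnergyEnd_close {y L y2 b ell c S : ℝ} (hP : Par y L y2 b ell) (hc : 0 ≤ c)
    (hS : S ≤ 17 / 10 * (c * L ^ 2 / y +
      (220 * ell * c / y ^ 2 + 17 / 10 * (34 * ell) * (8 * L ^ 2 / y) *
        (c * L ^ 2 / y + 7 * ell ^ 2 * c / y ^ 2)) * (y / 2) +
      17 / 10 * (34 * ell) * (8 * L ^ 2 / y) * (ell * S / 2) * (ell / 4) +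
      17 / 10 * (34 * ell) * (12800 * L ^ 4) * (c * L ^ 2 / y + 7 * ell ^ 2 * c / y ^ 2) * b +
      17 / 10 * (34 * ell) * (12800 * L ^ 4) * (ell * S) * (b ^ 2 / 2))) (hS0 : 0 ≤ S) :
    17 / 10 * (c * L ^ 2 / y + 7 * ell ^ 2 * c / y ^ 2 + ell * S * b) ≤ 2 * L ^ 2 * c / y := by
  obtain ⟨hy, hb, hn1, hn2, hn3⟩ := HEnergyEnd_num hP
  obtain ⟨r1, r2, rb, hb1, hLL, hL2, hLe, hee⟩ := HEnergyEnd_num2 hP
  have hL := hP.hL
  have hell := hP.hell1
  have hL0 : 0 < L := by linarith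
  have hell0 : 0 < ell := by linarith
  have q0 : 0 ≤ c / y := by positivity
  have eA : c * L ^ 2 / y + 7 * ell ^ 2 * c / y ^ 2 =
      c / y * (L ^ 2 + 7 * (ell ^ 2 / y)) := by
    field_simp
  have hA : c * L ^ 2 / y + 7 * ell ^ 2 * c / y ^ 2 ≤ c / y * (101 / 100 * L ^ 2) := by
    rw [eA]
    apply mul_le_mul_of_nonneg_left _ q0
    linarith
  have hA0 : 0 ≤ c * L ^ 2 / y + 7 * ell ^ 2 * c / y ^ 2 := by positivity
  have hSb := HEnergyEnd_S hP hc hA0 hA hS hS0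
  have e9 : 2 * L ^ 2 * c / y = 2 * (c / y * L ^ 2) := by ring
  set q := c / y with hq
  have g6 : ell * S * b ≤ 1 / 100 * (q * L ^ 2) := by
    have h3 : 710 * (L ^ 4 * ell ^ 2 * b) * q ≤ 1 / 100 * q := by
      apply mul_le_mul_of_nonneg_right _ q0
      linarith
    have h4 : q * 1 ≤ q * L ^ 2 := mul_le_mul_of_nonneg_left hL2 q0
    calc ell * S * b ≤ ell * (710 * (ell * L ^ 4 * q)) * b := by
          apply mul_le_mul_of_nonneg_right _ hb.le
          exact mul_le_mul_of_nonneg_left hSb hell0.le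
      _ = 710 * (L ^ 4 * ell ^ 2 * b) * q := by ring
      _ ≤ 1 / 100 * q := h3
      _ ≤ _ := by linarith
  rw [e9]
  have h10 : 0 ≤ q * L ^ 2 := by positivity
  linarith

/-- square of the rate -/
private theorem HEnergyEnd_sq {y L l u : ℝ} (hy : 0 < y) (hl : 0 < l)
    (hab : ab y L u = 2 * L / Real.sqrt y + 80 * L ^ 2 / l) :
    l ^ 2 * ab y L u ^ 2 ≤ 8 * L ^ 2 / y * l ^ 2 + 12800 * L ^ 4 := by
  have hsq : 0 < Real.sqrt y := Real.sqrt_pos.2 hy
  have e1 : l ^ 2 * ab y L u ^ 2 = (2 * L * l / Real.sqrt y + 80 * L ^ 2) ^ 2 := by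
    rw [hab]
    field_simp
  have e2 : (2 * L * l / Real.sqrt y) ^ 2 = 4 * L ^ 2 / y * l ^ 2 := by
    rw [div_pow, Real.sq_sqrt hy.le]
    ring
  rw [e1]
  have e3 : 8 * L ^ 2 / y * l ^ 2 = 2 * (4 * L ^ 2 / y * l ^ 2) := by ring
  rw [e3, ← e2]
  have e4 : 12800 * L ^ 4 = 2 * (80 * L ^ 2) ^ 2 := by ring
  rw [e4]
  nlinarith [sq_nonneg (2 * L * l / Real.sqrt y - 80 * L ^ 2)]

theorem A2_bound (Vs : Finset V) (E : Finset (Finset V)) (y L y2 b ell : ℝ) (hR : HReg Vs E y L)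
    (hP : Par y L y2 b ell) (X : V → Finset V → ℝ → ℝ) (hB : Bethe E X) :
    ∀ u ∈ Set.Icc 0 b, A2 E y X Vs u ≤ 2 * L ^ 2 * Vs.card / y := by
  obtain ⟨hy, hb, -, -, -⟩ := HEnergyEnd_num hP
  obtain ⟨-, hy2, -, -, -, hb2, -, -, hl, hul, -⟩ := par_facts hP
  have hL := hP.hL
  have hell := hP.hell1
  have hL0 : 0 < L := by linarith
  have hell0 : 0 < ell := by linarith
  obtain ⟨hA2c, hEnc⟩ := HEnergyEnd_cont Vs E y b hy hb2 hR.card3 X hB
  obtain ⟨hA20, hEn0⟩ := HEnergyEnd_init Vs E y L hy hR X hB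
  have hlam0 : ∀ u ∈ Set.Icc 0 b, 0 < lam y u := fun u hu => by
    have := (hl u hu).1
    linarith
  have hXX : ∀ u ∈ Set.Icc 0 b, ∀ v ∈ Vs, 0 ≤ XX y X v u := fun u hu v hv => by
    have := (((pointwise' Vs E y L y2 b ell hR hP X hB u hu).2.1 v hv).2).1
    linarith
  have hA2n : ∀ u ∈ Set.Icc 0 b, 0 ≤ A2 E y X Vs u := fun u hu =>
    Finset.sum_nonneg fun v hv => mul_nonneg (hXX u hu v hv) (sq_nonneg _)
  have hEnn : ∀ u ∈ Set.Icc 0 b, 0 ≤ En E y X Vs u := fun u hu =>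
    mul_nonneg (hlam0 u hu).le
      (Finset.sum_nonneg fun v hv => mul_nonneg (hXX u hu v hv) (sq_nonneg _))
  obtain ⟨u0, hu0, hmax⟩ := isCompact_Icc.exists_isMaxOn ⟨0, le_rfl, hb.le⟩ hEnc
  set S := En E y X Vs u0 with hSdef
  have hS0 : 0 ≤ S := hEnn u0 hu0
  have hSmax : ∀ u ∈ Set.Icc 0 b, En E y X Vs u ≤ S := fun u hu => hmax hu
  set c : ℝ := (Vs.card : ℝ) with hc
  have hc0 : 0 ≤ c := Nat.cast_nonneg _
  -- bound of A2 by S
  have hA : ∀ u ∈ Set.Icc 0 b, A2 E y X Vs u ≤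
      17 / 10 * (c * L ^ 2 / y + 7 * ell ^ 2 * c / y ^ 2 + ell * S * u) := by
    intro u hu
    have hC2 : 0 ≤ 28 * ell * c / y ^ 2 := by positivity
    have hC3 : 0 ≤ ell * S := mul_nonneg hell0.le hS0
    have hg := HEnergyEnd_gron hP (A2 E y X Vs) hA2c hA2n (C1 := 0) (C2 := 28 * ell * c / y ^ 2)
      (C3 := ell * S) (C4 := 0) le_rfl hC2 hC3 le_rfl (fun w hw => by
        obtain ⟨d, hd1, hd2⟩ := d_A2 Vs E y L y2 b ell hR hP X hB w hw
        refine ⟨d, hd1, hd2.trans ?_⟩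
        have h1 : ell * En E y X Vs w ≤ ell * S :=
          mul_le_mul_of_nonneg_left (hSmax w ⟨hw.1.le, hw.2.le⟩) hell0.le
        have h2 : 28 * ell * (Vs.card : ℝ) * lam y w / y ^ 2 =
            28 * ell * c / y ^ 2 * lam y w := by
          rw [hc]
          ring
        rw [h2]
        linarith) u hu
    have e1 : 28 * ell * c / y ^ 2 * (ell / 4) = 7 * ell ^ 2 * c / y ^ 2 := by ring
    rw [e1] at hg
    linarith
  -- bound of S
  set A0 := c * L ^ 2 / y + 7 * ell ^ 2 * c / y ^ 2 with hA0def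
  have hA00 : 0 ≤ A0 := by positivity
  have hC1 : 0 ≤ 220 * ell * c / y ^ 2 + 17 / 10 * (34 * ell) * (8 * L ^ 2 / y) * A0 := by
    positivity
  have hC2 : 0 ≤ 17 / 10 * (34 * ell) * (8 * L ^ 2 / y) * (ell * S / 2) := by positivity
  have hC3 : 0 ≤ 17 / 10 * (34 * ell) * (12800 * L ^ 4) * A0 := by positivity
  have hC4 : 0 ≤ 17 / 10 * (34 * ell) * (12800 * L ^ 4) * (ell * S) := by positivity
  have hE := HEnergyEnd_gron hP (En E y X Vs) hEnc hEnn hC1 hC2 hC3 hC4 (fun w hw => by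
    obtain ⟨d, hd1, hd2⟩ := d_En Vs E y L y2 b ell hR hP X hB w hw
    refine ⟨d, hd1, hd2.trans ?_⟩
    have hw' : w ∈ Set.Icc 0 b := ⟨hw.1.le, hw.2.le⟩
    have hlw := hlam0 w hw'
    have hAw := hA w hw'
    have hsq := HEnergyEnd_sq (y := y) (L := L) (l := lam y w) (u := w) hy hlw rfl
    have hwl : lam y w ^ 2 * w ≤ lam y w / 2 := by
      have h1 := hul w hw'
      have h2 : lam y w ^ 2 * w ≤ lam y w ^ 2 * (1 / (2 * lam y w)) :=
        mul_le_mul_of_nonneg_left h1 (sq_nonneg _)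
      refine h2.trans (le_of_eq ?_)
      field_simp
    have hw0 := hw'.1
    have hA2w := hA2n w hw'
    have hR0 : 0 ≤ 8 * L ^ 2 / y * lam y w ^ 2 + 12800 * L ^ 4 := by positivity
    have h3 : lam y w ^ 2 * ell * (34 * ab y L w ^ 2 * A2 E y X Vs w) ≤
        34 * ell * ((8 * L ^ 2 / y * lam y w ^ 2 + 12800 * L ^ 4) *
          (17 / 10 * (A0 + ell * S * w))) := by
      calc lam y w ^ 2 * ell * (34 * ab y L w ^ 2 * A2 E y X Vs w)
          = 34 * ell * ((lam y w ^ 2 * ab y L w ^ 2) * A2 E y X Vs w) := by ring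
        _ ≤ 34 * ell * ((8 * L ^ 2 / y * lam y w ^ 2 + 12800 * L ^ 4) *
              (17 / 10 * (A0 + ell * S * w))) := by
            apply mul_le_mul_of_nonneg_left _ (by positivity)
            exact mul_le_mul hsq hAw hA2w hR0
    have h4 : 8 * L ^ 2 / y * (ell * S) * (lam y w ^ 2 * w) ≤
        8 * L ^ 2 / y * (ell * S) * (lam y w / 2) :=
      mul_le_mul_of_nonneg_left hwl (by positivity)
    have h5 : 34 * ell * ((8 * L ^ 2 / y * lam y w ^ 2 + 12800 * L ^ 4) *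
          (17 / 10 * (A0 + ell * S * w))) =
        17 / 10 * (34 * ell) * (8 * L ^ 2 / y) * A0 * lam y w ^ 2 +
        17 / 10 * (34 * ell) * (8 * L ^ 2 / y * (ell * S) * (lam y w ^ 2 * w)) +
        17 / 10 * (34 * ell) * (12800 * L ^ 4) * A0 +
        17 / 10 * (34 * ell) * (12800 * L ^ 4) * (ell * S) * w := by ring
    have h6 : 17 / 10 * (34 * ell) * (8 * L ^ 2 / y * (ell * S) * (lam y w ^ 2 * w)) ≤
        17 / 10 * (34 * ell) * (8 * L ^ 2 / y * (ell * S) * (lam y w / 2)) :=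
      mul_le_mul_of_nonneg_left h4 (by positivity)
    have h7 : lam y w ^ 2 * ell * (34 * ab y L w ^ 2 * A2 E y X Vs w + 220 * (Vs.card : ℝ) / y ^ 2) =
        lam y w ^ 2 * ell * (34 * ab y L w ^ 2 * A2 E y X Vs w) +
          220 * ell * c / y ^ 2 * lam y w ^ 2 := by
      rw [hc]
      ring
    rw [h7]
    rw [h5] at h3
    have h8 : 17 / 10 * (34 * ell) * (8 * L ^ 2 / y * (ell * S) * (lam y w / 2)) =
        17 / 10 * (34 * ell) * (8 * L ^ 2 / y) * (ell * S / 2) * lam y w := by ring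
    rw [h8] at h6
    linarith) u0 hu0
  have hSle : S ≤ 17 / 10 * (c * L ^ 2 / y +
      (220 * ell * c / y ^ 2 + 17 / 10 * (34 * ell) * (8 * L ^ 2 / y) * A0) * (y / 2) +
      17 / 10 * (34 * ell) * (8 * L ^ 2 / y) * (ell * S / 2) * (ell / 4) +
      17 / 10 * (34 * ell) * (12800 * L ^ 4) * A0 * b +
      17 / 10 * (34 * ell) * (12800 * L ^ 4) * (ell * S) * (b ^ 2 / 2)) := by
    refine hE.trans ?_
    apply mul_le_mul_of_nonneg_left _ (by norm_num)
    have h1 := mul_le_mul_of_nonneg_left hu0.2 hC3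
    have h2 : u0 ^ 2 / 2 ≤ b ^ 2 / 2 := by
      have := pow_le_pow_left₀ hu0.1 hu0.2 2
      linarith
    have h3 := mul_le_mul_of_nonneg_left h2 hC4
    linarith
  have hclose := HEnergyEnd_close hP hc0 hSle hS0
  intro u hu
  refine (hA u hu).trans (le_trans ?_ hclose)
  have h1 : ell * S * u ≤ ell * S * b :=
    mul_le_mul_of_nonneg_left hu.2 (mul_nonneg hell0.le hS0)
  linarith

theorem logXX_avg (Vs : Finset V) (E : Finset (Finset V)) (y L y2 b ell : ℝ) (hR : HReg Vs E y L)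
    (hP : Par y L y2 b ell) (X : V → Finset V → ℝ → ℝ) (hB : Bethe E X) :
    ∑ v ∈ Vs, |Real.log (XX y X v b)| ≤ L * ell * Vs.card / Real.sqrt y := by
  obtain ⟨hy, hb, -, -, -⟩ := HEnergyEnd_num hP
  obtain ⟨-, hy2, -, -, -, hb2, -, -, hl, hul, -⟩ := par_facts hP
  have hL := hP.hL
  have hell := hP.hell1
  have hL0 : 0 < L := by linarith
  have hell0 : 0 < ell := by linarith
  have hsqy : 0 < Real.sqrt y := Real.sqrt_pos.2 hy
  have hlam0 : ∀ u ∈ Set.Icc 0 b, 0 < lam y u := fun u hu => by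
    have := (hl u hu).1
    linarith
  have hXX : ∀ u ∈ Set.Icc 0 b, ∀ v ∈ Vs, 98 / 100 ≤ XX y X v u := fun u hu v hv =>
    (((pointwise' Vs E y L y2 b ell hR hP X hB u hu).2.1 v hv).2).1
  set c : ℝ := (Vs.card : ℝ) with hc
  have hc0 : 0 ≤ c := Nat.cast_nonneg _
  have hsub : Set.Icc 0 b ⊆ Set.Icc (0 : ℝ) (1 / 2) := Set.Icc_subset_Icc_right hb2
  -- the sum of `|al|`
  have hal : ∀ u ∈ Set.Icc 0 b, ∑ v ∈ Vs, |al E y X v u| ≤ 3 / 2 * (L * c / Real.sqrt y) := by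
    intro u hu
    have hA := A2_bound Vs E y L y2 b ell hR hP X hB u hu
    have h1 : (∑ v ∈ Vs, |al E y X v u|) ^ 2 ≤ c * ∑ v ∈ Vs, |al E y X v u| ^ 2 :=
      sq_sum_le_card_mul_sum_sq
    have h2 : ∑ v ∈ Vs, |al E y X v u| ^ 2 ≤ 100 / 98 * A2 E y X Vs u := by
      unfold A2
      rw [Finset.mul_sum]
      apply Finset.sum_le_sum
      intro v hv
      rw [sq_abs]
      have h3 := hXX u hu v hv
      have h4 := sq_nonneg (al E y X v u)
      nlinarith
    have h3 : (∑ v ∈ Vs, |al E y X v u|) ^ 2 ≤ (3 / 2 * (L * c / Real.sqrt y)) ^ 2 := by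
      have e0 : (L * c / Real.sqrt y) ^ 2 = L ^ 2 * c ^ 2 / y := by
        rw [div_pow, Real.sq_sqrt hy.le]
        ring
      have e1 : (3 / 2 * (L * c / Real.sqrt y)) ^ 2 = 9 / 4 * (L ^ 2 * c ^ 2 / y) := by
        rw [mul_pow, e0]
        ring
      rw [e1]
      have h5 : c * ∑ v ∈ Vs, |al E y X v u| ^ 2 ≤ c * (100 / 98 * (2 * L ^ 2 * c / y)) := by
        apply mul_le_mul_of_nonneg_left _ hc0
        refine h2.trans ?_
        apply mul_le_mul_of_nonneg_left _ (by norm_num)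
        exact hA
      have e2 : c * (100 / 98 * (2 * L ^ 2 * c / y)) = 200 / 98 * (L ^ 2 * c ^ 2 / y) := by ring
      rw [e2] at h5
      have h6 : 0 ≤ L ^ 2 * c ^ 2 / y := by positivity
      linarith
    exact (pow_le_pow_iff_left₀ (Finset.sum_nonneg fun _ _ => abs_nonneg _) (by positivity)
      two_ne_zero).1 h3
  -- signs
  let σ : V → ℝ := fun v => if 0 ≤ Real.log (XX y X v b) then 1 else -1
  have hσ : ∀ v, |σ v| = 1 := by
    intro v
    simp only [σ]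
    split_ifs <;> simp
  have hσl : ∀ v, |Real.log (XX y X v b)| = σ v * Real.log (XX y X v b) := by
    intro v
    simp only [σ]
    split_ifs with h
    · rw [abs_of_nonneg h, one_mul]
    · rw [abs_of_neg (not_le.1 h)]
      ring
  set f : ℝ → ℝ := fun u => ∑ v ∈ Vs, σ v * Real.log (XX y X v u) with hf
  set f' : ℝ → ℝ := fun u => ∑ v ∈ Vs, σ v * (-(lam y u * al E y X v u)) with hf'
  have hfc : ContinuousOn f (Set.Icc 0 b) := by
    apply continuousOn_finsetSum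
    intro v hv
    apply continuousOn_const.mul
    apply ContinuousOn.log ((cont_XX E y X hB hR.card3 hy v).mono hsub)
    intro u hu
    have := hXX u hu v hv
    linarith
  have hfd : ∀ u ∈ Set.Ioo 0 b, HasDerivAt f (f' u) u := by
    intro u hu
    apply HasDerivAt.fun_sum
    intro v hv
    have h1 := hXX u ⟨hu.1.le, hu.2.le⟩ v hv
    have h2 := d_XX E y X hB hR.card3 hy v u ⟨hu.1, lt_of_lt_of_le hu.2 hb2⟩
    have h3 := (h2.log (by linarith)).const_mul (σ v)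
    have e1 : -(lam y u * XX y X v u * al E y X v u) / XX y X v u =
        -(lam y u * al E y X v u) := by
      have : XX y X v u ≠ 0 := by linarith
      field_simp
    rw [e1] at h3
    exact h3
  have hlamc : ContinuousOn (lam y) (Set.Icc 0 b) := HEnergyEnd_lam_cont hy
  have hcoef : 0 ≤ 3 / 2 * (L * c / Real.sqrt y) := by positivity
  have hg := gronwall_int f f' (fun _ => 0)
    (fun s => 0 * lam y s ^ 2 + 3 / 2 * (L * c / Real.sqrt y) * lam y s + 0 + 0 * s) b hb.le hfc hfd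
    continuousOn_const
    ((((continuousOn_const.mul (hlamc.pow 2)).add (continuousOn_const.mul hlamc)).add
      continuousOn_const).add (continuousOn_const.mul continuousOn_id))
    (fun _ _ => le_rfl)
    (fun u hu => by
      have h1 := hlam0 u hu
      have h2 : 0 ≤ 3 / 2 * (L * c / Real.sqrt y) * lam y u := mul_nonneg hcoef h1.le
      linarith)
    (fun u hu => by
      have hu' : u ∈ Set.Icc 0 b := ⟨hu.1.le, hu.2.le⟩
      have h1 := hlam0 u hu'
      have h2 : f' u ≤ lam y u * ∑ v ∈ Vs, |al E y X v u| := by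
        simp only [hf']
        rw [Finset.mul_sum]
        apply Finset.sum_le_sum
        intro v _
        have h3 : σ v * (-(lam y u * al E y X v u)) ≤ |σ v * (-(lam y u * al E y X v u))| :=
          le_abs_self _
        refine h3.trans (le_of_eq ?_)
        rw [abs_mul, hσ, one_mul, abs_neg, abs_mul, abs_of_pos h1]
      have h3 := mul_le_mul_of_nonneg_left (hal u hu') h1.le
      linarith) b ⟨hb.le, le_rfl⟩
  rw [HEnergyEnd_int hy _ _ _ _ b hb.le] at hg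
  have hf0 : f 0 = 0 := by
    simp only [hf]
    apply Finset.sum_eq_zero
    intro v _
    rw [init_XX E y X hB hy v, Real.log_one, mul_zero]
  simp only [intervalIntegral.integral_zero, Real.exp_zero, mul_one, hf0] at hg
  have hlog := (hl b ⟨hb.le, le_rfl⟩).2.2
  have hsum : ∑ v ∈ Vs, |Real.log (XX y X v b)| = f b := by
    simp only [hf]
    exact Finset.sum_congr rfl fun v _ => hσl v
  rw [hsum]
  have h1 := mul_le_mul_of_nonneg_left (by linarith : Real.log (1 + 2 * y * b) / 2 ≤ ell / 4) hcoef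
  have h2 : 3 / 2 * (L * c / Real.sqrt y) * (ell / 4) = 3 / 8 * (L * ell * c / Real.sqrt y) := by
    ring
  have h3 : 0 ≤ L * ell * c / Real.sqrt y := by positivity
  linarith

end

end Vale.Agent.P046.H
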