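import Vale.Agent.Lib.P046.HDefs2

/-!
# P046, part S2 (last phase): the homogeneous recursion
-/

namespace Vale.Agent.P046.H

open Finset MeasureTheory

noncomputable section

private theorem hhom_cont (y b : ℝ) (k : ℕ) : Continuous (wh y b k) := by
  induction k with
  | zero => exact continuous_const
  | succ k ih =>
    have h1 : Continuous fun u => ∫ s in b..u, wh y b k s ^ 2 :=
      intervalIntegral.continuous_primitive (fun _ _ => (ih.pow 2).intervalIntegrable _ _) b
    exact continuous_const.mul (Real.continuous_exp.comp (continuous_const.mul h1).neg)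

private theorem hhom_pos (y b : ℝ) (hy : 0 < y) (hb : 0 ≤ b) (k : ℕ) (u : ℝ) :
    0 < wh y b k u := by
  have h0 : 0 < xb y b := by
    unfold xb
    have : 0 < 1 + 2 * y * b := by positivity
    exact div_pos one_pos (Real.sqrt_pos.2 this)
  cases k with
  | zero => exact h0
  | succ k => exact mul_pos h0 (Real.exp_pos _)

private theorem hhom_P_pos {y b s : ℝ} (hy : 0 < y) (hb : 0 ≤ b) (hs : b ≤ s) :
    0 < 1 + 2 * y * s := by
  have h1 : 0 ≤ y * s := mul_nonneg hy.le (hb.trans hs)
  nlinarith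

private theorem hhom_xb_sq {y b s : ℝ} (hy : 0 < y) (hb : 0 ≤ b) (hs : b ≤ s) :
    y * xb y s ^ 2 = lam y s := by
  have h := hhom_P_pos hy hb hs
  unfold xb lam
  rw [div_pow, Real.sq_sqrt h.le]
  ring

private theorem hhom_xb_exp {y b s : ℝ} (hy : 0 < y) (hb : 0 ≤ b) (hs : b ≤ s) :
    xb y s = Real.exp (-(Real.log (1 + 2 * y * s) / 2)) := by
  have h := hhom_P_pos hy hb hs
  unfold xb
  rw [Real.exp_neg, ← Real.log_sqrt h.le, Real.exp_log (Real.sqrt_pos.2 h), one_div]

private theorem hhom_lam_cont {y b u : ℝ} (hy : 0 < y) (hb : 0 ≤ b) :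
    ContinuousOn (lam y) (Set.Icc b u) := by
  unfold lam
  refine ContinuousOn.div continuousOn_const (by fun_prop) fun s hs => ?_
  exact (hhom_P_pos hy hb hs.1).ne'

private theorem hhom_int_lam {y b u : ℝ} (hy : 0 < y) (hb : 0 ≤ b) (hu : b ≤ u) :
    ∫ s in b..u, lam y s = Real.log (1 + 2 * y * u) / 2 - Real.log (1 + 2 * y * b) / 2 := by
  refine intervalIntegral.integral_eq_sub_of_hasDerivAt
    (f := fun s => Real.log (1 + 2 * y * s) / 2) (fun s hs => ?_) ?_
  · rw [Set.uIcc_of_le hu] at hs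
    have h := hhom_P_pos hy hb hs.1
    have h1 : HasDerivAt (fun s : ℝ => 1 + 2 * y * s) (2 * y) s := by
      have h2 := ((hasDerivAt_id s).const_mul (2 * y)).const_add 1
      simpa using h2
    have h3 := (h1.log h.ne').div_const 2
    have h4 : 2 * y / (1 + 2 * y * s) / 2 = lam y s := by
      unfold lam
      field_simp
    rw [h4] at h3
    exact h3
  · exact ContinuousOn.intervalIntegrable (by
      rw [Set.uIcc_of_le hu]
      exact hhom_lam_cont hy hb)

private theorem hhom_xb_u {y b u : ℝ} (hy : 0 < y) (hb : 0 ≤ b) (hu : b ≤ u) :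
    xb y u = xb y b * Real.exp (-∫ s in b..u, lam y s) := by
  rw [hhom_int_lam hy hb hu, hhom_xb_exp hy hb hu, hhom_xb_exp hy hb le_rfl, ← Real.exp_add]
  congr 1
  ring

private theorem hhom_lower {y b : ℝ} (hy : 0 < y) (hb : 0 ≤ b) (k : ℕ) (g : ℝ → ℝ)
    (hg : ContinuousOn g (Set.Icc b 1))
    (h : ∀ s ∈ Set.Icc b 1, wh y b k s ≤ xb y s * Real.exp (g s)) :
    ∀ u ∈ Set.Icc b 1, xb y u * Real.exp (-∫ s in b..u, lam y s * (Real.exp (2 * g s) - 1)) ≤
      wh y b (k + 1) u := by
  intro u hu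
  have hl : ContinuousOn (lam y) (Set.Icc b u) := hhom_lam_cont hy hb
  have hgu : ContinuousOn g (Set.Icc b u) := hg.mono (Set.Icc_subset_Icc_right hu.2)
  have he : ContinuousOn (fun s => Real.exp (2 * g s)) (Set.Icc b u) :=
    Real.continuous_exp.comp_continuousOn (continuousOn_const.mul hgu)
  have i1 : IntervalIntegrable (lam y) volume b u :=
    ContinuousOn.intervalIntegrable (by rwa [Set.uIcc_of_le hu.1])
  have i2 : IntervalIntegrable (fun s => lam y s * (Real.exp (2 * g s) - 1)) volume b u :=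
    ContinuousOn.intervalIntegrable (by
      rw [Set.uIcc_of_le hu.1]
      exact hl.mul (he.sub continuousOn_const))
  have i3 : IntervalIntegrable (fun s => lam y s * Real.exp (2 * g s)) volume b u :=
    ContinuousOn.intervalIntegrable (by
      rw [Set.uIcc_of_le hu.1]
      exact hl.mul he)
  have h1 : y * ∫ s in b..u, wh y b k s ^ 2 ≤ ∫ s in b..u, lam y s * Real.exp (2 * g s) := by
    rw [← intervalIntegral.integral_const_mul]
    refine intervalIntegral.integral_mono_on hu.1
      ((continuous_const.mul ((hhom_cont y b k).pow 2)).intervalIntegrable _ _) i3 fun s hs => ?_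
    have hs' : s ∈ Set.Icc b 1 := ⟨hs.1, hs.2.trans hu.2⟩
    have h2 := h s hs'
    have h3 := (hhom_pos y b hy hb k s).le
    have h4 : wh y b k s ^ 2 ≤ (xb y s * Real.exp (g s)) ^ 2 := pow_le_pow_left₀ h3 h2 2
    calc y * wh y b k s ^ 2 ≤ y * (xb y s * Real.exp (g s)) ^ 2 :=
          mul_le_mul_of_nonneg_left h4 hy.le
      _ = (y * xb y s ^ 2) * (Real.exp (g s)) ^ 2 := by ring
      _ = lam y s * Real.exp (2 * g s) := by
          rw [hhom_xb_sq hy hb hs.1, ← Real.exp_nat_mul]
          norm_num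
  have h5 : (∫ s in b..u, lam y s * (Real.exp (2 * g s) - 1)) =
      (∫ s in b..u, lam y s * Real.exp (2 * g s)) - ∫ s in b..u, lam y s := by
    rw [← intervalIntegral.integral_sub i3 i1]
    exact intervalIntegral.integral_congr fun s _ => by ring
  have h6 : wh y b (k + 1) u = xb y b * Real.exp (-(y * ∫ s in b..u, wh y b k s ^ 2)) := rfl
  have h0 : 0 < xb y b := hhom_pos y b hy hb 0 b
  rw [h6, hhom_xb_u hy hb hu.1, mul_assoc, ← Real.exp_add]
  refine mul_le_mul_of_nonneg_left (Real.exp_le_exp.2 ?_) h0.le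
  rw [h5]
  linarith

private theorem hhom_upper {y b : ℝ} (hy : 0 < y) (hb : 0 ≤ b) (k : ℕ) (g : ℝ → ℝ)
    (hg : ContinuousOn g (Set.Icc b 1))
    (h : ∀ s ∈ Set.Icc b 1, xb y s * Real.exp (g s) ≤ wh y b k s) :
    ∀ u ∈ Set.Icc b 1, wh y b (k + 1) u ≤
      xb y u * Real.exp (-∫ s in b..u, lam y s * (Real.exp (2 * g s) - 1)) := by
  intro u hu
  have hl : ContinuousOn (lam y) (Set.Icc b u) := hhom_lam_cont hy hb
  have hgu : ContinuousOn g (Set.Icc b u) := hg.mono (Set.Icc_subset_Icc_right hu.2)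
  have he : ContinuousOn (fun s => Real.exp (2 * g s)) (Set.Icc b u) :=
    Real.continuous_exp.comp_continuousOn (continuousOn_const.mul hgu)
  have i1 : IntervalIntegrable (lam y) volume b u :=
    ContinuousOn.intervalIntegrable (by rwa [Set.uIcc_of_le hu.1])
  have i3 : IntervalIntegrable (fun s => lam y s * Real.exp (2 * g s)) volume b u :=
    ContinuousOn.intervalIntegrable (by
      rw [Set.uIcc_of_le hu.1]
      exact hl.mul he)
  have h1 : ∫ s in b..u, lam y s * Real.exp (2 * g s) ≤ y * ∫ s in b..u, wh y b k s ^ 2 := by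
    rw [← intervalIntegral.integral_const_mul]
    refine intervalIntegral.integral_mono_on hu.1 i3
      ((continuous_const.mul ((hhom_cont y b k).pow 2)).intervalIntegrable _ _) fun s hs => ?_
    have hs' : s ∈ Set.Icc b 1 := ⟨hs.1, hs.2.trans hu.2⟩
    have h2 := h s hs'
    have h3 : 0 ≤ xb y s * Real.exp (g s) := by
      refine mul_nonneg ?_ (Real.exp_pos _).le
      rw [hhom_xb_exp hy hb hs.1]
      exact (Real.exp_pos _).le
    have h4 : (xb y s * Real.exp (g s)) ^ 2 ≤ wh y b k s ^ 2 := pow_le_pow_left₀ h3 h2 2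
    calc lam y s * Real.exp (2 * g s) = (y * xb y s ^ 2) * (Real.exp (g s)) ^ 2 := by
          rw [hhom_xb_sq hy hb hs.1, ← Real.exp_nat_mul]
          norm_num
      _ = y * (xb y s * Real.exp (g s)) ^ 2 := by ring
      _ ≤ y * wh y b k s ^ 2 := mul_le_mul_of_nonneg_left h4 hy.le
  have h5 : (∫ s in b..u, lam y s * (Real.exp (2 * g s) - 1)) =
      (∫ s in b..u, lam y s * Real.exp (2 * g s)) - ∫ s in b..u, lam y s := by
    rw [← intervalIntegral.integral_sub i3 i1]
    exact intervalIntegral.integral_congr fun s _ => by ring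
  have h6 : wh y b (k + 1) u = xb y b * Real.exp (-(y * ∫ s in b..u, wh y b k s ^ 2)) := rfl
  have h0 : 0 < xb y b := hhom_pos y b hy hb 0 b
  rw [h6, hhom_xb_u hy hb hu.1, mul_assoc, ← Real.exp_add]
  refine mul_le_mul_of_nonneg_left (Real.exp_le_exp.2 ?_) h0.le
  rw [h5]
  linarith

/-- the majorant -/
private def hm (y b : ℝ) (j : ℕ) (u : ℝ) : ℝ :=
  (1 / 2) ^ j * ((1 + 2 * y * u) / (1 + 2 * y * b)) ^ 21

private theorem hm_cont (y b : ℝ) (j : ℕ) : Continuous (hm y b j) := by
  unfold hm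
  fun_prop

private theorem hm_deriv {y b : ℝ} (hy : 0 < y) (hb : 0 ≤ b) (j : ℕ) {u : ℝ} (hu : b ≤ u) :
    HasDerivAt (hm y b j) (42 * (lam y u * hm y b j u)) u := by
  have hPb := hhom_P_pos hy hb (le_refl b)
  have hPu := hhom_P_pos hy hb hu
  have h1 : HasDerivAt (fun s : ℝ => (1 + 2 * y * s) / (1 + 2 * y * b))
      (2 * y / (1 + 2 * y * b)) u := by
    have h2 := (((hasDerivAt_id u).const_mul (2 * y)).const_add 1).div_const (1 + 2 * y * b)
    simpa using h2
  have h3 := (h1.pow 21).const_mul ((1 / 2 : ℝ) ^ j)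
  have h4 : (1 / 2 : ℝ) ^ j * (((21 : ℕ) : ℝ) * ((1 + 2 * y * u) / (1 + 2 * y * b)) ^ (21 - 1) *
      (2 * y / (1 + 2 * y * b))) = 42 * (lam y u * hm y b j u) := by
    unfold lam hm
    push_cast
    rw [pow_succ _ 20]
    field_simp
    ring
  rw [h4] at h3
  exact h3

private theorem hm_pos {y b : ℝ} (hy : 0 < y) (hb : 0 ≤ b) (j : ℕ) {u : ℝ} (hu : b ≤ u) :
    0 < hm y b j u := by
  have hPb := hhom_P_pos hy hb (le_refl b)
  have hPu := hhom_P_pos hy hb hu
  unfold hm
  positivity

private theorem hm_mono {y b : ℝ} (hy : 0 < y) (hb : 0 ≤ b) (j : ℕ) {u v : ℝ} (hu : b ≤ u)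
    (huv : u ≤ v) : hm y b j u ≤ hm y b j v := by
  have hPb := hhom_P_pos hy hb (le_refl b)
  have hPu := hhom_P_pos hy hb hu
  unfold hm
  refine mul_le_mul_of_nonneg_left ?_ (by positivity)
  refine pow_le_pow_left₀ (by positivity) ?_ 21
  exact div_le_div_of_nonneg_right (by nlinarith) hPb.le

private theorem hm_int {y b : ℝ} (hy : 0 < y) (hb : 0 ≤ b) (j : ℕ) {u : ℝ} (hu : b ≤ u) :
    ∫ s in b..u, 42 * (lam y s * hm y b j s) = hm y b j u - hm y b j b := by
  refine intervalIntegral.integral_eq_sub_of_hasDerivAt (fun s hs => ?_) ?_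
  · rw [Set.uIcc_of_le hu] at hs
    exact hm_deriv hy hb j hs.1
  · exact ContinuousOn.intervalIntegrable (by
      rw [Set.uIcc_of_le hu]
      exact continuousOn_const.mul ((hhom_lam_cont hy hb).mul (hm_cont y b j).continuousOn))

private theorem hhom_lam_nonneg {y b s : ℝ} (hy : 0 < y) (hb : 0 ≤ b) (hs : b ≤ s) :
    0 ≤ lam y s := div_nonneg hy.le (hhom_P_pos hy hb hs).le

/-- the deviation in the odd step -/
private def hd (y b : ℝ) (j : ℕ) (u : ℝ) : ℝ :=
  ∫ s in b..u, lam y s * (Real.exp (2 * hm y b j s) - 1)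

private theorem hd_le {y b : ℝ} (hy : 0 < y) (hb : 0 ≤ b) (j : ℕ) {u : ℝ} (hu : b ≤ u)
    (hmu : hm y b j u ≤ 1 / 20) : hd y b j u ≤ hm y b j u := by
  have h1 : hd y b j u ≤ ∫ s in b..u, 42 * (lam y s * hm y b j s) := by
    unfold hd
    refine intervalIntegral.integral_mono_on hu ?_ ?_ fun s hs => ?_
    · exact ContinuousOn.intervalIntegrable (by
        rw [Set.uIcc_of_le hu]
        exact (hhom_lam_cont hy hb).mul ((Real.continuous_exp.comp
          (continuous_const.mul (hm_cont y b j))).sub continuous_const).continuousOn)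
    · exact ContinuousOn.intervalIntegrable (by
        rw [Set.uIcc_of_le hu]
        exact continuousOn_const.mul ((hhom_lam_cont hy hb).mul (hm_cont y b j).continuousOn))
    · have hl := hhom_lam_nonneg hy hb hs.1
      have hms : hm y b j s ≤ 1 / 20 := (hm_mono hy hb j hs.1 hs.2).trans hmu
      have hmp := hm_pos hy hb j hs.1
      have h2 : Real.exp (2 * hm y b j s) - 1 ≤ 42 * hm y b j s := by
        have h3 : |Real.exp (2 * hm y b j s) - 1 - 2 * hm y b j s| ≤ (2 * hm y b j s) ^ 2 := by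
          refine Real.abs_exp_sub_one_sub_id_le ?_
          rw [abs_of_nonneg (by linarith)]
          linarith
        have h4 := (abs_le.1 h3).2
        nlinarith
      nlinarith
  rw [hm_int hy hb j hu] at h1
  have := hm_pos hy hb j (le_refl b)
  linarith

private theorem hd_nonneg {y b : ℝ} (hy : 0 < y) (hb : 0 ≤ b) (j : ℕ) {u : ℝ} (hu : b ≤ u) :
    0 ≤ hd y b j u := by
  unfold hd
  refine intervalIntegral.integral_nonneg hu fun s hs => ?_
  refine mul_nonneg (hhom_lam_nonneg hy hb hs.1) ?_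
  have := Real.add_one_le_exp (2 * hm y b j s)
  have := hm_pos hy hb j hs.1
  linarith

private theorem hd_cont {y b : ℝ} (hy : 0 < y) (hb : 0 ≤ b) (hb1 : b ≤ 1) (j : ℕ) :
    ContinuousOn (hd y b j) (Set.Icc b 1) := by
  unfold hd
  have h1 : ContinuousOn (fun s => lam y s * (Real.exp (2 * hm y b j s) - 1)) (Set.uIcc b 1) := by
    rw [Set.uIcc_of_le hb1]
    exact (hhom_lam_cont hy hb).mul ((Real.continuous_exp.comp
      (continuous_const.mul (hm_cont y b j))).sub continuous_const).continuousOn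
  have h2 := intervalIntegral.continuousOn_primitive_interval
    (μ := volume) (a := b) (b := 1)
    (f := fun s => lam y s * (Real.exp (2 * hm y b j s) - 1))
    (h1.integrableOn_compact isCompact_uIcc)
  rwa [Set.uIcc_of_le hb1] at h2

private theorem hhom_main (y b : ℝ) (hy : 0 < y) (hb : 0 ≤ b) (hb1 : b ≤ 1) (j : ℕ) :
    (∀ u ∈ Set.Icc b 1, xb y u ≤ wh y b (2 * j) u) ∧
    (∀ u ∈ Set.Icc b 1, wh y b (2 * j + 1) u ≤ xb y u) ∧
    (∀ u ∈ Set.Icc b 1, wh y b (2 * j) u ≤ xb y u * Real.exp (hm y b j u)) := by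
  -- odd bound from the even one
  have hodd : ∀ i : ℕ, (∀ u ∈ Set.Icc b 1, xb y u ≤ wh y b i u) →
      ∀ u ∈ Set.Icc b 1, wh y b (i + 1) u ≤ xb y u := by
    intro i hi u hu
    have h := hhom_upper hy hb i (fun _ => 0) continuousOn_const (fun s hs => by
      rw [Real.exp_zero, mul_one]; exact hi s hs) u hu
    simpa using h
  have heven : ∀ i : ℕ, (∀ u ∈ Set.Icc b 1, wh y b i u ≤ xb y u) →
      ∀ u ∈ Set.Icc b 1, xb y u ≤ wh y b (i + 1) u := by
    intro i hi u hu
    have h := hhom_lower hy hb i (fun _ => 0) continuousOn_const (fun s hs => by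
      rw [Real.exp_zero, mul_one]; exact hi s hs) u hu
    simpa using h
  induction j with
  | zero =>
    have h1 : ∀ u ∈ Set.Icc b 1, xb y u ≤ wh y b 0 u := by
      intro u hu
      show xb y u ≤ xb y b
      unfold xb
      have hPb := hhom_P_pos hy hb (le_refl b)
      refine one_div_le_one_div_of_le (Real.sqrt_pos.2 hPb) (Real.sqrt_le_sqrt ?_)
      nlinarith [hu.1]
    refine ⟨h1, hodd 0 h1, fun u hu => ?_⟩
    show xb y b ≤ xb y u * Real.exp (hm y b 0 u)
    have hPb := hhom_P_pos hy hb (le_refl b)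
    have hPu := hhom_P_pos hy hb hu.1
    rw [hhom_xb_exp hy hb hu.1, hhom_xb_exp hy hb le_rfl, ← Real.exp_add]
    refine Real.exp_le_exp.2 ?_
    have h2 : 1 ≤ (1 + 2 * y * u) / (1 + 2 * y * b) := by
      rw [le_div_iff₀ hPb]
      nlinarith [hu.1]
    have h3 : Real.log ((1 + 2 * y * u) / (1 + 2 * y * b)) ≤
        (1 + 2 * y * u) / (1 + 2 * y * b) - 1 :=
      Real.log_le_sub_one_of_pos (by linarith)
    rw [Real.log_div hPu.ne' hPb.ne'] at h3
    have h4 : (1 + 2 * y * u) / (1 + 2 * y * b) ≤ hm y b 0 u := by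
      unfold hm
      rw [pow_zero, one_mul]
      exact le_self_pow₀ h2 (by norm_num)
    linarith
  | succ j ih =>
    obtain ⟨ih1, ih2, ih3⟩ := ih
    have h1 : ∀ u ∈ Set.Icc b 1, xb y u ≤ wh y b (2 * (j + 1)) u := by
      intro u hu
      exact heven (2 * j + 1) ih2 u hu
    refine ⟨h1, hodd _ h1, fun u hu => ?_⟩
    have h2 := hhom_lower hy hb (2 * j) (hm y b j) (hm_cont y b j).continuousOn ih3
    have h3 := hhom_upper hy hb (2 * j + 1) (fun u => -hd y b j u)
      (hd_cont hy hb hb1 j).neg (fun s hs => h2 s hs) u hu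
    refine le_trans h3 (mul_le_mul_of_nonneg_left (Real.exp_le_exp.2 ?_) ?_)
    · have h4 : -∫ s in b..u, lam y s * (Real.exp (2 * -hd y b j s) - 1) ≤
          ∫ s in b..u, (1 / 2) * (42 * (lam y s * hm y b j s)) := by
        rw [← intervalIntegral.integral_neg]
        have hdu : ContinuousOn (hd y b j) (Set.Icc b u) :=
          (hd_cont hy hb hb1 j).mono (Set.Icc_subset_Icc_right hu.2)
        refine intervalIntegral.integral_mono_on hu.1 ?_ ?_ fun s hs => ?_
        · exact ContinuousOn.intervalIntegrable (by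
            rw [Set.uIcc_of_le hu.1]
            exact ((hhom_lam_cont hy hb).mul ((Real.continuous_exp.comp_continuousOn
              (continuousOn_const.mul hdu.neg)).sub continuousOn_const)).neg)
        · exact ContinuousOn.intervalIntegrable (by
            rw [Set.uIcc_of_le hu.1]
            exact continuousOn_const.mul (continuousOn_const.mul
              ((hhom_lam_cont hy hb).mul (hm_cont y b j).continuousOn)))
        · have hl := hhom_lam_nonneg hy hb hs.1
          have hmp := hm_pos hy hb j hs.1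
          have hdp := hd_nonneg hy hb j hs.1
          have h5 : 1 - Real.exp (2 * -hd y b j s) ≤ 21 * hm y b j s := by
            by_cases hc : hm y b j s ≤ 1 / 20
            · have h6 := hd_le hy hb j hs.1 hc
              have h7 := Real.add_one_le_exp (2 * -hd y b j s)
              linarith
            · have h8 := Real.exp_pos (2 * -hd y b j s)
              rw [not_le] at hc
              linarith
          nlinarith
      refine h4.trans ?_
      rw [intervalIntegral.integral_const_mul, hm_int hy hb j hu.1]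
      have h9 : hm y b (j + 1) u = (1 / 2) * hm y b j u := by
        unfold hm
        ring
      have := hm_pos hy hb j (le_refl b)
      rw [h9]
      linarith
    · rw [hhom_xb_exp hy hb hu.1]
      exact (Real.exp_pos _).le

theorem wh_bounds (y b : ℝ) (hy : 0 < y) (hb : 0 ≤ b) (hb1 : b ≤ 1) (j : ℕ) :
    ∀ u ∈ Set.Icc b 1, xb y u ≤ wh y b (2 * j) u ∧ wh y b (2 * j + 1) u ≤ xb y u ∧
      wh y b (2 * j) u ≤ xb y u * Real.exp ((1 / 2) ^ j * ((1 + 2 * y * u) / (1 + 2 * y * b)) ^ 21) := by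
  obtain ⟨h1, h2, h3⟩ := hhom_main y b hy hb hb1 j
  exact fun u hu => ⟨h1 u hu, h2 u hu, h3 u hu⟩

theorem wh_odd (y b : ℝ) (hy : 0 < y) (hb : 0 ≤ b) (hb1 : b ≤ 1) (j : ℕ)
    (hj : (1 / 2 : ℝ) ^ j * ((1 + 2 * y) / (1 + 2 * y * b)) ^ 21 ≤ 1 / 20) :
    xb y 1 * Real.exp (-(3 * ((1 / 2) ^ j * ((1 + 2 * y) / (1 + 2 * y * b)) ^ 21))) ≤
      wh y b (2 * j + 1) 1 := by
  obtain ⟨h1, h2, h3⟩ := hhom_main y b hy hb hb1 j
  have h4 := hhom_lower hy hb (2 * j) (hm y b j) (hm_cont y b j).continuousOn h3 1 ⟨hb1, le_rfl⟩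
  refine le_trans (mul_le_mul_of_nonneg_left (Real.exp_le_exp.2 ?_) ?_) h4
  · have h5 : (1 / 2 : ℝ) ^ j * ((1 + 2 * y) / (1 + 2 * y * b)) ^ 21 = hm y b j 1 := by
      unfold hm
      rw [mul_one]
    rw [h5] at hj ⊢
    have h6 := hd_le hy hb j hb1 hj
    have h7 := hm_pos hy hb j hb1
    have h8 : hd y b j 1 = ∫ s in b..1, lam y s * (Real.exp (2 * hm y b j s) - 1) := rfl
    rw [← h8]
    linarith
  · rw [hhom_xb_exp hy hb hb1]
    exact (Real.exp_pos _).le

end

end Vale.Agent.P046.H
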