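import Vale.Agent.Lib.P046.HDefs2

/-!
# P046, part S2, module H14: sums of the linear recursion
-/

namespace Vale.Agent.P046.H

open Finset MeasureTheory

noncomputable section

variable {V : Type} [Fintype V] [DecidableEq V]

/-- Double counting of the pairs (vertex, hyperedge). -/
private theorem HLin_swap {Vs : Finset V} {E : Finset (Finset V)} (hVs : ∀ T ∈ E, T ⊆ Vs)
    (G : V → Finset V → ℝ) :
    ∑ T ∈ E, ∑ f ∈ T, G f T = ∑ v ∈ Vs, ∑ T ∈ star E v, G v T := by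
  apply Finset.sum_comm'
  intro T f
  simp only [Finset.mem_filter]
  constructor
  · rintro ⟨hT, hf⟩
    exact ⟨⟨hT, hf⟩, hVs T hT hf⟩
  · rintro ⟨⟨hT, hf⟩, _⟩
    exact ⟨hT, hf⟩

private theorem HLin_erase (T : Finset V) (hT : T.card = 3) (g : V → ℝ) :
    ∑ v ∈ T, ∑ f ∈ T.erase v, g f = 2 * ∑ f ∈ T, g f := by
  have h1 : ∀ v ∈ T, ∑ f ∈ T.erase v, g f = ∑ f ∈ T, g f - g v := by
    intro v hv
    rw [← Finset.add_sum_erase T g hv]
    ring
  rw [Finset.sum_congr rfl h1, Finset.sum_sub_distrib, Finset.sum_const, hT]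
  simp only [nsmul_eq_mul]
  push_cast
  ring

private theorem HLin_nonneg (E : Finset (Finset V)) {K : ℝ} (hK : 0 ≤ K) {err : V → ℝ}
    (herr : ∀ v, 0 ≤ err v) (k : ℕ) : ∀ v P, 0 ≤ Dk E K err k v P := by
  induction k with
  | zero => intro v P; exact herr v
  | succ k ih =>
    intro v P
    exact add_nonneg (herr v) (mul_nonneg hK
      (Finset.sum_nonneg fun T _ => Finset.sum_nonneg fun f _ => ih f T))

/-- The inner sum. -/
private theorem HLin_inner {Vs : Finset V} {E : Finset (Finset V)} (hVs : ∀ T ∈ E, T ⊆ Vs)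
    (hE : ∀ T ∈ E, T.card = 3) (D : V → Finset V → ℝ) :
    ∑ v ∈ Vs, ∑ T ∈ star E v, ∑ f ∈ T.erase v, D f T = 2 * ∑ T ∈ E, ∑ f ∈ T, D f T := by
  rw [← HLin_swap hVs (fun v T => ∑ f ∈ T.erase v, D f T), Finset.mul_sum]
  exact Finset.sum_congr rfl fun T hT => HLin_erase T (hE T hT) (fun f => D f T)

private theorem HLin_step {Vs : Finset V} {E : Finset (Finset V)} (hVs : ∀ T ∈ E, T ⊆ Vs)
    {M : ℝ} (hM : ∀ v ∈ Vs, (deg E v : ℝ) ≤ M) (H : V → ℝ) (hH : ∀ v, 0 ≤ H v) :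
    ∑ T ∈ E, ∑ f ∈ T, H f ≤ M * ∑ v ∈ Vs, H v := by
  rw [HLin_swap hVs (fun v _ => H v), Finset.mul_sum]
  refine Finset.sum_le_sum fun v hv => ?_
  rw [Finset.sum_const, nsmul_eq_mul]
  exact mul_le_mul_of_nonneg_right (hM v hv) (hH v)

theorem Dk_sum (Vs : Finset V) (E : Finset (Finset V)) (hVs : ∀ T ∈ E, T ⊆ Vs)
    (hE : ∀ T ∈ E, T.card = 3) (K M : ℝ) (hK : 0 ≤ K) (hM : ∀ v ∈ Vs, (deg E v : ℝ) ≤ M)
    (hKM : 1 ≤ K * M) (err : V → ℝ) (herr : ∀ v, 0 ≤ err v) (k : ℕ) :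
    ∑ v ∈ Vs, Dk E K err k v ∅ ≤ 2 * (2 * K * M) ^ k * ∑ v ∈ Vs, err v := by
  have hM0 : 0 ≤ M := by
    by_contra hcon
    push Not at hcon
    nlinarith [mul_nonneg hK (neg_nonneg.2 hcon.le)]
  have hE0 : 0 ≤ ∑ v ∈ Vs, err v := Finset.sum_nonneg fun v _ => herr v
  have hq : 2 ≤ 2 * K * M := by nlinarith
  have hsub : ∀ (k : ℕ) (v : V) (P : Finset V),
      ∑ T ∈ (star E v).erase P, ∑ f ∈ T.erase v, Dk E K err k f T ≤
        ∑ T ∈ star E v, ∑ f ∈ T.erase v, Dk E K err k f T := fun k v P =>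
    Finset.sum_le_sum_of_subset_of_nonneg (Finset.erase_subset _ _)
      (fun T _ _ => Finset.sum_nonneg fun f _ => HLin_nonneg E hK herr k f T)
  have hS : ∀ k, ∑ T ∈ E, ∑ f ∈ T, Dk E K err k f T ≤
      M * (∑ v ∈ Vs, err v) * (2 * (2 * K * M) ^ k - 1) := by
    intro k
    induction k with
    | zero =>
      have h1 : ∑ T ∈ E, ∑ f ∈ T, Dk E K err 0 f T ≤ M * ∑ v ∈ Vs, err v :=
        HLin_step hVs hM err herr
      rw [pow_zero]
      linarith
    | succ k ih =>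
      have h1 : ∑ T ∈ E, ∑ f ∈ T, Dk E K err (k + 1) f T ≤
          ∑ T ∈ E, ∑ f ∈ T, (err f + K * ∑ T' ∈ star E f, ∑ f' ∈ T'.erase f,
            Dk E K err k f' T') :=
        Finset.sum_le_sum fun T _ => Finset.sum_le_sum fun f _ =>
          add_le_add le_rfl (mul_le_mul_of_nonneg_left (hsub k f T) hK)
      have h2 := HLin_step hVs hM (fun f => err f + K * ∑ T' ∈ star E f, ∑ f' ∈ T'.erase f,
        Dk E K err k f' T') (fun f => add_nonneg (herr f) (mul_nonneg hK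
          (Finset.sum_nonneg fun T _ => Finset.sum_nonneg fun f' _ =>
            HLin_nonneg E hK herr k f' T)))
      simp only [Finset.sum_add_distrib (s := Vs), ← Finset.mul_sum (s := Vs)] at h2
      rw [HLin_inner hVs hE] at h2
      have h3 : M * (∑ v ∈ Vs, err v + K * (2 * ∑ T ∈ E, ∑ f ∈ T, Dk E K err k f T)) ≤
          M * (∑ v ∈ Vs, err v + K * (2 * (M * (∑ v ∈ Vs, err v) *
            (2 * (2 * K * M) ^ k - 1)))) := by
        apply mul_le_mul_of_nonneg_left _ hM0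
        apply add_le_add le_rfl
        exact mul_le_mul_of_nonneg_left (by linarith) hK
      have h4 : M * (∑ v ∈ Vs, err v + K * (2 * (M * (∑ v ∈ Vs, err v) *
            (2 * (2 * K * M) ^ k - 1)))) =
          M * (∑ v ∈ Vs, err v) * (2 * (2 * K * M) ^ (k + 1) + 1 - 2 * K * M) := by
        rw [pow_succ]
        ring
      have h5 : M * (∑ v ∈ Vs, err v) * (2 * (2 * K * M) ^ (k + 1) + 1 - 2 * K * M) ≤
          M * (∑ v ∈ Vs, err v) * (2 * (2 * K * M) ^ (k + 1) - 1) :=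
        mul_le_mul_of_nonneg_left (by linarith) (mul_nonneg hM0 hE0)
      linarith
  cases k with
  | zero =>
    have h1 : ∑ v ∈ Vs, Dk E K err 0 v ∅ = ∑ v ∈ Vs, err v := rfl
    rw [h1, pow_zero]
    linarith
  | succ k =>
    have h1 : ∑ v ∈ Vs, Dk E K err (k + 1) v ∅ ≤
        ∑ v ∈ Vs, (err v + K * ∑ T ∈ star E v, ∑ f ∈ T.erase v, Dk E K err k f T) :=
      Finset.sum_le_sum fun v _ =>
        add_le_add le_rfl (mul_le_mul_of_nonneg_left (hsub k v ∅) hK)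
    rw [Finset.sum_add_distrib, ← Finset.mul_sum, HLin_inner hVs hE] at h1
    have h2 : K * (2 * ∑ T ∈ E, ∑ f ∈ T, Dk E K err k f T) ≤
        K * (2 * (M * (∑ v ∈ Vs, err v) * (2 * (2 * K * M) ^ k - 1))) :=
      mul_le_mul_of_nonneg_left (by linarith [hS k]) hK
    have h3 : ∑ v ∈ Vs, err v + K * (2 * (M * (∑ v ∈ Vs, err v) *
        (2 * (2 * K * M) ^ k - 1))) =
        (∑ v ∈ Vs, err v) * (2 * (2 * K * M) ^ (k + 1) + 1 - 2 * K * M) := by
      rw [pow_succ]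
      ring
    have h4 : (∑ v ∈ Vs, err v) * (2 * (2 * K * M) ^ (k + 1) + 1 - 2 * K * M) ≤
        (∑ v ∈ Vs, err v) * (2 * (2 * K * M) ^ (k + 1)) :=
      mul_le_mul_of_nonneg_left (by linarith) hE0
    linarith

end

end Vale.Agent.P046.H
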