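import Vale.Agent.Lib.P046.HIter
import Vale.Agent.Lib.P046.HBethe
import Vale.Agent.Lib.P046.HPar
import Vale.Agent.Lib.P046.HEnergyEnd
import Vale.Agent.Lib.P046.HHom
import Vale.Agent.Lib.P046.HLin
import Vale.Agent.Lib.P046.HComp

/-!
# P046 S2, module H16: averaged bounds of the iterates at time 1
-/

namespace Vale.Agent.P046.H

open Finset MeasureTheory

noncomputable section

/-- the smallest power of 1/2 below a bound -/
private theorem HAvg_pow (A δ : ℝ) (hA : 1 ≤ A) (hδ : 0 < δ) (hδ1 : δ ≤ 1) :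
    ∃ j : ℕ, (1 / 2 : ℝ) ^ j * A ≤ δ ∧ (j : ℝ) ≤ (3 / 2) * (Real.log A - Real.log δ) + 1 := by
  have hlog2 : (0.6931471803 : ℝ) < Real.log 2 := Real.log_two_gt_d9
  have hAδ : 0 ≤ Real.log A - Real.log δ := by
    have h1 := Real.log_nonneg hA
    have h2 := Real.log_nonpos hδ.le hδ1
    linarith
  refine ⟨⌈(Real.log A - Real.log δ) / Real.log 2⌉₊, ?_, ?_⟩
  · have h1 : (Real.log A - Real.log δ) / Real.log 2 ≤
        (⌈(Real.log A - Real.log δ) / Real.log 2⌉₊ : ℝ) := Nat.le_ceil _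
    set j := ⌈(Real.log A - Real.log δ) / Real.log 2⌉₊
    rw [div_le_iff₀ (by linarith)] at h1
    have hpos : 0 < (1 / 2 : ℝ) ^ j * A := by positivity
    rw [← Real.log_le_log_iff hpos hδ, Real.log_mul (by positivity) (by positivity), Real.log_pow,
      one_div, Real.log_inv]
    linarith
  · have h1 : (⌈(Real.log A - Real.log δ) / Real.log 2⌉₊ : ℝ) <
        (Real.log A - Real.log δ) / Real.log 2 + 1 :=
      Nat.ceil_lt_add_one (div_nonneg hAδ (by linarith))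
    have h2 : (Real.log A - Real.log δ) / Real.log 2 ≤ (3 / 2) * (Real.log A - Real.log δ) := by
      rw [div_le_iff₀ (by linarith)]
      nlinarith
    linarith

/-- polylogarithms are smaller than y2 -/
private theorem HAvg_exp : ∃ T0 : ℝ, ∀ t : ℝ, T0 ≤ t → 10 ^ 8 * (8 * t ^ 2) ^ 8 ≤
    Real.exp (3 * t / 125) := by
  refine ⟨10 ^ 8 * 8 ^ 8 * (Nat.factorial 17) * (125 / 3) ^ 17, ?_⟩
  intro t ht
  have ht0 : 0 < t := lt_of_lt_of_le (by positivity) ht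
  have h1 := Real.pow_div_factorial_le_exp (3 * t / 125) (by positivity) 17
  refine le_trans ?_ h1
  rw [le_div_iff₀ (by positivity)]
  calc 10 ^ 8 * (8 * t ^ 2) ^ 8 * (Nat.factorial 17 : ℝ)
      = (10 ^ 8 * 8 ^ 8 * (Nat.factorial 17) * (125 / 3) ^ 17) * (3 / 125) ^ 17 * t ^ 16 := by
        rw [mul_pow]
        ring
    _ ≤ t * (3 / 125) ^ 17 * t ^ 16 := by gcongr
    _ = (3 * t / 125) ^ 17 := by ring

private theorem HAvg_log3 : Real.log 3 ≤ 1.1 := by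
  rw [Real.log_le_iff_le_exp (by norm_num)]
  have h1 := Real.exp_one_gt_d9
  have h2 : (3 : ℝ) ≤ 2.7182818283 * (1 + 0.1 + 0.005) := by norm_num
  have h3 : (1 : ℝ) + 0.1 + 0.005 ≤ Real.exp 0.1 := by
    have := Real.quadratic_le_exp_of_nonneg (x := (0.1 : ℝ)) (by norm_num)
    norm_num at this ⊢
    linarith
  calc (3 : ℝ) ≤ 2.7182818283 * (1 + 0.1 + 0.005) := h2
    _ ≤ Real.exp 1 * Real.exp 0.1 := by
        apply mul_le_mul h1.le h3 (by norm_num) (Real.exp_pos _).le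
    _ = Real.exp 1.1 := by rw [← Real.exp_add]; norm_num

private theorem HAvg_exp3 : (16 : ℝ) ≤ Real.exp 3 := by
  have h1 := Real.exp_one_gt_d9
  have h2 : Real.exp 3 = Real.exp 1 ^ 3 := by
    rw [← Real.exp_nat_mul]; norm_num
  rw [h2]
  have h3 : (2.7 : ℝ) ^ 3 ≤ Real.exp 1 ^ 3 := pow_le_pow_left₀ (by norm_num) (by linarith) 3
  norm_num at h3 ⊢
  linarith

/-- the parameters -/
private theorem HAvg_par (t L : ℝ) (ht : 1000 ≤ t)
    (hT0 : 10 ^ 8 * (8 * t ^ 2) ^ 8 ≤ Real.exp (3 * t / 125)) (hL : 1 ≤ L)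
    (hL2 : L ^ 20 ≤ Real.exp (t / 25)) :
    Par (Real.exp (t ^ 2)) L (Real.exp (t / 25))
      ((Real.exp (t ^ 2) / Real.exp (t / 25) - 1) / (2 * Real.exp (t ^ 2)))
      (2 * Real.log (1 + 2 * Real.exp (t ^ 2))) ∧
    2 * Real.log (1 + 2 * Real.exp (t ^ 2)) ≤ Real.exp (t / 25) := by
  have hlog3 := HAvg_log3
  set y : ℝ := Real.exp (t ^ 2) with hy
  have hy0 : 0 < y := Real.exp_pos _
  have hlogy : Real.log y = t ^ 2 := by rw [hy, Real.log_exp]
  have hy1000 : 1000 ≤ y := by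
    rw [hy]
    have := Real.add_one_le_exp (t ^ 2)
    nlinarith
  set y2 : ℝ := Real.exp (t / 25) with hy2
  have hy2pos : 0 < y2 := Real.exp_pos _
  have hy2one : 1 ≤ y2 := by rw [hy2]; exact Real.one_le_exp (by linarith)
  set ell : ℝ := 2 * Real.log (1 + 2 * y) with hell
  have hell1 : ell ≤ 8 * t ^ 2 := by
    have h1 : Real.log (1 + 2 * y) ≤ Real.log (3 * y) :=
      Real.log_le_log (by linarith) (by linarith)
    rw [Real.log_mul (by norm_num) hy0.ne', hlogy] at h1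
    rw [hell]
    nlinarith
  have hell2 : 1 ≤ ell := by
    have h1 : 1 ≤ Real.log (1 + 2 * y) := by
      rw [Real.le_log_iff_exp_le (by linarith)]
      linarith [Real.exp_one_lt_d9]
    rw [hell]; linarith
  have hpar2 : 10 ^ 8 * L ^ 8 * ell ^ 8 ≤ y2 := by
    have h1 : 10 ^ 8 * ell ^ 8 ≤ Real.exp (3 * t / 125) := by
      refine le_trans ?_ hT0
      have : ell ^ 8 ≤ (8 * t ^ 2) ^ 8 := pow_le_pow_left₀ (by linarith) hell1 8
      linarith
    have h2 : L ^ 8 ≤ Real.exp (2 * t / 125) := by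
      have h3 : (L ^ 8) ^ 5 ≤ (Real.exp (2 * t / 125)) ^ 5 := by
        calc (L ^ 8) ^ 5 = (L ^ 20) ^ 2 := by ring
          _ ≤ (Real.exp (t / 25)) ^ 2 := pow_le_pow_left₀ (by positivity) hL2 2
          _ = (Real.exp (2 * t / 125)) ^ 5 := by
              rw [← Real.exp_nat_mul, ← Real.exp_nat_mul]
              congr 1
              push_cast
              ring
      exact le_of_pow_le_pow_left₀ (by norm_num) (Real.exp_pos _).le h3
    calc 10 ^ 8 * L ^ 8 * ell ^ 8 = (10 ^ 8 * ell ^ 8) * L ^ 8 := by ring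
      _ ≤ Real.exp (3 * t / 125) * Real.exp (2 * t / 125) := by
          apply mul_le_mul h1 h2 (by positivity) (Real.exp_pos _).le
      _ = y2 := by
          rw [← Real.exp_add, hy2]
          congr 1
          ring
  have hpary : y2 ^ 100 ≤ y := by
    rw [hy2, hy, ← Real.exp_nat_mul]
    apply Real.exp_le_exp.2
    push_cast
    nlinarith
  refine ⟨⟨hL, rfl, hell2, hpar2, hpary, rfl⟩, ?_⟩
  refine le_trans ?_ hpar2
  have h1 : ell ≤ ell ^ 8 := le_self_pow₀ hell2 (by norm_num)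
  have h2 : (1 : ℝ) ≤ L ^ 8 := one_le_pow₀ hL
  have h3 : (1 : ℝ) ≤ 10 ^ 8 * L ^ 8 := by linarith
  have h4 : 0 < ell ^ 8 := by positivity
  nlinarith

/-- choice of the numbers of iterations -/
private theorem HAvg_jJ (t d : ℝ) (ht : 1000 ≤ t) (hd0 : 0 ≤ d) (htd : 100 * (d + 1) ≤ t) :
    ∃ j J : ℕ, (1 / 2 : ℝ) ^ j * (3 * Real.exp (t / 25)) ^ 21 ≤ Real.exp (-d) ∧
      (1 / 2 : ℝ) ^ J * (3 * (Real.exp (t ^ 2) / Real.exp (t / 25)) ^ 21 * Real.exp (t ^ 2)) ≤ 1 ∧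
      (j : ℝ) ≤ 2 * t ∧ ((2 * J + 2 * j : ℕ) : ℝ) + 1 ≤ 100 * t ^ 2 := by
  have hlog3 := HAvg_log3
  set y : ℝ := Real.exp (t ^ 2) with hy
  have hy0 : 0 < y := Real.exp_pos _
  have hlogy : Real.log y = t ^ 2 := by rw [hy, Real.log_exp]
  set y2 : ℝ := Real.exp (t / 25) with hy2
  have hy2pos : 0 < y2 := Real.exp_pos _
  have hy2one : 1 ≤ y2 := by rw [hy2]; exact Real.one_le_exp (by linarith)
  have hlogy2 : Real.log y2 = t / 25 := by rw [hy2, Real.log_exp]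
  have hy2y : y2 ≤ y := by
    rw [hy, hy2]; apply Real.exp_le_exp.2; nlinarith
  have h3y2 : 1 ≤ (3 * y2) ^ 21 := one_le_pow₀ (by linarith)
  obtain ⟨j, hj1, hj2⟩ := HAvg_pow ((3 * y2) ^ 21) (Real.exp (-d)) h3y2 (Real.exp_pos _)
    (Real.exp_le_one_iff.2 (by linarith))
  have h3y : 1 ≤ 3 * (y / y2) ^ 21 * y := by
    have h1 : 1 ≤ y / y2 := by
      rw [le_div_iff₀ hy2pos, one_mul]
      exact hy2y
    have h2 : 1 ≤ (y / y2) ^ 21 := one_le_pow₀ h1
    have h3 : 1 ≤ y := le_trans hy2one hy2y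
    nlinarith
  obtain ⟨J, hJ1, hJ2⟩ := HAvg_pow (3 * (y / y2) ^ 21 * y) 1 h3y one_pos le_rfl
  have hlogA : Real.log ((3 * y2) ^ 21) ≤ 21 * (1.1 + t / 25) := by
    rw [Real.log_pow, Real.log_mul (by norm_num) hy2pos.ne', hlogy2]
    push_cast
    linarith
  have hlogJ : Real.log (3 * (y / y2) ^ 21 * y) ≤ 1.1 + 22 * t ^ 2 := by
    have h1 : Real.log (3 * (y / y2) ^ 21 * y) ≤ Real.log (3 * y ^ 22) := by
      apply Real.log_le_log (by positivity)
      have h2 : (y / y2) ^ 21 ≤ y ^ 21 := by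
        apply pow_le_pow_left₀ (by positivity)
        exact div_le_self hy0.le hy2one
      calc 3 * (y / y2) ^ 21 * y ≤ 3 * y ^ 21 * y := by gcongr
        _ = 3 * y ^ 22 := by ring
    have h3 : Real.log (3 * y ^ 22) = Real.log 3 + 22 * t ^ 2 := by
      rw [Real.log_mul (by norm_num) (by positivity), Real.log_pow, hlogy]
      push_cast
      ring
    rw [h3] at h1
    linarith
  have hj3 : (j : ℝ) ≤ (3 / 2) * (21 * (1.1 + t / 25) + d) + 1 := by
    rw [Real.log_exp] at hj2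
    linarith
  have hJ3 : (J : ℝ) ≤ (3 / 2) * (1.1 + 22 * t ^ 2) + 1 := by
    rw [Real.log_one, sub_zero] at hJ2
    linarith
  have hjt : (j : ℝ) ≤ 2 * t := by linarith
  refine ⟨j, J, hj1, hJ1, hjt, ?_⟩
  push_cast
  nlinarith

private theorem HAvg_err (t d L : ℝ) (j : ℕ) (ht : 1000 ≤ t) (htd : 100 * (d + 1) ≤ t)
    (hL : 1 ≤ L) (hL2 : L ^ 20 ≤ Real.exp (t / 25)) (hj : (j : ℝ) ≤ 2 * t) :
    (16 * Real.exp (t / 25)) ^ (2 * j + 3) * L ≤ Real.exp (-d) * Real.sqrt (Real.exp (t ^ 2)) := by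
  have hLexp : L ≤ Real.exp (t / 25) := by
    calc L ≤ L ^ 20 := le_self_pow₀ hL (by norm_num)
      _ ≤ _ := hL2
  have h16 := HAvg_exp3
  have h1 : 16 * Real.exp (t / 25) ≤ Real.exp (3 + t / 25) := by
    rw [Real.exp_add]
    exact mul_le_mul_of_nonneg_right h16 (Real.exp_pos _).le
  have hsq : Real.sqrt (Real.exp (t ^ 2)) = Real.exp (t ^ 2 / 2) := by
    rw [Real.sqrt_eq_rpow, ← Real.exp_mul]
    congr 1
    ring
  calc (16 * Real.exp (t / 25)) ^ (2 * j + 3) * L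
      ≤ (Real.exp (3 + t / 25)) ^ (2 * j + 3) * Real.exp (t / 25) := by
        apply mul_le_mul _ hLexp (by linarith) (by positivity)
        exact pow_le_pow_left₀ (by positivity) h1 _
    _ = Real.exp ((2 * j + 3) * (3 + t / 25) + t / 25) := by
        rw [← Real.exp_nat_mul, ← Real.exp_add]
        push_cast
        rfl
    _ ≤ Real.exp (-d + t ^ 2 / 2) := by
        apply Real.exp_le_exp.2
        have h2 : ((2 : ℝ) * j + 3) * (3 + t / 25) ≤ (4 * t + 3) * (3 + t / 25) := by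
          apply mul_le_mul_of_nonneg_right _ (by linarith)
          linarith
        nlinarith
    _ = _ := by rw [Real.exp_add, ← hsq]

private theorem HAvg_num (δ : ℝ) (hδ : 0 < δ) (hδ1 : δ ≤ 1) : ∃ Y0 : ℝ, ∀ y L : ℝ, Y0 ≤ y → 1 ≤ L →
    L ^ 20 ≤ Real.exp (Real.sqrt (Real.log y) / 25) →
    ∃ y2 b ell : ℝ, ∃ j J : ℕ, Par y L y2 b ell ∧ ell ≤ y2 ∧ (1 + 2 * y) / (1 + 2 * y * b) ≤ 3 * y2 ∧
      (1 / 2 : ℝ) ^ j * (3 * y2) ^ 21 ≤ δ ∧
      3 * ((1 / 2 : ℝ) ^ J * (1 + 2 * y * b) ^ 21) ≤ 1 / y ∧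
      ((2 * J + 2 * j : ℕ) : ℝ) + 1 ≤ 100 * Real.log y ∧
      (16 * y2) ^ (2 * j + 3) * L ≤ δ * Real.sqrt y ∧ 1 / y ≤ δ := by
  obtain ⟨T0, hT0⟩ := HAvg_exp
  set d : ℝ := -Real.log δ with hd
  have hd0 : 0 ≤ d := by
    have := Real.log_nonpos hδ.le hδ1
    linarith
  have hδe : δ = Real.exp (-d) := by
    rw [hd, neg_neg, Real.exp_log hδ]
  set T1 : ℝ := max T0 (max 1000 (100 * (d + 1) )) with hT1
  refine ⟨Real.exp (T1 ^ 2), ?_⟩
  intro y L hy hL hL2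
  have hy0 : 0 < y := lt_of_lt_of_le (Real.exp_pos _) hy
  have hlogy : T1 ^ 2 ≤ Real.log y := by
    rw [Real.le_log_iff_exp_le hy0]; exact hy
  have hlogy0 : 0 ≤ Real.log y := le_trans (sq_nonneg _) hlogy
  have htT : T1 ≤ Real.sqrt (Real.log y) := Real.le_sqrt_of_sq_le hlogy
  have ht2 : (Real.sqrt (Real.log y)) ^ 2 = Real.log y := Real.sq_sqrt hlogy0
  have hyexp : y = Real.exp ((Real.sqrt (Real.log y)) ^ 2) := by rw [ht2, Real.exp_log hy0]
  generalize Real.sqrt (Real.log y) = t at *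
  have ht1000 : 1000 ≤ t := le_trans (le_trans (le_max_left _ _) (le_max_right _ _)) htT
  have htd : 100 * (d + 1) ≤ t :=
    le_trans (le_trans (le_max_right _ _) (le_max_right _ _)) htT
  have htT0 : T0 ≤ t := le_trans (le_max_left _ _) htT
  obtain ⟨hPar, hell⟩ := HAvg_par t L ht1000 (hT0 t htT0) hL hL2
  obtain ⟨j, J, hj, hJ, hjt, hjJ⟩ := HAvg_jJ t d ht1000 hd0 htd
  have herr := HAvg_err t d L j ht1000 htd hL hL2 hjt
  rw [← hyexp] at hPar hell hJ herr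
  rw [← hδe] at hj herr
  rw [← ht2]
  have hb1 : 1 + 2 * y * ((y / Real.exp (t / 25) - 1) / (2 * y)) = y / Real.exp (t / 25) := by
    field_simp
    ring
  have hy1 : 1 ≤ y := by
    rw [hyexp]
    exact Real.one_le_exp (sq_nonneg _)
  refine ⟨Real.exp (t / 25), _, _, j, J, hPar, hell, ?_, hj, ?_, hjJ, herr, ?_⟩
  · rw [hb1, div_div_eq_mul_div, div_le_iff₀ hy0]
    have := Real.exp_pos (t / 25)
    nlinarith
  · rw [hb1, le_div_iff₀ hy0]
    calc 3 * ((1 / 2 : ℝ) ^ J * (y / Real.exp (t / 25)) ^ 21) * y =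
          (1 / 2) ^ J * (3 * (y / Real.exp (t / 25)) ^ 21 * y) := by ring
      _ ≤ 1 := hJ
  · rw [div_le_iff₀ hy0]
    rw [hδe, hyexp, ← Real.exp_add]
    apply Real.one_le_exp
    nlinarith

/-- the iterates after 2 J steps are compared with the restarted ones -/
private theorem HAvg_restart {V : Type} [Fintype V] [DecidableEq V] (E : Finset (Finset V)) (b : ℝ)
    (hb0 : 0 ≤ b) (J i : ℕ) :
    ∀ v P u, u ∈ Set.Icc (0 : ℝ) 1 →
      (Even i → Xit E (2 * J + i) v P u ≤ Wt E b J i v P u) ∧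
      (¬ Even i → Wt E b J i v P u ≤ Xit E (2 * J + i) v P u) := by
  have hXc : ∀ k v P, Continuous (Xit E k v P) := fun k v P =>
    It_cont E _ (fun _ _ => continuous_const) k v P
  have hXm : ∀ k v P u, u ∈ Set.Icc (0 : ℝ) 1 → Xit E k v P u ∈ Set.Icc (0 : ℝ) 1 := fun k =>
    It_mem E _ (fun _ _ => continuous_const) (fun _ _ _ _ => by simp) k
  have hW0c : ∀ v P, Continuous (fun u => Xit E (2 * J) v P (min u b)) := fun v P =>
    (hXc _ v P).comp (continuous_id.min continuous_const)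
  have hmin : ∀ u ∈ Set.Icc (0 : ℝ) 1, min u b ∈ Set.Icc (0 : ℝ) 1 := fun u hu =>
    ⟨le_min hu.1 hb0, le_trans (min_le_left _ _) hu.2⟩
  have hW0m : ∀ v P u, u ∈ Set.Icc (0 : ℝ) 1 → Xit E (2 * J) v P (min u b) ∈ Set.Icc (0 : ℝ) 1 :=
    fun v P u hu => hXm _ v P _ (hmin u hu)
  have hWc : ∀ k v P, Continuous (Wt E b J k v P) := fun k v P => It_cont E _ hW0c k v P
  have hWm : ∀ k v P u, u ∈ Set.Icc (0 : ℝ) 1 → Wt E b J k v P u ∈ Set.Icc (0 : ℝ) 1 := fun k =>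
    It_mem E _ hW0c hW0m k
  induction i with
  | zero =>
    intro v P u hu
    refine ⟨fun _ => ?_, fun h => absurd (Even.zero) h⟩
    show Xit E (2 * J) v P u ≤ Xit E (2 * J) v P (min u b)
    rcases Nat.eq_zero_or_pos J with h0 | h0
    · subst h0
      simp [Xit, It]
    · obtain ⟨m, hm⟩ : ∃ m, 2 * J = m + 1 := ⟨2 * J - 1, by omega⟩
      rw [hm]
      exact R_anti_time E (Xit E m) (hXc m) 1 le_rfl (hXm m) v P (min u b) u (le_min hu.1 hb0)
        (min_le_left _ _) hu.2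
  | succ i ih =>
    intro v P u hu
    constructor
    · intro he
      have ho : ¬ Even i := by
        intro h; exact (Nat.even_add_one.1 he) h
      exact R_anti E (Wt E b J i) (Xit E (2 * J + i)) (hWc i) (hXc _) 1 le_rfl (hWm i) (hXm _)
        (fun v P u hu => (ih v P u hu).2 ho) v P u hu
    · intro he
      have ho : Even i := by
        by_contra h; exact he (Nat.even_add_one.2 h)
      exact R_anti E (Xit E (2 * J + i)) (Wt E b J i) (hXc _) (hWc i) 1 le_rfl (hXm _) (hWm i)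
        (fun v P u hu => (ih v P u hu).1 ho) v P u hu

/-- sum of the differences at time 1 -/
private theorem HAvg_sum {V : Type} [Fintype V] [DecidableEq V] (Vs : Finset V)
    (E : Finset (Finset V)) (y L y2 b ell δ : ℝ) (hR : HReg Vs E y L)
    (hP : Par y L y2 b ell) (helly2 : ell ≤ y2) (X : V → Finset V → ℝ → ℝ) (hB : Bethe E X)
    (J j i : ℕ) (hδ : 0 ≤ δ)
    (hJ : 3 * ((1 / 2 : ℝ) ^ J * (1 + 2 * y * b) ^ 21) ≤ 1 / y) (hi : i ≤ 2 * j + 1)
    (herr : (16 * y2) ^ (2 * j + 3) * L ≤ δ * Real.sqrt y) :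
    ∑ v ∈ Vs, |Wt E b J i v ∅ 1 - wh y b i 1| ≤ δ * Vs.card / Real.sqrt (2 * y) := by
  obtain ⟨hy, hy2, hy2y, hb0, hb1, hb2, -, hxb, -, -, hLy⟩ := par_facts hP
  have hL := hP.hL
  have hs0 : 0 < Real.sqrt y := Real.sqrt_pos.2 hy
  have hy2pos : 0 < y2 := by linarith
  set err : V → ℝ := fun v => |Real.log (XX y X v b)| + 3 * L * y2 / Real.sqrt y with herrdef
  have hE0 : ∀ v, 0 ≤ err v := fun v => by
    rw [herrdef]
    positivity
  have hLs : L ≤ Real.sqrt y := by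
    have h1 : 1 ≤ ell := hP.hell1
    have h2 : (1 : ℝ) ≤ y2 ^ 20 := one_le_pow₀ (by linarith)
    have h3 : L ≤ L * ell * y2 ^ 20 := by
      have : L * 1 * 1 ≤ L * ell * y2 ^ 20 := by gcongr
      linarith
    have h4 : Real.sqrt y / 10 ^ 8 ≤ Real.sqrt y := div_le_self hs0.le (by norm_num)
    linarith
  have hM : ∀ v ∈ Vs, (deg E v : ℝ) ≤ 2 * y := by
    intro v hv
    have h1 := (abs_le.1 (hR.p1 v hv)).2
    have h2 : L * Real.sqrt y ≤ Real.sqrt y * Real.sqrt y :=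
      mul_le_mul_of_nonneg_right hLs hs0.le
    rw [Real.mul_self_sqrt hy.le] at h2
    linarith
  have hKM : (4 * y2 / y) * (2 * y) = 8 * y2 := by
    field_simp
    ring
  have h1 := Dk_sum Vs E hR.sub hR.card3 (4 * y2 / y) (2 * y) (by positivity) hM
    (by rw [hKM]; linarith) err hE0 i
  have h2 : 2 * (4 * y2 / y) * (2 * y) = 16 * y2 := by
    field_simp
    ring
  rw [h2] at h1
  have h3 : ∑ v ∈ Vs, err v ≤ 4 * L * y2 * Vs.card / Real.sqrt y := by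
    rw [herrdef, Finset.sum_add_distrib, Finset.sum_const, nsmul_eq_mul]
    have h4 := logXX_avg Vs E y L y2 b ell hR hP X hB
    have h5 : L * ell * Vs.card / Real.sqrt y ≤ L * y2 * Vs.card / Real.sqrt y := by gcongr
    have h6 : L * y2 * Vs.card / Real.sqrt y + Vs.card * (3 * L * y2 / Real.sqrt y) =
        4 * L * y2 * Vs.card / Real.sqrt y := by ring
    linarith
  have h7 : ∑ v ∈ Vs, |Wt E b J i v ∅ 1 - wh y b i 1| ≤
      2 * xb y b * ∑ v ∈ Vs, Dk E (4 * y2 / y) err i v ∅ := by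
    rw [Finset.mul_sum]
    exact Finset.sum_le_sum fun v hv => comp Vs E y L y2 b ell hR hP X hB J hJ i 1
      ⟨by linarith, le_rfl⟩ v hv ∅
  have hxb2 : xb y b ≤ y2 / Real.sqrt y := by
    rw [hxb, Real.sqrt_div hy2pos.le]
    gcongr
    rw [Real.sqrt_le_left hy2pos.le]
    nlinarith
  have hxb0 : 0 ≤ xb y b := by rw [hxb]; positivity
  have hs2 : Real.sqrt (2 * y) ≤ 2 * Real.sqrt y := by
    rw [Real.sqrt_mul (by norm_num)]
    gcongr
    rw [Real.sqrt_le_left (by norm_num)]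
    norm_num
  have hs2' : 0 < Real.sqrt (2 * y) := Real.sqrt_pos.2 (by linarith)
  have hpow : (16 * y2) ^ i ≤ (16 * y2) ^ (2 * j + 1) :=
    pow_le_pow_right₀ (by linarith) hi
  have hD0 : 0 ≤ ∑ v ∈ Vs, err v := Finset.sum_nonneg fun v _ => hE0 v
  refine h7.trans ?_
  calc 2 * xb y b * ∑ v ∈ Vs, Dk E (4 * y2 / y) err i v ∅
      ≤ 2 * (y2 / Real.sqrt y) * (2 * (16 * y2) ^ (2 * j + 1) *
          (4 * L * y2 * Vs.card / Real.sqrt y)) := by
        apply mul_le_mul (by linarith) _ _ (by positivity)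
        · refine h1.trans ?_
          apply mul_le_mul _ h3 hD0 (by positivity)
          linarith
        · refine Finset.sum_nonneg fun v hv => ?_
          have hk := comp Vs E y L y2 b ell hR hP X hB J hJ i 1 ⟨by linarith, le_rfl⟩ v hv ∅
          have hx : 0 < xb y b := by rw [hxb]; positivity
          have h8 : 0 ≤ 2 * xb y b * Dk E (4 * y2 / y) err i v ∅ := le_trans (abs_nonneg _) hk
          exact nonneg_of_mul_nonneg_right h8 (by linarith)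
    _ = (16 * y2 ^ 2 * ((16 * y2) ^ (2 * j + 1) * L)) * Vs.card / (Real.sqrt y * Real.sqrt y) := by
        field_simp
        ring
    _ ≤ ((16 * y2) ^ (2 * j + 3) * L / 2) * Vs.card / (Real.sqrt y * Real.sqrt y) := by
        gcongr
        have h9 : (16 * y2) ^ (2 * j + 3) = 256 * y2 ^ 2 * (16 * y2) ^ (2 * j + 1) := by ring
        rw [h9]
        have h10 : 0 ≤ y2 ^ 2 * ((16 * y2) ^ (2 * j + 1) * L) := by positivity
        linarith
    _ ≤ (δ * Real.sqrt y / 2) * Vs.card / (Real.sqrt y * Real.sqrt y) := by gcongr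
    _ = δ * Vs.card / (2 * Real.sqrt y) := by
        field_simp
    _ ≤ δ * Vs.card / Real.sqrt (2 * y) := by gcongr

private theorem HAvg_hm {y b y2 δ : ℝ} {j : ℕ} (hy : 0 < y) (hb : 0 ≤ b)
    (hratio : (1 + 2 * y) / (1 + 2 * y * b) ≤ 3 * y2)
    (hj : (1 / 2 : ℝ) ^ j * (3 * y2) ^ 21 ≤ δ) :
    (1 / 2 : ℝ) ^ j * ((1 + 2 * y) / (1 + 2 * y * b)) ^ 21 ≤ δ := by
  have hden : 0 < 1 + 2 * y * b := by positivity
  refine le_trans ?_ hj
  gcongr

private theorem HAvg_upper {V : Type} [Fintype V] [DecidableEq V] (Vs : Finset V)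
    (E : Finset (Finset V)) (y L y2 b ell δ ε : ℝ) (hR : HReg Vs E y L)
    (hP : Par y L y2 b ell) (helly2 : ell ≤ y2) (X : V → Finset V → ℝ → ℝ) (hB : Bethe E X)
    (J j : ℕ) (hδ : 0 < δ) (hδε : δ ≤ ε / 12) (hδ60 : δ ≤ 1 / 60)
    (hratio : (1 + 2 * y) / (1 + 2 * y * b) ≤ 3 * y2)
    (hj : (1 / 2 : ℝ) ^ j * (3 * y2) ^ 21 ≤ δ)
    (hJ : 3 * ((1 / 2 : ℝ) ^ J * (1 + 2 * y * b) ^ 21) ≤ 1 / y)
    (herr : (16 * y2) ^ (2 * j + 3) * L ≤ δ * Real.sqrt y) :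
    ∑ v ∈ Vs, Xit E (2 * J + 2 * j) v ∅ 1 ≤ (1 + ε) * Vs.card / Real.sqrt (2 * y) := by
  obtain ⟨hy0, hy2, hy2y, hb0, hb1, hb2, -, -, -, -, -⟩ := par_facts hP
  have hs2' : 0 < Real.sqrt (2 * y) := Real.sqrt_pos.2 (by linarith)
  have hm := HAvg_hm hy0 hb0.le hratio hj
  have hxb1 : xb y 1 ≤ 1 / Real.sqrt (2 * y) := by
    unfold xb
    rw [mul_one]
    gcongr
    linarith
  have h1 : ∀ v ∈ Vs, Xit E (2 * J + 2 * j) v ∅ 1 ≤ wh y b (2 * j) 1 +
      |Wt E b J (2 * j) v ∅ 1 - wh y b (2 * j) 1| := by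
    intro v hv
    have h2 := (HAvg_restart E b hb0.le J (2 * j) v ∅ 1 (by simp)).1 (by simp)
    have h3 := le_abs_self (Wt E b J (2 * j) v ∅ 1 - wh y b (2 * j) 1)
    linarith
  refine (Finset.sum_le_sum h1).trans ?_
  rw [Finset.sum_add_distrib, Finset.sum_const, nsmul_eq_mul]
  have h4 := HAvg_sum Vs E y L y2 b ell δ hR hP helly2 X hB J j (2 * j) hδ.le hJ (by omega) herr
  have h5 := (wh_bounds y b hy0 hb0.le (by linarith) j 1 ⟨by linarith, le_rfl⟩).2.2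
  rw [mul_one] at h5
  have h6 : wh y b (2 * j) 1 ≤ (1 + 2 * δ) / Real.sqrt (2 * y) := by
    refine h5.trans ?_
    have h7 : Real.exp ((1 / 2 : ℝ) ^ j * ((1 + 2 * y) / (1 + 2 * y * b)) ^ 21) ≤ 1 + 2 * δ := by
      refine (Real.exp_le_exp.2 hm).trans ?_
      have := Real.exp_bound_div_one_sub_of_interval hδ.le (by linarith)
      refine this.trans ?_
      rw [div_le_iff₀ (by linarith)]
      nlinarith
    calc xb y 1 * Real.exp ((1 / 2 : ℝ) ^ j * ((1 + 2 * y) / (1 + 2 * y * b)) ^ 21)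
        ≤ (1 / Real.sqrt (2 * y)) * (1 + 2 * δ) :=
          mul_le_mul hxb1 h7 (Real.exp_pos _).le (by positivity)
      _ = _ := by ring
  have h8 : (Vs.card : ℝ) * wh y b (2 * j) 1 ≤ Vs.card * ((1 + 2 * δ) / Real.sqrt (2 * y)) :=
    mul_le_mul_of_nonneg_left h6 (Nat.cast_nonneg _)
  have h9 : (Vs.card : ℝ) * ((1 + 2 * δ) / Real.sqrt (2 * y)) + δ * Vs.card / Real.sqrt (2 * y) =
      (1 + 3 * δ) * Vs.card / Real.sqrt (2 * y) := by ring
  have h10 : (1 + 3 * δ) * Vs.card / Real.sqrt (2 * y) ≤ (1 + ε) * Vs.card / Real.sqrt (2 * y) := by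
    gcongr
    linarith
  linarith

private theorem HAvg_lower {V : Type} [Fintype V] [DecidableEq V] (Vs : Finset V)
    (E : Finset (Finset V)) (y L y2 b ell δ ε : ℝ) (hR : HReg Vs E y L)
    (hP : Par y L y2 b ell) (helly2 : ell ≤ y2) (X : V → Finset V → ℝ → ℝ) (hB : Bethe E X)
    (J j : ℕ) (hδ : 0 < δ) (hδε : δ ≤ ε / 12) (hδ60 : δ ≤ 1 / 60)
    (hratio : (1 + 2 * y) / (1 + 2 * y * b) ≤ 3 * y2)
    (hj : (1 / 2 : ℝ) ^ j * (3 * y2) ^ 21 ≤ δ)
    (hJ : 3 * ((1 / 2 : ℝ) ^ J * (1 + 2 * y * b) ^ 21) ≤ 1 / y)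
    (herr : (16 * y2) ^ (2 * j + 3) * L ≤ δ * Real.sqrt y) (hyδ : 1 / y ≤ δ) :
    (1 - ε) * Vs.card / Real.sqrt (2 * y) ≤ ∑ v ∈ Vs, Xit E (2 * J + 2 * j + 1) v ∅ 1 := by
  obtain ⟨hy0, hy2, hy2y, hb0, hb1, hb2, -, -, -, -, -⟩ := par_facts hP
  have hs2' : 0 < Real.sqrt (2 * y) := Real.sqrt_pos.2 (by linarith)
  have hm := HAvg_hm hy0 hb0.le hratio hj
  have hxb2 : (1 - δ) / Real.sqrt (2 * y) ≤ xb y 1 := by
    unfold xb
    rw [mul_one, div_le_div_iff₀ hs2' (Real.sqrt_pos.2 (by linarith))]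
    have h1 : (1 - δ) * Real.sqrt (1 + 2 * y) ≤ Real.sqrt (2 * y) := by
      apply Real.le_sqrt_of_sq_le
      rw [mul_pow, Real.sq_sqrt (by linarith)]
      have h2 : 1 ≤ δ * y := by
        rw [div_le_iff₀ hy0] at hyδ
        linarith
      nlinarith
    linarith
  have h1 : ∀ v ∈ Vs, wh y b (2 * j + 1) 1 -
      |Wt E b J (2 * j + 1) v ∅ 1 - wh y b (2 * j + 1) 1| ≤ Xit E (2 * J + 2 * j + 1) v ∅ 1 := by
    intro v hv
    have h2 := (HAvg_restart E b hb0.le J (2 * j + 1) v ∅ 1 (by simp)).2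
      (by simp)
    have h3 := neg_abs_le (Wt E b J (2 * j + 1) v ∅ 1 - wh y b (2 * j + 1) 1)
    rw [← add_assoc] at h2
    linarith
  refine le_trans ?_ (Finset.sum_le_sum h1)
  rw [Finset.sum_sub_distrib, Finset.sum_const, nsmul_eq_mul]
  have h4 := HAvg_sum Vs E y L y2 b ell δ hR hP helly2 X hB J j (2 * j + 1) hδ.le hJ le_rfl herr
  have h5 := wh_odd y b hy0 hb0.le (by linarith) j (by linarith)
  have h6 : (1 - 4 * δ) / Real.sqrt (2 * y) ≤ wh y b (2 * j + 1) 1 := by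
    refine le_trans ?_ h5
    have h7 : 1 - 3 * δ ≤
        Real.exp (-(3 * ((1 / 2 : ℝ) ^ j * ((1 + 2 * y) / (1 + 2 * y * b)) ^ 21))) := by
      have := Real.add_one_le_exp (-(3 * ((1 / 2 : ℝ) ^ j * ((1 + 2 * y) / (1 + 2 * y * b)) ^ 21)))
      linarith
    calc (1 - 4 * δ) / Real.sqrt (2 * y) ≤ ((1 - δ) * (1 - 3 * δ)) / Real.sqrt (2 * y) := by
          gcongr
          nlinarith
      _ = ((1 - δ) / Real.sqrt (2 * y)) * (1 - 3 * δ) := by ring
      _ ≤ xb y 1 * Real.exp (-(3 * ((1 / 2 : ℝ) ^ j * ((1 + 2 * y) / (1 + 2 * y * b)) ^ 21))) := by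
          apply mul_le_mul hxb2 h7 (by linarith)
          unfold xb
          positivity
  have h8 : (Vs.card : ℝ) * ((1 - 4 * δ) / Real.sqrt (2 * y)) ≤ Vs.card * wh y b (2 * j + 1) 1 :=
    mul_le_mul_of_nonneg_left h6 (Nat.cast_nonneg _)
  have h9 : (Vs.card : ℝ) * ((1 - 4 * δ) / Real.sqrt (2 * y)) - δ * Vs.card / Real.sqrt (2 * y) =
      (1 - 5 * δ) * Vs.card / Real.sqrt (2 * y) := by ring
  have h10 : (1 - ε) * Vs.card / Real.sqrt (2 * y) ≤ (1 - 5 * δ) * Vs.card / Real.sqrt (2 * y) := by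
    gcongr
    linarith
  linarith

/-! H16 HAvg.lean -/
theorem avg_bounds (ε : ℝ) (hε : 0 < ε) : ∃ Y0 : ℝ, ∀ (V : Type) [Fintype V] [DecidableEq V]
    (Vs : Finset V) (E : Finset (Finset V)) (y L : ℝ), Y0 ≤ y → 1 ≤ L →
    L ^ 20 ≤ Real.exp (Real.sqrt (Real.log y) / 25) → HReg Vs E y L →
    ∃ k : ℕ, Even k ∧ ((k : ℝ) + 1 ≤ 100 * Real.log y) ∧
      ∑ v ∈ Vs, Xit E k v ∅ 1 ≤ (1 + ε) * Vs.card / Real.sqrt (2 * y) ∧
      (1 - ε) * Vs.card / Real.sqrt (2 * y) ≤ ∑ v ∈ Vs, Xit E (k + 1) v ∅ 1 := by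
  set δ : ℝ := min (ε / 12) (1 / 60) with hδdef
  have hδ0 : 0 < δ := lt_min (by linarith) (by norm_num)
  have hδε : δ ≤ ε / 12 := min_le_left _ _
  have hδ60 : δ ≤ 1 / 60 := min_le_right _ _
  obtain ⟨Y0, hY0⟩ := HAvg_num δ hδ0 (by linarith)
  refine ⟨Y0, ?_⟩
  intro V _ _ Vs E y L hy hL hL2 hR
  obtain ⟨y2, b, ell, j, J, hP, helly2, hratio, hj, hJ, hk, herr, hyδ⟩ := hY0 y L hy hL hL2
  obtain ⟨X, hB⟩ := exists_bethe E
  exact ⟨2 * J + 2 * j, by simp [Nat.even_add], hk,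
    HAvg_upper Vs E y L y2 b ell δ ε hR hP helly2 X hB J j hδ0 hδε hδ60 hratio hj hJ herr,
    HAvg_lower Vs E y L y2 b ell δ ε hR hP helly2 X hB J j hδ0 hδε hδ60 hratio hj hJ herr hyδ⟩

end

end Vale.Agent.P046.H
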