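import Vale.Agent.Lib.P046.HDefs2

/-!
# P046, part S2, module H17: the labels
-/

namespace Vale.Agent.P046.H

open Finset MeasureTheory

noncomputable section

variable {V : Type} [Fintype V] [DecidableEq V]

theorem a_zero_or_one (E : Finset (Finset V)) (k : ℕ) (D : Finset V) (v : V) (u : ℝ)
    (l : Finset V → ℝ) : a E k D v u l = 0 ∨ a E k D v u l = 1 := by
  have hprod : ∀ {ι : Type} [DecidableEq ι] (s : Finset ι) (F : ι → ℝ),
      (∀ i ∈ s, F i = 0 ∨ F i = 1) → (∏ i ∈ s, F i = 0 ∨ ∏ i ∈ s, F i = 1) := by
    intro ι _ s F h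
    by_cases h0 : ∃ i ∈ s, F i = 0
    · obtain ⟨i, hi, hi0⟩ := h0
      exact Or.inl (Finset.prod_eq_zero hi hi0)
    · refine Or.inr (Finset.prod_eq_one fun i hi => ?_)
      exact (h i hi).resolve_left fun h1 => h0 ⟨i, hi, h1⟩
  induction k generalizing D v u with
  | zero => exact Or.inr rfl
  | succ k ih =>
    rw [a]
    refine hprod _ _ fun T _ => ?_
    split_ifs with hT
    · rcases hprod (T.erase v) (fun f => a E k (insert v D) f (l T) l)
        (fun f _ => ih (insert v D) f (l T)) with h | h
      · right
        rw [h, sub_zero]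
      · left
        rw [h, sub_self]
    · right
      rw [sub_zero]

private theorem hLabel_mem (E : Finset (Finset V)) (k : ℕ) (D : Finset V) (v : V) (u : ℝ)
    (l : Finset V → ℝ) : 0 ≤ a E k D v u l ∧ a E k D v u l ≤ 1 := by
  rcases a_zero_or_one E k D v u l with h | h <;> rw [h] <;> norm_num

private theorem hLabel_factor_mono (E : Finset (Finset V)) (k m : ℕ) (D : Finset V) (v : V) (u : ℝ)
    (l : Finset V → ℝ)
    (h : ∀ T ∈ inc E D v, ∀ f ∈ T.erase v,
      a E k (insert v D) f (l T) l ≤ a E m (insert v D) f (l T) l) :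
    a E (m + 1) D v u l ≤ a E (k + 1) D v u l := by
  rw [a, a]
  refine Finset.prod_le_prod ?_ ?_
  · intro T _
    split_ifs with hT
    · have : ∏ f ∈ T.erase v, a E m (insert v D) f (l T) l ≤ 1 :=
        Finset.prod_le_one (fun f _ => (hLabel_mem E m _ f _ l).1)
          (fun f _ => (hLabel_mem E m _ f _ l).2)
      linarith
    · norm_num
  · intro T hT
    split_ifs with hT'
    · have : ∏ f ∈ T.erase v, a E k (insert v D) f (l T) l ≤
          ∏ f ∈ T.erase v, a E m (insert v D) f (l T) l :=
        Finset.prod_le_prod (fun f _ => (hLabel_mem E k _ f _ l).1) (fun f hf => h T hT f hf)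
      linarith
    · exact le_refl _

private theorem hLabel_alt (E : Finset (Finset V)) (l : Finset V → ℝ) (k : ℕ) :
    ∀ (m : ℕ) (_ : k ≤ m) (D : Finset V) (v : V) (u : ℝ),
      (Even k → a E m D v u l ≤ a E k D v u l) ∧
        (¬ Even k → a E k D v u l ≤ a E m D v u l) := by
  induction k with
  | zero =>
    intro m _ D v u
    refine ⟨fun _ => ?_, fun h => absurd Even.zero h⟩
    exact (hLabel_mem E m D v u l).2
  | succ k ih =>
    intro m hm D v u
    obtain ⟨m, rfl⟩ : ∃ m', m = m' + 1 := ⟨m - 1, by omega⟩
    refine ⟨fun h => ?_, fun h => ?_⟩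
    · have hk : ¬ Even k := by
        intro hk
        exact (Nat.not_even_iff_odd.mpr hk.add_one) h
      exact hLabel_factor_mono E k m D v u l
        (fun T _ f _ => (ih m (by omega) (insert v D) f (l T)).2 hk)
    · have hk : Even k := by
        by_contra hk
        exact h (Nat.not_even_iff_odd.mp hk).add_one
      exact hLabel_factor_mono E m k D v u l
        (fun T _ f _ => (ih m (by omega) (insert v D) f (l T)).1 hk)

private theorem hLabel_stab (E : Finset (Finset V)) (l : Finset V → ℝ) (k : ℕ) :
    ∀ (D : Finset V) (v : V) (u : ℝ), v ∉ D → Fintype.card V ≤ k + D.card →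
      a E k D v u l = a E (k + 1) D v u l := by
  induction k with
  | zero =>
    intro D v u hv hD
    exfalso
    have h1 : (insert v D).card ≤ Fintype.card V := Finset.card_le_univ _
    rw [Finset.card_insert_of_notMem hv] at h1
    omega
  | succ k ih =>
    intro D v u hv hD
    rw [a, a]
    refine Finset.prod_congr rfl fun T hT => ?_
    have hprod : ∏ f ∈ T.erase v, a E k (insert v D) f (l T) l =
        ∏ f ∈ T.erase v, a E (k + 1) (insert v D) f (l T) l := by
      refine Finset.prod_congr rfl fun f hf => ih (insert v D) f (l T) ?_ ?_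
      · rw [Finset.mem_insert, not_or]
        refine ⟨(Finset.mem_erase.mp hf).1, fun hfD => ?_⟩
        have h2 : Disjoint T D := (Finset.mem_filter.mp hT).2.2
        exact Finset.disjoint_left.mp h2 (Finset.mem_erase.mp hf).2 hfD
      · rw [Finset.card_insert_of_notMem hv]
        omega
    rw [hprod]

/-- alternating bounds -/
theorem surv_bounds (E : Finset (Finset V)) (v : V) (l : Finset V → ℝ) (k : ℕ) :
    (Even k → surv E v l ≤ a E k ∅ v 1 l) ∧ (¬ Even k → a E k ∅ v 1 l ≤ surv E v l) := by
  unfold surv
  rcases le_total k (Fintype.card V + 1) with h | h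
  · exact hLabel_alt E l k _ h ∅ v 1
  · have h1 : ∀ j, a E (Fintype.card V + 1 + j) ∅ v 1 l = a E (Fintype.card V + 1) ∅ v 1 l := by
      intro j
      induction j with
      | zero => rfl
      | succ j ih =>
        rw [← ih, ← add_assoc]
        refine (hLabel_stab E l _ ∅ v 1 (Finset.notMem_empty v) ?_).symm
        omega
    have h2 : a E k ∅ v 1 l = a E (Fintype.card V + 1) ∅ v 1 l := by
      have := h1 (k - (Fintype.card V + 1))
      rwa [Nat.add_sub_cancel' h] at this
    rw [h2]
    exact ⟨fun _ => le_refl _, fun _ => le_refl _⟩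

theorem a_meas (E : Finset (Finset V)) (k : ℕ) (D : Finset V) (v : V) :
    Measurable (fun p : ℝ × (Finset V → ℝ) => a E k D v p.1 p.2) := by
  induction k generalizing D v with
  | zero => exact measurable_const
  | succ k ih =>
    simp only [a]
    refine Finset.measurable_prod _ fun T _ => ?_
    have hT : Measurable fun p : ℝ × (Finset V → ℝ) => p.2 T :=
      (measurable_pi_apply T).comp measurable_snd
    refine measurable_const.sub (Measurable.ite (measurableSet_lt hT measurable_fst) ?_
      measurable_const)
    refine Finset.measurable_prod _ fun f _ => ?_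
    exact (ih (insert v D) f).comp (hT.prodMk measurable_snd)

theorem a_dep (E : Finset (Finset V)) (k : ℕ) (D : Finset V) (v : V) (u : ℝ)
    (l l' : Finset V → ℝ) (h : ∀ T ∈ Dep E k D v, l T = l' T) :
    a E k D v u l = a E k D v u l' := by
  induction k generalizing D v u with
  | zero => rfl
  | succ k ih =>
    rw [a, a]
    refine Finset.prod_congr rfl fun T hT => ?_
    have hlT : l T = l' T := by
      apply h
      rw [Dep]
      exact Finset.mem_union_left _ hT
    have hprod : ∏ f ∈ T.erase v, a E k (insert v D) f (l T) l =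
        ∏ f ∈ T.erase v, a E k (insert v D) f (l T) l' := by
      refine Finset.prod_congr rfl fun f hf => ih (insert v D) f (l T) fun T' hT' => ?_
      apply h
      rw [Dep]
      refine Finset.mem_union_right _ ?_
      rw [Finset.mem_biUnion]
      refine ⟨T, hT, ?_⟩
      rw [Finset.mem_biUnion]
      exact ⟨f, hf, hT'⟩
    rw [hprod, hlT]

instance mu_prob : IsProbabilityMeasure (mu V) := by
  unfold mu
  have h : IsProbabilityMeasure ((volume : Measure ℝ).restrict (Set.Icc (0 : ℝ) 1)) := by
    constructor
    rw [Measure.restrict_apply_univ, Real.volume_Icc]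
    norm_num
  infer_instance

end

end Vale.Agent.P046.H
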