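import Vale.Agent.Lib.P046.HDefs2

/-!
# P046, part S2, module HPairs: few pairs of vertices are close; monotonicity of `TreeB`
-/

namespace Vale.Agent.P046.H

open Finset MeasureTheory

noncomputable section

variable {V : Type} [Fintype V] [DecidableEq V]

private theorem HPairs_dep_mono (E : Finset (Finset V)) (k m : ℕ) (hkm : k ≤ m) (D : Finset V)
    (v : V) : Dep E k D v ⊆ Dep E m D v := by
  induction k generalizing m D v with
  | zero => simp [Dep]
  | succ k ih =>
    obtain ⟨m', rfl⟩ : ∃ m', m = m' + 1 := ⟨m - 1, by omega⟩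
    have hk : k ≤ m' := by omega
    intro T hT
    simp only [Dep, mem_union, mem_biUnion] at hT ⊢
    rcases hT with hT | ⟨T', hT', f, hf, h⟩
    · exact Or.inl hT
    · exact Or.inr ⟨T', hT', f, hf, ih m' hk _ _ h⟩

private theorem HPairs_dep_sub (E : Finset (Finset V)) (k : ℕ) (D : Finset V)
    (v : V) : Dep E k D v ⊆ E := by
  induction k generalizing D v with
  | zero => simp [Dep]
  | succ k ih =>
    intro T hT
    simp only [Dep, mem_union, mem_biUnion] at hT
    rcases hT with hT | ⟨T', hT', f, hf, h⟩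
    · exact (mem_filter.mp hT).1
    · exact ih _ _ h

private theorem HPairs_inc_card (E : Finset (Finset V)) (D : Finset V) (v : V) :
    (inc E D v).card ≤ deg E v := by
  unfold inc deg
  refine card_le_card fun T hT => ?_
  rw [mem_filter] at hT ⊢
  exact ⟨hT.1, hT.2.1⟩

private theorem HPairs_dep_card (Vs : Finset V) (E : Finset (Finset V)) (hVs : ∀ T ∈ E, T ⊆ Vs)
    (hE : ∀ T ∈ E, T.card = 3) (M : ℝ) (hM : ∀ v ∈ Vs, (deg E v : ℝ) ≤ M) (hM1 : 1 ≤ M) (k : ℕ)
    (D : Finset V) (v : V) (hv : v ∈ Vs) : ((Dep E k D v).card : ℝ) ≤ (3 * M) ^ k := by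
  induction k generalizing D v with
  | zero => simp [Dep]
  | succ k ih =>
    have hinc : ((inc E D v).card : ℝ) ≤ M :=
      le_trans (by exact_mod_cast HPairs_inc_card E D v) (hM v hv)
    have h1 : ((Dep E (k + 1) D v).card : ℝ) ≤ (inc E D v).card +
        ∑ T ∈ inc E D v, ∑ f ∈ T.erase v, ((Dep E k (insert v D) f).card : ℝ) := by
      have h2 : (Dep E (k + 1) D v).card ≤ (inc E D v).card +
          ∑ T ∈ inc E D v, ∑ f ∈ T.erase v, (Dep E k (insert v D) f).card := by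
        simp only [Dep]
        refine le_trans (card_union_le _ _) (Nat.add_le_add_left ?_ _)
        refine le_trans card_biUnion_le (sum_le_sum fun T _ => ?_)
        exact card_biUnion_le
      exact_mod_cast h2
    have h3 : ∑ T ∈ inc E D v, ∑ f ∈ T.erase v, ((Dep E k (insert v D) f).card : ℝ) ≤
        ∑ T ∈ inc E D v, 2 * (3 * M) ^ k := by
      refine sum_le_sum fun T hT => ?_
      have hT' := mem_filter.mp hT
      have hcard : (T.erase v).card = 2 := by
        rw [card_erase_of_mem hT'.2.1, hE T hT'.1]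
      calc ∑ f ∈ T.erase v, ((Dep E k (insert v D) f).card : ℝ)
          ≤ ∑ f ∈ T.erase v, (3 * M) ^ k := by
            refine sum_le_sum fun f hf => ih _ f ?_
            exact hVs T hT'.1 (mem_of_mem_erase hf)
        _ = 2 * (3 * M) ^ k := by
            rw [sum_const, hcard, nsmul_eq_mul]
            norm_num
    have hpow : (1 : ℝ) ≤ (3 * M) ^ k := one_le_pow₀ (by linarith)
    have h4 : ∑ T ∈ inc E D v, 2 * (3 * M) ^ k ≤ M * (2 * (3 * M) ^ k) := by
      rw [sum_const, nsmul_eq_mul]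
      exact mul_le_mul_of_nonneg_right hinc (by positivity)
    have h5 : M ≤ M * (3 * M) ^ k := le_mul_of_one_le_right (by linarith) hpow
    calc ((Dep E (k + 1) D v).card : ℝ) ≤ M + M * (2 * (3 * M) ^ k) := by linarith
      _ ≤ M * (3 * M) ^ k + M * (2 * (3 * M) ^ k) := by linarith
      _ = (3 * M) ^ (k + 1) := by ring

private theorem HPairs_back (Vs : Finset V) (E : Finset (Finset V)) (hVs : ∀ T ∈ E, T ⊆ Vs)
    (hE : ∀ T ∈ E, T.card = 3) (M : ℝ) (hM : ∀ v ∈ Vs, (deg E v : ℝ) ≤ M) (hM1 : 1 ≤ M)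
    (T0 : Finset V) (hT0 : T0 ∈ E) (k : ℕ) :
    ((Vs.filter fun w => ∃ D, T0 ∈ Dep E k D w).card : ℝ) ≤ (6 * M) ^ k := by
  induction k with
  | zero => simp [Dep]
  | succ k ih =>
    set S := Vs.filter fun w => ∃ D, T0 ∈ Dep E k D w with hS
    have hsub : (Vs.filter fun w => ∃ D, T0 ∈ Dep E (k + 1) D w) ⊆
        T0 ∪ S.biUnion fun f => (E.filter fun T => f ∈ T).biUnion fun T => T.erase f := by
      intro w hw
      obtain ⟨hwV, D, hD⟩ := mem_filter.mp hw
      simp only [Dep, mem_union, mem_biUnion] at hD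
      rw [mem_union]
      rcases hD with hD | ⟨T, hT, f, hf, h⟩
      · exact Or.inl (mem_filter.mp hD).2.1
      · right
        have hT' := mem_filter.mp hT
        have hfT := mem_of_mem_erase hf
        have hne : f ≠ w := ne_of_mem_erase hf
        refine mem_biUnion.mpr ⟨f, ?_, mem_biUnion.mpr ⟨T, ?_, ?_⟩⟩
        · exact mem_filter.mpr ⟨hVs T hT'.1 hfT, _, h⟩
        · exact mem_filter.mpr ⟨hT'.1, hfT⟩
        · exact mem_erase.mpr ⟨hne.symm, hT'.2.1⟩
    have h1 : ((Vs.filter fun w => ∃ D, T0 ∈ Dep E (k + 1) D w).card : ℝ) ≤ T0.card +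
        ∑ f ∈ S, ∑ T ∈ E.filter (fun T => f ∈ T), ((T.erase f).card : ℝ) := by
      have h2 : (Vs.filter fun w => ∃ D, T0 ∈ Dep E (k + 1) D w).card ≤ T0.card +
          ∑ f ∈ S, ∑ T ∈ E.filter (fun T => f ∈ T), (T.erase f).card := by
        refine le_trans (card_le_card hsub) ?_
        refine le_trans (card_union_le _ _) (Nat.add_le_add_left ?_ _)
        refine le_trans card_biUnion_le (sum_le_sum fun T _ => ?_)
        exact card_biUnion_le
      exact_mod_cast h2
    have h3 : ∑ f ∈ S, ∑ T ∈ E.filter (fun T => f ∈ T), ((T.erase f).card : ℝ) ≤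
        ∑ f ∈ S, 2 * M := by
      refine sum_le_sum fun f hf => ?_
      have hfV : f ∈ Vs := (mem_filter.mp hf).1
      calc ∑ T ∈ E.filter (fun T => f ∈ T), ((T.erase f).card : ℝ)
          = ∑ T ∈ E.filter (fun T => f ∈ T), (2 : ℝ) := by
            refine sum_congr rfl fun T hT => ?_
            have hT' := mem_filter.mp hT
            rw [card_erase_of_mem hT'.2, hE T hT'.1]
            norm_num
        _ = (deg E f : ℝ) * 2 := by
            rw [sum_const, nsmul_eq_mul]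
            rfl
        _ ≤ 2 * M := by
            have := hM f hfV
            linarith
    have h4 : ∑ f ∈ S, 2 * M ≤ (6 * M) ^ k * (2 * M) := by
      rw [sum_const, nsmul_eq_mul]
      exact mul_le_mul_of_nonneg_right ih (by linarith)
    have hpow : (1 : ℝ) ≤ (6 * M) ^ k := one_le_pow₀ (by linarith)
    have h5 : (1 : ℝ) ≤ M * (6 * M) ^ k := by nlinarith
    have h6 : (T0.card : ℝ) = 3 := by exact_mod_cast hE T0 hT0
    calc ((Vs.filter fun w => ∃ D, T0 ∈ Dep E (k + 1) D w).card : ℝ)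
        ≤ 3 + (6 * M) ^ k * (2 * M) := by linarith
      _ ≤ 4 * (M * (6 * M) ^ k) + (6 * M) ^ k * (2 * M) := by linarith
      _ = (6 * M) ^ (k + 1) := by ring

theorem close_pairs (Vs : Finset V) (E : Finset (Finset V)) (hVs : ∀ T ∈ E, T ⊆ Vs)
    (hE : ∀ T ∈ E, T.card = 3) (M : ℝ) (hM : ∀ v ∈ Vs, (deg E v : ℝ) ≤ M) (hM1 : 1 ≤ M) (k : ℕ)
    (v : V) (hv : v ∈ Vs) :
    ((Vs.filter (fun w => ¬ Disjoint (Dep E k ∅ v) (Dep E k ∅ w))).card : ℝ) ≤
      (6 * M) ^ (2 * k) := by
  have hsub : (Vs.filter (fun w => ¬ Disjoint (Dep E k ∅ v) (Dep E k ∅ w))) ⊆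
      (Dep E k ∅ v).biUnion fun T0 => Vs.filter fun w => ∃ D, T0 ∈ Dep E k D w := by
    intro w hw
    obtain ⟨hwV, hw⟩ := mem_filter.mp hw
    obtain ⟨T0, h1, h2⟩ := not_disjoint_iff.mp hw
    exact mem_biUnion.mpr ⟨T0, h1, mem_filter.mpr ⟨hwV, ∅, h2⟩⟩
  have h1 : ((Vs.filter (fun w => ¬ Disjoint (Dep E k ∅ v) (Dep E k ∅ w))).card : ℝ) ≤
      ∑ T0 ∈ Dep E k ∅ v, ((Vs.filter fun w => ∃ D, T0 ∈ Dep E k D w).card : ℝ) := by
    have h2 := le_trans (card_le_card hsub) card_biUnion_le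
    exact_mod_cast h2
  have h2 : ∑ T0 ∈ Dep E k ∅ v, ((Vs.filter fun w => ∃ D, T0 ∈ Dep E k D w).card : ℝ) ≤
      ∑ T0 ∈ Dep E k ∅ v, (6 * M) ^ k := by
    refine sum_le_sum fun T0 hT0 => ?_
    exact HPairs_back Vs E hVs hE M hM hM1 T0 (HPairs_dep_sub E k ∅ v hT0) k
  have h3 : ((Dep E k ∅ v).card : ℝ) ≤ (6 * M) ^ k := by
    refine le_trans (HPairs_dep_card Vs E hVs hE M hM hM1 k ∅ v hv) ?_
    exact pow_le_pow_left₀ (by linarith) (by linarith) k
  rw [sum_const, nsmul_eq_mul] at h2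
  calc ((Vs.filter (fun w => ¬ Disjoint (Dep E k ∅ v) (Dep E k ∅ w))).card : ℝ)
      ≤ (Dep E k ∅ v).card * (6 * M) ^ k := le_trans h1 h2
    _ ≤ (6 * M) ^ k * (6 * M) ^ k := mul_le_mul_of_nonneg_right h3 (by positivity)
    _ = (6 * M) ^ (2 * k) := by rw [two_mul, pow_add]

theorem TreeB_mono (E : Finset (Finset V)) (k m : ℕ) (hkm : k ≤ m) (D : Finset V) (v : V)
    (P : Finset V) (h : TreeB E m D v P) : TreeB E k D v P := by
  induction k generalizing m D v P with
  | zero => exact trivial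
  | succ k ih =>
    obtain ⟨m', rfl⟩ : ∃ m', m = m' + 1 := ⟨m - 1, by omega⟩
    have hk : k ≤ m' := by omega
    obtain ⟨h1, h2, h3⟩ := h
    refine ⟨h1, fun T hT f hf => ih m' hk _ _ _ (h2 T hT f hf), ?_⟩
    intro T hT f hf T' hT' f' hf' hne
    exact disjoint_of_subset_left (HPairs_dep_mono E k m' hk _ _)
      (disjoint_of_subset_right (HPairs_dep_mono E k m' hk _ _) (h3 T hT f hf T' hT' f' hf' hne))

end

end Vale.Agent.P046.H
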