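import Vale.Agent.Lib.P046.HLabel

/-!
# P046, part S2, module H18: independence and the product formula for the expectation on trees
-/

namespace Vale.Agent.P046.H

open Finset MeasureTheory

noncomputable section

variable {V : Type} [Fintype V] [DecidableEq V]


theorem hprod_nu_univ : (volume.restrict (Set.Icc (0 : ℝ) 1)) Set.univ = 1 := by
  rw [Measure.restrict_apply_univ, Real.volume_Icc]
  norm_num

instance hprod_nu_prob : IsProbabilityMeasure (volume.restrict (Set.Icc (0 : ℝ) 1)) :=
  ⟨hprod_nu_univ⟩

/-- glue two label functions along `S` -/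
def hprodGlue (S : Finset (Finset V)) (p : (Finset V → ℝ) × (Finset V → ℝ)) : Finset V → ℝ :=
  fun T => if T ∈ S then p.1 T else p.2 T

theorem hprodGlue_meas (S : Finset (Finset V)) : Measurable (hprodGlue S) := by
  rw [measurable_pi_iff]
  intro T
  unfold hprodGlue
  by_cases hT : T ∈ S
  · simp only [hT, if_true]
    exact (measurable_pi_apply T).comp measurable_fst
  · simp only [hT, if_false]
    exact (measurable_pi_apply T).comp measurable_snd

theorem hprod_glue_map (S : Finset (Finset V)) :
    Measure.map (hprodGlue S) ((mu V).prod (mu V)) = mu V := by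
  unfold mu
  symm
  apply Measure.pi_eq
  intro s hs
  rw [Measure.map_apply (hprodGlue_meas S) (MeasurableSet.univ_pi hs)]
  have hpre : hprodGlue S ⁻¹' (Set.univ.pi s) =
      (Set.univ.pi fun T => if T ∈ S then s T else Set.univ) ×ˢ
        (Set.univ.pi fun T => if T ∈ S then Set.univ else s T) := by
    ext p
    simp only [Set.mem_preimage, Set.mem_pi, Set.mem_univ, true_implies, Set.mem_prod, hprodGlue]
    constructor
    · intro h
      constructor
      · intro T
        have := h T
        split_ifs with hT
        · simpa [hT] using this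
        · trivial
      · intro T
        have := h T
        split_ifs with hT
        · trivial
        · simpa [hT] using this
    · rintro ⟨h1, h2⟩ T
      have h1 := h1 T
      have h2 := h2 T
      split_ifs with hT
      · simpa [hT] using h1
      · simpa [hT] using h2
  rw [hpre, Measure.prod_prod, Measure.pi_pi, Measure.pi_pi, ← Finset.prod_mul_distrib]
  apply Finset.prod_congr rfl
  intro T _
  split_ifs with hT
  · rw [hprod_nu_univ, mul_one]
  · rw [hprod_nu_univ, one_mul]

/-- functions of disjoint sets of labels are independent -/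
theorem mu_indep (S S' : Finset (Finset V)) (hS : Disjoint S S') (F G : (Finset V → ℝ) → ℝ)
    (hF : Measurable F) (hG : Measurable G) (hFb : ∀ l, F l ∈ Set.Icc (0 : ℝ) 1)
    (hGb : ∀ l, G l ∈ Set.Icc (0 : ℝ) 1)
    (hFS : ∀ l l', (∀ T ∈ S, l T = l' T) → F l = F l')
    (hGS : ∀ l l', (∀ T ∈ S', l T = l' T) → G l = G l') :
    ∫ l, F l * G l ∂(mu V) = (∫ l, F l ∂(mu V)) * ∫ l, G l ∂(mu V) := by
  have hFG : Measurable (fun l => F l * G l) := hF.mul hG
  conv_lhs => rw [← hprod_glue_map S]
  rw [integral_map (hprodGlue_meas S).aemeasurable hFG.aestronglyMeasurable]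
  rw [← integral_prod_mul]
  congr 1
  funext p
  congr 1
  · apply hFS
    intro T hT
    simp [hprodGlue, hT]
  · apply hGS
    intro T hT
    have hT' : T ∉ S := fun h => (Finset.disjoint_left.1 hS h) hT
    simp [hprodGlue, hT']

theorem hprod_indep {ι : Type} [DecidableEq ι] (t : Finset ι) (S : ι → Finset (Finset V))
    (hS : ∀ i ∈ t, ∀ j ∈ t, i ≠ j → Disjoint (S i) (S j)) (F : ι → (Finset V → ℝ) → ℝ)
    (hF : ∀ i ∈ t, Measurable (F i)) (hFb : ∀ i ∈ t, ∀ l, F i l ∈ Set.Icc (0 : ℝ) 1)
    (hFS : ∀ i ∈ t, ∀ l l', (∀ T ∈ S i, l T = l' T) → F i l = F i l') :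
    ∫ l, ∏ i ∈ t, F i l ∂(mu V) = ∏ i ∈ t, ∫ l, F i l ∂(mu V) := by
  induction t using Finset.induction_on with
  | empty => simp
  | insert i t hi ih =>
    have ih' := ih (fun a ha b hb => hS a (mem_insert_of_mem ha) b (mem_insert_of_mem hb))
      (fun a ha => hF a (mem_insert_of_mem ha)) (fun a ha => hFb a (mem_insert_of_mem ha))
      (fun a ha => hFS a (mem_insert_of_mem ha))
    rw [Finset.prod_insert hi, ← ih']
    have h1 : ∀ l, ∏ j ∈ insert i t, F j l = F i l * ∏ j ∈ t, F j l := fun l =>
      Finset.prod_insert hi
    simp only [h1]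
    apply mu_indep (S i) (t.biUnion S)
    · rw [Finset.disjoint_biUnion_right]
      intro j hj
      exact hS i (mem_insert_self i t) j (mem_insert_of_mem hj) (fun h => hi (h ▸ hj))
    · exact hF i (mem_insert_self i t)
    · exact Finset.measurable_fun_prod _ (fun j hj => hF j (mem_insert_of_mem hj))
    · exact hFb i (mem_insert_self i t)
    · intro l
      exact ⟨Finset.prod_nonneg fun j hj => (hFb j (mem_insert_of_mem hj) l).1,
        Finset.prod_le_one (fun j hj => (hFb j (mem_insert_of_mem hj) l).1)
          (fun j hj => (hFb j (mem_insert_of_mem hj) l).2)⟩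
    · exact hFS i (mem_insert_self i t)
    · intro l l' h
      apply Finset.prod_congr rfl
      intro j hj
      exact hFS j (mem_insert_of_mem hj) l l' (fun T hT => h T (mem_biUnion.2 ⟨j, hj, hT⟩))

theorem hprod_meas_diag (T0 : Finset V) {h : ℝ → (Finset V → ℝ) → ℝ}
    (hm : Measurable (Function.uncurry h)) :
    Measurable (fun l : Finset V → ℝ => h (l T0) l) := by
  have h1 : Measurable (fun l : Finset V → ℝ => (l T0, l)) :=
    (measurable_pi_apply T0).prodMk measurable_id
  exact hm.comp h1

theorem hprod_fubini (T0 : Finset V) (h : ℝ → (Finset V → ℝ) → ℝ)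
    (hm : Measurable (Function.uncurry h)) (hb : ∀ s l, h s l ∈ Set.Icc (0 : ℝ) 1)
    (hd : ∀ s l l', (∀ T, T ≠ T0 → l T = l' T) → h s l = h s l') :
    ∫ l, h (l T0) l ∂(mu V) = ∫ s in Set.Icc (0 : ℝ) 1, (∫ l, h s l ∂(mu V)) := by
  have hm1 : Measurable (fun l : Finset V → ℝ => h (l T0) l) := hprod_meas_diag T0 hm
  conv_lhs => rw [← hprod_glue_map {T0}]
  rw [integral_map (hprodGlue_meas _).aemeasurable hm1.aestronglyMeasurable]
  have h1 : ∀ p : (Finset V → ℝ) × (Finset V → ℝ),
      h (hprodGlue {T0} p T0) (hprodGlue {T0} p) = h (p.1 T0) p.2 := by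
    intro p
    have h2 : hprodGlue {T0} p T0 = p.1 T0 := by simp [hprodGlue]
    rw [h2]
    apply hd
    intro T hT
    simp [hprodGlue, hT]
  simp only [h1]
  have hm2 : Measurable (fun p : (Finset V → ℝ) × (Finset V → ℝ) => h (p.1 T0) p.2) := by
    have h3 : Measurable (fun p : (Finset V → ℝ) × (Finset V → ℝ) => (p.1 T0, p.2)) :=
      ((measurable_pi_apply T0).comp measurable_fst).prodMk measurable_snd
    exact hm.comp h3
  have hint : Integrable (fun p : (Finset V → ℝ) × (Finset V → ℝ) => h (p.1 T0) p.2)
      ((mu V).prod (mu V)) := by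
    apply Integrable.of_bound hm2.aestronglyMeasurable 1
    filter_upwards with p
    rw [Real.norm_eq_abs, abs_of_nonneg (hb _ _).1]
    exact (hb _ _).2
  rw [integral_prod _ hint]
  have hH : Measurable (fun s : ℝ => ∫ l, h s l ∂(mu V)) :=
    (hm.stronglyMeasurable.integral_prod_right').measurable
  have hev : MeasurePreserving (Function.eval T0 : (Finset V → ℝ) → ℝ) (mu V)
      (volume.restrict (Set.Icc (0 : ℝ) 1)) :=
    measurePreserving_eval (fun _ : Finset V => (volume.restrict (Set.Icc (0 : ℝ) 1))) T0
  rw [← hev.map_eq, integral_map hev.measurable.aemeasurable hH.aestronglyMeasurable]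

theorem hprod_dep_disj (E : Finset (Finset V)) (k : ℕ) : ∀ (D : Finset V) (v : V),
    ∀ T ∈ Dep E k D v, Disjoint T D := by
  induction k with
  | zero => intro D v T hT; simp [Dep] at hT
  | succ k ih =>
    intro D v T hT
    simp only [Dep, mem_union, mem_biUnion] at hT
    rcases hT with hT | ⟨T', _, f, _, hT⟩
    · simp only [inc, mem_filter] at hT
      exact hT.2.2
    · have := ih (insert v D) f T hT
      exact this.mono_right (subset_insert v D)

theorem hprod_a_mem (E : Finset (Finset V)) (k : ℕ) (D : Finset V) (v : V) (u : ℝ)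
    (l : Finset V → ℝ) : a E k D v u l ∈ Set.Icc (0 : ℝ) 1 := by
  rcases a_zero_or_one E k D v u l with h | h <;> rw [h] <;> simp

theorem hprod_prod_mem (E : Finset (Finset V)) (k : ℕ) (D : Finset V) (t : Finset V) (u : ℝ)
    (l : Finset V → ℝ) : ∏ f ∈ t, a E k D f u l ∈ Set.Icc (0 : ℝ) 1 :=
  ⟨Finset.prod_nonneg fun f _ => (hprod_a_mem E k D f u l).1,
    Finset.prod_le_one (fun f _ => (hprod_a_mem E k D f u l).1)
      (fun f _ => (hprod_a_mem E k D f u l).2)⟩

theorem int_a (E : Finset (Finset V)) (k : ℕ) (D : Finset V) (v : V) (P : Finset V)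
    (hT : TreeB E k D v P) (u : ℝ) (hu : u ∈ Set.Icc (0 : ℝ) 1) :
    ∫ l, a E k D v u l ∂(mu V) = Xit E k v P u := by
  induction k generalizing D v P u with
  | zero =>
    simp [a, Xit, It]
  | succ k ih =>
    obtain ⟨h1, h2, h3⟩ := hT
    set D' := insert v D with hD'
    -- the factors
    set h : Finset V → ℝ → (Finset V → ℝ) → ℝ := fun T s l =>
      if s < u then ∏ f ∈ T.erase v, a E k D' f s l else 0 with hh
    have hmem : ∀ T s l, h T s l ∈ Set.Icc (0 : ℝ) 1 := by
      intro T s l
      simp only [hh]
      split_ifs
      · exact hprod_prod_mem E k D' _ s l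
      · simp
    have hmeas : ∀ T, Measurable (Function.uncurry (h T)) := by
      intro T
      have : Function.uncurry (h T) = fun p : ℝ × (Finset V → ℝ) =>
          if p.1 < u then ∏ f ∈ T.erase v, a E k D' f p.1 p.2 else 0 := by
        funext p
        rfl
      rw [this]
      exact Measurable.ite (measurableSet_lt measurable_fst measurable_const)
        (Finset.measurable_fun_prod _ (fun f _ => a_meas E k D' f)) measurable_const
    have hvT : ∀ T ∈ inc E D v, v ∈ T := by
      intro T hT
      simp only [inc, mem_filter] at hT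
      exact hT.2.1
    have hnot : ∀ T, v ∈ T → ∀ f, T ∉ Dep E k D' f := by
      intro T hvT f hTf
      have := hprod_dep_disj E k D' f T hTf
      exact Finset.disjoint_left.1 this hvT (mem_insert_self v D)
    have hprod : ∀ l, a E (k + 1) D v u l = ∏ T ∈ inc E D v, (1 - h T (l T) l) := by
      intro l
      rfl
    have hint : ∫ l, a E (k + 1) D v u l ∂(mu V) =
        ∏ T ∈ inc E D v, ∫ l, (1 - h T (l T) l) ∂(mu V) := by
      simp only [hprod]
      apply hprod_indep (inc E D v)
        (fun T => insert T ((T.erase v).biUnion fun f => Dep E k D' f))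
      · intro T hT T' hT' hne
        rw [Finset.disjoint_left]
        intro X hX hX'
        rw [mem_insert, mem_biUnion] at hX hX'
        rcases hX with rfl | ⟨f, hf, hX⟩
        · rcases hX' with rfl | ⟨f', _, hX'⟩
          · exact hne rfl
          · exact hnot _ (hvT _ hT) f' hX'
        · rcases hX' with rfl | ⟨f', hf', hX'⟩
          · exact hnot _ (hvT _ hT') f hX
          · exact Finset.disjoint_left.1 (h3 T hT f hf T' hT' f' hf'
              (fun he => hne (congrArg Prod.fst he))) hX hX'
      · intro T _
        exact measurable_const.sub (hprod_meas_diag T (hmeas T))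
      · intro T _ l
        have := hmem T (l T) l
        exact ⟨by linarith [this.2], by linarith [this.1]⟩
      · intro T _ l l' hll
        have e1 : l T = l' T := hll T (mem_insert_self _ _)
        have e2 : h T (l T) l = h T (l' T) l' := by
          rw [e1]
          simp only [hh]
          split_ifs
          · apply Finset.prod_congr rfl
            intro f hf
            apply a_dep
            intro X hX
            exact hll X (mem_insert_of_mem (mem_biUnion.2 ⟨f, hf, hX⟩))
          · rfl
        rw [e2]
    rw [hint]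
    have hX : Xit E (k + 1) v P u = R E (Xit E k) v P u := rfl
    rw [hX]
    unfold R
    rw [h1]
    apply Finset.prod_congr rfl
    intro T hT
    rw [← h1] at hT
    have hI : Integrable (fun l : Finset V → ℝ => h T (l T) l) (mu V) := by
      apply Integrable.of_bound (hprod_meas_diag T (hmeas T)).aestronglyMeasurable 1
      filter_upwards with l
      rw [Real.norm_eq_abs, abs_of_nonneg (hmem T _ _).1]
      exact (hmem T _ _).2
    rw [integral_sub (integrable_const _) hI, integral_const, probReal_univ, one_smul]
    congr 1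
    rw [hprod_fubini T (h T) (hmeas T) (hmem T)]
    · have hs : ∀ s ∈ Set.Icc (0 : ℝ) 1, ∫ l, h T s l ∂(mu V) =
          (Set.Iio u).indicator (fun s => ∏ f ∈ T.erase v, Xit E k f T s) s := by
        intro s hs
        by_cases hsu : s < u
        · rw [Set.indicator_of_mem (show s ∈ Set.Iio u from hsu)]
          simp only [hh, if_pos hsu]
          rw [hprod_indep (T.erase v) (fun f => Dep E k D' f)]
          · apply Finset.prod_congr rfl
            intro f hf
            exact ih D' f T (h2 T hT f hf) s hs
          · intro f hf f' hf' hne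
            exact h3 T hT f hf T hT f' hf' (fun he => hne (congrArg Prod.snd he))
          · intro f _
            have h4 : Measurable (fun l : Finset V → ℝ => (s, l)) :=
              measurable_const.prodMk measurable_id
            exact (a_meas E k D' f).comp h4
          · intro f _ l
            exact hprod_a_mem E k D' f s l
          · intro f _ l l' hll
            exact a_dep E k D' f s l l' hll
        · rw [Set.indicator_of_notMem (show s ∉ Set.Iio u from hsu)]
          simp only [hh, if_neg hsu, integral_zero]
      rw [setIntegral_congr_fun measurableSet_Icc hs, setIntegral_indicator measurableSet_Iio]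
      have hset : Set.Icc (0 : ℝ) 1 ∩ Set.Iio u = Set.Ico 0 u := by
        ext s
        simp only [Set.mem_inter_iff, Set.mem_Icc, Set.mem_Iio, Set.mem_Ico]
        constructor
        · rintro ⟨⟨h0, _⟩, h1⟩
          exact ⟨h0, h1⟩
        · rintro ⟨h0, h1⟩
          exact ⟨⟨h0, h1.le.trans hu.2⟩, h1⟩
      rw [hset, intervalIntegral.integral_of_le hu.1, integral_Ico_eq_integral_Ioc]
    · intro s l l' hll
      simp only [hh]
      split_ifs
      · apply Finset.prod_congr rfl
        intro f _
        apply a_dep
        intro X hX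
        apply hll
        rintro rfl
        exact hnot _ (hvT _ hT) f hX
      · rfl

end

end Vale.Agent.P046.H
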