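import Vale.Agent.Lib.P046.HIter
import Vale.Agent.Lib.P046.HLabel
import Vale.Agent.Lib.P046.HProd
import Vale.Agent.Lib.P046.HPairs
import Vale.Agent.Lib.P046.HAvg

/-!
# P046 S2, module H20: the theorem S2 (second moment)
-/

namespace Vale.Agent.P046.H

open Finset MeasureTheory

noncomputable section

variable {V : Type} [Fintype V] [DecidableEq V]

private theorem HMain_a_mem (E : Finset (Finset V)) (k : ℕ) (D : Finset V) (v : V) (u : ℝ)
    (l : Finset V → ℝ) : a E k D v u l ∈ Set.Icc (0 : ℝ) 1 := by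
  rcases a_zero_or_one E k D v u l with h | h <;> rw [h] <;> simp

private theorem HMain_a_meas (E : Finset (Finset V)) (k : ℕ) (D : Finset V) (v : V) (u : ℝ) :
    Measurable (fun l : Finset V → ℝ => a E k D v u l) :=
  (a_meas E k D v).comp (measurable_const.prodMk measurable_id)

omit [DecidableEq V] in
private theorem HMain_int (F : (Finset V → ℝ) → ℝ) (hF : Measurable F)
    (hb : ∀ l, F l ∈ Set.Icc (0 : ℝ) 1) : Integrable F (mu V) := by
  refine Integrable.of_bound hF.aestronglyMeasurable 1 (Filter.Eventually.of_forall fun l => ?_)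
  rw [Real.norm_eq_abs, abs_of_nonneg (hb l).1]
  exact (hb l).2

/-- first and second moment bounds from the truncated recursion -/
theorem HMain_moments (Vs : Finset V) (E : Finset (Finset V)) (hVs : ∀ T ∈ E, T ⊆ Vs)
    (hE : ∀ T ∈ E, T.card = 3) (M : ℝ) (hM : ∀ v ∈ Vs, (deg E v : ℝ) ≤ M) (hM1 : 1 ≤ M)
    (k : ℕ) (hk : Even k) (B : Finset V) (hB : ∀ v ∈ Vs, v ∉ B → TreeB E (k + 1) ∅ v ∅) :
    (∑ v ∈ Vs, Xit E (k + 1) v ∅ 1 - B.card ≤ ∫ l, (∑ v ∈ Vs, surv E v l) ∂(mu V)) ∧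
    (∫ l, (∑ v ∈ Vs, surv E v l) ^ 2 ∂(mu V) ≤
      (∑ v ∈ Vs, Xit E k v ∅ 1) ^ 2 + Vs.card * (6 * M) ^ (2 * k) + 2 * B.card * Vs.card) := by
  have h1 : (1 : ℝ) ∈ Set.Icc (0 : ℝ) 1 := by simp
  have hX0 : ∀ (k : ℕ) (v : V), Xit E k v ∅ 1 ∈ Set.Icc (0 : ℝ) 1 := fun k v =>
    It_mem E (fun _ _ _ => 1) (fun _ _ => continuous_const) (fun _ _ _ _ => by simp) k v ∅ 1 h1
  have hsm : ∀ v, Measurable (fun l : Finset V → ℝ => surv E v l) := fun v =>
    HMain_a_meas E _ ∅ v 1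
  have hs01 : ∀ v (l : Finset V → ℝ), surv E v l ∈ Set.Icc (0 : ℝ) 1 := fun v l =>
    HMain_a_mem E _ ∅ v 1 l
  have hsi : ∀ v, Integrable (fun l => surv E v l) (mu V) := fun v =>
    HMain_int _ (hsm v) (hs01 v)
  have hssi : ∀ v w, Integrable (fun l => surv E v l * surv E w l) (mu V) := fun v w =>
    HMain_int _ ((hsm v).mul (hsm w)) (fun l => ⟨mul_nonneg (hs01 v l).1 (hs01 w l).1,
      mul_le_one₀ (hs01 v l).2 (hs01 w l).1 (hs01 w l).2⟩)
  have hkodd : ¬ Even (k + 1) := by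
    rw [Nat.even_add_one]; simpa using hk
  constructor
  · rw [integral_finsetSum _ (fun v _ => hsi v)]
    have hA : ∀ v ∈ Vs, Xit E (k + 1) v ∅ 1 - (if v ∈ B then 1 else 0) ≤
        ∫ l, surv E v l ∂(mu V) := by
      intro v hv
      by_cases hvB : v ∈ B
      · simp only [hvB, if_true]
        have : 0 ≤ ∫ l, surv E v l ∂(mu V) := integral_nonneg fun l => (hs01 v l).1
        linarith [(hX0 (k + 1) v).2]
      · simp only [hvB, if_false, sub_zero]
        rw [← int_a E (k + 1) ∅ v ∅ (hB v hv hvB) 1 h1]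
        exact integral_mono (HMain_int _ (HMain_a_meas E _ ∅ v 1) (HMain_a_mem E _ ∅ v 1))
          (hsi v) (fun l => (surv_bounds E v l (k + 1)).2 hkodd)
    have hS := Finset.sum_le_sum hA
    rw [Finset.sum_sub_distrib] at hS
    have hc : ∑ v ∈ Vs, (if v ∈ B then (1 : ℝ) else 0) ≤ B.card := by
      rw [← Finset.sum_filter, Finset.sum_const, nsmul_eq_mul, mul_one]
      exact_mod_cast Finset.card_le_card (fun v hv => (Finset.mem_filter.1 hv).2)
    linarith
  · have hexp : ∀ l : Finset V → ℝ, (∑ v ∈ Vs, surv E v l) ^ 2 =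
        ∑ v ∈ Vs, ∑ w ∈ Vs, surv E v l * surv E w l := by
      intro l
      rw [sq, Finset.sum_mul_sum]
    simp_rw [hexp]
    rw [integral_finsetSum _ (fun v _ => integrable_finsetSum _ (fun w _ => hssi v w))]
    simp_rw [fun v => integral_finsetSum Vs (fun w _ => hssi v w)]
    have hle1 : ∀ v w, ∫ l, surv E v l * surv E w l ∂(mu V) ≤ 1 := by
      intro v w
      have := integral_mono (hssi v w) (integrable_const (1 : ℝ)) (fun l =>
        mul_le_one₀ (hs01 v l).2 (hs01 w l).1 (hs01 w l).2)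
      simpa using this
    have hpair : ∀ v ∈ Vs, ∀ w ∈ Vs, ∫ l, surv E v l * surv E w l ∂(mu V) ≤
        Xit E k v ∅ 1 * Xit E k w ∅ 1 +
          (if ¬ Disjoint (Dep E k ∅ v) (Dep E k ∅ w) then 1 else 0) +
          (if v ∈ B then 1 else 0) + (if w ∈ B then 1 else 0) := by
      intro v hv w hw
      have hnn : 0 ≤ Xit E k v ∅ 1 * Xit E k w ∅ 1 := mul_nonneg (hX0 k v).1 (hX0 k w).1
      by_cases hvB : v ∈ B
      · simp only [hvB, if_true]
        have := hle1 v w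
        split_ifs <;> linarith
      by_cases hwB : w ∈ B
      · simp only [hwB, if_true]
        have := hle1 v w
        split_ifs <;> linarith
      by_cases hd : Disjoint (Dep E k ∅ v) (Dep E k ∅ w)
      · simp only [hvB, hwB, hd, if_false, not_true_eq_false, add_zero]
        have hv' := int_a E k ∅ v ∅ (TreeB_mono E k (k + 1) (by omega) _ _ _ (hB v hv hvB)) 1 h1
        have hw' := int_a E k ∅ w ∅ (TreeB_mono E k (k + 1) (by omega) _ _ _ (hB w hw hwB)) 1 h1
        rw [← hv', ← hw', ← mu_indep (Dep E k ∅ v) (Dep E k ∅ w) hd (fun l => a E k ∅ v 1 l)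
          (fun l => a E k ∅ w 1 l) (HMain_a_meas E k ∅ v 1) (HMain_a_meas E k ∅ w 1)
          (HMain_a_mem E k ∅ v 1) (HMain_a_mem E k ∅ w 1)
          (fun l l' h => a_dep E k ∅ v 1 l l' h) (fun l l' h => a_dep E k ∅ w 1 l l' h)]
        refine integral_mono (hssi v w) (HMain_int _ ((HMain_a_meas E k ∅ v 1).mul
          (HMain_a_meas E k ∅ w 1)) (fun l => ?_)) (fun l => ?_)
        · exact ⟨mul_nonneg (HMain_a_mem E k ∅ v 1 l).1 (HMain_a_mem E k ∅ w 1 l).1,
            mul_le_one₀ (HMain_a_mem E k ∅ v 1 l).2 (HMain_a_mem E k ∅ w 1 l).1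
              (HMain_a_mem E k ∅ w 1 l).2⟩
        · exact mul_le_mul ((surv_bounds E v l k).1 hk) ((surv_bounds E w l k).1 hk)
            (hs01 w l).1 (HMain_a_mem E k ∅ v 1 l).1
      · simp only [hvB, hwB, hd, if_false, not_false_eq_true, if_true, add_zero]
        have := hle1 v w
        linarith
    have hcB : ∑ w ∈ Vs, (if w ∈ B then (1 : ℝ) else 0) ≤ B.card := by
      rw [← Finset.sum_filter, Finset.sum_const, nsmul_eq_mul, mul_one]
      exact_mod_cast Finset.card_le_card (fun v hv => (Finset.mem_filter.1 hv).2)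
    calc ∑ v ∈ Vs, ∑ w ∈ Vs, ∫ l, surv E v l * surv E w l ∂(mu V)
        ≤ ∑ v ∈ Vs, ∑ w ∈ Vs, (Xit E k v ∅ 1 * Xit E k w ∅ 1 +
          (if ¬ Disjoint (Dep E k ∅ v) (Dep E k ∅ w) then 1 else 0) +
          (if v ∈ B then 1 else 0) + (if w ∈ B then 1 else 0)) :=
          Finset.sum_le_sum fun v hv => Finset.sum_le_sum fun w hw => hpair v hv w hw
      _ = (∑ v ∈ Vs, Xit E k v ∅ 1) ^ 2 +
          ∑ v ∈ Vs, ((Vs.filter (fun w => ¬ Disjoint (Dep E k ∅ v) (Dep E k ∅ w))).card : ℝ) +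
          (Vs.card : ℝ) * (∑ v ∈ Vs, (if v ∈ B then (1 : ℝ) else 0)) +
          (Vs.card : ℝ) * (∑ w ∈ Vs, (if w ∈ B then (1 : ℝ) else 0)) := by
          simp only [Finset.sum_add_distrib]
          rw [sq, Finset.sum_mul_sum]
          congr 1
          · congr 1
            · congr 1
              refine Finset.sum_congr rfl fun v _ => ?_
              rw [← Finset.sum_filter, Finset.sum_const, nsmul_eq_mul, mul_one]
            · simp only [Finset.sum_const, nsmul_eq_mul]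
              rw [Finset.mul_sum]
          · simp only [Finset.sum_const, nsmul_eq_mul]
      _ ≤ (∑ v ∈ Vs, Xit E k v ∅ 1) ^ 2 + Vs.card * (6 * M) ^ (2 * k) +
          Vs.card * B.card + Vs.card * B.card := by
          have h2 : ∑ v ∈ Vs,
              ((Vs.filter (fun w => ¬ Disjoint (Dep E k ∅ v) (Dep E k ∅ w))).card : ℝ) ≤
              Vs.card * (6 * M) ^ (2 * k) := by
            have := Finset.sum_le_sum (fun v hv => close_pairs Vs E hVs hE M hM hM1 k v hv)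
            rw [Finset.sum_const, nsmul_eq_mul] at this
            exact this
          have h3 : (Vs.card : ℝ) * (∑ v ∈ Vs, (if v ∈ B then (1 : ℝ) else 0)) ≤
              Vs.card * B.card := mul_le_mul_of_nonneg_left hcB (Nat.cast_nonneg _)
          linarith
      _ = _ := by ring

/-- numerical consequences of the hypotheses of S2 -/
private theorem HMain_num {y L : ℝ} (hy : 100 ≤ y) (hL : 1 ≤ L)
    (hL2 : L ^ 20 ≤ Real.exp (Real.sqrt (Real.log y) / 25)) : L * Real.sqrt y ≤ y := by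
  have hy0 : 0 < y := by linarith
  have hlog : 1 ≤ Real.log y := by
    rw [Real.le_log_iff_exp_le hy0]
    linarith [Real.exp_one_lt_d9]
  have h1 : Real.sqrt (Real.log y) ≤ Real.log y := by
    rw [Real.sqrt_le_left (by linarith)]
    nlinarith
  have h2 : L ≤ Real.exp (Real.log y / 2) := by
    calc L ≤ L ^ 20 := le_self_pow₀ hL (by norm_num)
      _ ≤ _ := hL2
      _ ≤ _ := Real.exp_le_exp.2 (by linarith)
  have h3 : Real.exp (Real.log y / 2) = Real.sqrt y := by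
    rw [Real.sqrt_eq_rpow, Real.rpow_def_of_pos hy0]
    congr 1
    ring
  rw [h3] at h2
  calc L * Real.sqrt y ≤ Real.sqrt y * Real.sqrt y :=
        mul_le_mul_of_nonneg_right h2 (Real.sqrt_nonneg _)
    _ = y := Real.mul_self_sqrt hy0.le

private theorem HMain_num2 {y e : ℝ} {k : ℕ} (hy : 100 ≤ y)
    (hk : (k : ℝ) + 1 ≤ 100 * Real.log y) (he : (3 * y) ^ (1000 * Real.log y) ≤ e) :
    (6 * (2 * y)) ^ (2 * k) ≤ e / y ^ 2 := by
  have hy0 : 0 < y := by linarith
  have hlog : 1 ≤ Real.log y := by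
    rw [Real.le_log_iff_exp_le hy0]
    linarith [Real.exp_one_lt_d9]
  rw [le_div_iff₀ (by positivity)]
  refine le_trans ?_ he
  have h3 : (1 : ℝ) ≤ 3 * y := by linarith
  have h1 : (6 * (2 * y)) ^ (2 * k) ≤ (3 * y) ^ (4 * k : ℕ) := by
    have : (6 * (2 * y)) ≤ (3 * y) ^ 2 := by nlinarith
    calc (6 * (2 * y)) ^ (2 * k) ≤ ((3 * y) ^ 2) ^ (2 * k) :=
          pow_le_pow_left₀ (by linarith) this _
      _ = _ := by rw [← pow_mul]; congr 1; ring
  have h2 : y ^ 2 ≤ (3 * y) ^ 2 := pow_le_pow_left₀ hy0.le (by linarith) 2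
  calc (6 * (2 * y)) ^ (2 * k) * y ^ 2 ≤ (3 * y) ^ (4 * k : ℕ) * (3 * y) ^ 2 :=
        mul_le_mul h1 h2 (by positivity) (by positivity)
    _ = (3 * y) ^ (4 * k + 2 : ℕ) := by rw [pow_add]
    _ = (3 * y) ^ ((4 * k + 2 : ℕ) : ℝ) := (Real.rpow_natCast _ _).symm
    _ ≤ (3 * y) ^ (1000 * Real.log y) := by
        apply Real.rpow_le_rpow_of_exponent_le h3
        push_cast
        linarith

/-! H20 HMain.lean: the theorem S2 -/
theorem S2_main (ε : ℝ) (hε : 0 < ε) : ∃ Y0 : ℝ, ∀ (V : Type) [Fintype V] [DecidableEq V]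
    (Vs : Finset V) (E : Finset (Finset V)) (y L : ℝ), Y0 ≤ y → 1 ≤ L →
    L ^ 20 ≤ Real.exp (Real.sqrt (Real.log y) / 25) → HReg Vs E y L →
    (∃ B : Finset V, (B.card : ℝ) ≤ Vs.card / y ^ 2 ∧
      ∀ v ∈ Vs, v ∉ B → TreeB E ⌈100 * Real.log y⌉₊ ∅ v ∅) →
    (3 * y) ^ (1000 * Real.log y) ≤ Vs.card →
    ∫ l, ((∑ v ∈ Vs, surv E v l) / (Vs.card / Real.sqrt (2 * y)) - 1) ^ 2 ∂(mu V) ≤ ε := by
  set ε' : ℝ := min 1 (ε / 10) with hε'
  have hε'0 : 0 < ε' := by
    rw [hε']; exact lt_min one_pos (by linarith)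
  have hε'1 : ε' ≤ 1 := min_le_left _ _
  have hε'2 : ε' ≤ ε / 10 := min_le_right _ _
  obtain ⟨Y1, hY1⟩ := avg_bounds ε' hε'0
  refine ⟨max Y1 (max 100 (20 / ε)), ?_⟩
  intro V _ _ Vs E y L hy hL hL2 hR ⟨B, hBc, hB⟩ he
  have hyY : Y1 ≤ y := le_trans (le_max_left _ _) hy
  have hy100 : 100 ≤ y := le_trans (le_trans (le_max_left _ _) (le_max_right _ _)) hy
  have hye : 20 / ε ≤ y := le_trans (le_trans (le_max_right _ _) (le_max_right _ _)) hy
  have hy0 : 0 < y := by linarith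
  obtain ⟨k, hk, hkl, hup, hlow⟩ := hY1 V Vs E y L hyY hL hL2 hR
  have hM : ∀ v ∈ Vs, (deg E v : ℝ) ≤ 2 * y := by
    intro v hv
    have h1 := hR.p1 v hv
    have h2 := HMain_num hy100 hL hL2
    have h3 := (abs_le.1 h1).2
    linarith
  have hT : ∀ v ∈ Vs, v ∉ B → TreeB E (k + 1) ∅ v ∅ := by
    intro v hv hvB
    refine TreeB_mono E (k + 1) _ ?_ _ _ _ (hB v hv hvB)
    have : ((k + 1 : ℕ) : ℝ) ≤ (⌈100 * Real.log y⌉₊ : ℝ) := by
      push_cast
      exact le_trans hkl (Nat.le_ceil _)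
    exact_mod_cast this
  obtain ⟨hm1, hm2⟩ := HMain_moments Vs E hR.sub hR.card3 (2 * y) hM (by linarith) k hk B hT
  have hnum := HMain_num2 hy100 hkl he
  have hepos : (0 : ℝ) < Vs.card := by
    refine lt_of_lt_of_le ?_ he
    positivity
  set e : ℝ := (Vs.card : ℝ) with hedef
  set s : ℝ := Real.sqrt (2 * y) with hs
  have hs0 : 0 < s := Real.sqrt_pos.2 (by linarith)
  have hs2 : s ^ 2 = 2 * y := Real.sq_sqrt (by linarith)
  have hsy : s ≤ y := by
    rw [hs, Real.sqrt_le_left hy0.le]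
    nlinarith
  set N : (Finset V → ℝ) → ℝ := fun l => ∑ v ∈ Vs, surv E v l with hN
  have hNm : Measurable N := by
    refine Finset.measurable_fun_sum _ (fun v _ => ?_)
    exact HMain_a_meas E _ ∅ v 1
  have hN0 : ∀ l, 0 ≤ N l := fun l =>
    Finset.sum_nonneg (fun v _ => (HMain_a_mem E _ ∅ v 1 l).1)
  have hN1 : ∀ l, N l ≤ e := by
    intro l
    calc N l ≤ ∑ v ∈ Vs, (1 : ℝ) := Finset.sum_le_sum (fun v _ => (HMain_a_mem E _ ∅ v 1 l).2)
      _ = e := by simp [hedef]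
  have hNi : Integrable N (mu V) := by
    refine Integrable.of_bound hNm.aestronglyMeasurable e (Filter.Eventually.of_forall fun l => ?_)
    rw [Real.norm_eq_abs, abs_of_nonneg (hN0 l)]
    exact hN1 l
  have hN2i : Integrable (fun l => N l ^ 2) (mu V) := by
    refine Integrable.of_bound (hNm.pow_const 2).aestronglyMeasurable (e ^ 2)
      (Filter.Eventually.of_forall fun l => ?_)
    rw [Real.norm_eq_abs, abs_of_nonneg (sq_nonneg _)]
    exact pow_le_pow_left₀ (hN0 l) (hN1 l) 2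
  have hexp : ∀ l, (N l / (e / s) - 1) ^ 2 = (s / e) ^ 2 * N l ^ 2 - 2 * (s / e) * N l + 1 := by
    intro l
    field_simp
    ring
  have hint : ∫ l, (N l / (e / s) - 1) ^ 2 ∂(mu V) =
      (s / e) ^ 2 * ∫ l, N l ^ 2 ∂(mu V) - 2 * (s / e) * ∫ l, N l ∂(mu V) + 1 := by
    have i1 : Integrable (fun l => (s / e) ^ 2 * N l ^ 2) (mu V) := hN2i.const_mul _
    have i2 : Integrable (fun l => 2 * (s / e) * N l) (mu V) := hNi.const_mul _
    have i3 : Integrable (fun l => (s / e) ^ 2 * N l ^ 2 - 2 * (s / e) * N l) (mu V) := i1.sub i2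
    have e1 : ∫ l, ((s / e) ^ 2 * N l ^ 2 - 2 * (s / e) * N l + 1) ∂(mu V) =
        ∫ l, ((s / e) ^ 2 * N l ^ 2 - 2 * (s / e) * N l) ∂(mu V) + ∫ l, (1 : ℝ) ∂(mu V) :=
      integral_add i3 (integrable_const _)
    have e2 : ∫ l, ((s / e) ^ 2 * N l ^ 2 - 2 * (s / e) * N l) ∂(mu V) =
        ∫ l, (s / e) ^ 2 * N l ^ 2 ∂(mu V) - ∫ l, 2 * (s / e) * N l ∂(mu V) :=
      integral_sub i1 i2
    rw [integral_congr_ae (Filter.Eventually.of_forall hexp), e1, e2, integral_const_mul,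
      integral_const_mul]
    simp
  rw [hint]
  have hA : (∑ v ∈ Vs, Xit E k v ∅ 1) ^ 2 ≤ ((1 + ε') * e / s) ^ 2 := by
    refine pow_le_pow_left₀ ?_ hup 2
    refine Finset.sum_nonneg (fun v _ => ?_)
    exact (It_mem E (fun _ _ _ => 1) (fun _ _ => continuous_const) (fun _ _ _ _ => by simp) k v ∅ 1
      (by simp)).1
  have hse : 0 < s / e := by positivity
  have hBnn : (0 : ℝ) ≤ B.card := Nat.cast_nonneg _
  have hI2 : (s / e) ^ 2 * ∫ l, N l ^ 2 ∂(mu V) ≤ (1 + ε') ^ 2 + 6 / y := by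
    calc (s / e) ^ 2 * ∫ l, N l ^ 2 ∂(mu V)
        ≤ (s / e) ^ 2 * (((1 + ε') * e / s) ^ 2 + e * (e / y ^ 2) + 2 * (e / y ^ 2) * e) := by
          refine mul_le_mul_of_nonneg_left (le_trans hm2 ?_) (by positivity)
          have h1 : e * (6 * (2 * y)) ^ (2 * k) ≤ e * (e / y ^ 2) :=
            mul_le_mul_of_nonneg_left hnum hepos.le
          have h2 : 2 * (B.card : ℝ) * e ≤ 2 * (e / y ^ 2) * e :=
            mul_le_mul_of_nonneg_right (by linarith) hepos.le
          linarith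
      _ = (1 + ε') ^ 2 + s ^ 2 * (3 / y ^ 2) := by
          field_simp
          ring
      _ = (1 + ε') ^ 2 + 6 / y := by
          rw [hs2]
          field_simp
          ring
  have hI1 : (1 - ε') - 1 / y ≤ (s / e) * ∫ l, N l ∂(mu V) := by
    have h1 : (1 - ε') * e / s - e / y ^ 2 ≤ ∫ l, N l ∂(mu V) := by linarith
    calc (1 - ε') - 1 / y ≤ (1 - ε') - s / y ^ 2 := by
          have : s / y ^ 2 ≤ 1 / y := by
            rw [div_le_div_iff₀ (by positivity) hy0]
            nlinarith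
          linarith
      _ = (s / e) * ((1 - ε') * e / s - e / y ^ 2) := by
          field_simp
      _ ≤ _ := mul_le_mul_of_nonneg_left h1 hse.le
  have hye2 : 8 / y ≤ ε / 2 := by
    rw [div_le_iff₀ hy0]
    rw [div_le_iff₀ hε] at hye
    linarith
  have h6 : 6 / y + 2 * (1 / y) = 8 / y := by ring
  nlinarith [hI1, hI2, hye2, h6, hε'2, hε'1, hε'0]

end

end Vale.Agent.P046.H
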