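import Vale.Agent.Lib.P046.S1D

/-!
# S1: increments of the compensated part
-/

namespace Vale.Agent.P046

open Finset

variable {n : ℕ}

theorem mart_cons_sub {P : List (Tr n) → Prop} {F : List (Tr n) → ℝ} {l : List (Tr n)}
    (hP : P l) (t : Tr n) :
    F (t :: l) - mart P F (t :: l) =
      (F l - mart P F l) + (avg (fun t' => F (t' :: l)) - F l) := by
  rw [mart, noise, if_pos hP]
  ring

end Vale.Agent.P046
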