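import Vale.Agent.Lib.P046.S1Sup

/-!
# S1: the drifts of `al` and `be`

Notation: `s = 1 + 2 ε`, `ε = epr n h`, `s h` is the next value of `h` and
`E = avg`, `δ = de G h t`, `a = aj G u v`, `z = zz G h`.

`al`: `al⁺ = s (z - δ) - 1`, and `E δ = ε (H z - h a z)`, `H z = be + 2 z`.  So
`E al⁺ - al + ε be = ε (h a z) - 2 ε E δ`, bounded by `ε (1.001 h + 2 * 2.1 ε) ≤ 2 h ε`
(`ε ≤ 6 h^2`).

`be`: by `be_scale` (with `G' = lstep G t`) `be⁺ = s^2 be' + (2 s^2 - 2 s) z'`,
`be' = be - Hδ - D al'`, `al' = al - δ`.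
`E(be⁺) - be = [(s^2 - 1) be + (2 s^2 - 2 s) z] + s^2 E(be' - be) - (2 s^2 - 2 s) E δ`.
`E(be' - be) = - H(Eδ) - E(D al) + E(D δ)`,
`H(Eδ) = ε H(Hz) - ε H(h a z)`, `H(Hz) = H be + 2 H z = (ga + be) + 2 be + 4 z = ga + 3 be + 4 z`,
`E(D al) = ε (2 be + Q(al,al) - h a be)` (`avg_DD`, `HH_al`),
`|E(D δ)| ≤ 2 * 2h * E δ ≤ 8.4 h ε` (`abs_DD_le`, `de_le`).
The leading terms: `4 ε be + 4 ε z - ε (ga + 3 be + 4 z) - 2 ε be = - ε (be + ga)`.
Errors: `ε |Q| ≤ 4.1 L^2 h ε`, `ε H(h a z) ≤ 2.2 h ε`, `ε h |be| ≤ h ε`, `8.4 h ε`, and terms of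
order `ε^2 ≤ 6 h^2 ε` with bounded coefficients (`|E(be'-be)| ≤ 8 ε`).  Total `≤ 5 L^2 h ε`.
-/

namespace Vale.Agent.P046

open Finset

variable {n : ℕ} {G : SimpleGraph (Fin n)} {h L q : ℝ}

theorem s1drift_h (R : Reg G h L q) : h ≤ 1 / 10 ^ 8 := by
  have h1 := R.h_small'
  have hL : (1 : ℝ) ≤ L := le_trans (by norm_num) R.hL
  have h2 : (1 : ℝ) ≤ L ^ 19 := one_le_pow₀ hL
  have h3 := R.hpos
  nlinarith

theorem s1drift_Lh (R : Reg G h L q) : L * √h ≤ 1 / 10 ^ 8 := by
  have h1 := R.h_small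
  have hL : (1 : ℝ) ≤ L := le_trans (by norm_num) R.hL
  have h2 : L ≤ L ^ 9 := le_self_pow₀ hL (by norm_num)
  have h3 : 0 ≤ √h := Real.sqrt_nonneg h
  exact (mul_le_mul_of_nonneg_right h2 h3).trans h1

theorem s1drift_Lh0 (R : Reg G h L q) : 0 ≤ L * √h :=
  mul_nonneg (le_trans (by norm_num) R.hL) (Real.sqrt_nonneg h)

theorem s1drift_avg_de0 (R : Reg G h L q) (u v : Fin n) : 0 ≤ avg (fun t => de G h t u v) := by
  have h1 := avg_mono (n := n) (f := fun _ => 0) (g := fun t => de G h t u v)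
    (fun t => de_nonneg G h t u v R.hpos.le)
  rwa [avg_const R.n_pos] at h1

theorem s1drift_abs_avg {f g : Tr n → ℝ} (hfg : ∀ t, |f t| ≤ g t) : |avg f| ≤ avg g := by
  rw [abs_le]
  constructor
  · have h1 : avg (fun t => (-1) * g t) ≤ avg f := avg_mono fun t => by
      have := (abs_le.1 (hfg t)).1
      linarith
    rw [avg_mul] at h1
    linarith
  · exact avg_mono fun t => (abs_le.1 (hfg t)).2

theorem drift_al (R : Reg G h L q) {u v : Fin n} (huv : u ≠ v) :
    |avg (fun t => al (lstep G t) ((1 + 2 * epr n h) * h) u v) - al G h u v +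
      epr n h * be G h u v| ≤ 2 * h * epr n h := by
  have hn := R.n_pos
  have e0 := epr_pos hn R.hpos
  have e1 := R.epr_le
  have e2 := s1drift_h R
  have e3 := s1drift_avg_de0 R u v
  have e4 := R.avg_de_le huv
  have e5 := avg_de G h u v hn R.hpos huv
  have e6 := R.zz_le huv
  have e7 := R.le_zz huv
  have e8 := aj_nonneg G u v
  have e9 := aj_le_one G u v
  have e10 := R.hpos
  have h1 : avg (fun t => al (lstep G t) ((1 + 2 * epr n h) * h) u v)
      = (1 + 2 * epr n h) * (zz G h u v - avg (fun t => de G h t u v)) - 1 := by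
    have h2 : (fun t => al (lstep G t) ((1 + 2 * epr n h) * h) u v)
        = fun t => (1 + 2 * epr n h) * (zz G h u v - de G h t u v) - 1 := by
      funext t
      rw [al_scale, zz_lstep]
    rw [h2, avg_sub, avg_mul, avg_sub, avg_const hn, avg_const hn]
  have h3 : al G h u v = zz G h u v - 1 := rfl
  rw [HH_zz] at e5
  set E := avg (fun t => de G h t u v) with hE
  set ε := epr n h with hε
  set z := zz G h u v with hz
  set a := aj G u v with ha
  have h4 : (1 + 2 * ε) * (z - E) - 1 - (z - 1) + ε * be G h u v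
      = ε * (h * a * z) - 2 * ε * E := by
    linear_combination (-1 : ℝ) * e5
  rw [h1, h3, h4]
  have h5 : a * z ≤ 1001 / 1000 := by nlinarith
  have h6 : 0 ≤ a * z := mul_nonneg e8 (by linarith)
  have h7 : h * a * z ≤ h * (1001 / 1000) := by
    rw [mul_assoc]
    exact mul_le_mul_of_nonneg_left h5 e10.le
  have h8 : 0 ≤ h * a * z := by
    rw [mul_assoc]
    exact mul_nonneg e10.le h6
  have h9 : ε ≤ h / 1000 := by nlinarith
  have h10 : E ≤ h / 100 := by nlinarith
  rw [abs_le]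
  constructor
  · have : ε * (2 * E) ≤ ε * (2 * (h / 100)) := mul_le_mul_of_nonneg_left (by linarith) e0.le
    have h11 : 0 ≤ ε * (h * a * z) := mul_nonneg e0.le h8
    have h12 : 0 ≤ ε * h := mul_nonneg e0.le e10.le
    nlinarith
  · have h11 : ε * (h * a * z) ≤ ε * (h * (1001 / 1000)) := mul_le_mul_of_nonneg_left h7 e0.le
    have h12 : 0 ≤ ε * E := mul_nonneg e0.le e3
    have h13 : 0 ≤ ε * h := mul_nonneg e0.le e10.le
    nlinarith

/-- the exact mean of the increment of `be` at fixed `h`, up to `9 h ε` -/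
theorem avg_dbe (R : Reg G h L q) {u v : Fin n} (huv : u ≠ v) :
    |avg (fun t => be (lstep G t) h u v - be G h u v) +
      epr n h * (HH G h (HH G h (zz G h)) u v -
        HH G h (fun a b => h * aj G a b * zz G h a b) u v +
        2 * be G h u v +
        h * ∑ w, aj G u w * aj G v w * ((al G h u w + al G h v w) * (al G h u w + al G h v w)) -
        h * aj G u v * be G h u v)| ≤ 9 * h * epr n h := by
  have hn := R.n_pos
  have e0 := epr_pos hn R.hpos
  have e10 := R.hpos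
  have hal : ∀ t, al (lstep G t) h = fun a b => al G h a b - de G h t a b := by
    intro t
    funext a b
    exact al_lstep G h t a b
  have h1 : (fun t => be (lstep G t) h u v - be G h u v)
      = fun t => (DD G h t (de G h t) u v - HH G h (de G h t) u v) - DD G h t (al G h) u v := by
    funext t
    rw [be_lstep, hal, DD_sub]
    ring
  have h2 : avg (fun t => HH G h (de G h t) u v)
      = epr n h * (HH G h (HH G h (zz G h)) u v
        - HH G h (fun a b => h * aj G a b * zz G h a b) u v) := by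
    rw [avg_HH, HH_congr G h u v (x' := fun a b => epr n h * (HH G h (zz G h) a b
      - h * aj G a b * zz G h a b)) (fun a b hab => avg_de G h a b hn R.hpos hab),
      HH_smul, HH_sub]
  have h3 := avg_DD G h u v hn R.hpos huv (al G h)
  rw [HH_al] at h3
  have h4 : |avg (fun t => DD G h t (de G h t) u v)| ≤ 9 * h * epr n h := by
    have h5 : |avg (fun t => DD G h t (de G h t) u v)| ≤ avg (fun t => (4 * h) * de G h t u v) := by
      refine s1drift_abs_avg fun t => ?_
      have h6 := abs_DD_le G h t u v e10.le (x := de G h t) (X := 2 * h) (fun a b _ => by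
        rw [abs_of_nonneg (de_nonneg G h t a b e10.le)]
        exact de_le G h t a b e10.le)
      linarith
    rw [avg_mul] at h5
    refine h5.trans ?_
    have h7 := R.avg_de_le huv
    have h8 : 4 * h * avg (fun t => de G h t u v) ≤ 4 * h * (21 / 10 * epr n h) :=
      mul_le_mul_of_nonneg_left h7 (by positivity)
    have h9 : 0 < h * epr n h := mul_pos e10 e0
    linarith
  rw [h1, avg_sub, avg_sub, h2, h3]
  refine le_trans (le_of_eq ?_) h4
  congr 1
  ring

/-- the error terms -/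
theorem s1drift_terms (R : Reg G h L q) {u v : Fin n} (huv : u ≠ v) :
    |h * ∑ w, aj G u w * aj G v w * ((al G h u w + al G h v w) * (al G h u w + al G h v w))|
        ≤ 41 / 10 * (L ^ 2 * h) ∧
      |HH G h (fun a b => h * aj G a b * zz G h a b) u v| ≤ 22 / 10 * h ∧
      |h * aj G u v * be G h u v| ≤ h ∧ |be G h u v| ≤ 1 / 10 ^ 8 := by
  have e10 := R.hpos
  have hLh := s1drift_Lh R
  have hLh0 := s1drift_Lh0 R
  have e8 := aj_nonneg G u v
  have e9 := aj_le_one G u v
  have hbe : |be G h u v| ≤ 1 / 10 ^ 8 := (R.be_le u v huv).trans hLh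
  refine ⟨?_, ?_, ?_, hbe⟩
  · have h1 := R.QQ_le (x := al G h) (w := al G h) hLh0 hLh0 (fun a b hab => R.al_le a b hab)
      (fun a b hab => R.al_le a b hab) huv
    refine h1.trans (le_of_eq ?_)
    have h2 : √h * √h = h := Real.mul_self_sqrt e10.le
    calc 41 / 10 * (L * √h) * (L * √h) = 41 / 10 * (L ^ 2 * (√h * √h)) := by ring
      _ = 41 / 10 * (L ^ 2 * h) := by rw [h2]
  · have h1 := HH_bound' R (x := fun a b => h * aj G a b * zz G h a b)
      (X := h * (1001 / 1000)) (by positivity) (fun a b hab => by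
        have f1 := aj_nonneg G a b
        have f2 := aj_le_one G a b
        have f3 := R.zz_le hab
        have f4 := R.le_zz hab
        have f5 : 0 ≤ aj G a b * zz G h a b := mul_nonneg f1 (by linarith)
        have f6 : aj G a b * zz G h a b ≤ 1001 / 1000 := by nlinarith
        rw [mul_assoc, abs_of_nonneg (mul_nonneg e10.le f5)]
        exact mul_le_mul_of_nonneg_left f6 e10.le) huv
    linarith
  · rw [abs_mul, abs_mul, abs_of_pos e10, abs_of_nonneg e8]
    have h1 : aj G u v * |be G h u v| ≤ 1 := by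
      have := abs_nonneg (be G h u v)
      nlinarith
    calc h * aj G u v * |be G h u v| = h * (aj G u v * |be G h u v|) := by ring
      _ ≤ h * 1 := mul_le_mul_of_nonneg_left h1 e10.le
      _ = h := mul_one h

theorem s1drift_Q (R : Reg G h L q) : L ^ 2 * h ≤ 1 / 10 ^ 8 := by
  have h1 := R.h_small'
  have hL : (1 : ℝ) ≤ L := le_trans (by norm_num) R.hL
  have h2 : L ^ 2 ≤ L ^ 19 := pow_le_pow_right₀ hL (by norm_num)
  exact (mul_le_mul_of_nonneg_right h2 R.hpos.le).trans h1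

theorem abs_avg_dbe_le (R : Reg G h L q) {u v : Fin n} (huv : u ≠ v) :
    |avg (fun t => be (lstep G t) h u v - be G h u v)| ≤ 8 * epr n h := by
  have hn := R.n_pos
  have e0 := epr_pos hn R.hpos
  have e10 := R.hpos
  have e2 := s1drift_h R
  have hQ := s1drift_Q R
  have h0 := avg_dbe R huv
  obtain ⟨t1, t2, t3, t4⟩ := s1drift_terms R huv
  have t5 : |HH G h (HH G h (zz G h)) u v| ≤ 21 / 10 * (21 / 10) := by
    refine HH_bound' R (by norm_num) (fun a b hab => ?_) huv
    have f1 := R.HHzz_le hab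
    have f2 : 0 ≤ HH G h (zz G h) a b := by
      rw [HH_zz]
      have f3 := R.le_zz hab
      have f4 := (abs_le.1 ((R.be_le a b hab).trans (s1drift_Lh R))).1
      linarith
    rw [abs_of_nonneg f2]
    exact f1
  set A := avg (fun t => be (lstep G t) h u v - be G h u v) with hA
  set ε := epr n h with hε
  set Q := h * ∑ w, aj G u w * aj G v w * ((al G h u w + al G h v w) * (al G h u w + al G h v w))
    with hQd
  set H1 := HH G h (fun a b => h * aj G a b * zz G h a b) u v with hH1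
  set H2 := HH G h (HH G h (zz G h)) u v with hH2
  set B := be G h u v with hB
  set T3 := h * aj G u v * B with hT3
  have hS : |H2 - H1 + 2 * B + Q - T3| ≤ 5 := by
    have a1 := abs_le.1 t1
    have a2 := abs_le.1 t2
    have a3 := abs_le.1 t3
    have a4 := abs_le.1 t4
    have a5 := abs_le.1 t5
    rw [abs_le]
    constructor <;> linarith [a1.1, a1.2, a2.1, a2.2, a3.1, a3.2, a4.1, a4.2, a5.1, a5.2]
  have hS' : |ε * (H2 - H1 + 2 * B + Q - T3)| ≤ ε * 5 := by
    rw [abs_mul, abs_of_pos e0]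
    exact mul_le_mul_of_nonneg_left hS e0.le
  have h9 : 9 * h * ε ≤ ε := by nlinarith
  have b1 := abs_le.1 h0
  have b2 := abs_le.1 hS'
  rw [abs_le]
  constructor <;> linarith [b1.1, b1.2, b2.1, b2.2]

theorem s1drift_num1 {A B z E ε h : ℝ} (e0 : 0 < ε) (e10 : 0 < h) (e1 : ε ≤ 6 * h ^ 2)
    (e2 : h ≤ 1 / 10 ^ 8) (hA8 : |A| ≤ 8 * ε) (t4 : |B| ≤ 1 / 10 ^ 8) (z1 : z ≤ 1001 / 1000)
    (z2 : 999 / 1000 ≤ z) (E1 : E ≤ 21 / 10 * ε) (E0 : 0 ≤ E) :
    |4 * (ε * B) + (4 + 4 * ε) * A + 8 * (ε * z) - (4 + 8 * ε) * E| ≤ h := by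
  have hε1 : ε ≤ h / 1000 := by nlinarith
  have hεs : ε ≤ 1 / 10 ^ 8 := by linarith
  have b1 : |ε * B| ≤ ε := by
    rw [abs_mul, abs_of_pos e0]
    calc ε * |B| ≤ ε * 1 := mul_le_mul_of_nonneg_left (by linarith) e0.le
      _ = ε := mul_one ε
  have b2 : |(4 + 4 * ε) * A| ≤ 5 * (8 * ε) := by
    rw [abs_mul, abs_of_pos (by linarith : (0 : ℝ) < 4 + 4 * ε)]
    exact mul_le_mul (by linarith) hA8 (abs_nonneg _) (by norm_num)
  have b3 : ε * z ≤ ε * (1001 / 1000) := mul_le_mul_of_nonneg_left z1 e0.le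
  have b3' : 0 ≤ ε * z := mul_nonneg e0.le (by linarith)
  have b4 : (4 + 8 * ε) * E ≤ 5 * (21 / 10 * ε) :=
    mul_le_mul (by linarith) E1 E0 (by norm_num)
  have b4' : 0 ≤ (4 + 8 * ε) * E := mul_nonneg (by linarith) E0
  have c1 := abs_le.1 b1
  have c2 := abs_le.1 b2
  have c3 : 100 * ε ≤ h := by linarith
  rw [abs_le]
  constructor <;> linarith [c1.1, c1.2, c2.1, c2.2]

theorem s1drift_num2 {R0 W Q H1 T3 ε h L : ℝ} (e0 : 0 < ε) (e10 : 0 < h) (hLb : 10 ^ 8 ≤ L)
    (h0 : |R0| ≤ 9 * h * ε) (t1 : |Q| ≤ 41 / 10 * (L ^ 2 * h)) (t2 : |H1| ≤ 22 / 10 * h)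
    (t3 : |T3| ≤ h) (t5 : |W| ≤ h) :
    |(R0 - ε * (Q - H1 - T3)) + ε * W| ≤ 5 * L ^ 2 * h * ε := by
  have p1 : |ε * (Q - H1 - T3)| ≤ ε * (41 / 10 * (L ^ 2 * h) + 22 / 10 * h + h) := by
    rw [abs_mul, abs_of_pos e0]
    refine mul_le_mul_of_nonneg_left ?_ e0.le
    have a1 := abs_le.1 t1
    have a2 := abs_le.1 t2
    have a3 := abs_le.1 t3
    rw [abs_le]
    constructor <;> linarith [a1.1, a1.2, a2.1, a2.2, a3.1, a3.2]
  have p3 : |ε * W| ≤ ε * h := by
    rw [abs_mul, abs_of_pos e0]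
    exact mul_le_mul_of_nonneg_left t5 e0.le
  have hL2 : 100 ≤ L ^ 2 := by nlinarith
  have p4 : 0 < ε * h := mul_pos e0 e10
  have p5 : ε * h * 100 ≤ ε * h * L ^ 2 := mul_le_mul_of_nonneg_left hL2 p4.le
  have e : 5 * L ^ 2 * h * ε = 41 / 10 * (ε * h * L ^ 2) + 9 / 10 * (ε * h * L ^ 2) := by ring
  have e' : ε * (41 / 10 * (L ^ 2 * h) + 22 / 10 * h + h)
      = 41 / 10 * (ε * h * L ^ 2) + 32 / 10 * (ε * h) := by ring
  have e'' : 9 * h * ε = 9 * (ε * h) := by ring
  rw [e'] at p1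
  rw [e''] at h0
  rw [e]
  have c0 := abs_le.1 h0
  have c1 := abs_le.1 p1
  have c3 := abs_le.1 p3
  rw [abs_le]
  constructor <;> linarith [c0.1, c0.2, c1.1, c1.2, c3.1, c3.2]

theorem drift_be (R : Reg G h L q) {u v : Fin n} (huv : u ≠ v) :
    |avg (fun t => be (lstep G t) ((1 + 2 * epr n h) * h) u v) - be G h u v +
      epr n h * (be G h u v + ga G h u v)| ≤ 5 * L ^ 2 * h * epr n h := by
  have hn := R.n_pos
  have h0 := avg_dbe R huv
  obtain ⟨t1, t2, t3, t4⟩ := s1drift_terms R huv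
  have hH2 : HH G h (HH G h (zz G h)) u v
      = ga G h u v + 3 * be G h u v + 4 * zz G h u v := by
    have f1 : HH G h (zz G h) = fun a b => be G h a b + 2 * zz G h a b := by
      funext a b
      exact HH_zz G h a b
    rw [f1, HH_add, HH_be, HH_smul, HH_zz]
    ring
  have hbe' : avg (fun t => be (lstep G t) h u v)
      = avg (fun t => be (lstep G t) h u v - be G h u v) + be G h u v := by
    rw [avg_sub, avg_const hn]
    ring
  have hav : avg (fun t => be (lstep G t) ((1 + 2 * epr n h) * h) u v)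
      = (1 + 2 * epr n h) ^ 2 * avg (fun t => be (lstep G t) h u v)
        + (2 * (1 + 2 * epr n h) ^ 2 - 2 * (1 + 2 * epr n h)) *
          (zz G h u v - avg (fun t => de G h t u v)) := by
    have f2 : (fun t => be (lstep G t) ((1 + 2 * epr n h) * h) u v)
        = fun t => (1 + 2 * epr n h) ^ 2 * be (lstep G t) h u v
          + (2 * (1 + 2 * epr n h) ^ 2 - 2 * (1 + 2 * epr n h)) *
            (zz G h u v - de G h t u v) := by
      funext t
      rw [be_scale, zz_lstep]
    rw [f2, avg_add, avg_mul, avg_mul, avg_sub, avg_const hn]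
  rw [hH2] at h0
  rw [hav, hbe']
  have hW := s1drift_num1 (epr_pos hn R.hpos) R.hpos R.epr_le (s1drift_h R)
    (abs_avg_dbe_le R huv) t4 (R.zz_le huv) (R.le_zz huv) (R.avg_de_le huv)
    (s1drift_avg_de0 R u v)
  have hfin := s1drift_num2 (epr_pos hn R.hpos) R.hpos R.hL h0 t1 t2 t3 hW
  refine le_trans (le_of_eq ?_) hfin
  congr 1
  ring

end Vale.Agent.P046
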