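import Vale.Agent.Lib.P046.S1Init
import Vale.Agent.Lib.P046.S1CloseD
import Vale.Agent.Lib.P046.S1Drift

/-!
# S1: the deterministic closure for `ga`, `be`, `al`

`D l = F l - mart (Ok n L) F l`.  If `Ok n L l` then
`D (t :: l) - D l = avg (fun t' => F (t' :: l)) - F l` (`mart_cons_sub`).

* ga (`F = ga / hh`, so `F = D + M`): with `s = 1 + 2 ε`,
  `D⁺ = (D - ε H D)/s + (M/s - M - ε H M / s) + e/(h s)`, `|e| ≤ 30 L^2 h ε`,
  `|H x| ≤ 2 (1 + L √h) |x|` (`HH_bound`), `|M| ≤ L^3`:
  `|D⁺| ≤ |D| (1 + 2 L √h ε) + 6 L^3 ε` for the sup norm over all pairs `u ≠ v`.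
  Induction on the list gives `close_ga`; `∑ ep ≤ L/10^8`, `∑ ep √hh ≤ 2 √hh ≤ 1/(4L)` give
  `|F| ≤ 2 (4 + 6 L^4/10^8) + L^3 ≤ L^5`.
* be: `D⁺ = D - ε (D + M + ga) + e`, `|e| ≤ 5 L^2 h ε`, so
  `|D⁺| ≤ |D| + ε (L/1000 bb + L^4 h + L^5 h + 5 L^2 h)`, `|D []| ≤ 4/n ≤ 4 hh_j`.
* al: `D⁺ = D - ε be + e`, `|e| ≤ 2 h ε`, `|be| ≤ L/100 bb + L^5 h`, `|D []| ≤ 2/n`.
-/

namespace Vale.Agent.P046

open Finset

variable {n J : ℕ} {L : ℝ}

theorem s1closeal_mb {l : List (Tr n)} (hm : MBs n L l) : MB n L l := by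
  cases l with
  | nil => exact hm
  | cons t l => exact hm.1

theorem s1closeal_step (P : Par n J L) (t : Tr n) (l : List (Tr n)) (hl : l.length ≤ J)
    (g : Gd n L l) (ho : Okp n L l) {u v : Fin n} (huv : u ≠ v) :
    |Fal n u v (t :: l) - mart (Ok n L) (Fal n u v) (t :: l)| ≤
      |Fal n u v l - mart (Ok n L) (Fal n u v) l| +
      (L / 100 * (ep n l.length * bb n l.length) +
        (L ^ 5 + 2) * (ep n l.length * hh n l.length)) := by
  rw [mart_cons_sub (P := Ok n L) (F := Fal n u v) ⟨g, ho⟩ t]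
  refine (abs_add_le _ _).trans ?_
  have R := g.reg P hl
  have h1 := drift_al R huv
  have h2 := g.be_le u v huv
  have hep : 0 < ep n l.length := ep_pos P.hn _
  have h3 : avg (fun t' => Fal n u v (t' :: l)) =
      avg (fun t => al (lstep (gr l) t) ((1 + 2 * epr n (hh n l.length)) * hh n l.length) u v) := by
    congr 1
    funext t'
    unfold Fal
    rw [List.length_cons, hh_succ P.hn]
    rfl
  have h4 : |avg (fun t' => Fal n u v (t' :: l)) - Fal n u v l| ≤
      L / 100 * (ep n l.length * bb n l.length) +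
        (L ^ 5 + 2) * (ep n l.length * hh n l.length) := by
    rw [h3]
    have h5 : ep n l.length = epr n (hh n l.length) := rfl
    rw [← h5] at h1
    rw [← h5]
    have h6 : ep n l.length * |be (gr l) (hh n l.length) u v| ≤
        ep n l.length * (L / 100 * bb n l.length + L ^ 5 * hh n l.length) :=
      mul_le_mul_of_nonneg_left h2 hep.le
    have h7 : |ep n l.length * be (gr l) (hh n l.length) u v| =
        ep n l.length * |be (gr l) (hh n l.length) u v| := by
      rw [abs_mul, abs_of_pos hep]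
    have h8 : avg (fun t => al (lstep (gr l) t) ((1 + 2 * ep n l.length) * hh n l.length) u v) -
        Fal n u v l =
        (avg (fun t => al (lstep (gr l) t) ((1 + 2 * ep n l.length) * hh n l.length) u v) -
          al (gr l) (hh n l.length) u v + ep n l.length * be (gr l) (hh n l.length) u v) -
        ep n l.length * be (gr l) (hh n l.length) u v := by
      unfold Fal
      ring
    rw [h8]
    refine (abs_sub _ _).trans ?_
    rw [h7]
    have h9 : L / 100 * (ep n l.length * bb n l.length) +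
        (L ^ 5 + 2) * (ep n l.length * hh n l.length) =
        2 * hh n l.length * ep n l.length +
        ep n l.length * (L / 100 * bb n l.length + L ^ 5 * hh n l.length) := by ring
    rw [h9]
    linarith
  linarith

theorem close_al_aux (P : Par n J L) (l : List (Tr n)) (hl : l.length ≤ J) (ho : Okp n L l)
    (hm : MBs n L l) {u v : Fin n} (huv : u ≠ v) :
    |Fal n u v l - mart (Ok n L) (Fal n u v) l| ≤ 2 / n +
      L / 100 * ∑ i ∈ range l.length, ep n i * bb n i +
      (L ^ 5 + 2) * ∑ i ∈ range l.length, ep n i * hh n i := by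
  induction l with
  | nil =>
    have h1 : Fal n u v [] = -2 / n := by
      unfold Fal
      rw [List.length_nil, hh_zero]
      exact al_top P.hn huv
    have hn : (0 : ℝ) < n := by exact_mod_cast P.hn
    rw [h1]
    simp only [mart, List.length_nil, range_zero, sum_empty, mul_zero, add_zero, sub_zero]
    rw [abs_div, abs_neg, abs_of_pos hn]
    norm_num
  | cons t l ih =>
    rw [List.length_cons] at hl
    have h1 := ih (by omega) ho.2 hm.2
    have h2 := s1closeal_step P t l (by omega) ho.1 ho.2 huv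
    rw [List.length_cons, sum_range_succ, sum_range_succ, mul_add, mul_add]
    linarith

theorem close_al (P : Par n J L) (l : List (Tr n)) (hl : l.length ≤ J) (ho : Okp n L l)
    (hm : MBs n L l) {u v : Fin n} (huv : u ≠ v) :
    |al (gr l) (hh n l.length) u v| ≤ L * √(hh n l.length) := by
  have h1 := close_al_aux P l hl ho hm huv
  have h2 := (s1closeal_mb hm).al_le u v huv
  have hL := P.L_ge
  have hL0 : 0 < L := by linarith
  have hL1 : 1 ≤ L := by linarith
  have h3 := sum_ep_bb P.n_ge' l.length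
  have h4 := sum_ep_hh P.hn l.length
  have h5 := bb_le P.hn l.length
  have h6 := P.hh_le hl
  have h7 := one_le_mul_hh P.hn l.length
  have hn : (0 : ℝ) < n := by exact_mod_cast P.hn
  have hh0 := hh_pos P.hn l.length
  set h := hh n l.length with hdef
  have hs0 : 0 ≤ √h := Real.sqrt_nonneg h
  have hs : √h * √h = h := Real.mul_self_sqrt hh0.le
  have h8 : 2 / (n : ℝ) ≤ 2 * h := by
    rw [div_le_iff₀ hn]
    nlinarith
  -- `L ^ 10 * √h ≤ 1`
  have h9 : L ^ 10 * √h ≤ 1 := by
    have h10 : (L ^ 10 * √h) ^ 2 ≤ 1 ^ 2 := by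
      have : (L ^ 10 * √h) ^ 2 = h * L ^ 20 := by
        rw [mul_pow, Real.sq_sqrt hh0.le]
        ring
      rw [this]
      linarith
    exact le_of_sq_le_sq h10 (by norm_num)
  have h11 : L ^ 5 * √h ≤ 1 := by
    refine le_trans (mul_le_mul_of_nonneg_right ?_ hs0) h9
    exact pow_le_pow_right₀ hL1 (by norm_num)
  have h12 : √h ≤ 1 := by
    have h13 : 1 * √h ≤ L ^ 5 * √h := mul_le_mul_of_nonneg_right (one_le_pow₀ hL1) hs0
    linarith
  have h14 : (L ^ 5 + 2) * (h / 2) + 2 * h ≤ 4 * √h := by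
    have h15 : (L ^ 5 + 2) * (h / 2) + 2 * h = ((L ^ 5 * √h) / 2 + 3 * √h) * √h := by
      linear_combination (-(L ^ 5 / 2 + 3)) * hs
    rw [h15]
    apply mul_le_mul_of_nonneg_right _ hs0
    linarith
  have h16 : L / 100 * ∑ i ∈ range l.length, ep n i * bb n i ≤ L / 100 * (3 * √h) := by
    apply mul_le_mul_of_nonneg_left _ (by positivity)
    linarith
  have h17 : (L ^ 5 + 2) * ∑ i ∈ range l.length, ep n i * hh n i ≤ (L ^ 5 + 2) * (h / 2) :=
    mul_le_mul_of_nonneg_left h4 (by positivity)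
  have h18 : |al (gr l) h u v| ≤ |Fal n u v l - mart (Ok n L) (Fal n u v) l| +
      |mart (Ok n L) (Fal n u v) l| := by
    have h19 : al (gr l) h u v = (Fal n u v l - mart (Ok n L) (Fal n u v) l) +
      mart (Ok n L) (Fal n u v) l := by
      unfold Fal
      ring
    rw [h19]
    exact abs_add_le _ _
  have h20 : 4 * √h ≤ L / 100 * √h := mul_le_mul_of_nonneg_right (by linarith) hs0
  have h21 : 0 ≤ L * √h := by positivity
  nlinarith

end Vale.Agent.P046
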