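import Vale.Agent.Lib.P046.S1Init
import Vale.Agent.Lib.P046.S1CloseD
import Vale.Agent.Lib.P046.S1Drift

/-!
# S1: the deterministic closure for `ga`, `be`, `al`

`D l = F l - mart (Ok n L) F l`.  If `Ok n L l` then
`D (t :: l) - D l = avg (fun t' => F (t' :: l)) - F l` (`mart_cons_sub`).

* ga (`F = ga / hh`, so `F = D + M`): with `s = 1 + 2 ε`,
  `D⁺ = (D - ε H D)/s + (M/s - M - ε H M / s) + e/(h s)`, `|e| ≤ 30 L^2 h ε`,
  `|H x| ≤ 2 (1 + L √h) |x|` (`HH_bound`), `|M| ≤ L^3`: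
  `|D⁺| ≤ |D| (1 + 2 L √h ε) + 6 L^3 ε` for the sup norm over all pairs `u ≠ v`.
  Induction on the list gives `close_ga`; `∑ ep ≤ L/10^8`, `∑ ep √hh ≤ 2 √hh ≤ 1/(4L)` give
  `|F| ≤ 2 (4 + 6 L^4/10^8) + L^3 ≤ L^5`.
* be: `D⁺ = D - ε (D + M + ga) + e`, `|e| ≤ 5 L^2 h ε`, so
  `|D⁺| ≤ |D| + ε (L/1000 bb + L^4 h + L^5 h + 5 L^2 h)`, `|D []| ≤ 4/n ≤ 4 hh_j`.
* al: `D⁺ = D - ε be + e`, `|e| ≤ 2 h ε`, `|be| ≤ L/100 bb + L^5 h`, `|D []| ≤ 2/n`.
-/

namespace Vale.Agent.P046

open Finset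

variable {n J : ℕ} {L : ℝ}

private theorem s1closebe_mbs {l : List (Tr n)} (hm : MBs n L l) : MB n L l := by
  cases l with
  | nil => exact hm
  | cons t l => exact hm.1

private theorem s1closebe_ep_le_one (P : Par n J L) (j : ℕ) : ep n j ≤ 1 := by
  have h1 := ep_le P.hn j
  have h2 : (100 : ℝ) ≤ n := by exact_mod_cast P.n_ge'
  have h3 : 6 / (n : ℝ) ^ 2 ≤ 1 := by
    rw [div_le_one (by positivity)]
    nlinarith
  linarith

theorem close_be_aux (P : Par n J L) (l : List (Tr n)) (hl : l.length ≤ J) (ho : Okp n L l)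
    (hm : MBs n L l) {u v : Fin n} (huv : u ≠ v) :
    |Fbe n u v l - mart (Ok n L) (Fbe n u v) l| ≤ 4 / n +
      L / 1000 * ∑ i ∈ range l.length, ep n i * bb n i +
      (L ^ 5 + L ^ 4 + 5 * L ^ 2) * ∑ i ∈ range l.length, ep n i * hh n i := by
  induction l with
  | nil =>
    have h1 := be_top (n := n) (by have := P.n_ge'; omega) huv
    have h2 : Fbe n u v ([] : List (Tr n)) = be (⊤ : SimpleGraph (Fin n)) (1 / n) u v := by
      unfold Fbe
      rw [gr, List.length_nil, hh_zero]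
    have h3 : mart (Ok n L) (Fbe n u v) ([] : List (Tr n)) = 0 := rfl
    rw [h2, h3, sub_zero, List.length_nil, Finset.sum_range_zero, Finset.sum_range_zero]
    simpa using h1
  | cons t l ih =>
    rw [List.length_cons] at hl
    obtain ⟨hg, hop⟩ := ho
    obtain ⟨-, hml⟩ := hm
    have hlJ : l.length ≤ J := by omega
    have ih' := ih hlJ hop hml
    have hMB := s1closebe_mbs hml
    have hcons := mart_cons_sub (P := Ok n L) (F := Fbe n u v) (l := l) ⟨hg, hop⟩ t
    have hreg := hg.reg P hlJ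
    have hdr := drift_be hreg huv
    have hep0 : 0 < ep n l.length := ep_pos P.hn _
    have hep1 : ep n l.length ≤ 1 := s1closebe_ep_le_one P _
    have hM := hMB.be_le u v huv
    have hga := hg.ga_le u v huv
    have hF : Fbe n u v l = be (gr l) (hh n l.length) u v := rfl
    have hFt : (fun t' : Tr n => Fbe n u v (t' :: l)) = (fun t' =>
        be (lstep (gr l) t') ((1 + 2 * epr n (hh n l.length)) * hh n l.length) u v) := by
      funext t'
      unfold Fbe
      rw [gr, List.length_cons, hh_succ P.hn]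
      rfl
    rw [hcons, hFt, List.length_cons, Finset.sum_range_succ, Finset.sum_range_succ]
    have hepr : epr n (hh n l.length) = ep n l.length := rfl
    rw [hepr] at hdr ⊢
    rw [hF] at ih' ⊢
    rw [abs_le] at hdr hM hga ih' ⊢
    set A := avg (fun t' => be (lstep (gr l) t')
      ((1 + 2 * ep n l.length) * hh n l.length) u v) with hA
    set b := be (gr l) (hh n l.length) u v with hb
    set M := mart (Ok n L) (Fbe n u v) l with hMdef
    set g := ga (gr l) (hh n l.length) u v with hgdef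
    set S1 := ∑ i ∈ range l.length, ep n i * bb n i with hS1
    set S2 := ∑ i ∈ range l.length, ep n i * hh n i with hS2
    set ε := ep n l.length with hε
    set B := bb n l.length with hB
    set H := hh n l.length with hH
    clear_value A b M g S1 S2 ε B H
    obtain ⟨d1, d2⟩ := hdr
    obtain ⟨m1, m2⟩ := hM
    obtain ⟨g1, g2⟩ := hga
    obtain ⟨i1, i2⟩ := ih'
    have k1 : ε * M ≤ ε * (L / 1000 * B + L ^ 4 * H) := mul_le_mul_of_nonneg_left m2 hep0.le
    have k2 : ε * (-(L / 1000 * B + L ^ 4 * H)) ≤ ε * M := mul_le_mul_of_nonneg_left m1 hep0.le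
    have k3 : ε * g ≤ ε * (L ^ 5 * H) := mul_le_mul_of_nonneg_left g2 hep0.le
    have k4 : ε * (-(L ^ 5 * H)) ≤ ε * g := mul_le_mul_of_nonneg_left g1 hep0.le
    have hT : 0 ≤ 4 / (n : ℝ) + L / 1000 * S1 + (L ^ 5 + L ^ 4 + 5 * L ^ 2) * S2 := by linarith
    have k5 : (1 - ε) * (b - M) ≤ (1 - ε) *
        (4 / (n : ℝ) + L / 1000 * S1 + (L ^ 5 + L ^ 4 + 5 * L ^ 2) * S2) :=
      mul_le_mul_of_nonneg_left i2 (by linarith)
    have k6 : (1 - ε) *
        (-(4 / (n : ℝ) + L / 1000 * S1 + (L ^ 5 + L ^ 4 + 5 * L ^ 2) * S2)) ≤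
        (1 - ε) * (b - M) :=
      mul_le_mul_of_nonneg_left i1 (by linarith)
    have k7 : 0 ≤ ε * (4 / (n : ℝ) + L / 1000 * S1 + (L ^ 5 + L ^ 4 + 5 * L ^ 2) * S2) :=
      mul_nonneg hep0.le hT
    constructor
    · nlinarith
    · nlinarith

theorem close_be (P : Par n J L) (l : List (Tr n)) (hl : l.length ≤ J) (ho : Okp n L l)
    (hm : MBs n L l) {u v : Fin n} (huv : u ≠ v) :
    |be (gr l) (hh n l.length) u v| ≤ L / 100 * bb n l.length + L ^ 5 * hh n l.length := by
  have h1 := close_be_aux P l hl ho hm huv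
  have h2 := (s1closebe_mbs hm).be_le u v huv
  have h3 := sum_ep_bb P.n_ge' l.length
  have h4 := sum_ep_hh P.hn l.length
  have hL := P.L_ge
  have hn0 : (0 : ℝ) < n := by exact_mod_cast P.hn
  have h5 : 1 / (n : ℝ) ≤ hh n l.length := by
    rw [div_le_iff₀ hn0, mul_comm]
    exact one_le_mul_hh P.hn _
  have h6 : 4 / (n : ℝ) ≤ 4 * hh n l.length := by
    have : 4 / (n : ℝ) = 4 * (1 / n) := by ring
    rw [this]
    linarith
  have hb0 := bb_nonneg n l.length
  have hh0 := hh_pos P.hn l.length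
  have hF : Fbe n u v l = be (gr l) (hh n l.length) u v := rfl
  rw [hF] at h1
  have h7 : |be (gr l) (hh n l.length) u v| ≤
      |be (gr l) (hh n l.length) u v - mart (Ok n L) (Fbe n u v) l| +
      |mart (Ok n L) (Fbe n u v) l| := by
    have := abs_add_le (be (gr l) (hh n l.length) u v - mart (Ok n L) (Fbe n u v) l)
      (mart (Ok n L) (Fbe n u v) l)
    rwa [sub_add_cancel] at this
  refine h7.trans ?_
  generalize bb n l.length = B at *
  generalize hh n l.length = H at *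
  generalize ∑ i ∈ range l.length, ep n i * bb n i = S1 at *
  generalize ∑ i ∈ range l.length, ep n i * hh n i = S2 at *
  have hL0 : 0 < L := by linarith
  have e1 : L / 1000 * S1 ≤ L / 1000 * (3 * B) := mul_le_mul_of_nonneg_left h3 (by positivity)
  have e2 : (L ^ 5 + L ^ 4 + 5 * L ^ 2) * S2 ≤ (L ^ 5 + L ^ 4 + 5 * L ^ 2) * (H / 2) :=
    mul_le_mul_of_nonneg_left h4 (by positivity)
  have e3 : (4 + (L ^ 5 + L ^ 4 + 5 * L ^ 2) / 2 + L ^ 4) * H ≤ L ^ 5 * H := by
    apply mul_le_mul_of_nonneg_right _ hh0.le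
    have f1 : 1 ≤ L := by linarith
    have f2 : 10 ^ 8 * L ^ 4 ≤ L ^ 5 := by
      have : L ^ 5 = L * L ^ 4 := by ring
      rw [this]
      exact mul_le_mul_of_nonneg_right hL (by positivity)
    have f3 : L ^ 2 ≤ L ^ 4 := pow_le_pow_right₀ f1 (by norm_num)
    have f4 : 1 ≤ L ^ 4 := one_le_pow₀ f1
    linarith
  have e4 : L * B ≥ 0 := by positivity
  nlinarith

end Vale.Agent.P046
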