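import Vale.Agent.Lib.P046.S1Sup

/-!
# S1: one-step estimates for the triple codegrees

A common neighbour `x` of `u, v, w` is lost iff the triple is a triangle containing `x` and one of
`u, v, w`.  By inclusion-exclusion (`avg_mem_two`, `avg_mem_three`) the probability is
`6/n^3 (Y_ux + Y_vx + Y_wx - a_uv - a_uw - a_vw) = ε (z_ux + z_vx + z_wx - h (a_uv + a_uw + a_vw))`
(`ε = 6/(n^3 h)`, `z = h Y`; no triangle contains four vertices).
The lost `x` all lie in `tri t`: at most three are lost.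
-/

namespace Vale.Agent.P046

open Finset

variable {n : ℕ} {G : SimpleGraph (Fin n)} {h L q : ℝ}

theorem s1c3_lstep_adj (G : SimpleGraph (Fin n)) (t : Tr n) (a b : Fin n) :
    (lstep G t).Adj a b ↔ G.Adj a b ∧ ¬ (IsTri G t ∧ a ∈ tri t ∧ b ∈ tri t) := by
  classical
  unfold lstep
  split_ifs with h
  · rw [removeTriangle_adj]
    simp [h]
  · simp [h]

/-- the common neighbour `x` is lost -/
noncomputable def s1c3K (G : SimpleGraph (Fin n)) (u v w x : Fin n) (t : Tr n) : ℝ :=
  aj G u x * aj G v x * aj G w x -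
    aj (lstep G t) u x * aj (lstep G t) v x * aj (lstep G t) w x

open Classical in
/-- `t` is a triangle containing two given vertices -/
noncomputable def s1c3I2 (G : SimpleGraph (Fin n)) (a b : Fin n) (t : Tr n) : ℝ :=
  if IsTri G t ∧ a ∈ tri t ∧ b ∈ tri t then 1 else 0

open Classical in
/-- `t` is a triangle containing three given vertices -/
noncomputable def s1c3I3 (G : SimpleGraph (Fin n)) (a b c : Fin n) (t : Tr n) : ℝ :=
  if IsTri G t ∧ a ∈ tri t ∧ b ∈ tri t ∧ c ∈ tri t then 1 else 0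

theorem s1c3I2_avg (G : SimpleGraph (Fin n)) {a b : Fin n} (hab : a ≠ b) :
    avg (s1c3I2 G a b) = 6 / (n : ℝ) ^ 3 * (aj G a b * ∑ x, aj G a x * aj G b x) :=
  avg_mem_two G a b hab

theorem s1c3I3_avg (G : SimpleGraph (Fin n)) {a b c : Fin n} (hab : a ≠ b) (hac : a ≠ c)
    (hbc : b ≠ c) :
    avg (s1c3I3 G a b c) = 6 / (n : ℝ) ^ 3 * (aj G a b * aj G a c * aj G b c) :=
  avg_mem_three G a b c hab hac hbc

theorem s1c3_aj_of_adj {a b : Fin n} (hab : G.Adj a b) : aj G a b = 1 := by
  unfold aj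
  rw [if_pos hab]

theorem s1c3_aj_of_not {a b : Fin n} (hab : ¬ G.Adj a b) : aj G a b = 0 := by
  unfold aj
  rw [if_neg hab]

theorem s1c3_card_tri (t : Tr n) : (tri t).card ≤ 3 := Finset.card_le_three

theorem s1c3K_nonneg (u v w x : Fin n) (t : Tr n) : 0 ≤ s1c3K G u v w x t := by
  unfold s1c3K
  have h1 := aj_lstep_le G t u x
  have h2 := aj_lstep_le G t v x
  have h3 := aj_lstep_le G t w x
  have h4 := aj_nonneg (lstep G t) u x
  have h5 := aj_nonneg (lstep G t) v x
  have h6 := aj_nonneg (lstep G t) w x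
  have h7 := mul_le_mul (mul_le_mul h1 h2 h5 (h4.trans h1)) h3 h6
    (mul_nonneg (h4.trans h1) (h5.trans h2))
  linarith

theorem s1c3K_le (u v w x : Fin n) (t : Tr n) :
    s1c3K G u v w x t ≤ if x ∈ tri t then 1 else 0 := by
  split_ifs with hx
  · unfold s1c3K
    have h1 := aj_le_one G u x
    have h2 := aj_le_one G v x
    have h3 := aj_le_one G w x
    have h4 := aj_nonneg G u x
    have h5 := aj_nonneg G v x
    have h6 := aj_nonneg G w x
    have h7 : aj G u x * aj G v x * aj G w x ≤ 1 :=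
      mul_le_one₀ (mul_le_one₀ h1 h5 h2) h6 h3
    have h8 : 0 ≤ aj (lstep G t) u x * aj (lstep G t) v x * aj (lstep G t) w x :=
      mul_nonneg (mul_nonneg (aj_nonneg _ _ _) (aj_nonneg _ _ _)) (aj_nonneg _ _ _)
    linarith
  · have key : ∀ a : Fin n, aj (lstep G t) a x = aj G a x := by
      intro a
      by_cases ha : G.Adj a x
      · rw [s1c3_aj_of_adj ha, s1c3_aj_of_adj]
        rw [s1c3_lstep_adj]
        exact ⟨ha, fun h => hx h.2.2⟩
      · rw [s1c3_aj_of_not ha, s1c3_aj_of_not]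
        rw [s1c3_lstep_adj]
        exact fun h => ha h.1
    unfold s1c3K
    rw [key, key, key, sub_self]

theorem s1c3_sub (u v w : Fin n) (t : Tr n) :
    C3 G u v w - C3 (lstep G t) u v w = ∑ x, s1c3K G u v w x t := by
  unfold C3 s1c3K
  rw [← Finset.sum_sub_distrib]

theorem C3_nonneg (u v w : Fin n) : 0 ≤ C3 G u v w :=
  Finset.sum_nonneg fun x _ =>
    mul_nonneg (mul_nonneg (aj_nonneg _ _ _) (aj_nonneg _ _ _)) (aj_nonneg _ _ _)

theorem C3_lstep_le (u v w : Fin n) (t : Tr n) : C3 (lstep G t) u v w ≤ C3 G u v w := by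
  have h1 := s1c3_sub (G := G) u v w t
  have h2 : 0 ≤ ∑ x, s1c3K G u v w x t := Finset.sum_nonneg fun x _ => s1c3K_nonneg u v w x t
  linarith

theorem C3_jump (u v w : Fin n) (t : Tr n) : C3 G u v w - C3 (lstep G t) u v w ≤ 3 := by
  rw [s1c3_sub]
  calc ∑ x, s1c3K G u v w x t ≤ ∑ x, (if x ∈ tri t then (1 : ℝ) else 0) :=
        Finset.sum_le_sum fun x _ => s1c3K_le u v w x t
    _ = ((tri t).card : ℝ) := by
        rw [Finset.sum_ite_mem, Finset.univ_inter, Finset.sum_const, nsmul_eq_mul, mul_one]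
    _ ≤ 3 := by exact_mod_cast s1c3_card_tri t

theorem s1c3_avg_sum (f : Fin n → Tr n → ℝ) :
    avg (fun t => ∑ x, f x t) = ∑ x, avg (f x) := by
  unfold avg
  rw [Finset.sum_comm, Finset.sum_div]

theorem s1c3K_eq {u v w x : Fin n} (huv : u ≠ v) (huw : u ≠ w) (hvw : v ≠ w)
    (hu : G.Adj u x) (hv : G.Adj v x) (hw : G.Adj w x) (t : Tr n) :
    s1c3K G u v w x t = s1c3I2 G u x t + s1c3I2 G v x t + s1c3I2 G w x t -
      s1c3I3 G u v x t - s1c3I3 G u w x t - s1c3I3 G v w x t := by
  classical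
  have hno : ¬ (u ∈ tri t ∧ v ∈ tri t ∧ w ∈ tri t ∧ x ∈ tri t) := by
    rintro ⟨h1, h2, h3, h4⟩
    have hsub : ({u, v, w, x} : Finset (Fin n)) ⊆ tri t := by
      intro y hy
      simp only [Finset.mem_insert, Finset.mem_singleton] at hy
      rcases hy with rfl | rfl | rfl | rfl
      · exact h1
      · exact h2
      · exact h3
      · exact h4
    have hcard : ({u, v, w, x} : Finset (Fin n)).card = 4 := by
      rw [Finset.card_insert_of_notMem, Finset.card_insert_of_notMem,
        Finset.card_insert_of_notMem, Finset.card_singleton]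
      · simpa using hw.ne
      · simpa using ⟨hvw, hv.ne⟩
      · simpa using ⟨huv, huw, hu.ne⟩
    have := (Finset.card_le_card hsub).trans (s1c3_card_tri t)
    omega
  unfold s1c3K s1c3I2 s1c3I3
  rw [s1c3_aj_of_adj hu, s1c3_aj_of_adj hv, s1c3_aj_of_adj hw]
  unfold aj
  simp only [s1c3_lstep_adj, hu, hv, hw, true_and]
  by_cases h0 : IsTri G t
  · by_cases h1 : u ∈ tri t <;> by_cases h2 : v ∈ tri t <;> by_cases h3 : w ∈ tri t <;>
      by_cases h4 : x ∈ tri t <;> simp [h0, h1, h2, h3, h4] <;>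
      exact (hno ⟨h1, h2, h3, h4⟩).elim
  · simp [h0]

theorem s1c3_avg_K (hn : 0 < n) (hh0 : 0 < h) {u v w : Fin n} (huv : u ≠ v) (huw : u ≠ w)
    (hvw : v ≠ w) (x : Fin n) : avg (s1c3K G u v w x) =
      epr n h * (aj G u x * aj G v x * aj G w x *
        (zz G h u x + zz G h v x + zz G h w x - h * (aj G u v + aj G u w + aj G v w))) := by
  have hn' : (n : ℝ) ^ 3 ≠ 0 := by positivity
  have he : epr n h * h = 6 / (n : ℝ) ^ 3 := by
    unfold epr
    field_simp
  by_cases hadj : G.Adj u x ∧ G.Adj v x ∧ G.Adj w x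
  · obtain ⟨hu, hv, hw⟩ := hadj
    have h1 : s1c3K G u v w x = fun t => s1c3I2 G u x t + s1c3I2 G v x t + s1c3I2 G w x t -
        s1c3I3 G u v x t - s1c3I3 G u w x t - s1c3I3 G v w x t := by
      funext t
      exact s1c3K_eq huv huw hvw hu hv hw t
    rw [h1, avg_sub, avg_sub, avg_sub, avg_add, avg_add]
    have e1 := s1c3I2_avg G hu.ne
    have e2 := s1c3I2_avg G hv.ne
    have e3 := s1c3I2_avg G hw.ne
    have e4 := s1c3I3_avg G huv hu.ne hv.ne
    have e5 := s1c3I3_avg G huw hu.ne hw.ne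
    have e6 := s1c3I3_avg G hvw hv.ne hw.ne
    rw [s1c3_aj_of_adj hu] at e1 e4 e5
    rw [s1c3_aj_of_adj hv] at e2 e4 e6
    rw [s1c3_aj_of_adj hw] at e3 e5 e6
    rw [s1c3_aj_of_adj hu, s1c3_aj_of_adj hv, s1c3_aj_of_adj hw]
    change avg (s1c3I2 G u x) + avg (s1c3I2 G v x) + avg (s1c3I2 G w x) - avg (s1c3I3 G u v x) -
      avg (s1c3I3 G u w x) - avg (s1c3I3 G v w x) = _
    rw [e1, e2, e3, e4, e5, e6, ← he]
    unfold zz
    ring
  · have h0 : aj G u x * aj G v x * aj G w x = 0 := by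
      by_cases h1 : G.Adj u x
      · by_cases h2 : G.Adj v x
        · have h3 : ¬ G.Adj w x := fun h3 => hadj ⟨h1, h2, h3⟩
          rw [s1c3_aj_of_not h3, mul_zero]
        · rw [s1c3_aj_of_not h2, mul_zero, zero_mul]
      · rw [s1c3_aj_of_not h1, zero_mul, zero_mul]
    have h1 : s1c3K G u v w x = fun _ => 0 := by
      funext t
      have h2 := s1c3K_nonneg (G := G) u v w x t
      have h3 : s1c3K G u v w x t ≤ 0 := by
        unfold s1c3K
        rw [h0]
        have h8 : 0 ≤ aj (lstep G t) u x * aj (lstep G t) v x * aj (lstep G t) w x :=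
          mul_nonneg (mul_nonneg (aj_nonneg _ _ _) (aj_nonneg _ _ _)) (aj_nonneg _ _ _)
        linarith
      exact le_antisymm h3 h2
    rw [h1, h0, avg_const hn, zero_mul, mul_zero]

theorem avg_C3 (hn : 0 < n) (hh0 : 0 < h) {u v w : Fin n} (huv : u ≠ v) (huw : u ≠ w)
    (hvw : v ≠ w) : avg (fun t => C3 (lstep G t) u v w) = C3 G u v w -
      epr n h * ∑ x, aj G u x * aj G v x * aj G w x *
        (zz G h u x + zz G h v x + zz G h w x - h * (aj G u v + aj G u w + aj G v w)) := by
  have h1 : (fun t => C3 (lstep G t) u v w) =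
      fun t => C3 G u v w - ∑ x, s1c3K G u v w x t := by
    funext t
    rw [← s1c3_sub]
    ring
  rw [h1, avg_sub, avg_const hn, s1c3_avg_sum, Finset.mul_sum]
  congr 1
  exact Finset.sum_congr rfl fun x _ => s1c3_avg_K hn hh0 huv huw hvw x

theorem s1c3_P_zero_or (u v w x : Fin n) : aj G u x * aj G v x * aj G w x = 0 ∨
    (u ≠ x ∧ v ≠ x ∧ w ≠ x ∧ aj G u x * aj G v x * aj G w x = 1) := by
  by_cases h1 : G.Adj u x
  · by_cases h2 : G.Adj v x
    · by_cases h3 : G.Adj w x
      · right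
        refine ⟨h1.ne, h2.ne, h3.ne, ?_⟩
        rw [s1c3_aj_of_adj h1, s1c3_aj_of_adj h2, s1c3_aj_of_adj h3]
        ring
      · left
        rw [s1c3_aj_of_not h3, mul_zero]
    · left
      rw [s1c3_aj_of_not h2, mul_zero, zero_mul]
  · left
    rw [s1c3_aj_of_not h1, zero_mul, zero_mul]

theorem s1c3_h_le (R : Reg G h L q) : 3 * h ≤ L * √h := by
  have hL := R.hL
  have h0 := R.hpos
  have h1 : 1 ≤ L ^ 20 := one_le_pow₀ (by linarith)
  have h2 : h ≤ 1 := by
    have := R.hsmall
    nlinarith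
  have h3 : √h ≤ 1 := Real.sqrt_le_one.2 h2
  have h4 : √h * √h = h := Real.mul_self_sqrt h0.le
  have h5 : 0 ≤ √h := Real.sqrt_nonneg h
  nlinarith [mul_nonneg h5 (sub_nonneg.2 h3)]

theorem drift_C3 (R : Reg G h L q) {u v w : Fin n} (huv : u ≠ v) (huw : u ≠ w) (hvw : v ≠ w) :
    |avg (fun t => C3 (lstep G t) u v w) - C3 G u v w * (1 - 3 * epr n h)| ≤
      4 * L * √h * epr n h * C3 G u v w := by
  have hn := R.n_pos
  have hh0 := R.hpos
  have he := epr_pos hn hh0
  have hs := s1c3_h_le R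
  rw [avg_C3 hn hh0 huv huw hvw]
  have e1 : C3 G u v w - epr n h * ∑ x, aj G u x * aj G v x * aj G w x *
        (zz G h u x + zz G h v x + zz G h w x - h * (aj G u v + aj G u w + aj G v w)) -
      C3 G u v w * (1 - 3 * epr n h) =
      -(epr n h * ∑ x, aj G u x * aj G v x * aj G w x *
        (al G h u x + al G h v x + al G h w x - h * (aj G u v + aj G u w + aj G v w))) := by
    have e2 : ∑ x, aj G u x * aj G v x * aj G w x *
        (zz G h u x + zz G h v x + zz G h w x - h * (aj G u v + aj G u w + aj G v w)) =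
        ∑ x, aj G u x * aj G v x * aj G w x *
        (al G h u x + al G h v x + al G h w x - h * (aj G u v + aj G u w + aj G v w)) +
        3 * C3 G u v w := by
      unfold C3
      rw [Finset.mul_sum, ← Finset.sum_add_distrib]
      refine Finset.sum_congr rfl fun x _ => ?_
      unfold al
      ring
    rw [e2]
    ring
  rw [e1, abs_neg, abs_mul, abs_of_pos he]
  have e3 : |∑ x, aj G u x * aj G v x * aj G w x *
      (al G h u x + al G h v x + al G h w x - h * (aj G u v + aj G u w + aj G v w))| ≤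
      ∑ x, aj G u x * aj G v x * aj G w x * (4 * L * √h) := by
    refine (Finset.abs_sum_le_sum_abs _ _).trans (Finset.sum_le_sum fun x _ => ?_)
    rcases s1c3_P_zero_or (G := G) u v w x with h1 | ⟨h1, h2, h3, h4⟩
    · rw [h1, zero_mul, zero_mul, abs_zero]
    · rw [h4, one_mul, one_mul]
      have a1 := abs_le.1 (R.al_le u x h1)
      have a2 := abs_le.1 (R.al_le v x h2)
      have a3 := abs_le.1 (R.al_le w x h3)
      have b1 := aj_nonneg G u v
      have b2 := aj_nonneg G u w
      have b3 := aj_nonneg G v w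
      have c1 := aj_le_one G u v
      have c2 := aj_le_one G u w
      have c3 := aj_le_one G v w
      have d1 : 0 ≤ h * (aj G u v + aj G u w + aj G v w) := by positivity
      have d2 : h * (aj G u v + aj G u w + aj G v w) ≤ h * 3 :=
        mul_le_mul_of_nonneg_left (by linarith) hh0.le
      have d3 : 0 ≤ L * √h := by linarith
      rw [abs_le]
      constructor <;> linarith [a1.1, a1.2, a2.1, a2.2, a3.1, a3.2]
  calc epr n h * |∑ x, aj G u x * aj G v x * aj G w x *
      (al G h u x + al G h v x + al G h w x - h * (aj G u v + aj G u w + aj G v w))|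
      ≤ epr n h * ∑ x, aj G u x * aj G v x * aj G w x * (4 * L * √h) :=
        mul_le_mul_of_nonneg_left e3 he.le
    _ = 4 * L * √h * epr n h * C3 G u v w := by
        unfold C3
        rw [← Finset.sum_mul]
        ring

theorem s1c3_var_le (hn : 0 < n) (f : Tr n → ℝ) (c : ℝ) :
    avg (fun t => (f t - avg f) ^ 2) ≤ avg (fun t => (f t - c) ^ 2) := by
  set μ := avg f with hμ
  have h1 : (fun t => (f t - c) ^ 2) = fun t => (f t - μ) ^ 2 +
      (2 * (μ - c) * (f t - μ) + (μ - c) ^ 2) := by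
    funext t
    ring
  rw [h1, avg_add, avg_add, avg_mul, avg_const hn, avg_sub, avg_const hn]
  change _ ≤ avg (fun t => (f t - μ) ^ 2) + (2 * (μ - c) * (avg f - μ) + (μ - c) ^ 2)
  rw [← hμ, sub_self, mul_zero, zero_add]
  have := sq_nonneg (μ - c)
  linarith

theorem var_C3 (R : Reg G h L q) {u v w : Fin n} (huv : u ≠ v) (huw : u ≠ w) (hvw : v ≠ w) :
    avg (fun t => (C3 (lstep G t) u v w - avg (fun t => C3 (lstep G t) u v w)) ^ 2) ≤
      10 * epr n h * C3 G u v w := by
  have hn := R.n_pos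
  have hh0 := R.hpos
  have he := epr_pos hn hh0
  refine (s1c3_var_le hn (fun t => C3 (lstep G t) u v w) (C3 G u v w)).trans ?_
  have h1 : avg (fun t => (C3 (lstep G t) u v w - C3 G u v w) ^ 2) ≤
      avg (fun t => 3 * (C3 G u v w - C3 (lstep G t) u v w)) := by
    refine avg_mono fun t => ?_
    have h2 := C3_jump (G := G) u v w t
    have h3 := C3_lstep_le (G := G) u v w t
    nlinarith
  refine h1.trans ?_
  rw [avg_mul, avg_sub, avg_const hn, avg_C3 hn hh0 huv huw hvw]
  have e3 : ∑ x, aj G u x * aj G v x * aj G w x *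
      (zz G h u x + zz G h v x + zz G h w x - h * (aj G u v + aj G u w + aj G v w)) ≤
      ∑ x, aj G u x * aj G v x * aj G w x * (10 / 3) := by
    refine Finset.sum_le_sum fun x _ => ?_
    rcases s1c3_P_zero_or (G := G) u v w x with h1 | ⟨h1, h2, h3, h4⟩
    · rw [h1, zero_mul, zero_mul]
    · rw [h4, one_mul, one_mul]
      have a1 := R.zz_le h1
      have a2 := R.zz_le h2
      have a3 := R.zz_le h3
      have b1 := aj_nonneg G u v
      have b2 := aj_nonneg G u w
      have b3 := aj_nonneg G v w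
      have d1 : 0 ≤ h * (aj G u v + aj G u w + aj G v w) := by positivity
      linarith
  have e4 := mul_le_mul_of_nonneg_left e3 he.le
  have e5 : epr n h * ∑ x, aj G u x * aj G v x * aj G w x * (10 / 3) =
      10 / 3 * epr n h * C3 G u v w := by
    unfold C3
    rw [← Finset.sum_mul]
    ring
  rw [e5] at e4
  linarith

end Vale.Agent.P046
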