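import Vale.Agent.Lib.P046.S1Init
import Vale.Agent.Lib.P046.S1CloseD
import Vale.Agent.Lib.P046.S1C3

/-!
# S1: the deterministic closure for the triple codegrees and the number of edges

* C3, dense times `1600 L^2 ≤ qq n l.length` (then also all earlier times are dense), `F = C3/qq`:
  if `Gd n L l` then `F l ≤ 3/2`, `qq_{j+1} = qq_j / (s √s)`, `s √s (1 - 3 ε) = 1 + O(7 ε^2)`, so by
  `drift_C3` `|avg F⁺ - F| ≤ 3/2 * 42/10 L √h ε`.  `|F [] - 1| = 3/n`.  So
  `|F - 1| ≤ 3/n + 63/10 L ∑ ep √hh + L/√qq ≤ 3/n + 12.6 L √hh + L/√qq ≤ 20 L/√qq`.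
* C3, sparse times: `C3` does not increase; if the previous time was sparse use its bound
  `6400 L^2`, if it was dense, `C3 ≤ 1.5 qq_j ≤ 1.6 qq_{j+1} ≤ 1.6 * 1600 L^2`.
* Ne, `F = Ne/N0`, `N0_{j+1} = N0_j/√s`, `√s (1 - ε) = 1 + O(ε^2)`; `Gd` gives `F ≤ 11/10`;
  `|avg F⁺ - F| ≤ 1.1 * 1.1 L √h ε`, `F [] = 1 - 1/n`; so
  `|F - 1| ≤ 1/n + 1.21 L * 2 √hh + √hh ≤ 4 L √hh`.
-/

namespace Vale.Agent.P046

open Finset

variable {n J : ℕ} {L : ℝ}

/-- bounds for the square root of `1 + 2 ε` -/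
private theorem s1closec_sqrt {ε : ℝ} (h0 : 0 ≤ ε) (h1 : ε ≤ 1 / 1000) :
    1 + ε - ε ^ 2 / 2 ≤ √(1 + 2 * ε) ∧ √(1 + 2 * ε) ≤ 1 + ε := by
  constructor
  · refine Real.le_sqrt_of_sq_le ?_
    nlinarith [mul_nonneg h0 (mul_nonneg h0 h0), mul_nonneg (mul_nonneg h0 h0) (mul_nonneg h0 h0)]
  · refine Real.sqrt_le_iff.2 ⟨by linarith, ?_⟩
    nlinarith [sq_nonneg ε]

/-- `s √s (1 - 3 ε)` is `1` up to `8 ε ^ 2` -/
private theorem s1closec_factor {ε : ℝ} (h0 : 0 ≤ ε) (h1 : ε ≤ 1 / 1000) :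
    1 ≤ (1 + 2 * ε) * √(1 + 2 * ε) ∧ (1 + 2 * ε) * √(1 + 2 * ε) ≤ 101 / 100 ∧
      |(1 + 2 * ε) * √(1 + 2 * ε) * (1 - 3 * ε) - 1| ≤ 8 * ε ^ 2 := by
  obtain ⟨h2, h3⟩ := s1closec_sqrt h0 h1
  set r := √(1 + 2 * ε) with hr
  have h4 : 0 ≤ 1 + 2 * ε := by linarith
  have h5 : 0 ≤ 1 - 3 * ε := by linarith
  have hr1 : 1 ≤ r := by nlinarith
  refine ⟨by nlinarith, by nlinarith, ?_⟩
  rw [abs_le]
  have e2 : 0 ≤ ε ^ 2 := sq_nonneg ε
  have e3 : 0 ≤ ε ^ 3 := by positivity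
  have e3' : ε ^ 3 ≤ 1 / 1000 * ε ^ 2 := by
    have : ε ^ 3 = ε * ε ^ 2 := by ring
    rw [this]
    exact mul_le_mul_of_nonneg_right h1 e2
  have e4 : 0 ≤ ε ^ 4 := by positivity
  have hlow : (1 + 2 * ε) * (1 + ε - ε ^ 2 / 2) * (1 - 3 * ε) ≤ (1 + 2 * ε) * r * (1 - 3 * ε) :=
    mul_le_mul_of_nonneg_right (mul_le_mul_of_nonneg_left h2 h4) h5
  have hupp : (1 + 2 * ε) * r * (1 - 3 * ε) ≤ (1 + 2 * ε) * (1 + ε) * (1 - 3 * ε) :=
    mul_le_mul_of_nonneg_right (mul_le_mul_of_nonneg_left h3 h4) h5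
  constructor
  · have h6 : (1 + 2 * ε) * (1 + ε - ε ^ 2 / 2) * (1 - 3 * ε) =
        1 - 15 / 2 * ε ^ 2 - 11 / 2 * ε ^ 3 + 3 * ε ^ 4 := by ring
    linarith
  · have h6 : (1 + 2 * ε) * (1 + ε) * (1 - 3 * ε) = 1 - 7 * ε ^ 2 - 6 * ε ^ 3 := by ring
    linarith

private theorem s1closec_ep_small (P : Par n J L) (j : ℕ) : 0 ≤ ep n j ∧ ep n j ≤ 1 / 1000 := by
  have h1 := ep_le P.hn j
  have h2 : (100 : ℝ) ≤ n := by exact_mod_cast P.n_ge'
  refine ⟨(ep_pos P.hn j).le, h1.trans ?_⟩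
  rw [div_le_div_iff₀ (by positivity) (by norm_num)]
  nlinarith

/-- `1/n ≤ √hh` -/
private theorem s1closec_inv_le (P : Par n J L) (j : ℕ) : 1 / (n : ℝ) ≤ √(hh n j) := by
  have hn : (0 : ℝ) < n := by exact_mod_cast P.hn
  have h2 : (100 : ℝ) ≤ n := by exact_mod_cast P.n_ge'
  refine Real.le_sqrt_of_sq_le ?_
  have h3 := one_le_mul_hh P.hn j
  have h4 : 1 / (n : ℝ) ≤ hh n j := by
    rw [div_le_iff₀ hn]
    linarith
  refine le_trans ?_ h4
  rw [div_pow, one_pow]
  refine one_div_le_one_div_of_le hn ?_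
  nlinarith

/-- at dense times `C3 ≤ 3/2 qq` -/
private theorem s1closec_three_half (P : Par n J L) {l : List (Tr n)} (g : Gd n L l)
    (hq : 1600 * L ^ 2 ≤ qq n l.length) {u v w : Fin n} (huv : u ≠ v) (huw : u ≠ w)
    (hvw : v ≠ w) : C3 (gr l) u v w ≤ 3 / 2 * qq n l.length := by
  have hL := P.L_ge
  have h1 := (abs_le.1 (g.C_dense hq u v w huv huw hvw)).2
  have hqp := qq_pos P.hn l.length
  have h2 : 40 * L ≤ √(qq n l.length) := by
    refine Real.le_sqrt_of_sq_le ?_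
    linarith [show (40 * L) ^ 2 = 1600 * L ^ 2 by ring]
  have h3 : 20 * L * √(qq n l.length) ≤ 1 / 2 * qq n l.length := by
    have h4 : √(qq n l.length) * √(qq n l.length) = qq n l.length := Real.mul_self_sqrt hqp.le
    nlinarith [Real.sqrt_nonneg (qq n l.length)]
  linarith

private theorem s1closec_step (P : Par n J L) {l : List (Tr n)} (hl : l.length ≤ J)
    (g : Gd n L l) (hq : 1600 * L ^ 2 ≤ qq n l.length) {u v w : Fin n} (huv : u ≠ v)
    (huw : u ≠ w) (hvw : v ≠ w) :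
    |avg (fun t => FC n u v w (t :: l)) - FC n u v w l| ≤
      63 / 10 * L * (ep n l.length * √(hh n l.length)) := by
  have hL := P.L_ge
  set j := l.length with hj
  set ε := ep n j with hε
  set q := qq n j with hqd
  set C := C3 (gr l) u v w with hC
  set A := avg (fun t => C3 (lstep (gr l) t) u v w) with hA
  obtain ⟨he0, he1⟩ := s1closec_ep_small P j
  rw [← hε] at he0 he1
  have hqp : 0 < q := qq_pos P.hn j
  obtain ⟨hf1, hf2, hf3⟩ := s1closec_factor he0 he1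
  set σ := (1 + 2 * ε) * √(1 + 2 * ε) with hσ
  have hσp : 0 < σ := by linarith
  have hCn : 0 ≤ C := C3_nonneg u v w
  have hC32 : C ≤ 3 / 2 * q := s1closec_three_half P g hq huv huw hvw
  have hdr : |A - C * (1 - 3 * ε)| ≤ 4 * L * √(hh n j) * ε * C :=
    drift_C3 (Gd.reg P hl g) huv huw hvw
  have h1 : avg (fun t => FC n u v w (t :: l)) = σ / q * A := by
    have h2 : (fun t => FC n u v w (t :: l)) =
        fun t => σ / q * C3 (lstep (gr l) t) u v w := by
      funext t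
      unfold FC
      rw [List.length_cons, ← hj, qq_succ P.hn j, ← hε, ← hσ, ← hqd, gr]
      field_simp
    rw [h2, avg_mul]
  have h3 : FC n u v w l = C / q := rfl
  have h4 : σ / q * A - C / q = (σ * (A - C * (1 - 3 * ε)) + (σ * (1 - 3 * ε) - 1) * C) / q := by
    field_simp
    ring
  have hsn : 0 ≤ √(hh n j) := Real.sqrt_nonneg _
  have hinv := s1closec_inv_le P j
  have hε2 : 8 * ε ≤ 1 / 10 * L * √(hh n j) := by
    have h5 := ep_le P.hn j
    have hn : (0 : ℝ) < n := by exact_mod_cast P.hn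
    have hn1 : (100 : ℝ) ≤ n := by exact_mod_cast P.n_ge'
    have h6 : 6 / (n : ℝ) ^ 2 ≤ 6 * (1 / n) := by
      rw [div_le_iff₀ (by positivity)]
      have : 6 * (1 / (n : ℝ)) * (n : ℝ) ^ 2 = 6 * n := by field_simp
      rw [this]
      linarith
    have h7 : ε ≤ 6 * √(hh n j) := by
      calc ε ≤ 6 / (n : ℝ) ^ 2 := h5
        _ ≤ 6 * (1 / n) := h6
        _ ≤ 6 * √(hh n j) := by linarith
    nlinarith
  have hnum : |σ * (A - C * (1 - 3 * ε)) + (σ * (1 - 3 * ε) - 1) * C| ≤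
      (42 / 10 * L * √(hh n j) * ε) * C := by
    refine (abs_add_le _ _).trans ?_
    rw [abs_mul σ (A - C * (1 - 3 * ε)), abs_mul (σ * (1 - 3 * ε) - 1) C, abs_of_pos hσp,
      abs_of_nonneg hCn]
    have h5 : σ * |A - C * (1 - 3 * ε)| ≤ 101 / 100 * (4 * L * √(hh n j) * ε * C) :=
      mul_le_mul hf2 hdr (abs_nonneg _) (by norm_num)
    have h6 : |σ * (1 - 3 * ε) - 1| * C ≤ 1 / 10 * L * √(hh n j) * ε * C := by
      refine mul_le_mul_of_nonneg_right (hf3.trans ?_) hCn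
      have := mul_le_mul_of_nonneg_right hε2 he0
      linarith [show 8 * ε ^ 2 = 8 * ε * ε by ring]
    have h7 : 0 ≤ L * √(hh n j) * ε * C := by positivity
    linarith
  rw [h1, h3, h4, abs_div, abs_of_pos hqp, div_le_iff₀ hqp]
  refine hnum.trans ?_
  have h8 : 0 ≤ 42 / 10 * L * √(hh n j) * ε := by positivity
  calc (42 / 10 * L * √(hh n j) * ε) * C ≤ (42 / 10 * L * √(hh n j) * ε) * (3 / 2 * q) :=
        mul_le_mul_of_nonneg_left hC32 h8
    _ = 63 / 10 * L * (ε * √(hh n j)) * q := by ring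

theorem close_C_aux (P : Par n J L) (l : List (Tr n)) (hl : l.length ≤ J) (ho : Okp n L l)
    (hq : 1600 * L ^ 2 ≤ qq n l.length) {u v w : Fin n} (huv : u ≠ v) (huw : u ≠ w)
    (hvw : v ≠ w) :
    |FC n u v w l - mart (Ok n L) (FC n u v w) l - 1| ≤ 3 / n +
      63 / 10 * L * ∑ i ∈ range l.length, ep n i * √(hh n i) := by
  have hn : (0 : ℝ) < n := by exact_mod_cast P.hn
  induction l with
  | nil =>
    have h1 : FC n u v w [] = 1 - 3 / n := by
      unfold FC
      rw [List.length_nil, qq_zero P.hn, gr, C3_top huv huw hvw]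
      field_simp
    have h2 : mart (Ok n L) (FC n u v w) [] = 0 := rfl
    rw [h1, h2, List.length_nil, range_zero, sum_empty, mul_zero, add_zero, sub_zero]
    have h3 : (1 - 3 / (n : ℝ) - 1) = -(3 / n) := by ring
    rw [h3, abs_neg, abs_of_nonneg (by positivity)]
  | cons t l ih =>
    have hl' : l.length ≤ J := by
      rw [List.length_cons] at hl
      omega
    have hq' : 1600 * L ^ 2 ≤ qq n l.length := by
      rw [List.length_cons] at hq
      exact hq.trans (qq_antitone P.hn (Nat.le_succ _))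
    have ho' : Gd n L l ∧ Okp n L l := ho
    have h1 := ih hl' ho'.2 hq'
    have h2 := s1closec_step P hl' ho'.1 hq' huv huw hvw
    have h3 := mart_cons_sub (F := FC n u v w) (P := Ok n L) (l := l) ho' t
    rw [h3, List.length_cons, sum_range_succ, mul_add]
    have h4 : FC n u v w l - mart (Ok n L) (FC n u v w) l +
        (avg (fun t' => FC n u v w (t' :: l)) - FC n u v w l) - 1 =
        (FC n u v w l - mart (Ok n L) (FC n u v w) l - 1) +
        (avg (fun t' => FC n u v w (t' :: l)) - FC n u v w l) := by ring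
    rw [h4]
    refine (abs_add_le _ _).trans ?_
    linarith

theorem close_C_dense (P : Par n J L) (l : List (Tr n)) (hl : l.length ≤ J) (ho : Okp n L l)
    (hm : MBs n L l) (hq : 1600 * L ^ 2 ≤ qq n l.length) {u v w : Fin n} (huv : u ≠ v)
    (huw : u ≠ w) (hvw : v ≠ w) :
    |C3 (gr l) u v w - qq n l.length| ≤ 20 * L * √(qq n l.length) := by
  have hL := P.L_ge
  have hM : MB n L l := by
    cases l with
    | nil => exact hm
    | cons t l => exact hm.1
  have h1 := close_C_aux P l hl ho hq huv huw hvw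
  have h2 := hM.C_le hq u v w huv huw hvw
  have h3 := sum_ep_sqrt P.n_ge' l.length
  set q := qq n l.length with hqd
  set S := √(hh n l.length) with hS
  have hqp : 0 < q := qq_pos P.hn _
  have hsq : 0 < √q := Real.sqrt_pos.2 hqp
  have h4 : S ≤ 1 / √q := sqrt_hh_le_inv P.hn _
  have h5 : 1 / (n : ℝ) ≤ S := s1closec_inv_le P _
  have h6 : 63 / 10 * L * ∑ i ∈ range l.length, ep n i * √(hh n i) ≤ 63 / 10 * L * (2 * S) :=
    mul_le_mul_of_nonneg_left h3 (by positivity)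
  have h7 : 3 / (n : ℝ) ≤ L * S := by
    have h8 : 3 / (n : ℝ) = 3 * (1 / n) := by ring
    rw [h8]
    have h9 : 0 ≤ 1 / (n : ℝ) := by positivity
    nlinarith
  have h8 : |FC n u v w l - 1| ≤ 20 * L * (1 / √q) := by
    have h9 : FC n u v w l - 1 = (FC n u v w l - mart (Ok n L) (FC n u v w) l - 1) +
        mart (Ok n L) (FC n u v w) l := by ring
    rw [h9]
    refine (abs_add_le _ _).trans ?_
    have h10 : L / √q = L * (1 / √q) := by ring
    rw [h10] at h2
    have h11 : L * S ≤ L * (1 / √q) := mul_le_mul_of_nonneg_left h4 (by linarith)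
    have h12 : 0 ≤ L * (1 / √q) := by positivity
    linarith
  have h9 : C3 (gr l) u v w - q = (FC n u v w l - 1) * q := by
    have : FC n u v w l = C3 (gr l) u v w / q := rfl
    rw [this]
    field_simp
  rw [h9, abs_mul, abs_of_pos hqp]
  calc |FC n u v w l - 1| * q ≤ 20 * L * (1 / √q) * q := mul_le_mul_of_nonneg_right h8 hqp.le
    _ = 20 * L * √q := by
        have h10 : q = √q * √q := (Real.mul_self_sqrt hqp.le).symm
        have h11 : 20 * L * (1 / √q) * q = 20 * L * (1 / √q) * (√q * √q) := by rw [← h10]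
        rw [h11]
        field_simp

theorem close_C_sparse (P : Par n J L) (l : List (Tr n)) (hl : l.length ≤ J) (ho : Okp n L l)
    (hq : qq n l.length < 1600 * L ^ 2) {u v w : Fin n} (huv : u ≠ v)
    (huw : u ≠ w) (hvw : v ≠ w) : C3 (gr l) u v w ≤ 6400 * L ^ 2 := by
  have hL := P.L_ge
  cases l with
  | nil =>
    exfalso
    rw [List.length_nil, qq_zero P.hn] at hq
    have h1 := P.n_ge
    have h2 : 1600 * L ^ 2 ≤ L ^ 20 := by
      have h3 : L ^ 20 = L ^ 18 * L ^ 2 := by ring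
      have h4 : (1600 : ℝ) ≤ L ^ 18 := by
        calc (1600 : ℝ) ≤ (10 ^ 8) ^ 18 := by norm_num
          _ ≤ L ^ 18 := pow_le_pow_left₀ (by norm_num) hL 18
      rw [h3]
      exact mul_le_mul_of_nonneg_right h4 (sq_nonneg L)
    linarith
  | cons t l =>
    have ho' : Gd n L l ∧ Okp n L l := ho
    have h1 : C3 (gr (t :: l)) u v w ≤ C3 (gr l) u v w := C3_lstep_le u v w t
    refine h1.trans ?_
    by_cases h2 : qq n l.length < 1600 * L ^ 2
    · exact ho'.1.C_sparse h2 u v w huv huw hvw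
    · have h3 := s1closec_three_half P ho'.1 (not_lt.1 h2) huv huw hvw
      rw [List.length_cons, qq_succ P.hn] at hq
      obtain ⟨he0, he1⟩ := s1closec_ep_small P l.length
      obtain ⟨hf1, hf2, -⟩ := s1closec_factor he0 he1
      rw [div_lt_iff₀ (by linarith)] at hq
      have h4 : 0 ≤ L ^ 2 := sq_nonneg L
      nlinarith

end Vale.Agent.P046
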