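import Vale.Agent.Lib.P046.S1Drift

/-!
# S1: the drift of `ga`

Notation of `S1Drift.lean`; `Q(x,w)_uv = h ∑_w a_uw a_vw (x_uw + x_vw)(w_uw + w_vw)`.
`ga⁺ = s^3 ga' + (3 s^3 - 3 s^2) be' + (4 s^3 - 6 s^2 + 2 s) z'` (`ga_scale` for `lstep G t`),
`4 s^3 - 6 s^2 + 2 s = 2 s (2 s - 1)(s - 1)`, so with `s = 1 + 2 ε` and `ε ≤ 6 h^2`
`E ga⁺ - ga = E(ga' - ga) + 6 ε ga + 6 ε be + 4 ε z + O(ε^2)` (all of `ga, be, z`, `E(ga'-ga)/ε`,
`E(be'-be)/ε`, `E δ / ε` are bounded by 60).
By `ga_lstep`, `ga' - ga = (H - 1)(be' - be) - D be' `, `be' = be + (be' - be)`: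
`E(ga' - ga) = (H - 1) E(be' - be) - E(D be) - E(D (be' - be))`.
Insert `avg_dbe`: with `X := H(Hz) - H(h a z) + 2 be + Q(al,al) - h a be`,
`(H - 1) E(be' - be) = - ε (H - 1) X + O(3.1 * 9 h ε)`;
`H(Hz) = ga + 3 be + 4 z`, so `(H-1)(H(Hz) + 2 be) = (H - 1)(ga + 5 be + 4 z)
   = H ga - ga + 5 ga + 4 (be + z) = H ga + 4 ga + 4 be + 4 z`
(`(H-1) be = ga`, `(H-1) z = be + z`).
`E(D be) = ε (2 H be + Q(al, be) - h a H be) = ε (2 ga + 2 be + ...)`.
`|E (D (be' - be))| ≤ 2 * 5 h * E δ ≤ 21 h ε`.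
Leading terms: `- (H ga + 4 ga + 4 be + 4 z) - 2 ga - 2 be + 6 ga + 6 be + 4 z = - H ga`.
Errors: `(H-1) Q(al,al)`: `3.1 * 4.1 L^2 h`, `Q(al,be)`: `4.1 L^2 h`,
`(H-1) H(h a z)`, `(H-1)(h a be)`, `h a H be`, `28 h`, `21 h`, `O(ε)`: together `≤ 70 h`.
Total `≤ 30 L^2 h ε`.
-/

namespace Vale.Agent.P046

open Finset

variable {n : ℕ} {G : SimpleGraph (Fin n)} {h L q : ℝ}

private lemma s1driftga_small (R : Reg G h L q) : 0 < h ∧ 0 ≤ L * √h ∧ L * √h ≤ 1 / 10 ^ 8 ∧
    0 ≤ L ^ 5 * h ∧ L ^ 5 * h ≤ 1 / 10 ^ 8 ∧ L ^ 2 * h ≤ 1 / 10 ^ 8 ∧ h ≤ 1 / 10 ^ 8 ∧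
    10 ^ 16 * h ≤ L ^ 2 * h ∧ (L * √h) * (L * √h) = L ^ 2 * h := by
  have hh := R.hpos
  have hL := R.hL
  have hL1 : (1:ℝ) ≤ L := le_trans (by norm_num) hL
  have h1 := R.h_small
  have h2 := R.h_small'
  have hs : 0 ≤ √h := Real.sqrt_nonneg h
  have e1 : L * √h ≤ L ^ 9 * √h := by
    apply mul_le_mul_of_nonneg_right _ hs
    exact le_self_pow₀ hL1 (by norm_num)
  have e2 : L ^ 5 * h ≤ L ^ 19 * h := by
    apply mul_le_mul_of_nonneg_right _ hh.le
    exact pow_le_pow_right₀ hL1 (by norm_num)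
  have e3 : L ^ 2 * h ≤ L ^ 19 * h := by
    apply mul_le_mul_of_nonneg_right _ hh.le
    exact pow_le_pow_right₀ hL1 (by norm_num)
  have e4 : 1 * h ≤ L ^ 19 * h := by
    apply mul_le_mul_of_nonneg_right _ hh.le
    exact one_le_pow₀ hL1
  have e5 : (10:ℝ) ^ 16 * h ≤ L ^ 2 * h := by
    apply mul_le_mul_of_nonneg_right _ hh.le
    calc (10:ℝ) ^ 16 = (10 ^ 8) ^ 2 := by norm_num
      _ ≤ L ^ 2 := by gcongr
  refine ⟨hh, by positivity, by linarith, by positivity, by linarith, by linarith, by linarith,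
    e5, ?_⟩
  have : (L * √h) * (L * √h) = L ^ 2 * (√h * √h) := by ring
  rw [this, Real.mul_self_sqrt hh.le]

private lemma s1driftga_abs_avg (f : Tr n → ℝ) : |avg f| ≤ avg (fun t => |f t|) := by
  rw [abs_le]
  constructor
  · have h1 : avg (fun t => (-1) * |f t|) ≤ avg f := avg_mono fun t => by
      have := neg_abs_le (f t)
      linarith
    rw [avg_mul] at h1
    linarith
  · exact avg_mono fun t => le_abs_self _

/-- the error part of the mean of the increment of `be` -/
private noncomputable def s1driftgaE (G : SimpleGraph (Fin n)) (h : ℝ) (a b : Fin n) : ℝ :=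
  h * ∑ w, aj G a w * aj G b w * ((al G h a w + al G h b w) * (al G h a w + al G h b w)) -
    HH G h (fun a b => h * aj G a b * zz G h a b) a b - h * aj G a b * be G h a b

private lemma s1driftga_E_le (R : Reg G h L q) {a b : Fin n} (hab : a ≠ b) :
    |s1driftgaE G h a b| ≤ 42 / 10 * L ^ 2 * h := by
  obtain ⟨hh, p1, p2, p3, p4, p5, p6, p7, p8⟩ := s1driftga_small R
  have h1 := R.QQ_le p1 p1 R.al_le R.al_le hab
  have h2 : |HH G h (fun a b => h * aj G a b * zz G h a b) a b| ≤ 21 / 10 * (1001 / 1000 * h) := by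
    apply HH_bound' R (by positivity) _ hab
    intro a b hab
    have z1 := R.zz_le hab
    have z2 := R.le_zz hab
    have a1 := aj_nonneg G a b
    have a2 := aj_le_one G a b
    have z3 : 0 ≤ zz G h a b := by linarith
    rw [abs_of_nonneg (by positivity)]
    calc h * aj G a b * zz G h a b ≤ h * 1 * (1001 / 1000) := by gcongr
      _ = _ := by ring
  have h3 : |h * aj G a b * be G h a b| ≤ h := by
    have a1 := aj_nonneg G a b
    have a2 := aj_le_one G a b
    have b1 := R.be_le a b hab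
    rw [abs_mul, abs_of_nonneg (by positivity : 0 ≤ h * aj G a b)]
    calc h * aj G a b * |be G h a b| ≤ h * 1 * 1 := by
          gcongr
          linarith
      _ = h := by ring
  have h4 : 41 / 10 * (L * √h) * (L * √h) = 41 / 10 * (L ^ 2 * h) := by
    rw [← p8]; ring
  rw [h4] at h1
  unfold s1driftgaE
  rw [abs_le] at h1 h2 h3 ⊢
  constructor <;> nlinarith [h1.1, h1.2, h2.1, h2.2, h3.1, h3.2]

private lemma s1driftga_D (R : Reg G h L q) {u v : Fin n} (huv : u ≠ v) :
    |avg (fun t => DD G h t (be (lstep G t) h) u v) -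
      epr n h * (2 * ga G h u v + 2 * be G h u v)| ≤ (42 / 10 * L ^ 2 * h + 21 * h) * epr n h := by
  obtain ⟨hh, p1, p2, p3, p4, p5, p6, p7, p8⟩ := s1driftga_small R
  have hε := epr_pos R.n_pos R.hpos
  have h1 : avg (fun t => DD G h t (be (lstep G t) h) u v) =
      avg (fun t => DD G h t (be G h) u v) +
      avg (fun t => DD G h t (fun a b => be (lstep G t) h a b - be G h a b) u v) := by
    rw [← avg_add]
    congr 1
    funext t
    rw [DD_sub G h t u v (be (lstep G t) h) (be G h)]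
    ring
  have h2 : |avg (fun t => DD G h t (fun a b => be (lstep G t) h a b - be G h a b) u v)| ≤
      21 * h * epr n h := by
    calc _ ≤ avg (fun t => |DD G h t (fun a b => be (lstep G t) h a b - be G h a b) u v|) :=
          s1driftga_abs_avg _
      _ ≤ avg (fun t => (10 * h) * de G h t u v) := by
          apply avg_mono
          intro t
          have := abs_DD_le G h t u v hh.le
            (x := fun a b => be (lstep G t) h a b - be G h a b) (X := 5 * h)
            (fun a b hab => R.dbe_le hab t)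
          calc _ ≤ _ := this
            _ = _ := by ring
      _ = 10 * h * avg (fun t => de G h t u v) := avg_mul _ _
      _ ≤ 10 * h * (21 / 10 * epr n h) := by
          gcongr
          exact R.avg_de_le huv
      _ = _ := by ring
  have h3 := avg_DD G h u v R.n_pos hh huv (be G h)
  rw [HH_be] at h3
  have h4 := R.QQ_le p1 p1 R.be_le R.al_le huv
  have h6 : 41 / 10 * (L * √h) * (L * √h) = 41 / 10 * (L ^ 2 * h) := by
    rw [← p8]; ring
  rw [h6] at h4
  have h5 : |h * aj G u v * (ga G h u v + be G h u v)| ≤ h := by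
    have a1 := aj_nonneg G u v
    have a2 := aj_le_one G u v
    have b1 := R.be_le u v huv
    have b2 := R.ga_le u v huv
    rw [abs_mul, abs_of_nonneg (by positivity : 0 ≤ h * aj G u v)]
    have b3 : |ga G h u v + be G h u v| ≤ 1 := by
      have := abs_add_le (ga G h u v) (be G h u v)
      linarith
    calc h * aj G u v * |ga G h u v + be G h u v| ≤ h * 1 * 1 := by gcongr
      _ = h := by ring
  rw [h1, h3]
  set Q := h * ∑ w, aj G u w * aj G v w *
    ((be G h u w + be G h v w) * (al G h u w + al G h v w)) with hQ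
  set T := h * aj G u v * (ga G h u v + be G h u v) with hT
  set W := avg (fun t => DD G h t (fun a b => be (lstep G t) h a b - be G h a b) u v) with hW
  have e : epr n h * (2 * (ga G h u v + be G h u v) + Q - T) + W -
      epr n h * (2 * ga G h u v + 2 * be G h u v) = epr n h * (Q - T) + W := by ring
  rw [e]
  have h7 : |epr n h * (Q - T)| ≤ epr n h * (41 / 10 * (L ^ 2 * h) + h) := by
    rw [abs_mul, abs_of_pos hε]
    apply mul_le_mul_of_nonneg_left _ hε.le
    have := abs_sub Q T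
    linarith
  calc |epr n h * (Q - T) + W| ≤ |epr n h * (Q - T)| + |W| := abs_add_le _ _
    _ ≤ epr n h * (41 / 10 * (L ^ 2 * h) + h) + 21 * h * epr n h := by linarith
    _ ≤ (42 / 10 * L ^ 2 * h + 21 * h) * epr n h := by
      nlinarith

private lemma s1driftga_X (R : Reg G h L q) {u v : Fin n} (huv : u ≠ v) :
    |(HH G h (fun a b => avg (fun t => be (lstep G t) h a b - be G h a b)) u v -
      avg (fun t => be (lstep G t) h u v - be G h u v)) +
      epr n h * (HH G h (ga G h) u v + 4 * ga G h u v + 4 * be G h u v + 4 * zz G h u v)| ≤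
      (131 / 10 * L ^ 2 * h + 28 * h) * epr n h := by
  obtain ⟨hh, p1, p2, p3, p4, p5, p6, p7, p8⟩ := s1driftga_small R
  have hε := epr_pos R.n_pos R.hpos
  have hY : ∀ a b : Fin n, HH G h (HH G h (zz G h)) a b -
        HH G h (fun a b => h * aj G a b * zz G h a b) a b +
        2 * be G h a b +
        h * ∑ w, aj G a w * aj G b w * ((al G h a w + al G h b w) * (al G h a w + al G h b w)) -
        h * aj G a b * be G h a b =
      ga G h a b + 5 * be G h a b + 4 * zz G h a b + s1driftgaE G h a b := by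
    intro a b
    have e1 : HH G h (HH G h (zz G h)) a b = ga G h a b + 3 * be G h a b + 4 * zz G h a b := by
      have f1 : HH G h (HH G h (zz G h)) a b =
          HH G h (fun a b => be G h a b + 2 * zz G h a b) a b := by
        apply HH_congr
        intro a b _
        rw [HH_zz]
      rw [f1, HH_add G h a b (be G h) (fun a b => 2 * zz G h a b), HH_smul, HH_be, HH_zz]
      ring
    rw [e1]
    unfold s1driftgaE
    ring
  have hX : ∀ a b : Fin n, a ≠ b →
      |avg (fun t => be (lstep G t) h a b - be G h a b) +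
        epr n h * (ga G h a b + 5 * be G h a b + 4 * zz G h a b + s1driftgaE G h a b)| ≤
      9 * h * epr n h := by
    intro a b hab
    have := avg_dbe R hab
    rw [hY a b] at this
    exact this
  have h1 := HH_bound' R (by positivity : 0 ≤ 9 * h * epr n h) hX huv
  have h2 := hX u v huv
  have e1 : HH G h (fun a b => avg (fun t => be (lstep G t) h a b - be G h a b) +
        epr n h * (ga G h a b + 5 * be G h a b + 4 * zz G h a b + s1driftgaE G h a b)) u v =
      HH G h (fun a b => avg (fun t => be (lstep G t) h a b - be G h a b)) u v +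
      epr n h * (HH G h (ga G h) u v + 5 * (ga G h u v + be G h u v) +
        4 * (be G h u v + 2 * zz G h u v) + HH G h (s1driftgaE G h) u v) := by
    rw [HH_add G h u v (fun a b => avg (fun t => be (lstep G t) h a b - be G h a b))
      (fun a b => epr n h * (ga G h a b + 5 * be G h a b + 4 * zz G h a b + s1driftgaE G h a b)),
      HH_smul G h u v (epr n h)
        (fun a b => ga G h a b + 5 * be G h a b + 4 * zz G h a b + s1driftgaE G h a b),
      HH_add G h u v (fun a b => ga G h a b + 5 * be G h a b + 4 * zz G h a b) (s1driftgaE G h),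
      HH_add G h u v (fun a b => ga G h a b + 5 * be G h a b) (fun a b => 4 * zz G h a b),
      HH_add G h u v (ga G h) (fun a b => 5 * be G h a b), HH_smul G h u v 5 (be G h),
      HH_smul G h u v 4 (zz G h), HH_be, HH_zz]
  rw [e1] at h1
  have h3 := s1driftga_E_le R huv
  have h4 := HH_bound' R (by positivity : 0 ≤ 42 / 10 * L ^ 2 * h)
    (fun a b hab => s1driftga_E_le R hab) huv
  set X1 := HH G h (fun a b => avg (fun t => be (lstep G t) h a b - be G h a b)) u v with hX1
  set X2 := avg (fun t => be (lstep G t) h u v - be G h u v) with hX2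
  set E1 := s1driftgaE G h u v with hE1
  set E2 := HH G h (s1driftgaE G h) u v with hE2
  set A := HH G h (ga G h) u v with hA
  set B := ga G h u v with hB
  set C := be G h u v with hC
  set D := zz G h u v with hD
  have h5 : |epr n h * (E2 - E1)| ≤ epr n h * (131 / 10 * L ^ 2 * h) := by
    rw [abs_mul, abs_of_pos hε]
    apply mul_le_mul_of_nonneg_left _ hε.le
    have := abs_sub E2 E1
    nlinarith
  have e2 : X1 - X2 + epr n h * (A + 4 * B + 4 * C + 4 * D) =
      (X1 + epr n h * (A + 5 * (B + C) + 4 * (C + 2 * D) + E2)) -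
      (X2 + epr n h * (B + 5 * C + 4 * D + E1)) - epr n h * (E2 - E1) := by ring
  rw [e2]
  have h6 := abs_sub ((X1 + epr n h * (A + 5 * (B + C) + 4 * (C + 2 * D) + E2)) -
      (X2 + epr n h * (B + 5 * C + 4 * D + E1))) (epr n h * (E2 - E1))
  have h7 := abs_sub (X1 + epr n h * (A + 5 * (B + C) + 4 * (C + 2 * D) + E2))
      (X2 + epr n h * (B + 5 * C + 4 * D + E1))
  nlinarith

theorem avg_dga (R : Reg G h L q) {u v : Fin n} (huv : u ≠ v) :
    |avg (fun t => ga (lstep G t) h u v - ga G h u v) +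
      epr n h * (HH G h (ga G h) u v + 6 * ga G h u v + 6 * be G h u v + 4 * zz G h u v)| ≤
      29 * L ^ 2 * h * epr n h := by
  obtain ⟨hh, p1, p2, p3, p4, p5, p6, p7, p8⟩ := s1driftga_small R
  have hε := epr_pos R.n_pos R.hpos
  have h1 : avg (fun t => ga (lstep G t) h u v - ga G h u v) =
      (HH G h (fun a b => avg (fun t => be (lstep G t) h a b - be G h a b)) u v -
        avg (fun t => be (lstep G t) h u v - be G h u v)) -
      avg (fun t => DD G h t (be (lstep G t) h) u v) := by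
    rw [← avg_HH G h u v (fun t a b => be (lstep G t) h a b - be G h a b), ← avg_sub, ← avg_sub]
    congr 1
    funext t
    rw [ga_lstep]
    ring
  have h2 := s1driftga_X R huv
  have h3 := s1driftga_D R huv
  rw [h1]
  set X := HH G h (fun a b => avg (fun t => be (lstep G t) h a b - be G h a b)) u v -
        avg (fun t => be (lstep G t) h u v - be G h u v) with hX
  set D := avg (fun t => DD G h t (be (lstep G t) h) u v) with hD
  have e : X - D + epr n h * (HH G h (ga G h) u v + 6 * ga G h u v + 6 * be G h u v +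
      4 * zz G h u v) =
      (X + epr n h * (HH G h (ga G h) u v + 4 * ga G h u v + 4 * be G h u v + 4 * zz G h u v)) -
      (D - epr n h * (2 * ga G h u v + 2 * be G h u v)) := by ring
  rw [e]
  have h4 := abs_sub (X + epr n h * (HH G h (ga G h) u v + 4 * ga G h u v + 4 * be G h u v +
      4 * zz G h u v)) (D - epr n h * (2 * ga G h u v + 2 * be G h u v))
  have h5 : (131 / 10 * L ^ 2 * h + 28 * h) + (42 / 10 * L ^ 2 * h + 21 * h) ≤
      29 * L ^ 2 * h := by nlinarith
  have h6 : ((131 / 10 * L ^ 2 * h + 28 * h) + (42 / 10 * L ^ 2 * h + 21 * h)) * epr n h ≤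
      29 * L ^ 2 * h * epr n h := mul_le_mul_of_nonneg_right h5 hε.le
  linarith

/-- the final scalar estimate -/
private lemma s1driftga_scal {ε B C z X Y d H K : ℝ} (hε : 0 < ε) (hε1 : ε ≤ 1 / 1000)
    (hB : |B| ≤ 1) (hC : |C| ≤ 1) (hz : |z| ≤ 2) (hY : |Y| ≤ 8 * ε) (hd : |d| ≤ 3 * ε)
    (hH : |H| ≤ 3) (hX : |X + ε * (H + 6 * B + 6 * C + 4 * z)| ≤ K * ε) (hK : K ≤ 1) :
    |((1 + 2 * ε) ^ 3 * (B + X) + (3 * (1 + 2 * ε) ^ 3 - 3 * (1 + 2 * ε) ^ 2) * (C + Y) +
      (4 * (1 + 2 * ε) ^ 3 - 6 * (1 + 2 * ε) ^ 2 + 2 * (1 + 2 * ε)) * (z - d)) - B + ε * H| ≤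
      K * ε + 500 * ε ^ 2 := by
  have hX' : |X| ≤ 24 * ε := by
    have h1 : |ε * (H + 6 * B + 6 * C + 4 * z)| ≤ 23 * ε := by
      rw [abs_mul, abs_of_pos hε, mul_comm]
      apply mul_le_mul_of_nonneg_right _ hε.le
      rw [abs_le] at *
      constructor <;> linarith
    have h2 := abs_sub (X + ε * (H + 6 * B + 6 * C + 4 * z)) (ε * (H + 6 * B + 6 * C + 4 * z))
    have h3 : X + ε * (H + 6 * B + 6 * C + 4 * z) - ε * (H + 6 * B + 6 * C + 4 * z) = X := by
      ring
    rw [h3] at h2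
    nlinarith
  have hε2 : 0 < ε ^ 2 := by positivity
  have e : ((1 + 2 * ε) ^ 3 * (B + X) + (3 * (1 + 2 * ε) ^ 3 - 3 * (1 + 2 * ε) ^ 2) * (C + Y) +
      (4 * (1 + 2 * ε) ^ 3 - 6 * (1 + 2 * ε) ^ 2 + 2 * (1 + 2 * ε)) * (z - d)) - B + ε * H =
      (X + ε * (H + 6 * B + 6 * C + 4 * z)) +
      ((6 * ε + 12 * ε ^ 2 + 8 * ε ^ 3) * X + (12 * ε ^ 2 + 8 * ε ^ 3) * B +
        (24 * ε ^ 2 + 24 * ε ^ 3) * C + (6 * ε + 24 * ε ^ 2 + 24 * ε ^ 3) * Y +
        (24 * ε ^ 2 + 32 * ε ^ 3) * z - (4 * ε + 24 * ε ^ 2 + 32 * ε ^ 3) * d) := by ring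
  rw [e]
  have c1 : |(6 * ε + 12 * ε ^ 2 + 8 * ε ^ 3) * X| ≤ (7 * ε) * (24 * ε) := by
    rw [abs_mul, abs_of_pos (by positivity)]
    apply mul_le_mul _ hX' (abs_nonneg _) (by positivity)
    nlinarith
  have c2 : |(12 * ε ^ 2 + 8 * ε ^ 3) * B| ≤ (13 * ε ^ 2) * 1 := by
    rw [abs_mul, abs_of_pos (by positivity)]
    apply mul_le_mul _ hB (abs_nonneg _) (by positivity)
    nlinarith
  have c3 : |(24 * ε ^ 2 + 24 * ε ^ 3) * C| ≤ (25 * ε ^ 2) * 1 := by
    rw [abs_mul, abs_of_pos (by positivity)]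
    apply mul_le_mul _ hC (abs_nonneg _) (by positivity)
    nlinarith
  have c4 : |(6 * ε + 24 * ε ^ 2 + 24 * ε ^ 3) * Y| ≤ (7 * ε) * (8 * ε) := by
    rw [abs_mul, abs_of_pos (by positivity)]
    apply mul_le_mul _ hY (abs_nonneg _) (by positivity)
    nlinarith
  have c5 : |(24 * ε ^ 2 + 32 * ε ^ 3) * z| ≤ (25 * ε ^ 2) * 2 := by
    rw [abs_mul, abs_of_pos (by positivity)]
    apply mul_le_mul _ hz (abs_nonneg _) (by positivity)
    nlinarith
  have c6 : |(4 * ε + 24 * ε ^ 2 + 32 * ε ^ 3) * d| ≤ (5 * ε) * (3 * ε) := by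
    rw [abs_mul, abs_of_pos (by positivity)]
    apply mul_le_mul _ hd (abs_nonneg _) (by positivity)
    nlinarith
  rw [abs_le] at *
  constructor <;> nlinarith [c1.1, c1.2, c2.1, c2.2, c3.1, c3.2, c4.1, c4.2, c5.1, c5.2, c6.1,
    c6.2, hX.1, hX.2]

theorem drift_ga (R : Reg G h L q) {u v : Fin n} (huv : u ≠ v) :
    |avg (fun t => ga (lstep G t) ((1 + 2 * epr n h) * h) u v) - ga G h u v +
      epr n h * HH G h (ga G h) u v| ≤ 30 * L ^ 2 * h * epr n h := by
  obtain ⟨hh, p1, p2, p3, p4, p5, p6, p7, p8⟩ := s1driftga_small R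
  have hε := epr_pos R.n_pos R.hpos
  have hn := R.n_pos
  have hε1 := R.epr_le
  have hε2 : epr n h ≤ 1 / 1000 := by nlinarith
  have h1 : avg (fun t => ga (lstep G t) ((1 + 2 * epr n h) * h) u v) =
      (1 + 2 * epr n h) ^ 3 * (ga G h u v + avg (fun t => ga (lstep G t) h u v - ga G h u v)) +
      (3 * (1 + 2 * epr n h) ^ 3 - 3 * (1 + 2 * epr n h) ^ 2) *
        (be G h u v + avg (fun t => be (lstep G t) h u v - be G h u v)) +
      (4 * (1 + 2 * epr n h) ^ 3 - 6 * (1 + 2 * epr n h) ^ 2 + 2 * (1 + 2 * epr n h)) *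
        (zz G h u v - avg (fun t => de G h t u v)) := by
    have a1 : ga G h u v + avg (fun t => ga (lstep G t) h u v - ga G h u v) =
        avg (fun t => ga (lstep G t) h u v) := by
      rw [avg_sub, avg_const hn]; ring
    have a2 : be G h u v + avg (fun t => be (lstep G t) h u v - be G h u v) =
        avg (fun t => be (lstep G t) h u v) := by
      rw [avg_sub, avg_const hn]; ring
    have a3 : zz G h u v - avg (fun t => de G h t u v) =
        avg (fun t => zz (lstep G t) h u v) := by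
      have : (fun t : Tr n => zz (lstep G t) h u v) = fun t => zz G h u v - de G h t u v := by
        funext t
        rw [zz_lstep]
      rw [this, avg_sub, avg_const hn]
    rw [a1, a2, a3, ← avg_mul, ← avg_mul, ← avg_mul, ← avg_add, ← avg_add]
    congr 1
    funext t
    rw [ga_scale]
  rw [h1]
  have hHg : |HH G h (ga G h) u v| ≤ 3 := by
    have := HH_bound' R p3 R.ga_le huv
    linarith
  have hB : |ga G h u v| ≤ 1 := by
    have := R.ga_le u v huv
    linarith
  have hC : |be G h u v| ≤ 1 := by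
    have := R.be_le u v huv
    linarith
  have hz : |zz G h u v| ≤ 2 := by
    have z1 := R.zz_le huv
    have z2 := R.le_zz huv
    rw [abs_le]; constructor <;> linarith
  have hY := abs_avg_dbe_le R huv
  have hd : |avg (fun t => de G h t u v)| ≤ 3 * epr n h := by
    have d1 := R.avg_de_le huv
    have d2 : 0 ≤ avg (fun t => de G h t u v) := by
      have := avg_mono (f := fun _ : Tr n => (0:ℝ)) (g := fun t => de G h t u v)
        (fun t => de_nonneg G h t u v hh.le)
      rwa [avg_const hn] at this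
    rw [abs_of_nonneg d2]
    linarith
  have hK : 29 * L ^ 2 * h ≤ 1 := by nlinarith
  have hX := avg_dga R huv
  refine le_trans (s1driftga_scal hε hε2 hB hC hz hY hd hHg hX hK) ?_
  have h5 : 500 * epr n h ≤ 500 * (6 * h ^ 2) := by linarith
  have h6 : 500 * (6 * h ^ 2) ≤ L ^ 2 * h := by nlinarith
  nlinarith

end Vale.Agent.P046
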