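import Vale.Agent.Lib.P046.S1Init
import Vale.Agent.Lib.P046.S1CloseD
import Vale.Agent.Lib.P046.S1DriftGa

/-!
# S1: the deterministic closure for `ga`, `be`, `al`

`D l = F l - mart (Ok n L) F l`.  If `Ok n L l` then
`D (t :: l) - D l = avg (fun t' => F (t' :: l)) - F l` (`mart_cons_sub`).

* ga (`F = ga / hh`, so `F = D + M`): with `s = 1 + 2 ε`,
  `D⁺ = (D - ε H D)/s + (M/s - M - ε H M / s) + e/(h s)`, `|e| ≤ 30 L^2 h ε`,
  `|H x| ≤ 2 (1 + L √h) |x|` (`HH_bound`), `|M| ≤ L^3`: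
  `|D⁺| ≤ |D| (1 + 2 L √h ε) + 6 L^3 ε` for the sup norm over all pairs `u ≠ v`.
  Induction on the list gives `close_ga`; `∑ ep ≤ L/10^8`, `∑ ep √hh ≤ 2 √hh ≤ 1/(4L)` give
  `|F| ≤ 2 (4 + 6 L^4/10^8) + L^3 ≤ L^5`.
* be: `D⁺ = D - ε (D + M + ga) + e`, `|e| ≤ 5 L^2 h ε`, so
  `|D⁺| ≤ |D| + ε (L/1000 bb + L^4 h + L^5 h + 5 L^2 h)`, `|D []| ≤ 4/n ≤ 4 hh_j`.
* al: `D⁺ = D - ε be + e`, `|e| ≤ 2 h ε`, `|be| ≤ L/100 bb + L^5 h`, `|D []| ≤ 2/n`.
-/

namespace Vale.Agent.P046

open Finset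

variable {n J : ℕ} {L : ℝ}

private theorem closega_step {ε A M3 s D M HD HM F HF a b c h e : ℝ} (hε : 0 < ε) (hh0 : 0 < h)
    (hs : s = 1 + 2 * ε) (hD : |D| ≤ A) (hM : |M| ≤ M3)
    (hHD : |HD| ≤ 2 * (1 + a) * A) (hHM : |HM| ≤ 21 / 10 * M3) (ha : 0 ≤ a)
    (hF : F = D + M) (hHF : HF = HD + HM) (hA : 0 ≤ A)
    (he : |e| ≤ b * h * ε) (hb : 0 ≤ b) (hc : c = (h * F - ε * (h * HF) + e) / (s * h)) :
    |D + (c - F)| ≤ A * (1 + 2 * a * ε) + (2 * M3 + 21 / 10 * M3 + b) * ε := by
  have hs1 : 1 ≤ s := by rw [hs]; linarith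
  have hs0 : 0 < s := by linarith
  have h1 : D + (c - F) = (D - ε * HD) / s + (-(2 * ε) * M - ε * HM) / s + e / (s * h) := by
    rw [hc, hF, hHF, hs]
    have : (1 + 2 * ε) ≠ 0 := by positivity
    field_simp
    ring
  have h2 : |(D - ε * HD) / s| ≤ A * (1 + 2 * a * ε) := by
    rw [abs_div, abs_of_pos hs0, div_le_iff₀ hs0]
    have h3 : |D - ε * HD| ≤ |D| + ε * |HD| := by
      refine le_trans (abs_sub _ _) ?_
      rw [abs_mul, abs_of_pos hε]
    have h4 : ε * |HD| ≤ ε * (2 * (1 + a) * A) := mul_le_mul_of_nonneg_left hHD hε.le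
    have h5 : A * (1 + 2 * a * ε) * s = A + ε * (2 * (1 + a) * A) + 4 * a * ε ^ 2 * A := by
      rw [hs]; ring
    have h6 : 0 ≤ 4 * a * ε ^ 2 * A := by positivity
    linarith
  have h3 : |(-(2 * ε) * M - ε * HM) / s| ≤ (2 * M3 + 21 / 10 * M3) * ε := by
    rw [abs_div, abs_of_pos hs0]
    have h4 : |-(2 * ε) * M - ε * HM| ≤ (2 * M3 + 21 / 10 * M3) * ε := by
      refine le_trans (abs_sub _ _) ?_
      rw [abs_mul, abs_mul, abs_neg, abs_of_pos hε, abs_of_pos (show (0:ℝ) < 2 * ε by positivity)]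
      have h5 : 2 * ε * |M| ≤ 2 * ε * M3 := mul_le_mul_of_nonneg_left hM (by positivity)
      have h6 : ε * |HM| ≤ ε * (21 / 10 * M3) := mul_le_mul_of_nonneg_left hHM hε.le
      linarith
    refine le_trans (div_le_self (abs_nonneg _) hs1) h4
  have h4 : |e / (s * h)| ≤ b * ε := by
    rw [abs_div, abs_of_pos (show 0 < s * h by positivity), div_le_iff₀ (by positivity)]
    refine le_trans he ?_
    have : b * ε * (s * h) - b * h * ε = b * ε * h * (s - 1) := by ring
    have h5 : 0 ≤ b * ε * h * (s - 1) := by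
      have : 0 ≤ s - 1 := by linarith
      positivity
    linarith
  rw [h1]
  refine le_trans (abs_add_le _ _) ?_
  have h5 := abs_add_le ((D - ε * HD) / s) ((-(2 * ε) * M - ε * HM) / s)
  linarith

private theorem closega_exp {S T ε r : ℝ} (hL : 10 ^ 8 ≤ L) (hS : 0 ≤ S) (hT : 0 ≤ T)
    (hε : 0 < ε) (hr : 0 ≤ r) :
    (4 + 6 * L ^ 3 * S) * Real.exp (2 * L * T) * (1 + 2 * (L * r) * ε) +
      (2 * L ^ 3 + 21 / 10 * L ^ 3 + 30 * L ^ 2) * ε ≤
    (4 + 6 * L ^ 3 * (S + ε)) * Real.exp (2 * L * (T + ε * r)) := by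
  have hL0 : 0 < L := by linarith
  have hexp : Real.exp (2 * L * (T + ε * r)) =
      Real.exp (2 * L * T) * Real.exp (2 * (L * r) * ε) := by
    rw [← Real.exp_add]
    congr 1
    ring
  have h1 : 1 + 2 * (L * r) * ε ≤ Real.exp (2 * (L * r) * ε) := by
    have := Real.add_one_le_exp (2 * (L * r) * ε)
    linarith
  have h2 : (4 + 6 * L ^ 3 * S) * Real.exp (2 * L * T) * (1 + 2 * (L * r) * ε) ≤
      (4 + 6 * L ^ 3 * S) * Real.exp (2 * L * T) * Real.exp (2 * (L * r) * ε) :=
    mul_le_mul_of_nonneg_left h1 (by positivity)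
  have hexp1 : 1 ≤ Real.exp (2 * L * (T + ε * r)) := Real.one_le_exp (by positivity)
  have h3 : (2 * L ^ 3 + 21 / 10 * L ^ 3 + 30 * L ^ 2) * ε ≤ 6 * L ^ 3 * ε := by
    apply mul_le_mul_of_nonneg_right _ hε.le
    have h5 : 30 * L ^ 2 ≤ L * L ^ 2 :=
      mul_le_mul_of_nonneg_right (by linarith) (by positivity)
    have h6 : L * L ^ 2 = L ^ 3 := by ring
    have h7 : 0 < L ^ 3 := by positivity
    linarith
  have h4 : 6 * L ^ 3 * ε ≤ 6 * L ^ 3 * ε * Real.exp (2 * L * (T + ε * r)) :=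
    le_mul_of_one_le_right (by positivity) hexp1
  calc (4 + 6 * L ^ 3 * S) * Real.exp (2 * L * T) * (1 + 2 * (L * r) * ε) +
      (2 * L ^ 3 + 21 / 10 * L ^ 3 + 30 * L ^ 2) * ε
      ≤ (4 + 6 * L ^ 3 * S) * Real.exp (2 * L * T) * Real.exp (2 * (L * r) * ε) +
        6 * L ^ 3 * ε * Real.exp (2 * L * (T + ε * r)) := by linarith
    _ = _ := by rw [hexp]; ring

private theorem closega_MB {l : List (Tr n)} (hm : MBs n L l) : MB n L l := by
  cases l with
  | nil => exact hm
  | cons t l => exact hm.1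

theorem close_ga_aux (P : Par n J L) (l : List (Tr n)) (hl : l.length ≤ J) (ho : Okp n L l)
    (hm : MBs n L l) {u v : Fin n} (huv : u ≠ v) :
    |Fga n u v l - mart (Ok n L) (Fga n u v) l| ≤
      (4 + 6 * L ^ 3 * ∑ i ∈ range l.length, ep n i) *
        Real.exp (2 * L * ∑ i ∈ range l.length, ep n i * √(hh n i)) := by
  have hn := P.hn
  have hL := P.L_ge
  have hL0 : 0 < L := by linarith
  induction l generalizing u v with
  | nil =>
    have h0 : (0:ℝ) < n := by exact_mod_cast hn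
    have h1 := ga_top (n := n) (le_trans (by norm_num) P.n_ge') huv
    simp only [mart, Fga, gr, List.length_nil, range_zero, sum_empty, mul_zero, Real.exp_zero,
      sub_zero, add_zero, mul_one, hh_zero]
    rw [abs_div, abs_of_pos (show (0:ℝ) < 1 / n by positivity), div_le_iff₀ (by positivity)]
    linarith [h1, show (4:ℝ) * (1 / n) = 4 / n by ring]
  | cons t l ih =>
    have hl' : l.length ≤ J := by
      rw [List.length_cons] at hl
      omega
    have hG : Gd n L l := ho.1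
    have hOk : Ok n L l := ho
    have hMB := closega_MB hm.2
    have R := Gd.reg P hl' hG
    set A : ℝ := (4 + 6 * L ^ 3 * ∑ i ∈ range l.length, ep n i) *
        Real.exp (2 * L * ∑ i ∈ range l.length, ep n i * √(hh n i)) with hA
    have hS0 : 0 ≤ ∑ i ∈ range l.length, ep n i := sum_nonneg (fun i _ => (ep_pos hn i).le)
    have hA0 : 0 ≤ A := by positivity
    have hh0 := hh_pos hn l.length
    have hε := ep_pos hn l.length
    rw [mart_cons_sub hOk t]
    have hHD := HH_bound R hA0 (x := fun a b => Fga n a b l - mart (Ok n L) (Fga n a b) l)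
      (fun a b hab => ih hl' ho.2 hm.2 hab) huv
    have hHM := HH_bound' R (x := fun a b => mart (Ok n L) (Fga n a b) l) (X := L ^ 3)
      (by positivity) (fun a b hab => hMB.ga_le a b hab) huv
    have hFga : ∀ a b, ga (gr l) (hh n l.length) a b = hh n l.length * Fga n a b l := by
      intro a b
      unfold Fga
      field_simp
    have hHF : HH (gr l) (hh n l.length) (ga (gr l) (hh n l.length)) u v =
        hh n l.length * (HH (gr l) (hh n l.length) (fun a b => Fga n a b l) u v) := by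
      rw [← HH_smul]
      exact HH_congr _ _ _ _ (fun a b _ => hFga a b)
    have hsplit : HH (gr l) (hh n l.length) (fun a b => Fga n a b l) u v =
        HH (gr l) (hh n l.length) (fun a b => Fga n a b l - mart (Ok n L) (Fga n a b) l) u v +
        HH (gr l) (hh n l.length) (fun a b => mart (Ok n L) (Fga n a b) l) u v := by
      rw [← HH_add]
      exact HH_congr _ _ _ _ (fun a b _ => by ring)
    have hdr := drift_ga R huv
    have havg : avg (fun t' => Fga n u v (t' :: l)) =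
        avg (fun t' => ga (lstep (gr l) t') ((1 + 2 * ep n l.length) * hh n l.length) u v) /
          ((1 + 2 * ep n l.length) * hh n l.length) := by
      have h1 : (fun t' => Fga n u v (t' :: l)) = fun t' : Tr n =>
          (1 / ((1 + 2 * ep n l.length) * hh n l.length)) *
            ga (lstep (gr l) t') ((1 + 2 * ep n l.length) * hh n l.length) u v := by
        funext t'
        simp only [Fga, List.length_cons, gr, hh_succ hn]
        ring
      rw [h1, avg_mul]
      ring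
    have hkey := closega_step (ε := ep n l.length) (A := A) (M3 := L ^ 3)
      (s := 1 + 2 * ep n l.length) (D := Fga n u v l - mart (Ok n L) (Fga n u v) l)
      (M := mart (Ok n L) (Fga n u v) l)
      (HD := HH (gr l) (hh n l.length)
        (fun a b => Fga n a b l - mart (Ok n L) (Fga n a b) l) u v)
      (HM := HH (gr l) (hh n l.length) (fun a b => mart (Ok n L) (Fga n a b) l) u v)
      (F := Fga n u v l)
      (HF := HH (gr l) (hh n l.length) (fun a b => Fga n a b l) u v)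
      (a := L * √(hh n l.length)) (b := 30 * L ^ 2)
      (c := avg (fun t' => Fga n u v (t' :: l))) (h := hh n l.length)
      (e := avg (fun t' => ga (lstep (gr l) t') ((1 + 2 * ep n l.length) * hh n l.length) u v) -
        ga (gr l) (hh n l.length) u v +
        ep n l.length * HH (gr l) (hh n l.length) (ga (gr l) (hh n l.length)) u v)
      hε hh0 rfl (ih hl' ho.2 hm.2 huv) (hMB.ga_le u v huv) hHD hHM (by positivity)
      (by ring) hsplit hA0 hdr (by positivity)
      (by rw [havg, ← hFga, ← hHF]; ring)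
    refine le_trans hkey ?_
    rw [List.length_cons, sum_range_succ, sum_range_succ]
    exact closega_exp hL hS0 (sum_nonneg (fun i _ => mul_nonneg (ep_pos hn i).le
      (Real.sqrt_nonneg _))) hε (Real.sqrt_nonneg _)

private theorem closega_exp_half : Real.exp (1 / 2) ≤ 2 := by
  have h8 : Real.exp (1 / 2) ^ 2 ≤ 2 ^ 2 := by
    rw [← Real.exp_nat_mul]
    have := Real.exp_one_lt_d9
    norm_num
    linarith
  exact (sq_le_sq₀ (Real.exp_pos _).le (by norm_num)).1 h8

private theorem closega_L {h : ℝ} (hL : 10 ^ 8 ≤ L) (hh0 : 0 < h) (h5 : h * L ^ 20 ≤ 1) :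
    L * √h ≤ 1 / 8 := by
  have hL0 : 0 < L := by linarith
  have h7 : (L ^ 10 * √h) ^ 2 ≤ 1 ^ 2 := by
    rw [mul_pow, Real.sq_sqrt hh0.le]
    calc (L ^ 10) ^ 2 * h = h * L ^ 20 := by ring
      _ ≤ 1 ^ 2 := by linarith
  have h8 : L ^ 10 * √h ≤ 1 :=
    (sq_le_sq₀ (by positivity) (by norm_num)).1 h7
  have h9 : 8 ≤ L ^ 9 := by
    calc (8:ℝ) ≤ L := by linarith
      _ = L ^ 1 := by ring
      _ ≤ L ^ 9 := pow_le_pow_right₀ (by linarith) (by norm_num)
  have h10 : 8 * (L * √h) ≤ L ^ 9 * (L * √h) :=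
    mul_le_mul_of_nonneg_right h9 (by positivity)
  have h11 : L ^ 9 * (L * √h) = L ^ 10 * √h := by ring
  linarith

theorem close_ga (P : Par n J L) (l : List (Tr n)) (hl : l.length ≤ J) (ho : Okp n L l)
    (hm : MBs n L l) {u v : Fin n} (huv : u ≠ v) :
    |ga (gr l) (hh n l.length) u v| ≤ L ^ 5 * hh n l.length := by
  have hn := P.hn
  have hL := P.L_ge
  have hL0 : 0 < L := by linarith
  have hh0 := hh_pos hn l.length
  have h1 := close_ga_aux P l hl ho hm huv
  have hMB := (closega_MB hm).ga_le u v huv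
  have h2 := P.sum_ep_le_log hl
  have h3 := sum_ep_sqrt P.n_ge' l.length
  have h4 : ga (gr l) (hh n l.length) u v = hh n l.length * Fga n u v l := by
    unfold Fga
    field_simp
  have h5 := P.hh_le hl
  have h6 : L * √(hh n l.length) ≤ 1 / 8 := closega_L hL hh0 h5
  have hexp : Real.exp (2 * L * ∑ i ∈ range l.length, ep n i * √(hh n i)) ≤ 2 := by
    have h7 : 2 * L * ∑ i ∈ range l.length, ep n i * √(hh n i) ≤ 1 / 2 := by
      calc 2 * L * ∑ i ∈ range l.length, ep n i * √(hh n i) ≤ 2 * L * (2 * √(hh n l.length)) :=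
            mul_le_mul_of_nonneg_left h3 (by positivity)
        _ = 4 * (L * √(hh n l.length)) := by ring
        _ ≤ 1 / 2 := by linarith
    exact le_trans (Real.exp_le_exp.2 h7) closega_exp_half
  have h7 : |Fga n u v l - mart (Ok n L) (Fga n u v) l| ≤ (4 + 6 * L ^ 3 * (L / 10 ^ 8)) * 2 := by
    refine le_trans h1 ?_
    have hS0 : 0 ≤ ∑ i ∈ range l.length, ep n i := sum_nonneg (fun i _ => (ep_pos hn i).le)
    apply mul_le_mul _ hexp (Real.exp_pos _).le (by positivity)
    have := mul_le_mul_of_nonneg_left h2 (show 0 ≤ 6 * L ^ 3 by positivity)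
    linarith
  have h8 : |Fga n u v l| ≤ L ^ 5 := by
    have h9 : |Fga n u v l| ≤ |Fga n u v l - mart (Ok n L) (Fga n u v) l| +
        |mart (Ok n L) (Fga n u v) l| := by
      have := abs_add_le (Fga n u v l - mart (Ok n L) (Fga n u v) l) (mart (Ok n L) (Fga n u v) l)
      simpa using this
    have h10 : (4 + 6 * L ^ 3 * (L / 10 ^ 8)) * 2 + L ^ 3 ≤ L ^ 5 := by
      have e1 : (1:ℝ) ≤ L ^ 3 := one_le_pow₀ (by linarith)
      have e2 : L ^ 3 ≤ L ^ 4 := pow_le_pow_right₀ (by linarith) (by norm_num)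
      have e3 : 10 * L ^ 4 ≤ L ^ 5 := by
        calc 10 * L ^ 4 ≤ L * L ^ 4 := mul_le_mul_of_nonneg_right (by linarith) (by positivity)
          _ = L ^ 5 := by ring
      have e4 : (4 + 6 * L ^ 3 * (L / 10 ^ 8)) * 2 + L ^ 3 =
          8 + 12 / 10 ^ 8 * L ^ 4 + L ^ 3 := by ring
      rw [e4]
      nlinarith
    linarith
  rw [h4, abs_mul, abs_of_pos hh0, mul_comm]
  exact mul_le_mul_of_nonneg_right h8 hh0.le

end Vale.Agent.P046
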