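import Vale.Agent.Lib.P046.S1Sup

/-!
# S1: one-step estimates for the number of edges

Every triangle removes exactly three edges (`card_removeTriangle` in Stop.lean, or directly from
the sum over ordered pairs: six ordered pairs), and
`3 P(triangle) = 3/n^3 ∑_{a,b} a_ab Y_ab = ε/2 ∑_{a,b} a_ab z_ab` (`avg_isTri`).
-/

namespace Vale.Agent.P046

open Finset

variable {n : ℕ} {G : SimpleGraph (Fin n)} {h L q : ℝ}

theorem Ne_nonneg : 0 ≤ Ne G := by
  unfold Ne
  have h1 : 0 ≤ ∑ u, ∑ v, aj G u v :=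
    Finset.sum_nonneg fun u _ => Finset.sum_nonneg fun v _ => aj_nonneg G u v
  linarith

open Classical in
private theorem s1ne_aj_lstep (t : Tr n) (ht : IsTri G t) (u v : Fin n) :
    aj (lstep G t) u v = aj G u v - if u ∈ tri t ∧ v ∈ tri t ∧ u ≠ v then 1 else 0 := by
  have hcl := (isTri_iff G t).1 ht
  have h1 : lstep G t = removeTriangle G (tri t) := by
    unfold lstep
    rw [if_pos ht]
  rw [h1]
  unfold aj
  by_cases huv : u ∈ tri t ∧ v ∈ tri t ∧ u ≠ v
  · have h2 : G.Adj u v := hcl.isClique huv.1 huv.2.1 huv.2.2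
    have h3 : ¬ (removeTriangle G (tri t)).Adj u v := by
      rw [removeTriangle_adj]
      tauto
    rw [if_neg h3, if_pos h2, if_pos huv]
    ring
  · rw [if_neg huv, sub_zero]
    by_cases h2 : G.Adj u v
    · have h3 : (removeTriangle G (tri t)).Adj u v := by
        rw [removeTriangle_adj]
        refine ⟨h2, fun h4 => huv ⟨h4.1, h4.2, h2.ne⟩⟩
      rw [if_pos h3, if_pos h2]
    · have h3 : ¬ (removeTriangle G (tri t)).Adj u v := by
        rw [removeTriangle_adj]
        tauto
      rw [if_neg h3, if_neg h2]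

open Classical in
theorem Ne_lstep (t : Tr n) : Ne (lstep G t) = Ne G - if IsTri G t then 3 else 0 := by
  by_cases ht : IsTri G t
  · rw [if_pos ht]
    unfold Ne
    have h1 : ∑ u, ∑ v, aj (lstep G t) u v = (∑ u, ∑ v, aj G u v) -
        ∑ u, ∑ v, (if u ∈ tri t ∧ v ∈ tri t ∧ u ≠ v then (1 : ℝ) else 0) := by
      simp only [s1ne_aj_lstep t ht, Finset.sum_sub_distrib]
    have hcard : (tri t).card = 3 := ((isTri_iff G t).1 ht).card_eq
    have h2 : ∑ u, ∑ v, (if u ∈ tri t ∧ v ∈ tri t ∧ u ≠ v then (1 : ℝ) else 0) = 6 := by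
      have h3 : ∀ u, ∑ v, (if u ∈ tri t ∧ v ∈ tri t ∧ u ≠ v then (1 : ℝ) else 0) =
          if u ∈ tri t then 2 else 0 := by
        intro u
        by_cases hu : u ∈ tri t
        · rw [if_pos hu, Finset.sum_boole]
          have h4 : (univ.filter fun v => u ∈ tri t ∧ v ∈ tri t ∧ u ≠ v) = (tri t).erase u := by
            ext v
            simp only [mem_filter, mem_univ, true_and, mem_erase]
            constructor
            · rintro ⟨_, h5, h6⟩
              exact ⟨h6.symm, h5⟩
            · rintro ⟨h5, h6⟩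
              exact ⟨hu, h6, h5.symm⟩
          rw [h4, Finset.card_erase_of_mem hu, hcard]
          norm_num
        · rw [if_neg hu]
          apply Finset.sum_eq_zero
          intro v _
          rw [if_neg]
          tauto
      simp only [h3]
      rw [← Finset.sum_filter, Finset.sum_const, nsmul_eq_mul]
      have h4 : (univ.filter fun u => u ∈ tri t) = tri t := by
        ext u
        simp
      rw [h4, hcard]
      norm_num
    rw [h1, h2]
    ring
  · rw [if_neg ht, sub_zero]
    have h1 : lstep G t = G := by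
      unfold lstep
      rw [if_neg ht]
    rw [h1]

open Classical in
private theorem s1ne_avg_tri (R : Reg G h L q) :
    3 * avg (fun t : Tr n => if IsTri G t then 1 else 0) =
      epr n h * Ne G + epr n h / 2 * ∑ a, ∑ b, aj G a b * al G h a b := by
  have hn : 0 < n := R.n_pos
  have hh := R.hpos
  have hn' : (n : ℝ) ≠ 0 := by positivity
  have h1 : ∀ a b, aj G a b * al G h a b =
      h * (aj G a b * ∑ x, aj G a x * aj G b x) - aj G a b := by
    intro a b
    unfold al zz
    ring
  rw [avg_isTri]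
  simp only [h1, Finset.sum_sub_distrib, ← Finset.mul_sum]
  unfold epr Ne
  set S : ℝ := ∑ a, ∑ b, aj G a b * ∑ x, aj G a x * aj G b x
  set T : ℝ := ∑ a, ∑ b, aj G a b
  have hh' : h ≠ 0 := hh.ne'
  field_simp
  ring

private theorem s1ne_err (R : Reg G h L q) :
    |∑ a, ∑ b, aj G a b * al G h a b| ≤ 2 * (L * √h * Ne G) := by
  have hX : 0 ≤ L * √h := by
    have := R.hL
    have h2 := Real.sqrt_nonneg h
    have h3 : 0 ≤ L := by linarith [show (0 : ℝ) ≤ 10 ^ 8 by norm_num]
    positivity
  have h1 : |∑ a, ∑ b, aj G a b * al G h a b| ≤ ∑ a, ∑ b, aj G a b * (L * √h) := by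
    refine (Finset.abs_sum_le_sum_abs _ _).trans (Finset.sum_le_sum fun a _ => ?_)
    refine (Finset.abs_sum_le_sum_abs _ _).trans (Finset.sum_le_sum fun b _ => ?_)
    rw [abs_mul, abs_of_nonneg (aj_nonneg G a b)]
    by_cases hab : a = b
    · subst hab
      rw [aj_self]
      simp
    · exact mul_le_mul_of_nonneg_left (R.al_le a b hab) (aj_nonneg G a b)
  refine h1.trans (le_of_eq ?_)
  simp only [← Finset.sum_mul]
  unfold Ne
  ring

open Classical in
private theorem s1ne_avg (R : Reg G h L q) : avg (fun t => Ne (lstep G t)) =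
    Ne G - 3 * avg (fun t : Tr n => if IsTri G t then 1 else 0) := by
  have h1 : ∀ t : Tr n, Ne (lstep G t) = Ne G - 3 * if IsTri G t then 1 else 0 := by
    intro t
    rw [Ne_lstep]
    split_ifs <;> ring
  simp only [h1]
  rw [avg_sub, avg_const R.n_pos, avg_mul]

theorem drift_Ne (R : Reg G h L q) :
    |avg (fun t => Ne (lstep G t)) - Ne G * (1 - epr n h)| ≤ L * √h * epr n h * Ne G := by
  have he := epr_pos R.n_pos R.hpos
  rw [s1ne_avg R, s1ne_avg_tri R]
  have h1 := s1ne_err R
  have h2 : Ne G - (epr n h * Ne G + epr n h / 2 * ∑ a, ∑ b, aj G a b * al G h a b) -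
      Ne G * (1 - epr n h) = -(epr n h / 2 * ∑ a, ∑ b, aj G a b * al G h a b) := by ring
  rw [h2, abs_neg, abs_mul, abs_of_pos (by positivity)]
  calc epr n h / 2 * |∑ a, ∑ b, aj G a b * al G h a b|
      ≤ epr n h / 2 * (2 * (L * √h * Ne G)) := by gcongr
    _ = L * √h * epr n h * Ne G := by ring

theorem var_Ne (R : Reg G h L q) :
    avg (fun t => (Ne (lstep G t) - avg (fun t => Ne (lstep G t))) ^ 2) ≤
      4 * epr n h * Ne G := by
  classical
  have he := epr_pos R.n_pos R.hpos
  have hN : 0 ≤ Ne G := Ne_nonneg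
  set m : ℝ := avg (fun t : Tr n => if IsTri G t then (1 : ℝ) else 0) with hm
  have h1 : ∀ t : Tr n, (Ne (lstep G t) - avg (fun t => Ne (lstep G t))) ^ 2 =
      (9 - 18 * m) * (if IsTri G t then (1 : ℝ) else 0) + 9 * m ^ 2 := by
    intro t
    rw [s1ne_avg R, ← hm, Ne_lstep]
    split_ifs <;> ring
  simp only [h1]
  rw [avg_add, avg_mul, avg_const R.n_pos, ← hm]
  have h2 := s1ne_avg_tri R
  rw [← hm] at h2
  have h3 := s1ne_err R
  have h4 : 0 ≤ m := by
    rw [hm]
    have := avg_mono (n := n) (f := fun _ => 0)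
      (g := fun t : Tr n => if IsTri G t then (1 : ℝ) else 0) fun t => by
        split_ifs <;> norm_num
    rwa [avg_const R.n_pos] at this
  have h5 : L * √h ≤ 1 / 3 := by
    have h6 := R.h_small
    have hL := R.hL
    have h7 : 1 ≤ L := by linarith [show (1 : ℝ) ≤ 10 ^ 8 by norm_num]
    have h8 := Real.sqrt_nonneg h
    have h9 : L ≤ L ^ 9 := by
      calc L = L ^ 1 := (pow_one L).symm
        _ ≤ L ^ 9 := pow_le_pow_right₀ h7 (by norm_num)
    have h10 : L * √h ≤ L ^ 9 * √h := by gcongr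
    linarith [show (1 : ℝ) / 10 ^ 8 ≤ 1 / 3 by norm_num]
  have h6 : 3 * m ≤ epr n h * Ne G + epr n h / 2 * (2 * (L * √h * Ne G)) := by
    rw [h2]
    have h7 := (le_abs_self _).trans h3
    have : epr n h / 2 * ∑ a, ∑ b, aj G a b * al G h a b ≤
        epr n h / 2 * (2 * (L * √h * Ne G)) := by gcongr
    linarith
  have h7 : L * √h * Ne G ≤ 1 / 3 * Ne G := by gcongr
  have h8 : epr n h / 2 * (2 * (L * √h * Ne G)) ≤ epr n h / 2 * (2 * (1 / 3 * Ne G)) := by gcongr
  have h9 : (9 - 18 * m) * m + 9 * m ^ 2 ≤ 9 * m := by nlinarith [sq_nonneg m]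
  nlinarith

end Vale.Agent.P046
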