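import Vale.Agent.Lib.P046.S1Init
import Vale.Agent.Lib.P046.S1CloseD
import Vale.Agent.Lib.P046.S1Ne

/-!
# S1: the deterministic closure for the triple codegrees and the number of edges

* C3, dense times `1600 L^2 ≤ qq n l.length` (then also all earlier times are dense), `F = C3/qq`:
  if `Gd n L l` then `F l ≤ 3/2`, `qq_{j+1} = qq_j / (s √s)`, `s √s (1 - 3 ε) = 1 + O(7 ε^2)`, so by
  `drift_C3` `|avg F⁺ - F| ≤ 3/2 * 42/10 L √h ε`.  `|F [] - 1| = 3/n`.  So
  `|F - 1| ≤ 3/n + 63/10 L ∑ ep √hh + L/√qq ≤ 3/n + 12.6 L √hh + L/√qq ≤ 20 L/√qq`.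
* C3, sparse times: `C3` does not increase; if the previous time was sparse use its bound
  `6400 L^2`, if it was dense, `C3 ≤ 1.5 qq_j ≤ 1.6 qq_{j+1} ≤ 1.6 * 1600 L^2`.
* Ne, `F = Ne/N0`, `N0_{j+1} = N0_j/√s`, `√s (1 - ε) = 1 + O(ε^2)`; `Gd` gives `F ≤ 11/10`;
  `|avg F⁺ - F| ≤ 1.1 * 1.1 L √h ε`, `F [] = 1 - 1/n`; so
  `|F - 1| ≤ 1/n + 1.21 L * 2 √hh + √hh ≤ 4 L √hh`.
-/

namespace Vale.Agent.P046

open Finset

variable {n J : ℕ} {L : ℝ}

/-- the square root factor -/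
theorem s1closen_sqrt {ε : ℝ} (h0 : 0 ≤ ε) (h1 : ε ≤ 1 / 10) :
    1 ≤ √(1 + 2 * ε) ∧ √(1 + 2 * ε) ≤ 1 + ε ∧ |√(1 + 2 * ε) * (1 - ε) - 1| ≤ 3 * ε ^ 2 := by
  set s := √(1 + 2 * ε) with hs
  have hsq : s ^ 2 = 1 + 2 * ε := Real.sq_sqrt (by linarith)
  have hs0 : 0 ≤ s := Real.sqrt_nonneg _
  have hs1 : 1 ≤ s := by nlinarith
  have hs2 : s ≤ 1 + ε := by
    rw [hs]
    exact (Real.sqrt_le_left (by linarith)).mpr (by nlinarith)
  refine ⟨hs1, hs2, ?_⟩
  have h3 : (s * (1 - ε)) ^ 2 = 1 - 3 * ε ^ 2 + 2 * ε ^ 3 := by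
    rw [mul_pow, hsq]; ring
  have h4 : 0 ≤ s * (1 - ε) := mul_nonneg hs0 (by linarith)
  have h5 : 0 ≤ ε ^ 3 := by positivity
  have h6 : ε ^ 2 ≤ 1 / 100 := by nlinarith
  rw [abs_le]
  constructor
  · have h7 : (1 - 3 * ε ^ 2) ^ 2 ≤ (s * (1 - ε)) ^ 2 := by
      rw [h3]
      have : (1 - 3 * ε ^ 2) ^ 2 ≤ 1 - 3 * ε ^ 2 := by nlinarith [sq_nonneg ε]
      linarith
    have h8 := abs_le_of_sq_le_sq' h7 h4
    linarith [h8.2]
  · have h7 : s * (1 - ε) ≤ (1 + ε) * (1 - ε) :=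
      mul_le_mul_of_nonneg_right hs2 (by linarith)
    nlinarith [sq_nonneg ε]

/-- sizes of the parameters at one time -/
theorem s1closen_small (P : Par n J L) {j : ℕ} (hj : j ≤ J) :
    L * √(hh n j) ≤ 1 / 10 ^ 8 ∧ hh n j ≤ √(hh n j) ∧ hh n j ^ 2 ≤ √(hh n j) ∧
      hh n j ≤ 1 / 10 ^ 8 ∧ ep n j ≤ 6 * hh n j ^ 2 ∧ 1 / (n : ℝ) ≤ hh n j := by
  have hL := P.L_ge
  have hn := P.hn
  have hnR : (0:ℝ) < n := by exact_mod_cast hn
  have hp := hh_pos hn j
  have h1 := P.hh_le hj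
  have hL0 : (0:ℝ) < L := by linarith [hL, (by norm_num : (0:ℝ) < 10 ^ 8)]
  have hL1 : (1:ℝ) ≤ L := le_trans (by norm_num) hL
  set h := hh n j with hh_def
  have hs : 0 ≤ √h := Real.sqrt_nonneg _
  have hsq : √h ^ 2 = h := Real.sq_sqrt hp.le
  have h2 : L ^ 4 * h ≤ 1 := by
    have : L ^ 4 ≤ L ^ 20 := pow_le_pow_right₀ hL1 (by norm_num)
    nlinarith [hp]
  have h3 : L ^ 2 * √h ≤ 1 := by
    have h31 : (L ^ 2 * √h) ^ 2 ≤ 1 ^ 2 := by
      rw [mul_pow, hsq]
      calc (L ^ 2) ^ 2 * h = L ^ 4 * h := by ring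
        _ ≤ 1 := h2
        _ = 1 ^ 2 := by norm_num
    exact (abs_le_of_sq_le_sq' h31 (by norm_num)).2
  have h4 : L * √h ≤ 1 / 10 ^ 8 := by
    have h41 : (10 ^ 8 : ℝ) * (L * √h) ≤ L * (L * √h) :=
      mul_le_mul_of_nonneg_right hL (by positivity)
    have h42 : L * (L * √h) = L ^ 2 * √h := by ring
    rw [le_div_iff₀ (by norm_num)]
    linarith
  have h5 : √h ≤ 1 / 10 ^ 8 := by
    have : 1 * √h ≤ L * √h := mul_le_mul_of_nonneg_right hL1 hs
    linarith
  have h6 : h ≤ √h := by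
    have : √h * √h ≤ 1 * √h := mul_le_mul_of_nonneg_right (le_trans h5 (by norm_num)) hs
    nlinarith
  have h7 : h ≤ 1 / 10 ^ 8 := h6.trans h5
  have h8 : h ^ 2 ≤ √h := by
    have : h * h ≤ 1 * h := mul_le_mul_of_nonneg_right (le_trans h7 (by norm_num)) hp.le
    nlinarith
  have h9 : 1 / (n : ℝ) ≤ h := by
    rw [div_le_iff₀ hnR]
    have := one_le_mul_hh hn j
    linarith
  have h10 : ep n j ≤ 6 * h ^ 2 := by
    refine (ep_le hn j).trans ?_
    have h101 : (1 / (n : ℝ)) ^ 2 ≤ h ^ 2 := pow_le_pow_left₀ (by positivity) h9 2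
    calc 6 / (n : ℝ) ^ 2 = 6 * (1 / (n : ℝ)) ^ 2 := by ring
      _ ≤ 6 * h ^ 2 := by linarith
  exact ⟨h4, h6, h8, h7, h10, h9⟩

/-- the one step drift of the normalised number of edges -/
theorem s1closen_step (P : Par n J L) (l : List (Tr n)) (hl : l.length ≤ J) (g : Gd n L l) :
    |avg (fun t' => FN n (t' :: l)) - FN n l| ≤
      121 / 100 * L * (ep n l.length * √(hh n l.length)) := by
  have hn := P.hn
  obtain ⟨a1, a2, a3, a4, a5, a6⟩ := s1closen_small P hl
  have hL := P.L_ge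
  have R := g.reg P hl
  have hd := drift_Ne R
  have hNe := g.Ne_le
  have hN0 := N0_pos hn l.length
  have hN1 := N0_succ hn l.length
  have hep := ep_pos hn l.length
  have hhp := hh_pos hn l.length
  change |avg (fun t => Ne (lstep (gr l) t)) - Ne (gr l) * (1 - ep n l.length)| ≤
    L * √(hh n l.length) * ep n l.length * Ne (gr l) at hd
  have hF1 : ∀ t', FN n (t' :: l) =
      √(1 + 2 * ep n l.length) / N0 n l.length * Ne (lstep (gr l) t') := by
    intro t'
    unfold FN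
    rw [List.length_cons, hN1, gr, div_div_eq_mul_div]
    ring
  have hF2 : FN n l = Ne (gr l) / N0 n l.length := rfl
  have hNe0 : 0 ≤ Ne (gr l) := Ne_nonneg
  set ε := ep n l.length with hε
  set h := hh n l.length with hh_def
  set N := N0 n l.length with hN
  set e := Ne (gr l) with he
  set A := avg (fun t => Ne (lstep (gr l) t)) with hA
  have hs : 0 ≤ √h := Real.sqrt_nonneg _
  have hε1 : ε ≤ 1 / 1000 := by
    have : h ^ 2 ≤ 1 / 10 ^ 8 := by nlinarith
    linarith [a5, this, (by norm_num : (6:ℝ) * (1 / 10 ^ 8) ≤ 1 / 1000)]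
  obtain ⟨s1, s2, s3⟩ := s1closen_sqrt hep.le (le_trans hε1 (by norm_num))
  set s := √(1 + 2 * ε) with hs_def
  have havg : avg (fun t' => FN n (t' :: l)) = s / N * A := by
    rw [hA, ← avg_mul]
    congr 1
    funext t'
    exact hF1 t'
  rw [havg, hF2]
  have hle : e / N ≤ 11 / 10 := by
    rw [div_le_iff₀ hN0]
    have h1 := (abs_le.mp hNe).2
    have h2 : 4 * L * √h * N ≤ 1 / 10 * N := by
      refine mul_le_mul_of_nonneg_right ?_ hN0.le
      linarith [a1, (by norm_num : (4:ℝ) * (1 / 10 ^ 8) ≤ 1 / 10)]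
    linarith
  have he0 : 0 ≤ e / N := div_nonneg hNe0 hN0.le
  have hsplit : s / N * A - e / N =
      s / N * (A - e * (1 - ε)) + (s * (1 - ε) - 1) * (e / N) := by
    field_simp
    ring
  have hLs : 0 ≤ L * √h := mul_nonneg (le_trans (by norm_num) hL) hs
  have b1 : |s / N * (A - e * (1 - ε))| ≤ s * (L * √h * ε) * (e / N) := by
    rw [abs_mul, abs_of_nonneg (div_nonneg (le_trans zero_le_one s1) hN0.le)]
    calc s / N * |A - e * (1 - ε)| ≤ s / N * (L * √h * ε * e) :=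
          mul_le_mul_of_nonneg_left hd (div_nonneg (le_trans zero_le_one s1) hN0.le)
      _ = s * (L * √h * ε) * (e / N) := by ring
  have b2 : |(s * (1 - ε) - 1) * (e / N)| ≤ 3 * ε ^ 2 * (e / N) := by
    rw [abs_mul, abs_of_nonneg he0]
    exact mul_le_mul_of_nonneg_right s3 he0
  have b3 : s * (L * √h * ε) ≤ 101 / 100 * (L * √h * ε) :=
    mul_le_mul_of_nonneg_right (by linarith) (mul_nonneg hLs hep.le)
  have b4 : 3 * ε ^ 2 ≤ 1 / 100 * (L * √h * ε) := by
    have c1 : ε ≤ 6 * √h := by linarith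
    have c2 : 1800 * √h ≤ L * √h :=
      mul_le_mul_of_nonneg_right (le_trans (by norm_num) hL) hs
    have c3 : 3 * ε ≤ 1 / 100 * (L * √h) := by linarith
    calc 3 * ε ^ 2 = 3 * ε * ε := by ring
      _ ≤ 1 / 100 * (L * √h) * ε := mul_le_mul_of_nonneg_right c3 hep.le
      _ = 1 / 100 * (L * √h * ε) := by ring
  have b5 : 0 ≤ L * √h * ε := mul_nonneg hLs hep.le
  rw [hsplit]
  calc |s / N * (A - e * (1 - ε)) + (s * (1 - ε) - 1) * (e / N)|
      ≤ |s / N * (A - e * (1 - ε))| + |(s * (1 - ε) - 1) * (e / N)| := abs_add_le _ _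
    _ ≤ s * (L * √h * ε) * (e / N) + 3 * ε ^ 2 * (e / N) := add_le_add b1 b2
    _ = (s * (L * √h * ε) + 3 * ε ^ 2) * (e / N) := by ring
    _ ≤ (102 / 100 * (L * √h * ε)) * (e / N) :=
        mul_le_mul_of_nonneg_right (by linarith) he0
    _ ≤ (102 / 100 * (L * √h * ε)) * (11 / 10) :=
        mul_le_mul_of_nonneg_left hle (by linarith)
    _ ≤ 121 / 100 * L * (ε * √h) := by nlinarith

theorem close_N_aux (P : Par n J L) (l : List (Tr n)) (hl : l.length ≤ J) (ho : Okp n L l) :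
    |FN n l - mart (Ok n L) (FN n) l - 1| ≤ 1 / n +
      121 / 100 * L * ∑ i ∈ range l.length, ep n i * √(hh n i) := by
  induction l with
  | nil =>
    have hn := P.hn
    have hnR : (0:ℝ) < n := by exact_mod_cast hn
    have h1 : FN n [] = 1 - 1 / n := by
      unfold FN
      rw [List.length_nil, N0_zero hn, gr, Ne_top]
      field_simp
    rw [h1, mart, List.length_nil, Finset.range_zero, Finset.sum_empty]
    have h2 : (1 - 1 / (n:ℝ) - 0 - 1) = - (1 / n) := by ring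
    rw [h2, abs_neg, abs_of_nonneg (by positivity)]
    linarith
  | cons t l ih =>
    have hl' : l.length ≤ J := by
      rw [List.length_cons] at hl
      omega
    obtain ⟨g, o⟩ := ho
    have h1 := ih hl' o
    have h2 := s1closen_step P l hl' g
    have h3 := mart_cons_sub (P := Ok n L) (F := FN n) (l := l) ⟨g, o⟩ t
    rw [h3, List.length_cons, Finset.sum_range_succ]
    calc |FN n l - mart (Ok n L) (FN n) l + (avg (fun t' => FN n (t' :: l)) - FN n l) - 1|
        = |(FN n l - mart (Ok n L) (FN n) l - 1) +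
            (avg (fun t' => FN n (t' :: l)) - FN n l)| := by
          congr 1
          ring
      _ ≤ |FN n l - mart (Ok n L) (FN n) l - 1| +
            |avg (fun t' => FN n (t' :: l)) - FN n l| := abs_add_le _ _
      _ ≤ (1 / n + 121 / 100 * L * ∑ i ∈ range l.length, ep n i * √(hh n i)) +
            121 / 100 * L * (ep n l.length * √(hh n l.length)) := add_le_add h1 h2
      _ = 1 / n + 121 / 100 * L * (∑ i ∈ range l.length, ep n i * √(hh n i) +
            ep n l.length * √(hh n l.length)) := by ring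

theorem s1closen_MB {l : List (Tr n)} (hm : MBs n L l) : MB n L l := by
  cases l with
  | nil => exact hm
  | cons t l => exact hm.1

theorem close_N (P : Par n J L) (l : List (Tr n)) (hl : l.length ≤ J) (ho : Okp n L l)
    (hm : MBs n L l) :
    |Ne (gr l) - N0 n l.length| ≤ 4 * L * √(hh n l.length) * N0 n l.length := by
  have h1 := close_N_aux P l hl ho
  have h2 := (s1closen_MB hm).Ne_le
  have h3 := sum_ep_sqrt P.n_ge' l.length
  obtain ⟨a1, a2, a3, a4, a5, a6⟩ := s1closen_small P hl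
  have hL := P.L_ge
  have hN0 := N0_pos P.hn l.length
  have hL0 : (0:ℝ) ≤ 121 / 100 * L := by linarith [hL, (by norm_num : (0:ℝ) < 10 ^ 8)]
  have h4 : 121 / 100 * L * ∑ i ∈ range l.length, ep n i * √(hh n i) ≤
      121 / 100 * L * (2 * √(hh n l.length)) := mul_le_mul_of_nonneg_left h3 hL0
  have hs : 0 ≤ √(hh n l.length) := Real.sqrt_nonneg _
  have h5 : |FN n l - 1| ≤ 4 * L * √(hh n l.length) := by
    have h6 : |FN n l - 1| ≤ |FN n l - mart (Ok n L) (FN n) l - 1| +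
        |mart (Ok n L) (FN n) l| := by
      have : FN n l - 1 = (FN n l - mart (Ok n L) (FN n) l - 1) + mart (Ok n L) (FN n) l := by ring
      calc |FN n l - 1| = |(FN n l - mart (Ok n L) (FN n) l - 1) + mart (Ok n L) (FN n) l| := by
            rw [← this]
        _ ≤ _ := abs_add_le _ _
    have h7 : 2 * √(hh n l.length) ≤ L * √(hh n l.length) :=
      mul_le_mul_of_nonneg_right (le_trans (by norm_num) hL) hs
    have h8 : 0 ≤ L * √(hh n l.length) := le_trans (by linarith) h7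
    linarith
  have h9 : Ne (gr l) - N0 n l.length = (FN n l - 1) * N0 n l.length := by
    unfold FN
    field_simp
  rw [h9, abs_mul, abs_of_pos hN0]
  exact mul_le_mul_of_nonneg_right h5 hN0.le

end Vale.Agent.P046
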