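import Vale.Agent.Lib.P046.S1D

/-!
# S1: the exponential tail bound for stopped martingales of the lazy chain
-/

namespace Vale.Agent.P046

open Finset

variable {n : ℕ}

theorem avg_noise (hn : 0 < n) (P : List (Tr n) → Prop) (F : List (Tr n) → ℝ)
    (l : List (Tr n)) : avg (noise P F l) = 0 := by
  classical
  by_cases hP : P l
  · have h1 : noise P F l = fun t => F (t :: l) - avg (fun t' => F (t' :: l)) := by
      funext t
      simp only [noise, if_pos hP]
    rw [h1, avg_sub, avg_const hn, sub_self]
  · have h1 : noise P F l = fun _ => 0 := by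
      funext t
      simp only [noise, if_neg hP]
    rw [h1, avg_const hn]

/-- Induction on `j`: `exp x ≤ 1 + x + x ^ 2` for `|x| ≤ 1`, `avg_noise`, `1 + y ≤ exp y`. -/
theorem mart_exp (hn : 0 < n) (P : List (Tr n) → Prop) (F : List (Tr n) → ℝ) (j : ℕ)
    (v : ℕ → ℝ) (b c : ℝ) (hc : |c| * b ≤ 1)
    (hb : ∀ l, l.length < j → ∀ t, |noise P F l t| ≤ b)
    (hv : ∀ l, l.length < j → avg (fun t => noise P F l t ^ 2) ≤ v l.length) :
    EL j (fun l => Real.exp (c * mart P F l)) ≤ Real.exp (c ^ 2 * ∑ i ∈ range j, v i) := by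
  induction j with
  | zero => simp [EL, mart]
  | succ j ih =>
    have ih' := ih (fun l hl => hb l (by omega)) (fun l hl => hv l (by omega))
    have hstep : ∀ l : List (Tr n), l.length = j →
        avg (fun t => Real.exp (c * mart P F (t :: l))) ≤
          Real.exp (c ^ 2 * v j) * Real.exp (c * mart P F l) := by
      intro l hl
      have h1 : ∀ t, Real.exp (c * mart P F (t :: l)) ≤
          Real.exp (c * mart P F l) * (1 + c * noise P F l t + c ^ 2 * noise P F l t ^ 2) := by
        intro t
        have h2 : |c * noise P F l t| ≤ 1 := by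
          rw [abs_mul]
          exact (mul_le_mul_of_nonneg_left (hb l (by omega) t) (abs_nonneg c)).trans hc
        have h3 := (abs_le.1 (Real.abs_exp_sub_one_sub_id_le h2)).2
        have h4 : Real.exp (c * noise P F l t) ≤
            1 + c * noise P F l t + c ^ 2 * noise P F l t ^ 2 := by
          have : (c * noise P F l t) ^ 2 = c ^ 2 * noise P F l t ^ 2 := by ring
          linarith
        rw [mart, mul_add, Real.exp_add]
        exact mul_le_mul_of_nonneg_left h4 (Real.exp_pos _).le
      refine (avg_mono h1).trans ?_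
      rw [avg_mul, mul_comm]
      refine mul_le_mul_of_nonneg_right ?_ (Real.exp_pos _).le
      have h5 : avg (fun t => 1 + c * noise P F l t + c ^ 2 * noise P F l t ^ 2) =
          1 + c ^ 2 * avg (fun t => noise P F l t ^ 2) := by
        rw [avg_add (fun t => 1 + c * noise P F l t) (fun t => c ^ 2 * noise P F l t ^ 2),
          avg_add (fun _ => 1) (fun t => c * noise P F l t), avg_const hn, avg_mul, avg_mul,
          avg_noise hn]
        ring
      rw [h5]
      have h6 : c ^ 2 * avg (fun t => noise P F l t ^ 2) ≤ c ^ 2 * v j := by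
        have := hv l (by omega)
        rw [hl] at this
        exact mul_le_mul_of_nonneg_left this (sq_nonneg c)
      have h7 := Real.add_one_le_exp (c ^ 2 * v j)
      linarith
    calc EL (j + 1) (fun l => Real.exp (c * mart P F l))
        = EL j (fun l => avg fun t => Real.exp (c * mart P F (t :: l))) := rfl
      _ ≤ EL j (fun l => Real.exp (c ^ 2 * v j) * Real.exp (c * mart P F l)) :=
          EL_mono_len j _ _ hstep
      _ = Real.exp (c ^ 2 * v j) * EL j (fun l => Real.exp (c * mart P F l)) := EL_mul j _ _
      _ ≤ Real.exp (c ^ 2 * v j) * Real.exp (c ^ 2 * ∑ i ∈ range j, v i) :=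
          mul_le_mul_of_nonneg_left ih' (Real.exp_pos _).le
      _ = Real.exp (c ^ 2 * ∑ i ∈ range (j + 1), v i) := by
          rw [← Real.exp_add, Finset.sum_range_succ]
          congr 1
          ring

open Classical in
/-- Markov with `c = ± min (x / (2 V)) (1 / b)`. -/
theorem mart_tail (hn : 0 < n) (P : List (Tr n) → Prop) (F : List (Tr n) → ℝ) (j : ℕ)
    (v : ℕ → ℝ) (b V x : ℝ) (hb0 : 0 < b) (hV0 : 0 < V) (hx : 0 < x)
    (hb : ∀ l, l.length < j → P l → ∀ t,
      |F (t :: l) - avg (fun t' => F (t' :: l))| ≤ b)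
    (hv : ∀ l, l.length < j → P l →
      avg (fun t => (F (t :: l) - avg (fun t' => F (t' :: l))) ^ 2) ≤ v l.length)
    (hv0 : ∀ i, 0 ≤ v i) (hV : ∑ i ∈ range j, v i ≤ V) :
    EL j (fun l => if x < |mart P F l| then 1 else 0) ≤
      2 * Real.exp (-(min (x ^ 2 / (4 * V)) (x / (2 * b)))) := by
  obtain ⟨c, hc⟩ : ∃ c, c = min (x / (2 * V)) (1 / b) := ⟨_, rfl⟩
  have hc0 : 0 < c := by
    rw [hc]
    exact lt_min (by positivity) (by positivity)
  have hcb : c * b ≤ 1 := by
    have h1 : c ≤ 1 / b := by rw [hc]; exact min_le_right _ _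
    calc c * b ≤ 1 / b * b := mul_le_mul_of_nonneg_right h1 hb0.le
      _ = 1 := by field_simp
  have hcV : c * (2 * V) ≤ x := by
    have h1 : c ≤ x / (2 * V) := by rw [hc]; exact min_le_left _ _
    rwa [le_div_iff₀ (by positivity)] at h1
  have hb' : ∀ l, l.length < j → ∀ t, |noise P F l t| ≤ b := by
    intro l hl t
    by_cases hP : P l
    · simp only [noise, if_pos hP]
      exact hb l hl hP t
    · simp only [noise, if_neg hP, abs_zero]
      exact hb0.le
  have hv' : ∀ l, l.length < j → avg (fun t => noise P F l t ^ 2) ≤ v l.length := by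
    intro l hl
    by_cases hP : P l
    · have h1 : (fun t => noise P F l t ^ 2) =
          fun t => (F (t :: l) - avg (fun t' => F (t' :: l))) ^ 2 := by
        funext t
        simp only [noise, if_pos hP]
      rw [h1]
      exact hv l hl hP
    · have h1 : (fun t => noise P F l t ^ 2) = fun _ => (0 : ℝ) := by
        funext t
        simp only [noise, if_neg hP]
        norm_num
      rw [h1, avg_const hn]
      exact hv0 _
  have e1 := mart_exp hn P F j v b c (by rw [abs_of_pos hc0]; exact hcb) hb' hv'
  have e2 := mart_exp hn P F j v b (-c) (by rw [abs_neg, abs_of_pos hc0]; exact hcb) hb' hv'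
  have h3 : Real.exp (c ^ 2 * ∑ i ∈ range j, v i) ≤ Real.exp (c ^ 2 * V) :=
    Real.exp_le_exp.2 (mul_le_mul_of_nonneg_left hV (sq_nonneg c))
  have h3' : Real.exp ((-c) ^ 2 * ∑ i ∈ range j, v i) ≤ Real.exp (c ^ 2 * V) := by
    rw [neg_sq]
    exact h3
  have hpt : ∀ l : List (Tr n), (if x < |mart P F l| then (1 : ℝ) else 0) ≤
      Real.exp (-(c * x)) * (Real.exp (c * mart P F l) + Real.exp (-c * mart P F l)) := by
    intro l
    split_ifs with h
    · rw [mul_add, ← Real.exp_add, ← Real.exp_add]
      have p1 := Real.exp_pos (-(c * x) + c * mart P F l)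
      have p2 := Real.exp_pos (-(c * x) + -c * mart P F l)
      rcases lt_abs.1 h with h4 | h4
      · have : 0 ≤ -(c * x) + c * mart P F l := by
          have := mul_le_mul_of_nonneg_left h4.le hc0.le
          linarith
        have := Real.one_le_exp this
        linarith
      · have : 0 ≤ -(c * x) + -c * mart P F l := by
          have := mul_le_mul_of_nonneg_left h4.le hc0.le
          linarith
        have := Real.one_le_exp this
        linarith
    · positivity
  have hmin : c ^ 2 * V - c * x ≤ -(min (x ^ 2 / (4 * V)) (x / (2 * b))) := by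
    have h5 : c ^ 2 * V ≤ c * x / 2 := by
      have := mul_le_mul_of_nonneg_left hcV hc0.le
      have h6 : c * (c * (2 * V)) = 2 * (c ^ 2 * V) := by ring
      linarith
    have h7 : min (x ^ 2 / (4 * V)) (x / (2 * b)) = c * x / 2 := by
      have h8 : x ^ 2 / (4 * V) = (x / 2) * (x / (2 * V)) := by
        field_simp
        ring
      have h9 : x / (2 * b) = (x / 2) * (1 / b) := by
        field_simp
      rw [h8, h9, ← mul_min_of_nonneg _ _ (by positivity), ← hc]
      ring
    rw [h7]
    linarith
  calc EL j (fun l => if x < |mart P F l| then 1 else 0)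
      ≤ EL j (fun l => Real.exp (-(c * x)) *
          (Real.exp (c * mart P F l) + Real.exp (-c * mart P F l))) := EL_mono j hpt
    _ = Real.exp (-(c * x)) * (EL j (fun l => Real.exp (c * mart P F l)) +
          EL j (fun l => Real.exp (-c * mart P F l))) := by
        rw [EL_mul, EL_add]
    _ ≤ Real.exp (-(c * x)) * (Real.exp (c ^ 2 * V) + Real.exp (c ^ 2 * V)) :=
        mul_le_mul_of_nonneg_left (add_le_add (e1.trans h3) (e2.trans h3')) (Real.exp_pos _).le
    _ = 2 * Real.exp (c ^ 2 * V - c * x) := by
        rw [show c ^ 2 * V - c * x = -(c * x) + c ^ 2 * V by ring, Real.exp_add]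
        ring
    _ ≤ 2 * Real.exp (-(min (x ^ 2 / (4 * V)) (x / (2 * b)))) := by
        have := Real.exp_le_exp.2 hmin
        linarith

end Vale.Agent.P046
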