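import Vale.Agent.Lib.P046.S1N1

/-!
# S1: the variances of `al` and `be`

Write `ε = epr n h`, `s = 1 + 2 ε`, `f = H δ = h^2 N1`.

`al⁺ - E al⁺ = - s (δ - E δ)`, `0 ≤ δ ≤ 2 h`.

`E f^2`: if the triple is a triangle containing `u` and `v` (probability `ε a z ≤ 1.001 ε` by
`avg_mem_two`) use `f ≤ 4.2 h`; otherwise `f ≤ h^2 (2 M + 12)`, `M = 2 q + 6400 L^2`, and
`E f ≤ 4.5 ε`.

`be' - be = - f - D al'`, `|D al'| ≤ 2 (L √h + 2h) δ`, so
`E (be' - be)^2 ≤ 2 E f^2 + 2 * 4 (L √h + 2 h)^2 E δ^2`.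

`be⁺ - E be⁺ = s^2 ((be' - be) - E(be' - be)) - (2 s^2 - 2 s)(δ - E δ)`.
-/

namespace Vale.Agent.P046

open Finset

variable {n : ℕ} {G : SimpleGraph (Fin n)} {h L q : ℝ}

/-- variance is at most the second moment -/
theorem avg_sub_avg_sq_le (hn : 0 < n) (f : Tr n → ℝ) :
    avg (fun t => (f t - avg f) ^ 2) ≤ avg fun t => f t ^ 2 := by
  have h1 : avg (fun t => (f t - avg f) ^ 2) =
      avg (fun t => f t ^ 2) - 2 * avg f * avg f + avg f ^ 2 := by
    have e1 : (fun t => (f t - avg f) ^ 2) =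
        fun t => (f t ^ 2 - 2 * avg f * f t) + avg f ^ 2 := by
      funext t
      ring
    rw [e1, avg_add, avg_sub, avg_mul, avg_const hn]
  rw [h1]
  nlinarith [sq_nonneg (avg f)]

private theorem s1varbe_facts (R : Reg G h L q) :
    0 < n ∧ 0 < epr n h ∧ epr n h ≤ 1 / 10 ^ 6 ∧ h ≤ 1 / 10 ^ 8 ∧ epr n h ≤ h ∧ 0 < h ∧
      10 ^ 8 ≤ L := by
  have hn := R.n_pos
  have hL := R.hL
  have hh := R.hpos
  have h1 := epr_pos hn hh
  have h2 := R.epr_le
  have h3 := R.h_small'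
  have hL1 : (1 : ℝ) ≤ L ^ 19 := one_le_pow₀ (by linarith)
  have h4 : h ≤ 1 / 10 ^ 8 := by
    have : 1 * h ≤ L ^ 19 * h := mul_le_mul_of_nonneg_right hL1 hh.le
    linarith
  have h5 : 6 * h ^ 2 ≤ h := by nlinarith
  refine ⟨hn, h1, ?_, h4, by linarith, hh, hL⟩
  have : (1 : ℝ) / 10 ^ 8 ≤ 1 / 10 ^ 6 := by norm_num
  linarith

private theorem s1varbe_avg_bounds (hn : 0 < n) {f : Tr n → ℝ} {a b : ℝ} (h1 : ∀ t, a ≤ f t)
    (h2 : ∀ t, f t ≤ b) : a ≤ avg f ∧ avg f ≤ b := by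
  constructor
  · have := avg_mono (f := fun _ => a) (g := f) h1
    rwa [avg_const hn] at this
  · have := avg_mono (f := f) (g := fun _ => b) h2
    rwa [avg_const hn] at this

/-- the deviation of `al` -/
private theorem s1varbe_al (R : Reg G h L q) (u v : Fin n) (t : Tr n) :
    al (lstep G t) ((1 + 2 * epr n h) * h) u v -
      avg (fun t => al (lstep G t) ((1 + 2 * epr n h) * h) u v) =
      -((1 + 2 * epr n h) * (de G h t u v - avg fun t => de G h t u v)) := by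
  have hn := R.n_pos
  have e1 : (fun t : Tr n => al (lstep G t) ((1 + 2 * epr n h) * h) u v) =
      fun t => ((1 + 2 * epr n h) * zz G h u v - 1) - (1 + 2 * epr n h) * de G h t u v := by
    funext t
    rw [al_scale, zz_lstep]
    ring
  rw [e1, avg_sub, avg_const hn, avg_mul, al_scale, zz_lstep]
  ring

theorem jump_al (R : Reg G h L q) {u v : Fin n} (huv : u ≠ v) (t : Tr n) :
    |al (lstep G t) ((1 + 2 * epr n h) * h) u v -
      avg (fun t => al (lstep G t) ((1 + 2 * epr n h) * h) u v)| ≤ 5 * h := by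
  obtain ⟨hn, he, he1, hh1, -, hh, -⟩ := s1varbe_facts R
  have h1 := s1varbe_avg_bounds hn (fun t => de_nonneg G h t u v hh.le)
    (fun t => de_le G h t u v hh.le)
  have h2 := de_nonneg G h t u v hh.le
  have h3 := de_le G h t u v hh.le
  rw [s1varbe_al R, abs_neg, abs_mul, abs_of_pos (by linarith : 0 < 1 + 2 * epr n h)]
  have h4 : |de G h t u v - avg fun t => de G h t u v| ≤ 2 * h := by
    rw [abs_le]
    constructor <;> linarith [h1.1, h1.2]
  have h5 : (1 + 2 * epr n h) * |de G h t u v - avg fun t => de G h t u v| ≤ 2 * (2 * h) :=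
    mul_le_mul (by linarith) h4 (abs_nonneg _) (by norm_num)
  linarith

private theorem s1varbe_de (R : Reg G h L q) {u v : Fin n} (huv : u ≠ v) :
    avg (fun t => (de G h t u v - avg fun t => de G h t u v) ^ 2) ≤ 42 / 10 * h * epr n h :=
  (avg_sub_avg_sq_le R.n_pos _).trans (R.avg_de_sq_le huv)

theorem var_al (R : Reg G h L q) {u v : Fin n} (huv : u ≠ v) :
    avg (fun t => (al (lstep G t) ((1 + 2 * epr n h) * h) u v -
      avg (fun t => al (lstep G t) ((1 + 2 * epr n h) * h) u v)) ^ 2) ≤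
      6 * h * epr n h := by
  obtain ⟨hn, he, he1, hh1, -, hh, -⟩ := s1varbe_facts R
  have e1 : (fun t : Tr n => (al (lstep G t) ((1 + 2 * epr n h) * h) u v -
      avg (fun t => al (lstep G t) ((1 + 2 * epr n h) * h) u v)) ^ 2) =
      fun t => (1 + 2 * epr n h) ^ 2 * (de G h t u v - avg fun t => de G h t u v) ^ 2 := by
    funext t
    rw [s1varbe_al R]
    ring
  rw [e1, avg_mul]
  have h1 := s1varbe_de R huv
  have h2 : (1 + 2 * epr n h) ^ 2 ≤ 11 / 10 := by nlinarith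
  have h3 : 0 ≤ 42 / 10 * h * epr n h := by positivity
  calc (1 + 2 * epr n h) ^ 2 * avg (fun t => (de G h t u v - avg fun t => de G h t u v) ^ 2)
      ≤ (1 + 2 * epr n h) ^ 2 * (42 / 10 * h * epr n h) :=
        mul_le_mul_of_nonneg_left h1 (sq_nonneg _)
    _ ≤ 11 / 10 * (42 / 10 * h * epr n h) := mul_le_mul_of_nonneg_right h2 h3
    _ ≤ 6 * h * epr n h := by
        have : 0 < h * epr n h := mul_pos hh he
        linarith

open Classical in
private theorem s1varbe_point (R : Reg G h L q) {u v : Fin n} (huv : u ≠ v) (t : Tr n) :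
    HH G h (de G h t) u v ^ 2 ≤
      1764 / 100 * h ^ 2 * (if IsTri G t ∧ u ∈ tri t ∧ v ∈ tri t then 1 else 0) +
        h ^ 2 * (2 * (2 * q + 6400 * L ^ 2) + 12) * HH G h (de G h t) u v := by
  obtain ⟨hn, he, he1, hh1, -, hh, hL⟩ := s1varbe_facts R
  have hq := R.hq
  have hf0 := R.HHde_nonneg u v t
  have hf1 := R.HHde_le huv t
  have hC : 0 ≤ h ^ 2 * (2 * (2 * q + 6400 * L ^ 2) + 12) := by positivity
  have hCf := mul_nonneg hC hf0
  split_ifs with ht
  · have h1 : HH G h (de G h t) u v ^ 2 ≤ (42 / 10 * h) ^ 2 := pow_le_pow_left₀ hf0 hf1 2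
    have e : (42 / 10 * h) ^ 2 = 1764 / 100 * h ^ 2 * 1 := by ring
    rw [e] at h1
    linarith
  · have h1 : HH G h (de G h t) u v ≤ h ^ 2 * (2 * (2 * q + 6400 * L ^ 2) + 12) := by
      rw [HHde_eq]
      by_cases hT : IsTri G t
      · apply mul_le_mul_of_nonneg_left _ (sq_nonneg h)
        exact N1_le G t u v huv R.C_le (by positivity) (fun h => ht ⟨hT, h⟩)
      · rw [N1_of_not_isTri G t u v hT, mul_zero]
        exact hC
    have h2 : HH G h (de G h t) u v ^ 2 =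
        HH G h (de G h t) u v * HH G h (de G h t) u v := by ring
    rw [h2, mul_zero, zero_add]
    exact mul_le_mul_of_nonneg_right h1 hf0

theorem avg_HHde_sq_le (R : Reg G h L q) {u v : Fin n} (huv : u ≠ v) :
    avg (fun t => HH G h (de G h t) u v ^ 2) ≤
      epr n h * (18 * (q * h ^ 2) + 60000 * L ^ 2 * h ^ 2) := by
  classical
  obtain ⟨hn, he, he1, hh1, -, hh, hL⟩ := s1varbe_facts R
  have hq := R.hq
  have h1 := avg_mono (s1varbe_point R huv)
  rw [avg_add, avg_mul, avg_mul] at h1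
  have h2 : avg (fun t : Tr n => if IsTri G t ∧ u ∈ tri t ∧ v ∈ tri t then (1 : ℝ) else 0) ≤
      1001 / 1000 * epr n h := by
    have h3 := avg_mem_two G u v huv
    have h4 : 6 / (n : ℝ) ^ 3 * (aj G u v * ∑ x, aj G u x * aj G v x) =
        epr n h * (aj G u v * zz G h u v) := by
      unfold epr zz
      have hn' : (n : ℝ) ^ 3 ≠ 0 := by positivity
      field_simp
    rw [h4] at h3
    have h5 := R.zz_le huv
    have h6 : 0 ≤ zz G h u v := by linarith [R.le_zz huv]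
    have h7 : aj G u v * zz G h u v ≤ 1 * (1001 / 1000) :=
      mul_le_mul (aj_le_one G u v) h5 h6 (by norm_num)
    have h8 : epr n h * (aj G u v * zz G h u v) ≤ epr n h * (1 * (1001 / 1000)) :=
      mul_le_mul_of_nonneg_left h7 he.le
    refine le_trans (le_of_eq ?_) (h8.trans (le_of_eq (by ring)))
    rw [← h3]
  have h3 := R.avg_HHde_le huv
  have h4 : 1764 / 100 * h ^ 2 *
      avg (fun t : Tr n => if IsTri G t ∧ u ∈ tri t ∧ v ∈ tri t then (1 : ℝ) else 0) ≤
      1764 / 100 * h ^ 2 * (1001 / 1000 * epr n h) :=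
    mul_le_mul_of_nonneg_left h2 (by positivity)
  have h5 : h ^ 2 * (2 * (2 * q + 6400 * L ^ 2) + 12) *
      avg (fun t => HH G h (de G h t) u v) ≤
      h ^ 2 * (2 * (2 * q + 6400 * L ^ 2) + 12) * (45 / 10 * epr n h) :=
    mul_le_mul_of_nonneg_left h3 (by positivity)
  have h6 : 1764 / 100 * h ^ 2 * (1001 / 1000 * epr n h) +
      h ^ 2 * (2 * (2 * q + 6400 * L ^ 2) + 12) * (45 / 10 * epr n h) =
      epr n h * (18 * (q * h ^ 2) + 57600 * L ^ 2 * h ^ 2 +
        (1764 / 100 * (1001 / 1000) + 54) * h ^ 2) := by ring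
  have hL2 : 1 ≤ L ^ 2 := one_le_pow₀ (by linarith)
  have h7 : (1764 / 100 * (1001 / 1000) + 54) * h ^ 2 ≤ 2400 * (L ^ 2 * h ^ 2) := by
    have : 1 * h ^ 2 ≤ L ^ 2 * h ^ 2 := mul_le_mul_of_nonneg_right hL2 (sq_nonneg h)
    nlinarith [sq_nonneg h]
  have h8 : epr n h * (18 * (q * h ^ 2) + 57600 * L ^ 2 * h ^ 2 +
        (1764 / 100 * (1001 / 1000) + 54) * h ^ 2) ≤
      epr n h * (18 * (q * h ^ 2) + 60000 * L ^ 2 * h ^ 2) := by
    apply mul_le_mul_of_nonneg_left _ he.le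
    linarith
  linarith

theorem avg_dbe_sq_le (R : Reg G h L q) {u v : Fin n} (huv : u ≠ v) :
    avg (fun t => (be (lstep G t) h u v - be G h u v) ^ 2) ≤
      epr n h * (36 * (q * h ^ 2) + 130000 * L ^ 2 * h ^ 2) := by
  obtain ⟨hn, he, he1, hh1, -, hh, hL⟩ := s1varbe_facts R
  have hs : 0 ≤ √h := Real.sqrt_nonneg h
  have hs2 : √h ^ 2 = h := Real.sq_sqrt hh.le
  set X : ℝ := L * √h + 2 * h with hX
  have hX0 : 0 ≤ X := by positivity
  have hX2 : X ^ 2 ≤ 3 * (L ^ 2 * h) := by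
    have e1 : X ^ 2 ≤ 2 * (L * √h) ^ 2 + 2 * (2 * h) ^ 2 := by
      rw [hX]
      nlinarith [sq_nonneg (L * √h - 2 * h)]
    rw [mul_pow, hs2] at e1
    have hL2 : 1 ≤ L ^ 2 := one_le_pow₀ (by linarith)
    have e2 : 2 * (2 * h) ^ 2 ≤ h := by nlinarith
    have e3 : 1 * h ≤ L ^ 2 * h := mul_le_mul_of_nonneg_right hL2 hh.le
    linarith
  have h1 : ∀ t : Tr n, (be (lstep G t) h u v - be G h u v) ^ 2 ≤
      2 * HH G h (de G h t) u v ^ 2 + 8 * X ^ 2 * de G h t u v ^ 2 := by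
    intro t
    rw [be_lstep]
    have h2 := abs_DD_le G h t u v hh.le (x := al (lstep G t) h) (X := X)
      (fun a b hab => R.al_lstep_le hab t)
    have h3 : DD G h t (al (lstep G t) h) u v ^ 2 ≤ (2 * X * de G h t u v) ^ 2 := by
      rw [← sq_abs]
      exact pow_le_pow_left₀ (abs_nonneg _) h2 2
    have h4 : (2 * X * de G h t u v) ^ 2 = 4 * X ^ 2 * de G h t u v ^ 2 := by ring
    rw [h4] at h3
    have h5 : (be G h u v - HH G h (de G h t) u v - DD G h t (al (lstep G t) h) u v -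
        be G h u v) ^ 2 ≤ 2 * HH G h (de G h t) u v ^ 2 +
        2 * DD G h t (al (lstep G t) h) u v ^ 2 := by
      nlinarith [sq_nonneg (HH G h (de G h t) u v - DD G h t (al (lstep G t) h) u v)]
    linarith
  have h2 := avg_mono h1
  rw [avg_add, avg_mul, avg_mul] at h2
  have h3 := avg_HHde_sq_le R huv
  have h4 := R.avg_de_sq_le huv
  have h5 : 8 * X ^ 2 * avg (fun t => de G h t u v ^ 2) ≤
      8 * (3 * (L ^ 2 * h)) * (42 / 10 * h * epr n h) := by
    refine mul_le_mul (by linarith) h4 ?_ (by positivity)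
    exact (s1varbe_avg_bounds hn (fun t => sq_nonneg (de G h t u v))
      (fun t => pow_le_pow_left₀ (de_nonneg G h t u v hh.le) (de_le G h t u v hh.le) 2)).1
  have h6 : 0 ≤ epr n h * (L ^ 2 * h ^ 2) := by positivity
  have e1 : 8 * (3 * (L ^ 2 * h)) * (42 / 10 * h * epr n h) =
      1008 / 10 * (epr n h * (L ^ 2 * h ^ 2)) := by ring
  rw [e1] at h5
  have e2 : epr n h * (36 * (q * h ^ 2) + 130000 * L ^ 2 * h ^ 2) =
      2 * (epr n h * (18 * (q * h ^ 2) + 60000 * L ^ 2 * h ^ 2)) +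
        10000 * (epr n h * (L ^ 2 * h ^ 2)) := by ring
  rw [e2]
  linarith

/-- the deviation of `be` -/
private theorem s1varbe_be (R : Reg G h L q) (u v : Fin n) (t : Tr n) :
    be (lstep G t) ((1 + 2 * epr n h) * h) u v -
      avg (fun t => be (lstep G t) ((1 + 2 * epr n h) * h) u v) =
      (1 + 2 * epr n h) ^ 2 * ((be (lstep G t) h u v - be G h u v) -
        avg fun t => be (lstep G t) h u v - be G h u v) -
      (2 * (1 + 2 * epr n h) ^ 2 - 2 * (1 + 2 * epr n h)) *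
        (de G h t u v - avg fun t => de G h t u v) := by
  have hn := R.n_pos
  set s : ℝ := 1 + 2 * epr n h with hs
  have e1 : (fun t : Tr n => be (lstep G t) (s * h) u v) =
      fun t => ((s ^ 2 * be G h u v + (2 * s ^ 2 - 2 * s) * zz G h u v) +
        s ^ 2 * (be (lstep G t) h u v - be G h u v)) - (2 * s ^ 2 - 2 * s) * de G h t u v := by
    funext t
    rw [be_scale, zz_lstep]
    ring
  rw [e1, avg_sub, avg_add, avg_const hn, avg_mul, avg_mul, be_scale, zz_lstep]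
  ring

theorem jump_be (R : Reg G h L q) {u v : Fin n} (huv : u ≠ v) (t : Tr n) :
    |be (lstep G t) ((1 + 2 * epr n h) * h) u v -
      avg (fun t => be (lstep G t) ((1 + 2 * epr n h) * h) u v)| ≤ 12 * h := by
  obtain ⟨hn, he, he1, hh1, -, hh, -⟩ := s1varbe_facts R
  rw [s1varbe_be R]
  set s : ℝ := 1 + 2 * epr n h with hs
  have hs1 : s ≤ 1 + 2 / 10 ^ 6 := by
    rw [hs]
    linarith
  have hs0 : 1 ≤ s := by
    rw [hs]
    linarith
  have h1 := s1varbe_avg_bounds hn (fun t => de_nonneg G h t u v hh.le)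
    (fun t => de_le G h t u v hh.le)
  have h2 := de_nonneg G h t u v hh.le
  have h3 := de_le G h t u v hh.le
  have h4 : |de G h t u v - avg fun t => de G h t u v| ≤ 2 * h := by
    rw [abs_le]
    constructor <;> linarith [h1.1, h1.2]
  have h5 := s1varbe_avg_bounds hn (fun t => (abs_le.1 (R.dbe_le huv t)).1)
    (fun t => (abs_le.1 (R.dbe_le huv t)).2)
  have h6 := abs_le.1 (R.dbe_le huv t)
  have h7 : |(be (lstep G t) h u v - be G h u v) -
      avg fun t => be (lstep G t) h u v - be G h u v| ≤ 10 * h := by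
    rw [abs_le]
    constructor <;> linarith [h5.1, h5.2, h6.1, h6.2]
  have h8 : s ^ 2 ≤ 11 / 10 := by nlinarith
  have h9 : 0 ≤ 2 * s ^ 2 - 2 * s := by nlinarith
  have h10 : 2 * s ^ 2 - 2 * s ≤ 1 / 10 := by nlinarith
  refine (abs_sub _ _).trans ?_
  rw [abs_mul, abs_mul, abs_of_nonneg (sq_nonneg s), abs_of_nonneg h9]
  have h11 : s ^ 2 * |(be (lstep G t) h u v - be G h u v) -
      avg fun t => be (lstep G t) h u v - be G h u v| ≤ 11 / 10 * (10 * h) :=
    mul_le_mul h8 h7 (abs_nonneg _) (by norm_num)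
  have h12 : (2 * s ^ 2 - 2 * s) * |de G h t u v - avg fun t => de G h t u v| ≤
      1 / 10 * (2 * h) := mul_le_mul h10 h4 (abs_nonneg _) (by norm_num)
  linarith

theorem var_be (R : Reg G h L q) {u v : Fin n} (huv : u ≠ v) :
    avg (fun t => (be (lstep G t) ((1 + 2 * epr n h) * h) u v -
      avg (fun t => be (lstep G t) ((1 + 2 * epr n h) * h) u v)) ^ 2) ≤
      epr n h * (100 * (q * h ^ 2) + L ^ 3 * h ^ 2) := by
  obtain ⟨hn, he, he1, hh1, heh, hh, hL⟩ := s1varbe_facts R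
  have hq := R.hq
  set s : ℝ := 1 + 2 * epr n h with hs
  have hs1 : s ≤ 1 + 2 / 10 ^ 6 := by
    rw [hs]
    linarith
  have hs0 : 1 ≤ s := by
    rw [hs]
    linarith
  have hs2 : s ^ 2 ≤ 1 + 5 / 10 ^ 6 := by nlinarith
  have hs4 : (s ^ 2) ^ 2 ≤ 11 / 10 := by nlinarith [sq_nonneg s]
  have hr0 : 0 ≤ 2 * s ^ 2 - 2 * s := by nlinarith
  have hr : 2 * s ^ 2 - 2 * s ≤ 5 * h := by
    have e1 : 2 * s ^ 2 - 2 * s = 4 * epr n h * s := by
      rw [hs]
      ring
    rw [e1]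
    have : epr n h * s ≤ h * (5 / 4) := mul_le_mul heh (by linarith) (by linarith) hh.le
    linarith
  have hr2 : (2 * s ^ 2 - 2 * s) ^ 2 ≤ (5 * h) ^ 2 := pow_le_pow_left₀ hr0 hr 2
  have h1 : ∀ t : Tr n, (be (lstep G t) (s * h) u v -
      avg (fun t => be (lstep G t) (s * h) u v)) ^ 2 ≤
      22 / 10 * ((be (lstep G t) h u v - be G h u v) -
        avg fun t => be (lstep G t) h u v - be G h u v) ^ 2 +
      50 * h ^ 2 * (de G h t u v - avg fun t => de G h t u v) ^ 2 := by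
    intro t
    rw [s1varbe_be R, ← hs]
    set A := (be (lstep G t) h u v - be G h u v) -
        avg fun t => be (lstep G t) h u v - be G h u v with hA
    set B := de G h t u v - avg fun t => de G h t u v with hB
    have e1 : (s ^ 2 * A - (2 * s ^ 2 - 2 * s) * B) ^ 2 ≤
        2 * ((s ^ 2) ^ 2 * A ^ 2) + 2 * ((2 * s ^ 2 - 2 * s) ^ 2 * B ^ 2) := by
      nlinarith [sq_nonneg (s ^ 2 * A + (2 * s ^ 2 - 2 * s) * B)]
    have e2 : (s ^ 2) ^ 2 * A ^ 2 ≤ 11 / 10 * A ^ 2 := mul_le_mul_of_nonneg_right hs4 (sq_nonneg A)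
    have e3 : (2 * s ^ 2 - 2 * s) ^ 2 * B ^ 2 ≤ (5 * h) ^ 2 * B ^ 2 :=
      mul_le_mul_of_nonneg_right hr2 (sq_nonneg B)
    have e4 : 2 * ((5 * h) ^ 2 * B ^ 2) = 50 * h ^ 2 * B ^ 2 := by ring
    linarith
  have h2 := avg_mono h1
  rw [avg_add, avg_mul, avg_mul] at h2
  have h3 := (avg_sub_avg_sq_le hn fun t => be (lstep G t) h u v - be G h u v).trans
    (avg_dbe_sq_le R huv)
  have h4 := s1varbe_de R huv
  have h5 : 50 * h ^ 2 * avg (fun t => (de G h t u v - avg fun t => de G h t u v) ^ 2) ≤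
      50 * h ^ 2 * (42 / 10 * h * epr n h) := mul_le_mul_of_nonneg_left h4 (by positivity)
  have e5 : 50 * h ^ 2 * (42 / 10 * h * epr n h) = 210 * h * (epr n h * h ^ 2) := by ring
  have h6 : 210 * h * (epr n h * h ^ 2) ≤ 1 * (epr n h * h ^ 2) :=
    mul_le_mul_of_nonneg_right (by linarith) (by positivity)
  have h7 : 22 / 10 * avg (fun t => ((be (lstep G t) h u v - be G h u v) -
        avg fun t => be (lstep G t) h u v - be G h u v) ^ 2) ≤
      22 / 10 * (epr n h * (36 * (q * h ^ 2) + 130000 * L ^ 2 * h ^ 2)) :=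
    mul_le_mul_of_nonneg_left h3 (by norm_num)
  have h8 : 22 / 10 * (epr n h * (36 * (q * h ^ 2) + 130000 * L ^ 2 * h ^ 2)) +
      1 * (epr n h * h ^ 2) ≤ epr n h * (100 * (q * h ^ 2) + L ^ 3 * h ^ 2) := by
    have e6 : 22 / 10 * (epr n h * (36 * (q * h ^ 2) + 130000 * L ^ 2 * h ^ 2)) +
        1 * (epr n h * h ^ 2) = epr n h * (792 / 10 * (q * h ^ 2) +
        (286000 * L ^ 2 + 1) * h ^ 2) := by ring
    rw [e6]
    apply mul_le_mul_of_nonneg_left _ he.le
    have e7 : 286000 * L ^ 2 + 1 ≤ L ^ 3 := by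
      have e8 : L ^ 3 = L * L ^ 2 := by ring
      have hL2 : 1 ≤ L ^ 2 := one_le_pow₀ (by linarith)
      rw [e8]
      nlinarith
    have e9 : (286000 * L ^ 2 + 1) * h ^ 2 ≤ L ^ 3 * h ^ 2 :=
      mul_le_mul_of_nonneg_right e7 (sq_nonneg h)
    have e10 : 0 ≤ q * h ^ 2 := by positivity
    linarith
  linarith

end Vale.Agent.P046
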