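import Vale.Agent.Lib.P046.S1Init
import Vale.Agent.Lib.P046.S1Freed
import Vale.Agent.Lib.P046.S1VarBe

/-!
# S1: tail bounds for the five families of martingales

Use `mart_tail` with the one-step bounds applied to `Gd.reg` (`Ok n L l` contains `Gd n L l`), note
that `hh n (l.length + 1) = (1 + 2 * epr n h) * h` with `h = hh n l.length` (`hh_succ`).
In each case check `x^2/(4V) ≥ 100 (1 + log n)` and `x/(2b) ≥ 100 (1 + log n)`; recall
`L ≥ 10^8 (1 + log n)`, and `L^20 ≤ n`, `hh ≤ L^{-20}`.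

* al: `v_i = 6 hh_i ep_i = 36/n^3`, `V = 3 hh_j`, `b = 5 hh_j`, `x = L/10 √hh_j`.
* be: `v_i = ep_i (100 bb_i^2 + L^3 hh_i^2)`, `V = 200 bb_j^2 + L^3 hh_j^2`, `b = 12 hh_j`,
  `x = L/1000 bb_j + L^4 hh_j`.
* ga (divided by `hh`): `v_i = ep_i L^3`, `V = L^4`, `b = 40`, `x = L^3`.
* C3 (divided by `qq`), `1600 L^2 ≤ qq n j` (so also for all earlier times; there
  `C3 ≤ 1.5 qq`): `b = 3 / qq_j`, `v_i = 20 ep_i / qq_i`, `V = 10 / qq_j`, `x = L/√qq_j`.
* Ne (divided by `N0`): `b = 3 / N0_j`, `v_i = 5 ep_i / N0_i`, `V = 10/N0_j`, `x = √hh_j`,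
  `hh_j N0_j ≥ n/2`.
-/

namespace Vale.Agent.P046

open Finset

variable {n J : ℕ} {L : ℝ}

/-- the one-step data of `Fbe` -/
theorem s1martbe_step (P : Par n J L) {j : ℕ} (hj : j ≤ J) {u v : Fin n} (huv : u ≠ v)
    (l : List (Tr n)) (hl : l.length < j) (hok : Ok n L l) :
    (∀ t, |Fbe n u v (t :: l) - avg (fun t' => Fbe n u v (t' :: l))| ≤ 12 * hh n j) ∧
    avg (fun t => (Fbe n u v (t :: l) - avg (fun t' => Fbe n u v (t' :: l))) ^ 2) ≤
      ep n l.length * (100 * bb n l.length ^ 2 + L ^ 3 * hh n l.length ^ 2) := by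
  have R : Reg (gr l) (hh n l.length) L (qq n l.length) :=
    Gd.reg P (hl.le.trans hj) hok.1
  have hF : ∀ t, Fbe n u v (t :: l) =
      be (lstep (gr l) t) ((1 + 2 * epr n (hh n l.length)) * hh n l.length) u v := by
    intro t
    unfold Fbe
    rw [List.length_cons, hh_succ P.hn]
    rfl
  simp only [hF]
  refine ⟨fun t => ?_, ?_⟩
  · have h1 := jump_be R huv t
    have h2 := hh_mono n hl.le
    linarith
  · have h1 := var_be R huv
    rw [qq_mul_hh_sq P.hn] at h1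
    exact h1

/-- the numerical part -/
theorem s1martbe_num {L ℓ b h : ℝ} (hL8 : 10 ^ 8 ≤ L) (hL : 10 ^ 8 * ℓ ≤ L)
    (hb : 0 ≤ b) (hh : 0 < h) :
    100 * ℓ ≤ min ((L / 1000 * b + L ^ 4 * h) ^ 2 / (4 * (200 * b ^ 2 + L ^ 3 * h ^ 2)))
      ((L / 1000 * b + L ^ 4 * h) / (2 * (12 * h))) := by
  have hL0 : (0 : ℝ) < L := by linarith
  have hL1 : (1 : ℝ) ≤ L := by linarith
  have hℓL : ℓ ≤ L := by linarith
  rw [le_min_iff]
  constructor
  · have hV : 0 < 4 * (200 * b ^ 2 + L ^ 3 * h ^ 2) := by positivity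
    rw [le_div_iff₀ hV]
    have e1 : (L / 1000 * b + L ^ 4 * h) ^ 2 ≥ (L / 1000 * b) ^ 2 + (L ^ 4 * h) ^ 2 := by
      have : 0 ≤ (L / 1000 * b) * (L ^ 4 * h) := by positivity
      nlinarith
    have e2 : 80000 * ℓ ≤ (L / 1000) ^ 2 := by
      have : 10 ^ 8 * ℓ * 10 ^ 8 ≤ L * L := mul_le_mul hL hL8 (by norm_num) hL0.le
      nlinarith
    have e3 : 400 * ℓ * L ^ 3 ≤ L ^ 8 := by
      have f1 : 400 * ℓ ≤ L := by linarith
      have f2 : L ^ 4 ≤ L ^ 8 := pow_le_pow_right₀ hL1 (by norm_num)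
      calc 400 * ℓ * L ^ 3 ≤ L * L ^ 3 := mul_le_mul_of_nonneg_right f1 (by positivity)
        _ = L ^ 4 := by ring
        _ ≤ L ^ 8 := f2
    have e4 := mul_le_mul_of_nonneg_right e2 (sq_nonneg b)
    have e5 := mul_le_mul_of_nonneg_right e3 (sq_nonneg h)
    have e6 : (L / 1000 * b) ^ 2 = (L / 1000) ^ 2 * b ^ 2 := by ring
    have e7 : (L ^ 4 * h) ^ 2 = L ^ 8 * h ^ 2 := by ring
    rw [e6, e7] at e1
    have e8 : 100 * ℓ * (4 * (200 * b ^ 2 + L ^ 3 * h ^ 2)) =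
        80000 * ℓ * b ^ 2 + 400 * ℓ * L ^ 3 * h ^ 2 := by ring
    rw [e8]
    linarith
  · rw [le_div_iff₀ (by positivity)]
    have f1 : 2400 * ℓ ≤ L := by linarith
    have f2 : L ≤ L ^ 4 := by
      calc L = L ^ 1 := by ring
        _ ≤ L ^ 4 := pow_le_pow_right₀ hL1 (by norm_num)
    have f3 : 2400 * ℓ * h ≤ L ^ 4 * h := mul_le_mul_of_nonneg_right (f1.trans f2) hh.le
    have f4 : 0 ≤ L / 1000 * b := by positivity
    have f5 : 100 * ℓ * (2 * (12 * h)) = 2400 * ℓ * h := by ring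
    rw [f5]
    linarith

open Classical in
theorem mart_be_tail (P : Par n J L) {j : ℕ} (hj : j ≤ J) {u v : Fin n} (huv : u ≠ v) :
    EL j (fun l => if L / 1000 * bb n j + L ^ 4 * hh n j < |mart (Ok n L) (Fbe n u v) l|
      then 1 else 0) ≤ 2 * Real.exp (-(100 * (1 + Real.log n))) := by
  have hL8 := P.L_ge
  have hL0 : (0 : ℝ) < L := by linarith
  have hhj := hh_pos P.hn j
  have hbj := bb_nonneg n j
  have hn1 : (1 : ℝ) ≤ (n : ℝ) := by
    have := P.hn
    exact_mod_cast this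
  have key := mart_tail P.hn (Ok n L) (Fbe n u v) j
    (fun i => ep n i * (100 * bb n i ^ 2 + L ^ 3 * hh n i ^ 2)) (12 * hh n j)
    (200 * bb n j ^ 2 + L ^ 3 * hh n j ^ 2) (L / 1000 * bb n j + L ^ 4 * hh n j)
    (by positivity) (by positivity) (by positivity)
    (fun l hl hok => (s1martbe_step P hj huv l hl hok).1)
    (fun l hl hok => (s1martbe_step P hj huv l hl hok).2)
    (fun i => by
      have := (ep_pos P.hn i).le
      positivity)
    (by
      have h1 : ∀ i, ep n i * (100 * bb n i ^ 2 + L ^ 3 * hh n i ^ 2) =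
          100 * (ep n i * bb n i ^ 2) + L ^ 3 * (ep n i * hh n i ^ 2) := fun i => by ring
      simp only [h1]
      rw [Finset.sum_add_distrib, ← Finset.mul_sum, ← Finset.mul_sum]
      have h2 := sum_ep_bb_sq P.n_ge' j
      have h3 := sum_ep_hh_sq P.hn j
      have h4 := mul_le_mul_of_nonneg_left h3 (show (0 : ℝ) ≤ L ^ 3 by positivity)
      have h5 : 0 ≤ L ^ 3 * hh n j ^ 2 := by positivity
      linarith)
  refine key.trans ?_
  have hnum := s1martbe_num hL8 P.hL hbj hhj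
  have h6 := Real.exp_le_exp.mpr (neg_le_neg hnum)
  linarith

end Vale.Agent.P046
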