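import Vale.Agent.Lib.P046.S1Init
import Vale.Agent.Lib.P046.S1Freed
import Vale.Agent.Lib.P046.S1C3

/-!
# S1: tail bounds for the martingales of the triple codegrees

See `S1MartAl.lean` for the parameters.
-/

namespace Vale.Agent.P046

open Finset

variable {n J : ℕ} {L : ℝ}

private theorem s1martc_rpow {e : ℝ} (h0 : 0 ≤ e) (h1 : e ≤ 6 / 10000) :
    ((1 + 2 * e) * √(1 + 2 * e)) ^ 2 ≤ 4 / 3 := by
  have h2 : 0 ≤ 1 + 2 * e := by linarith
  rw [mul_pow, Real.sq_sqrt h2]
  have h3 : 1 + 2 * e ≤ 1.002 := by linarith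
  have h4 : (1 + 2 * e) ^ 2 ≤ 1.002 ^ 2 := pow_le_pow_left₀ h2 h3 2
  calc (1 + 2 * e) ^ 2 * (1 + 2 * e) ≤ 1.002 ^ 2 * 1.002 :=
        mul_le_mul h4 h3 h2 (by positivity)
    _ ≤ 4 / 3 := by norm_num

/-- the average of numbers in `[a - 3, a]` -/
private theorem s1martc_avg (hn : 0 < n) {f : Tr n → ℝ} {a : ℝ} (h1 : ∀ t, f t ≤ a)
    (h2 : ∀ t, a - 3 ≤ f t) (t : Tr n) : |f t - avg f| ≤ 3 := by
  have h3 : avg f ≤ a := by
    have := avg_mono h1
    rwa [avg_const hn] at this
  have h4 : a - 3 ≤ avg f := by
    have := avg_mono h2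
    rwa [avg_const hn] at this
  rw [abs_le]
  constructor <;> linarith [h1 t, h2 t]

private theorem s1martc_avg_div (f : Tr n → ℝ) (c : ℝ) :
    avg (fun t => f t / c) = avg f / c := by
  have h := avg_mul (1 / c) f
  have h1 : (fun t => f t / c) = fun t => 1 / c * f t := by
    funext t
    ring
  rw [h1, h]
  ring

open Classical in
theorem mart_C_tail (P : Par n J L) {j : ℕ} (hj : j ≤ J) (hq : 1600 * L ^ 2 ≤ qq n j)
    {u v w : Fin n} (huv : u ≠ v) (huw : u ≠ w) (hvw : v ≠ w) :
    EL j (fun l => if L / √(qq n j) < |mart (Ok n L) (FC n u v w) l| then 1 else 0) ≤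
      2 * Real.exp (-(100 * (1 + Real.log n))) := by
  have hn : 0 < n := P.hn
  have hL8 : 10 ^ 8 ≤ L := P.L_ge
  have hL0 : 0 < L := by linarith
  have hqj : 0 < qq n j := qq_pos hn j
  have hs0 : 0 < √(qq n j) := Real.sqrt_pos.2 hqj
  have hsq : √(qq n j) ^ 2 = qq n j := Real.sq_sqrt hqj.le
  have hs : 40 * L ≤ √(qq n j) := by
    apply Real.le_sqrt_of_sq_le
    nlinarith
  have hn100 : (100 : ℝ) ≤ n := by exact_mod_cast P.n_ge'
  have hnR : (0 : ℝ) < n := by linarith
  have hlog : 0 ≤ 1 + Real.log n := by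
    have : 0 ≤ Real.log n := Real.log_nonneg (by linarith)
    linarith
  have hbound := mart_tail hn (Ok n L) (FC n u v w) j (fun i => 20 * (ep n i / qq n i))
    (3 / qq n j) (10 / qq n j) (L / √(qq n j)) (by positivity) (by positivity) (by positivity)
    ?_ ?_ ?_ ?_
  · refine hbound.trans ?_
    have h1 : 100 * (1 + Real.log n) ≤ min ((L / √(qq n j)) ^ 2 / (4 * (10 / qq n j)))
        (L / √(qq n j) / (2 * (3 / qq n j))) := by
      apply le_min
      · have h2 : (L / √(qq n j)) ^ 2 / (4 * (10 / qq n j)) = L ^ 2 / 40 := by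
          rw [div_pow, hsq]
          field_simp
          norm_num
        rw [h2]
        have h3 := P.hL
        nlinarith
      · have h2 : L / √(qq n j) / (2 * (3 / qq n j)) = L * √(qq n j) / 6 := by
          rw [← hsq, Real.sqrt_sq hs0.le]
          field_simp
          norm_num
        rw [h2]
        have h3 := P.hL
        have h4 : L * (40 * L) ≤ L * √(qq n j) := mul_le_mul_of_nonneg_left hs hL0.le
        nlinarith
    have h2 := Real.exp_le_exp.2 (neg_le_neg h1)
    linarith
  · -- the jumps
    intro l hl hP t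
    have hq1 : 0 < qq n (l.length + 1) := qq_pos hn _
    have hqm : qq n j ≤ qq n (l.length + 1) := qq_antitone hn hl
    have h1 : FC n u v w (t :: l) - avg (fun t' => FC n u v w (t' :: l)) =
        (C3 (lstep (gr l) t) u v w - avg (fun t' => C3 (lstep (gr l) t') u v w)) /
          qq n (l.length + 1) := by
      simp only [FC, gr, List.length_cons]
      rw [s1martc_avg_div, sub_div]
    rw [h1, abs_div, abs_of_pos hq1]
    have h2 := s1martc_avg hn (f := fun t' => C3 (lstep (gr l) t') u v w) (a := C3 (gr l) u v w)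
      (fun t => C3_lstep_le u v w t) (fun t => by linarith [C3_jump (G := gr l) u v w t]) t
    exact div_le_div₀ (by norm_num) h2 hqj hqm
  · -- the variance
    intro l hl hP
    have hlJ : l.length ≤ J := by omega
    have R := Gd.reg P hlJ hP.1
    have hq0 : 0 < qq n l.length := qq_pos hn _
    have hq1 : 0 < qq n (l.length + 1) := qq_pos hn _
    have hqm : qq n j ≤ qq n l.length := qq_antitone hn hl.le
    have h1 : ∀ t, FC n u v w (t :: l) - avg (fun t' => FC n u v w (t' :: l)) =
        (C3 (lstep (gr l) t) u v w - avg (fun t' => C3 (lstep (gr l) t') u v w)) /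
          qq n (l.length + 1) := by
      intro t
      simp only [FC, gr, List.length_cons]
      rw [s1martc_avg_div, sub_div]
    have h2 : avg (fun t => (FC n u v w (t :: l) - avg (fun t' => FC n u v w (t' :: l))) ^ 2) =
        avg (fun t => (C3 (lstep (gr l) t) u v w -
          avg (fun t' => C3 (lstep (gr l) t') u v w)) ^ 2) / qq n (l.length + 1) ^ 2 := by
      rw [← s1martc_avg_div]
      congr 1
      funext t
      rw [h1 t, div_pow]
    rw [h2]
    have h3 := var_C3 R huv huw hvw
    have hqd : 1600 * L ^ 2 ≤ qq n l.length := hq.trans hqm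
    have h4 := (abs_le.1 (hP.1.C_dense hqd u v w huv huw hvw)).2
    have hsl0 : 0 < √(qq n l.length) := Real.sqrt_pos.2 hq0
    have hslq : √(qq n l.length) ^ 2 = qq n l.length := Real.sq_sqrt hq0.le
    have hsl : 40 * L ≤ √(qq n l.length) := by
      apply Real.le_sqrt_of_sq_le
      nlinarith
    have h5 : C3 (gr l) u v w ≤ 3 / 2 * qq n l.length := by
      have : 20 * L * √(qq n l.length) ≤ qq n l.length / 2 := by
        nlinarith
      linarith
    have he0 : 0 < ep n l.length := ep_pos hn _
    have he1 : ep n l.length ≤ 6 / 10000 := by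
      refine (ep_le hn _).trans ?_
      rw [div_le_div_iff₀ (by positivity) (by norm_num)]
      nlinarith
    have h6 : avg (fun t => (C3 (lstep (gr l) t) u v w -
          avg (fun t' => C3 (lstep (gr l) t') u v w)) ^ 2) ≤
        15 * ep n l.length * qq n l.length := by
      refine h3.trans ?_
      have : epr n (hh n l.length) = ep n l.length := rfl
      rw [this]
      nlinarith
    have h7 : qq n l.length ^ 2 ≤ 4 / 3 * qq n (l.length + 1) ^ 2 := by
      have h8 := s1martc_rpow he0.le he1
      have h9 : 0 < (1 + 2 * ep n l.length) * √(1 + 2 * ep n l.length) := by positivity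
      rw [qq_succ hn, div_pow]
      rw [← mul_div_assoc, le_div_iff₀ (by positivity)]
      have h10 : 0 ≤ qq n l.length ^ 2 := by positivity
      nlinarith
    rw [div_le_iff₀ (by positivity)]
    refine h6.trans ?_
    have h8 : 20 * (ep n l.length / qq n l.length) * qq n (l.length + 1) ^ 2 =
        20 * ep n l.length * qq n (l.length + 1) ^ 2 / qq n l.length := by
      ring
    rw [h8, le_div_iff₀ hq0]
    nlinarith [mul_le_mul_of_nonneg_left h7 he0.le]
  · intro i
    have := ep_pos hn i
    have := qq_pos hn i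
    positivity
  · rw [← Finset.mul_sum]
    have h1 := sum_ep_inv_qq hn j
    calc 20 * ∑ i ∈ range j, ep n i / qq n i ≤ 20 * (1 / (2 * qq n j)) :=
          mul_le_mul_of_nonneg_left h1 (by norm_num)
      _ = 10 / qq n j := by
          field_simp
          norm_num

end Vale.Agent.P046
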