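import Vale.Agent.Lib.P046.S1VarGaA
import Vale.Agent.Lib.P046.S1VarBe

/-!
# S1: the variance of `ga`

`g_t := (H f)_uv - f_uv`, `f = H δ`, so `|g_t| ≤ H f + f` and `E (H f + f) ≤ 14.5 ε`
(`avg_HH`, `avg_HHde_le`).

`E g^2`: triangles containing both `u` and `v` have probability `≤ 1.001 ε`
(`avg_mem_two`, `6/n^3 * a * Y = ε a z`) and contribute `196 h^2 * 1.001 ε`; triples with
`u, v ∉ tri t` contribute `≤ 65 h^2 E|g| ≤ 65 * 14.5 h^2 ε`; in the sparse case the rest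
contributes `≤ 20000 L^2 h^2 E|g| ≤ 290000 L^2 h^2 ε`; in the dense case
`P(u ∈ tri t, triangle) = 3/n^3 ∑_b a_ub Y_ub ≤ ε/2 * 1.001 * d_u` and
`(d_u - 1) q / 2 ≤ ∑_{b ∈ N(u), b ≠ v} C3 u v b ≤ ∑_{w ∈ N(u) ∩ N(v)} Y_uw ≤ (1.001/h)^2`, so
`P ≤ 1.6 ε / (q h^2)`, and the contribution of both ends is
`≤ 2 * 8100 L^2 q h^4 * 1.6 ε/(q h^2) = 25920 L^2 h^2 ε`.

`ga' - ga = - g - (H - 1) D al' - D be'` with `|D al'| ≤ 2 (L √h + 2h) δ`,
`|H D al'| ≤ 2 (L √h + 2 h) H δ`, `|D be'| ≤ 2 (L √h + 5 h) δ`; the second moments of `δ`, `H δ`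
are `avg_de_sq_le`, `avg_HHde_sq_le` (with `q h^2 ≤ h`).

`ga⁺ = s^3 ga' + (3 s^3 - 3 s^2) be' + (4 s^3 - 6 s^2 + 2 s) z'` (`ga_scale`).
-/

namespace Vale.Agent.P046

open Finset

variable {n : ℕ} {G : SimpleGraph (Fin n)} {h L q : ℝ}

theorem s1vargab_L2h (R : Reg G h L q) : L ^ 2 * h ≤ 1 / 10 ^ 8 := by
  have h1 := R.h_small'
  have hL1 : 1 ≤ L := by linarith [R.hL]
  have h2 : L ^ 2 ≤ L ^ 19 := pow_le_pow_right₀ hL1 (by norm_num)
  exact (mul_le_mul_of_nonneg_right h2 R.hpos.le).trans h1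

theorem s1vargab_h (R : Reg G h L q) : h ≤ 1 / 10 ^ 8 := by
  have h1 := s1vargab_L2h R
  have hL1 : 1 ≤ L := by linarith [R.hL]
  have h2 : 1 ≤ L ^ 2 := one_le_pow₀ hL1
  have h3 : 1 * h ≤ L ^ 2 * h := mul_le_mul_of_nonneg_right h2 R.hpos.le
  linarith

theorem s1vargab_five (R : Reg G h L q) : L * √h + 5 * h ≤ 101 / 100 * (L * √h) := by
  have hh := R.hpos
  have h1 : h ≤ √h := by
    have h2 : √h * √h = h := Real.mul_self_sqrt hh.le
    have h3 : √h ≤ 1 := by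
      rw [Real.sqrt_le_one]
      have := s1vargab_h R
      linarith [this, (by norm_num : (1 : ℝ) / 10 ^ 8 ≤ 1)]
    have h4 : √h * √h ≤ √h * 1 := mul_le_mul_of_nonneg_left h3 (Real.sqrt_nonneg _)
    linarith
  have h5 : 500 * √h ≤ L * √h :=
    mul_le_mul_of_nonneg_right (by linarith [R.hL]) (Real.sqrt_nonneg _)
  linarith

/-- the decomposition of the jump of `ga` at fixed `h` -/
theorem s1vargab_dga (R : Reg G h L q) {u v : Fin n} (huv : u ≠ v) (t : Tr n) :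
    |ga (lstep G t) h u v - ga G h u v| ≤
      |HH G h (HH G h (de G h t)) u v - HH G h (de G h t) u v| +
        202 / 100 * (L * √h) * HH G h (de G h t) u v + 404 / 100 * (L * √h) * de G h t u v := by
  have hh := R.hpos
  have h5 := s1vargab_five R
  have hD : ∀ a b : Fin n, |DD G h t (al (lstep G t) h) a b| ≤
      202 / 100 * (L * √h) * de G h t a b := by
    intro a b
    have h1 := abs_DD_le G h t a b hh.le (x := al (lstep G t) h) (X := L * √h + 2 * h)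
      (fun a b hab => R.al_lstep_le hab t)
    refine h1.trans (mul_le_mul_of_nonneg_right ?_ (de_nonneg G h t a b hh.le))
    linarith
  have hB : |DD G h t (be (lstep G t) h) u v| ≤ 202 / 100 * (L * √h) * de G h t u v := by
    have h1 := abs_DD_le G h t u v hh.le (x := be (lstep G t) h) (X := L * √h + 5 * h)
      (fun a b hab => R.be_lstep_le hab t)
    refine h1.trans (mul_le_mul_of_nonneg_right ?_ (de_nonneg G h t u v hh.le))
    linarith
  have hHD : |HH G h (DD G h t (al (lstep G t) h)) u v| ≤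
      202 / 100 * (L * √h) * HH G h (de G h t) u v := by
    refine (HH_abs_le G h u v hh.le _).trans ?_
    rw [← HH_smul]
    exact HH_mono G h u v hh.le fun a b _ => hD a b
  have hfun : (fun a b => be (lstep G t) h a b - be G h a b) =
      fun a b => (fun a b => (-1 : ℝ) * HH G h (de G h t) a b) a b -
        DD G h t (al (lstep G t) h) a b := by
    funext a b
    rw [be_lstep]
    ring
  have h1 := ga_lstep G h t u v
  have h2 : HH G h (fun a b => be (lstep G t) h a b - be G h a b) u v =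
      -HH G h (HH G h (de G h t)) u v - HH G h (DD G h t (al (lstep G t) h)) u v := by
    rw [hfun, HH_sub G h u v (fun a b => (-1 : ℝ) * HH G h (de G h t) a b)
      (DD G h t (al (lstep G t) h)), HH_smul G h u v (-1) (HH G h (de G h t))]
    ring
  have h3 : ga (lstep G t) h u v - ga G h u v =
      -(HH G h (HH G h (de G h t)) u v - HH G h (de G h t) u v) -
        HH G h (DD G h t (al (lstep G t) h)) u v + DD G h t (al (lstep G t) h) u v -
        DD G h t (be (lstep G t) h) u v := by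
    rw [h1, h2, be_lstep]
    ring
  rw [h3]
  have h4 := hD u v
  have e1 := abs_add_le (-(HH G h (HH G h (de G h t)) u v - HH G h (de G h t) u v) -
        HH G h (DD G h t (al (lstep G t) h)) u v + DD G h t (al (lstep G t) h) u v)
        (-DD G h t (be (lstep G t) h) u v)
  have e2 := abs_add_le (-(HH G h (HH G h (de G h t)) u v - HH G h (de G h t) u v) -
        HH G h (DD G h t (al (lstep G t) h)) u v) (DD G h t (al (lstep G t) h) u v)
  have e3 := abs_add_le (-(HH G h (HH G h (de G h t)) u v - HH G h (de G h t) u v))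
        (-HH G h (DD G h t (al (lstep G t) h)) u v)
  rw [abs_neg] at e1
  rw [abs_neg, abs_neg] at e3
  rw [← sub_eq_add_neg] at e1 e3
  linarith

theorem s1vargab_sq3 {a x y z : ℝ} (ha : |a| ≤ |x| + y + z) :
    a ^ 2 ≤ 3 * x ^ 2 + (3 * y ^ 2 + 3 * z ^ 2) := by
  have h1 : a ^ 2 ≤ (|x| + y + z) ^ 2 := by
    rw [← sq_abs a]
    exact pow_le_pow_left₀ (abs_nonneg a) ha 2
  have h2 : |x| ^ 2 = x ^ 2 := sq_abs x
  nlinarith [sq_nonneg (|x| - y), sq_nonneg (|x| - z), sq_nonneg (y - z)]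

theorem avg_dga_sq_le (R : Reg G h L q) {u v : Fin n} (huv : u ≠ v) :
    avg (fun t => (ga (lstep G t) h u v - ga G h u v) ^ 2) ≤
      2000000 * L ^ 2 * h ^ 2 * epr n h := by
  have hh := R.hpos
  have hε := epr_pos R.n_pos hh
  have hsq : √h ^ 2 = h := Real.sq_sqrt hh.le
  have h1 : avg (fun t => (ga (lstep G t) h u v - ga G h u v) ^ 2) ≤
      avg (fun t => 3 * (HH G h (HH G h (de G h t)) u v - HH G h (de G h t) u v) ^ 2 +
        ((3 * (202 / 100 * (L * √h)) ^ 2) * HH G h (de G h t) u v ^ 2 +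
          (3 * (404 / 100 * (L * √h)) ^ 2) * de G h t u v ^ 2)) := by
    refine avg_mono fun t => ?_
    have h2 := s1vargab_sq3 (s1vargab_dga R huv t)
    refine h2.trans (le_of_eq ?_)
    ring
  refine h1.trans ?_
  rw [avg_add, avg_add, avg_mul, avg_mul, avg_mul]
  have g1 := avg_cancel_sq_le R huv
  have g2 := avg_HHde_sq_le R huv
  have g3 := R.avg_de_sq_le huv
  have c1 : (202 / 100 * (L * √h)) ^ 2 = 40804 / 10000 * L ^ 2 * h := by
    rw [mul_pow, mul_pow, hsq]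
    norm_num
    ring
  have c2 : (404 / 100 * (L * √h)) ^ 2 = 163216 / 10000 * L ^ 2 * h := by
    rw [mul_pow, mul_pow, hsq]
    norm_num
    ring
  rw [c1, c2]
  have hL2 : 0 ≤ L ^ 2 := sq_nonneg L
  have g2' : 3 * (40804 / 10000 * L ^ 2 * h) * avg (fun t => HH G h (de G h t) u v ^ 2) ≤
      3 * (40804 / 10000 * L ^ 2 * h) * (epr n h * (18 * (q * h ^ 2) + 60000 * L ^ 2 * h ^ 2)) :=
    mul_le_mul_of_nonneg_left g2 (by positivity)
  have g3' : 3 * (163216 / 10000 * L ^ 2 * h) * avg (fun t => de G h t u v ^ 2) ≤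
      3 * (163216 / 10000 * L ^ 2 * h) * (42 / 10 * h * epr n h) :=
    mul_le_mul_of_nonneg_left g3 (by positivity)
  obtain ⟨M, hM⟩ : ∃ M, M = L ^ 2 * h ^ 2 * epr n h := ⟨_, rfl⟩
  have hM0 : 0 ≤ M := by
    rw [hM]
    positivity
  have k1 : 3 * (40804 / 10000 * L ^ 2 * h) *
      (epr n h * (18 * (q * h ^ 2) + 60000 * L ^ 2 * h ^ 2)) =
      3 * 40804 / 10000 * 18 * ((q * h) * M) + 3 * 40804 / 10000 * 60000 * ((L ^ 2 * h) * M) := by
    rw [hM]
    ring
  have k2 : (q * h) * M ≤ 1 * M := mul_le_mul_of_nonneg_right R.hqh hM0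
  have k3 : (L ^ 2 * h) * M ≤ 1 / 10 ^ 8 * M := mul_le_mul_of_nonneg_right (s1vargab_L2h R) hM0
  have k4 : 3 * (163216 / 10000 * L ^ 2 * h) * (42 / 10 * h * epr n h) =
      3 * 163216 / 10000 * 42 / 10 * M := by
    rw [hM]
    ring
  have k5 : 400000 * L ^ 2 * h ^ 2 * epr n h = 400000 * M := by
    rw [hM]
    ring
  have k6 : 2000000 * L ^ 2 * h ^ 2 * epr n h = 2000000 * M := by
    rw [hM]
    ring
  rw [k5] at g1
  rw [k1] at g2'
  rw [k4] at g3'
  rw [k6]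
  norm_num at k3
  linarith

/-- the scaled `ga` and its increments -/
theorem s1vargab_X (R : Reg G h L q) {u v : Fin n} (t : Tr n) :
    ga (lstep G t) ((1 + 2 * epr n h) * h) u v =
      ((1 + 2 * epr n h) ^ 3 * ga G h u v +
        (3 * (1 + 2 * epr n h) ^ 3 - 3 * (1 + 2 * epr n h) ^ 2) * be G h u v +
        (4 * (1 + 2 * epr n h) ^ 3 - 6 * (1 + 2 * epr n h) ^ 2 + 2 * (1 + 2 * epr n h)) *
          zz G h u v) +
      ((1 + 2 * epr n h) ^ 3 * (ga (lstep G t) h u v - ga G h u v) +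
        ((3 * (1 + 2 * epr n h) ^ 3 - 3 * (1 + 2 * epr n h) ^ 2) *
          (be (lstep G t) h u v - be G h u v) -
        (4 * (1 + 2 * epr n h) ^ 3 - 6 * (1 + 2 * epr n h) ^ 2 + 2 * (1 + 2 * epr n h)) *
          de G h t u v)) := by
  rw [ga_scale, zz_lstep]
  ring

theorem s1vargab_eps (R : Reg G h L q) : epr n h ≤ 1 / 10 ^ 8 := by
  have h1 := R.epr_le
  have h2 := s1vargab_h R
  have h3 : h ^ 2 ≤ (1 / 10 ^ 8) ^ 2 := pow_le_pow_left₀ R.hpos.le h2 2
  have h4 : (6 : ℝ) * (1 / 10 ^ 8) ^ 2 ≤ 1 / 10 ^ 8 := by norm_num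
  linarith

theorem s1vargab_coef {ε : ℝ} (h0 : 0 < ε) (h1 : ε ≤ 1 / 10 ^ 8) :
    (1 + 2 * ε) ^ 3 ≤ 101 / 100 ∧ 0 ≤ 3 * (1 + 2 * ε) ^ 3 - 3 * (1 + 2 * ε) ^ 2 ∧
      3 * (1 + 2 * ε) ^ 3 - 3 * (1 + 2 * ε) ^ 2 ≤ 7 * ε ∧
      0 ≤ 4 * (1 + 2 * ε) ^ 3 - 6 * (1 + 2 * ε) ^ 2 + 2 * (1 + 2 * ε) ∧
      4 * (1 + 2 * ε) ^ 3 - 6 * (1 + 2 * ε) ^ 2 + 2 * (1 + 2 * ε) ≤ 5 * ε := by
  have e1 : ε ≤ 1 / 1000 := h1.trans (by norm_num)
  have e2 : ε ^ 2 ≤ 1 / 1000 * ε := by nlinarith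
  have e3 : ε ^ 3 ≤ 1 / 1000 * ε := by nlinarith [pow_pos h0 2]
  have p2 : 0 < ε ^ 2 := by positivity
  have p3 : 0 < ε ^ 3 := by positivity
  refine ⟨?_, ?_, ?_, ?_, ?_⟩ <;> ring_nf <;> linarith

/-- the remainder is small -/
theorem s1vargab_rem (R : Reg G h L q) {u v : Fin n} (huv : u ≠ v) (t : Tr n) :
    |(3 * (1 + 2 * epr n h) ^ 3 - 3 * (1 + 2 * epr n h) ^ 2) *
          (be (lstep G t) h u v - be G h u v) -
        (4 * (1 + 2 * epr n h) ^ 3 - 6 * (1 + 2 * epr n h) ^ 2 + 2 * (1 + 2 * epr n h)) *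
          de G h t u v| ≤ 45 * (epr n h * h) := by
  have hh := R.hpos
  have hε := epr_pos R.n_pos hh
  obtain ⟨-, c1, c2, c3, c4⟩ := s1vargab_coef hε (s1vargab_eps R)
  have h1 := R.dbe_le huv t
  have h2 := de_le G h t u v hh.le
  have h3 := de_nonneg G h t u v hh.le
  generalize 3 * (1 + 2 * epr n h) ^ 3 - 3 * (1 + 2 * epr n h) ^ 2 = A at c1 c2 ⊢
  generalize 4 * (1 + 2 * epr n h) ^ 3 - 6 * (1 + 2 * epr n h) ^ 2 + 2 * (1 + 2 * epr n h) = B
    at c3 c4 ⊢
  have e1 := abs_add_le (A * (be (lstep G t) h u v - be G h u v)) (-(B * de G h t u v))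
  rw [abs_neg, abs_mul, abs_mul, abs_of_nonneg c1, abs_of_nonneg c3, abs_of_nonneg h3,
    ← sub_eq_add_neg] at e1
  refine e1.trans ?_
  have e2 : A * |be (lstep G t) h u v - be G h u v| ≤ 7 * epr n h * (5 * h) :=
    mul_le_mul c2 h1 (abs_nonneg _) (by positivity)
  have e3 : B * de G h t u v ≤ 5 * epr n h * (2 * h) := mul_le_mul c4 h2 h3 (by positivity)
  linarith

/-- distance to the average is at most twice the distance to a constant -/
theorem s1vargab_center (hn : 0 < n) {f : Tr n → ℝ} {c X : ℝ} (hf : ∀ t, |f t - c| ≤ X)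
    (t : Tr n) : |f t - avg f| ≤ 2 * X := by
  have h1 : avg f ≤ avg (fun _ => c + X) := avg_mono fun t => by
    have := (abs_le.1 (hf t)).2
    linarith
  have h2 : avg (fun _ => c - X) ≤ avg f := avg_mono fun t => by
    have := (abs_le.1 (hf t)).1
    linarith
  rw [avg_const hn] at h1 h2
  have h3 := abs_le.1 (hf t)
  rw [abs_le]
  constructor <;> linarith [h3.1, h3.2]

theorem jump_ga (R : Reg G h L q) {u v : Fin n} (huv : u ≠ v) (t : Tr n) :
    |ga (lstep G t) ((1 + 2 * epr n h) * h) u v -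
      avg (fun t => ga (lstep G t) ((1 + 2 * epr n h) * h) u v)| ≤ 40 * h := by
  have hh := R.hpos
  have hn := R.n_pos
  have hε := epr_pos hn hh
  have hε' := s1vargab_eps R
  obtain ⟨c0, -, -, -, -⟩ := s1vargab_coef hε hε'
  have key : ∀ t, |ga (lstep G t) ((1 + 2 * epr n h) * h) u v -
      ((1 + 2 * epr n h) ^ 3 * ga G h u v +
        (3 * (1 + 2 * epr n h) ^ 3 - 3 * (1 + 2 * epr n h) ^ 2) * be G h u v +
        (4 * (1 + 2 * epr n h) ^ 3 - 6 * (1 + 2 * epr n h) ^ 2 + 2 * (1 + 2 * epr n h)) *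
          zz G h u v)| ≤ 20 * h := by
    intro t
    rw [s1vargab_X R t, add_sub_cancel_left]
    refine (abs_add_le _ _).trans ?_
    have h1 := s1vargab_rem R huv t
    have h2 := R.dga_le huv t
    have h3 : |(1 + 2 * epr n h) ^ 3 * (ga (lstep G t) h u v - ga G h u v)| ≤
        101 / 100 * (17 * h) := by
      rw [abs_mul, abs_of_nonneg (by positivity)]
      exact mul_le_mul c0 h2 (abs_nonneg _) (by norm_num)
    have h4 : epr n h * h ≤ 1 / 10 ^ 8 * h := mul_le_mul_of_nonneg_right hε' hh.le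
    norm_num at h4
    linarith
  have := s1vargab_center hn key t
  linarith

theorem var_ga (R : Reg G h L q) {u v : Fin n} (huv : u ≠ v) :
    avg (fun t => (ga (lstep G t) ((1 + 2 * epr n h) * h) u v -
      avg (fun t => ga (lstep G t) ((1 + 2 * epr n h) * h) u v)) ^ 2) ≤
      epr n h * (L ^ 3 * h ^ 2) := by
  have hh := R.hpos
  have hn := R.n_pos
  have hε := epr_pos hn hh
  have hε' := s1vargab_eps R
  obtain ⟨c0, -, -, -, -⟩ := s1vargab_coef hε hε'
  obtain ⟨c, hc⟩ : ∃ c, c = ((1 + 2 * epr n h) ^ 3 * ga G h u v +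
        (3 * (1 + 2 * epr n h) ^ 3 - 3 * (1 + 2 * epr n h) ^ 2) * be G h u v +
        (4 * (1 + 2 * epr n h) ^ 3 - 6 * (1 + 2 * epr n h) ^ 2 + 2 * (1 + 2 * epr n h)) *
          zz G h u v) := ⟨_, rfl⟩
  have h1 := avg_sub_avg_sq_le hn
    (fun t => ga (lstep G t) ((1 + 2 * epr n h) * h) u v - c)
  rw [avg_sub (fun t => ga (lstep G t) ((1 + 2 * epr n h) * h) u v) (fun _ => c),
    avg_const hn] at h1
  have h2 : avg (fun t => (ga (lstep G t) ((1 + 2 * epr n h) * h) u v -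
      avg (fun t => ga (lstep G t) ((1 + 2 * epr n h) * h) u v)) ^ 2) ≤
      avg fun t => (ga (lstep G t) ((1 + 2 * epr n h) * h) u v - c) ^ 2 := by
    refine le_trans (le_of_eq ?_) h1
    congr 1
    funext t
    ring
  refine h2.trans ?_
  have h3 : avg (fun t => (ga (lstep G t) ((1 + 2 * epr n h) * h) u v - c) ^ 2) ≤
      avg (fun t => (21 / 10) * (ga (lstep G t) h u v - ga G h u v) ^ 2 +
        4050 * (epr n h * h) ^ 2) := by
    refine avg_mono fun t => ?_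
    rw [s1vargab_X R t, ← hc, add_sub_cancel_left]
    have h4 := s1vargab_rem R huv t
    generalize (3 * (1 + 2 * epr n h) ^ 3 - 3 * (1 + 2 * epr n h) ^ 2) *
          (be (lstep G t) h u v - be G h u v) -
        (4 * (1 + 2 * epr n h) ^ 3 - 6 * (1 + 2 * epr n h) ^ 2 + 2 * (1 + 2 * epr n h)) *
          de G h t u v = ρ at h4 ⊢
    generalize ga (lstep G t) h u v - ga G h u v = x
    have h5 : ρ ^ 2 ≤ (45 * (epr n h * h)) ^ 2 := by
      rw [← sq_abs ρ]
      exact pow_le_pow_left₀ (abs_nonneg _) h4 2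
    have h6 : ((1 + 2 * epr n h) ^ 3) ^ 2 ≤ (101 / 100) ^ 2 :=
      pow_le_pow_left₀ (by positivity) c0 2
    have h7 : ((1 + 2 * epr n h) ^ 3) ^ 2 * x ^ 2 ≤ (101 / 100) ^ 2 * x ^ 2 :=
      mul_le_mul_of_nonneg_right h6 (sq_nonneg x)
    have h8 : ((1 + 2 * epr n h) ^ 3 * x + ρ) ^ 2 ≤
        2 * (((1 + 2 * epr n h) ^ 3) ^ 2 * x ^ 2) + 2 * ρ ^ 2 := by
      nlinarith [sq_nonneg ((1 + 2 * epr n h) ^ 3 * x - ρ)]
    have h9 : (45 * (epr n h * h)) ^ 2 = 2025 * (epr n h * h) ^ 2 := by ring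
    have h10 := sq_nonneg x
    rw [h9] at h5
    norm_num at h7
    linarith
  refine h3.trans ?_
  rw [avg_add, avg_mul, avg_const hn]
  have h4 := avg_dga_sq_le R huv
  obtain ⟨M, hM⟩ : ∃ M, M = L ^ 2 * h ^ 2 * epr n h := ⟨_, rfl⟩
  have hM0 : 0 ≤ M := by
    rw [hM]
    positivity
  have k1 : 2000000 * L ^ 2 * h ^ 2 * epr n h = 2000000 * M := by
    rw [hM]
    ring
  have k2 : epr n h * (L ^ 3 * h ^ 2) = L * M := by
    rw [hM]
    ring
  have k3 : 10 ^ 8 * M ≤ L * M := mul_le_mul_of_nonneg_right R.hL hM0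
  have hL1 : 1 ≤ L := by linarith [R.hL]
  have k4 : (epr n h * h) ^ 2 ≤ M := by
    rw [hM, mul_pow]
    have e1 : epr n h ^ 2 ≤ L ^ 2 * epr n h := by
      have e2 : epr n h ≤ L ^ 2 := by
        have e3 : (1 : ℝ) ≤ L ^ 2 := one_le_pow₀ hL1
        have e4 : epr n h ≤ 1 := hε'.trans (by norm_num)
        linarith
      rw [pow_two]
      exact mul_le_mul_of_nonneg_right e2 hε.le
    calc epr n h ^ 2 * h ^ 2 ≤ (L ^ 2 * epr n h) * h ^ 2 :=
          mul_le_mul_of_nonneg_right e1 (sq_nonneg h)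
      _ = L ^ 2 * h ^ 2 * epr n h := by ring
  rw [k1] at h4
  rw [k2]
  norm_num at k3
  linarith

end Vale.Agent.P046
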