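import Vale.Agent.Lib.P046.S1Init
import Vale.Agent.Lib.P046.S1Freed
import Vale.Agent.Lib.P046.S1VarGaB

/-!
# S1: tail bounds for the five families of martingales

Use `mart_tail` with the one-step bounds applied to `Gd.reg` (`Ok n L l` contains `Gd n L l`), note
that `hh n (l.length + 1) = (1 + 2 * epr n h) * h` with `h = hh n l.length` (`hh_succ`).
In each case check `x^2/(4V) ≥ 100 (1 + log n)` and `x/(2b) ≥ 100 (1 + log n)`; recall
`L ≥ 10^8 (1 + log n)`, and `L^20 ≤ n`, `hh ≤ L^{-20}`.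

* al: `v_i = 6 hh_i ep_i = 36/n^3`, `V = 3 hh_j`, `b = 5 hh_j`, `x = L/10 √hh_j`.
* be: `v_i = ep_i (100 bb_i^2 + L^3 hh_i^2)`, `V = 200 bb_j^2 + L^3 hh_j^2`, `b = 12 hh_j`,
  `x = L/1000 bb_j + L^4 hh_j`.
* ga (divided by `hh`): `v_i = ep_i L^3`, `V = L^4`, `b = 40`, `x = L^3`.
* C3 (divided by `qq`), `1600 L^2 ≤ qq n j` (so also for all earlier times; there
  `C3 ≤ 1.5 qq`): `b = 3 / qq_j`, `v_i = 20 ep_i / qq_i`, `V = 10 / qq_j`, `x = L/√qq_j`.
* Ne (divided by `N0`): `b = 3 / N0_j`, `v_i = 5 ep_i / N0_i`, `V = 10/N0_j`, `x = √hh_j`,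
  `hh_j N0_j ≥ n/2`.
-/

namespace Vale.Agent.P046

open Finset

variable {n J : ℕ} {L : ℝ}

theorem s1martga_step (P : Par n J L) {l : List (Tr n)} {u v : Fin n} (t : Tr n) :
    Fga n u v (t :: l) - avg (fun t' => Fga n u v (t' :: l)) =
      (ga (lstep (gr l) t) ((1 + 2 * epr n (hh n l.length)) * hh n l.length) u v -
        avg (fun t => ga (lstep (gr l) t)
          ((1 + 2 * epr n (hh n l.length)) * hh n l.length) u v)) *
        (hh n (l.length + 1))⁻¹ := by
  have h1 : ∀ t' : Tr n, Fga n u v (t' :: l) = (hh n (l.length + 1))⁻¹ *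
      ga (lstep (gr l) t') ((1 + 2 * epr n (hh n l.length)) * hh n l.length) u v := by
    intro t'
    show ga (lstep (gr l) t') (hh n (l.length + 1)) u v / hh n (l.length + 1) = _
    have h2 : hh n (l.length + 1) = (1 + 2 * epr n (hh n l.length)) * hh n l.length :=
      hh_succ P.hn l.length
    rw [div_eq_inv_mul, h2]
  rw [h1 t]
  simp only [h1, avg_mul]
  ring

theorem s1martga_inv (P : Par n J L) (i : ℕ) :
    0 ≤ (hh n (i + 1))⁻¹ ∧ hh n i * (hh n (i + 1))⁻¹ ≤ 1 := by
  have h0 := hh_pos P.hn i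
  have h1 := hh_pos P.hn (i + 1)
  have h2 : hh n i ≤ hh n (i + 1) := hh_mono n (Nat.le_succ i)
  refine ⟨(inv_pos.2 h1).le, ?_⟩
  rw [← div_eq_mul_inv, div_le_one h1]
  exact h2

open Classical in
theorem mart_ga_tail (P : Par n J L) {j : ℕ} (hj : j ≤ J) {u v : Fin n} (huv : u ≠ v) :
    EL j (fun l => if L ^ 3 < |mart (Ok n L) (Fga n u v) l| then 1 else 0) ≤
      2 * Real.exp (-(100 * (1 + Real.log n))) := by
  have hL8 : 10 ^ 8 ≤ L := P.L_ge
  have hL0 : 0 < L := lt_of_lt_of_le (by norm_num) hL8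
  have hep : ∀ i, 0 < ep n i := ep_pos P.hn
  have hmain := mart_tail P.hn (Ok n L) (Fga n u v) j (fun i => ep n i * L ^ 3) 40 (L ^ 4) (L ^ 3)
    (by norm_num) (by positivity) (by positivity) ?_ ?_ ?_ ?_
  · refine hmain.trans ?_
    have hlog : 100 * (1 + Real.log n) ≤ L := by
      have h1 := P.hL
      have h2 : (1 : ℝ) ≤ n := by exact_mod_cast P.hn
      have h3 : 0 ≤ Real.log n := Real.log_nonneg h2
      linarith
    have h1 : L ≤ (L ^ 3) ^ 2 / (4 * L ^ 4) := by
      rw [le_div_iff₀ (by positivity)]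
      have h4 : 4 * L ^ 5 ≤ L ^ 6 := by
        have h5 : 0 ≤ L ^ 5 := by positivity
        nlinarith
      calc L * (4 * L ^ 4) = 4 * L ^ 5 := by ring
        _ ≤ L ^ 6 := h4
        _ = (L ^ 3) ^ 2 := by ring
    have h2 : L ≤ L ^ 3 / (2 * 40) := by
      rw [le_div_iff₀ (by norm_num)]
      have h6 : (80 : ℝ) ≤ L ^ 2 := by nlinarith
      calc L * (2 * 40) = 80 * L := by ring
        _ ≤ L ^ 2 * L := mul_le_mul_of_nonneg_right h6 hL0.le
        _ = L ^ 3 := by ring
    have h3 : 100 * (1 + Real.log n) ≤ min ((L ^ 3) ^ 2 / (4 * L ^ 4)) (L ^ 3 / (2 * 40)) :=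
      le_min (hlog.trans h1) (hlog.trans h2)
    have h4 : Real.exp (-(min ((L ^ 3) ^ 2 / (4 * L ^ 4)) (L ^ 3 / (2 * 40)))) ≤
        Real.exp (-(100 * (1 + Real.log n))) := Real.exp_le_exp.2 (neg_le_neg h3)
    linarith
  · intro l hl hok t
    have R := hok.1.reg P (by omega)
    obtain ⟨h1, h2⟩ := s1martga_inv P l.length
    rw [s1martga_step P t, abs_mul, abs_of_nonneg h1]
    calc _ ≤ 40 * hh n l.length * (hh n (l.length + 1))⁻¹ :=
          mul_le_mul_of_nonneg_right (jump_ga R huv t) h1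
      _ = 40 * (hh n l.length * (hh n (l.length + 1))⁻¹) := by ring
      _ ≤ 40 := by linarith
  · intro l hl hok
    have R := hok.1.reg P (by omega)
    obtain ⟨h1, h2⟩ := s1martga_inv P l.length
    have h0 := hh_pos P.hn l.length
    simp only [s1martga_step P, mul_pow]
    have h3 := var_ga R huv
    rw [show (fun t : Tr n =>
        (ga (lstep (gr l) t) ((1 + 2 * epr n (hh n l.length)) * hh n l.length) u v -
          avg (fun t => ga (lstep (gr l) t)
            ((1 + 2 * epr n (hh n l.length)) * hh n l.length) u v)) ^ 2 *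
          (hh n (l.length + 1))⁻¹ ^ 2) = fun t : Tr n => (hh n (l.length + 1))⁻¹ ^ 2 *
        (ga (lstep (gr l) t) ((1 + 2 * epr n (hh n l.length)) * hh n l.length) u v -
          avg (fun t => ga (lstep (gr l) t)
            ((1 + 2 * epr n (hh n l.length)) * hh n l.length) u v)) ^ 2 from by
      funext t
      ring, avg_mul]
    have h4 : (hh n l.length * (hh n (l.length + 1))⁻¹) ^ 2 ≤ 1 :=
      pow_le_one₀ (mul_nonneg h0.le h1) h2
    have h5 : 0 ≤ ep n l.length * L ^ 3 := mul_nonneg (hep _).le (by positivity)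
    calc (hh n (l.length + 1))⁻¹ ^ 2 * avg (fun t : Tr n =>
        (ga (lstep (gr l) t) ((1 + 2 * epr n (hh n l.length)) * hh n l.length) u v -
          avg (fun t => ga (lstep (gr l) t)
            ((1 + 2 * epr n (hh n l.length)) * hh n l.length) u v)) ^ 2)
        ≤ (hh n (l.length + 1))⁻¹ ^ 2 *
          (epr n (hh n l.length) * (L ^ 3 * hh n l.length ^ 2)) :=
          mul_le_mul_of_nonneg_left h3 (sq_nonneg _)
      _ = ep n l.length * L ^ 3 * (hh n l.length * (hh n (l.length + 1))⁻¹) ^ 2 := by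
          unfold ep
          ring
      _ ≤ ep n l.length * L ^ 3 * 1 := mul_le_mul_of_nonneg_left h4 h5
      _ = ep n l.length * L ^ 3 := mul_one _
  · intro i
    exact mul_nonneg (hep i).le (by positivity)
  · rw [← Finset.sum_mul]
    have h1 := P.sum_ep_le_log hj
    have h2 : L / 10 ^ 8 ≤ L := by
      rw [div_le_iff₀ (by norm_num)]
      linarith
    calc (∑ i ∈ range j, ep n i) * L ^ 3 ≤ L * L ^ 3 :=
          mul_le_mul_of_nonneg_right (h1.trans h2) (by positivity)
      _ = L ^ 4 := by ring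

end Vale.Agent.P046
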