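import Vale.Agent.Lib.P046.S1Init
import Vale.Agent.Lib.P046.S1Freed
import Vale.Agent.Lib.P046.S1Ne

/-!
# S1: tail bounds for the martingale of the number of edges

See the list of parameters in `S1MartAl.lean`.
-/

namespace Vale.Agent.P046

open Finset

variable {n J : ℕ} {L : ℝ}

open Classical in
theorem s1martn_diff (hn : 0 < n) (G : SimpleGraph (Fin n)) (t : Tr n) :
    |Ne (lstep G t) - avg (fun t' => Ne (lstep G t'))| ≤ 3 := by
  have h1 : ∀ t' : Tr n, Ne G - 3 ≤ Ne (lstep G t') ∧ Ne (lstep G t') ≤ Ne G := by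
    intro t'
    rw [Ne_lstep t']
    split
    · constructor <;> linarith
    · constructor <;> linarith
  have h2 : avg (fun t' => Ne (lstep G t')) ≤ Ne G := by
    have := avg_mono (f := fun t' => Ne (lstep G t')) (g := fun _ => Ne G) fun t' => (h1 t').2
    rwa [avg_const hn] at this
  have h3 : Ne G - 3 ≤ avg (fun t' => Ne (lstep G t')) := by
    have := avg_mono (f := fun _ => Ne G - 3) (g := fun t' => Ne (lstep G t')) fun t' => (h1 t').1
    rwa [avg_const hn] at this
  have h4 := h1 t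
  rw [abs_le]
  constructor <;> linarith [h4.1, h4.2]

theorem s1martn_FN (l : List (Tr n)) (t : Tr n) :
    FN n (t :: l) - avg (fun t' => FN n (t' :: l)) =
      (Ne (lstep (gr l) t) - avg (fun t' => Ne (lstep (gr l) t'))) / N0 n (l.length + 1) := by
  have h1 : ∀ t' : Tr n, FN n (t' :: l) = (N0 n (l.length + 1))⁻¹ * Ne (lstep (gr l) t') := by
    intro t'
    have h2 : FN n (t' :: l) = Ne (lstep (gr l) t') / N0 n (l.length + 1) := rfl
    rw [h2, div_eq_inv_mul]
  simp only [h1, avg_mul]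
  rw [← mul_sub, div_eq_inv_mul]

theorem s1martn_small (P : Par n J L) {i : ℕ} (hi : i ≤ J) :
    0 ≤ L * √(hh n i) ∧ L * √(hh n i) ≤ 1 / 10 ^ 8 := by
  have hL := P.L_ge
  have hL0 : 0 < L := by linarith
  have hL1 : 1 ≤ L := by linarith
  have h1 := P.hh_le hi
  have hpos := hh_pos P.hn i
  refine ⟨by positivity, ?_⟩
  apply le_of_sq_le_sq _ (by norm_num)
  rw [mul_pow, Real.sq_sqrt hpos.le]
  have h2 : L ^ 2 * (10 ^ 8) ^ 2 ≤ L ^ 20 := by
    have h3 : ((10 : ℝ) ^ 8) ^ 2 ≤ L ^ 18 := by
      calc ((10 : ℝ) ^ 8) ^ 2 ≤ L ^ 2 := pow_le_pow_left₀ (by norm_num) hL 2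
        _ ≤ L ^ 18 := pow_le_pow_right₀ hL1 (by norm_num)
    calc L ^ 2 * (10 ^ 8) ^ 2 ≤ L ^ 2 * L ^ 18 := by gcongr
      _ = L ^ 20 := by ring
  have h4 : hh n i * (L ^ 2 * (10 ^ 8) ^ 2) ≤ 1 :=
    le_trans (mul_le_mul_of_nonneg_left h2 hpos.le) h1
  rw [div_pow, one_pow, le_div_iff₀ (by norm_num)]
  linarith

theorem s1martn_var (P : Par n J L) {l : List (Tr n)} (hl : l.length ≤ J) (g : Gd n L l) :
    avg (fun t => (FN n (t :: l) - avg (fun t' => FN n (t' :: l))) ^ 2) ≤
      5 * (ep n l.length / N0 n l.length) := by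
  have R := g.reg P hl
  have hn := P.hn
  have hv := var_Ne R
  have hep : epr n (hh n l.length) = ep n l.length := rfl
  rw [hep] at hv
  have hep0 := ep_pos hn l.length
  have hN0 := N0_pos hn l.length
  have hN1 := N0_pos hn (l.length + 1)
  have h100 := P.n_ge'
  have hep1 : ep n l.length ≤ 6 / 10000 := by
    refine (ep_le hn l.length).trans ?_
    have h2 : (10000 : ℝ) ≤ (n : ℝ) ^ 2 := by
      have h3 : (100 : ℝ) ≤ n := by exact_mod_cast h100
      nlinarith
    exact div_le_div_of_nonneg_left (by norm_num) (by norm_num) h2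
  have hNe := g.Ne_le
  have hs := s1martn_small P hl
  have hNe1 : Ne (gr l) ≤ (1 + 1 / 10 ^ 6) * N0 n l.length := by
    have h1 := (abs_le.mp hNe).2
    have h2 : 4 * L * √(hh n l.length) * N0 n l.length ≤ 1 / 10 ^ 6 * N0 n l.length := by
      apply mul_le_mul_of_nonneg_right _ hN0.le
      have : 4 * L * √(hh n l.length) = 4 * (L * √(hh n l.length)) := by ring
      rw [this]
      linarith [hs.2]
    linarith
  have hsq : N0 n (l.length + 1) ^ 2 = N0 n l.length ^ 2 / (1 + 2 * ep n l.length) := by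
    rw [N0_succ hn, div_pow, Real.sq_sqrt (by positivity)]
  have h5 : avg (fun t => (FN n (t :: l) - avg (fun t' => FN n (t' :: l))) ^ 2) =
      (N0 n (l.length + 1) ^ 2)⁻¹ *
        avg (fun t => (Ne (lstep (gr l) t) - avg (fun t => Ne (lstep (gr l) t))) ^ 2) := by
    rw [← avg_mul]
    congr 1
    funext t
    rw [s1martn_FN, div_pow, div_eq_inv_mul]
  rw [h5, hsq, inv_div]
  calc (1 + 2 * ep n l.length) / N0 n l.length ^ 2 *
        avg (fun t => (Ne (lstep (gr l) t) - avg (fun t => Ne (lstep (gr l) t))) ^ 2)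
      ≤ (1 + 2 * ep n l.length) / N0 n l.length ^ 2 *
        (4 * ep n l.length * ((1 + 1 / 10 ^ 6) * N0 n l.length)) := by
        apply mul_le_mul_of_nonneg_left _ (by positivity)
        refine hv.trans ?_
        exact mul_le_mul_of_nonneg_left hNe1 (by positivity)
    _ = ((1 + 2 * ep n l.length) * 4 * (1 + 1 / 10 ^ 6)) *
        (ep n l.length / N0 n l.length) := by
        field_simp
    _ ≤ 5 * (ep n l.length / N0 n l.length) := by
        apply mul_le_mul_of_nonneg_right _ (by positivity)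
        linarith

open Classical in
theorem mart_N_tail (P : Par n J L) {j : ℕ} (hj : j ≤ J) :
    EL j (fun l => if √(hh n j) < |mart (Ok n L) (FN n) l| then 1 else 0) ≤
      2 * Real.exp (-(100 * (1 + Real.log n))) := by
  have hn := P.hn
  have hN0 := N0_pos hn j
  have hhj := hh_pos hn j
  have h1 := mart_tail hn (Ok n L) (FN n) j (fun i => 5 * (ep n i / N0 n i)) (3 / N0 n j)
    (10 / N0 n j) (√(hh n j)) (by positivity) (by positivity) (Real.sqrt_pos.mpr hhj)
    (by
      intro l hl _ t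
      rw [s1martn_FN, abs_div, abs_of_pos (N0_pos hn _)]
      exact div_le_div₀ (by norm_num) (s1martn_diff hn _ _) hN0 (N0_antitone hn hl))
    (by
      intro l hl hOk
      exact s1martn_var P (hl.le.trans hj) hOk.1)
    (by
      intro i
      have := ep_pos hn i
      have := N0_pos hn i
      positivity)
    (by
      rw [← Finset.mul_sum]
      have := sum_ep_inv_N0 P.n_ge' j
      calc 5 * ∑ i ∈ range j, ep n i / N0 n i ≤ 5 * (2 / N0 n j) := by gcongr
        _ = 10 / N0 n j := by ring)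
  refine h1.trans ?_
  have hL := P.L_ge
  have hLlog := P.hL
  have hL1 : 1 ≤ L := by linarith
  have hhN := hh_mul_N0 hn j
  have hnL : L ≤ n := by
    refine le_trans ?_ P.n_ge
    calc L = L ^ 1 := (pow_one L).symm
      _ ≤ L ^ 20 := pow_le_pow_right₀ hL1 (by norm_num)
  have hlog0 : 0 ≤ 1 + Real.log n := by
    have : (1 : ℝ) ≤ n := by linarith
    have := Real.log_nonneg this
    linarith
  have hh1 : hh n j ≤ 1 := by
    have h2 := P.hh_le hj
    have h3 : (1 : ℝ) ≤ L ^ 20 := one_le_pow₀ hL1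
    nlinarith
  have hsq : hh n j ≤ √(hh n j) := by
    have h4 : √(hh n j) ≤ 1 := Real.sqrt_le_one.mpr hh1
    have h5 : √(hh n j) ^ 2 = hh n j := Real.sq_sqrt hhj.le
    nlinarith [Real.sqrt_nonneg (hh n j)]
  have key : 100 * (1 + Real.log n) ≤
      min (√(hh n j) ^ 2 / (4 * (10 / N0 n j))) (√(hh n j) / (2 * (3 / N0 n j))) := by
    apply le_min
    · rw [Real.sq_sqrt hhj.le]
      have : hh n j / (4 * (10 / N0 n j)) = hh n j * N0 n j / 40 := by
        field_simp
        norm_num
      rw [this]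
      linarith
    · have : √(hh n j) / (2 * (3 / N0 n j)) = √(hh n j) * N0 n j / 6 := by
        field_simp
        norm_num
      rw [this]
      have h6 : hh n j * N0 n j ≤ √(hh n j) * N0 n j := mul_le_mul_of_nonneg_right hsq hN0.le
      linarith
  have h7 : Real.exp (-(min (√(hh n j) ^ 2 / (4 * (10 / N0 n j)))
      (√(hh n j) / (2 * (3 / N0 n j))))) ≤ Real.exp (-(100 * (1 + Real.log n))) :=
    Real.exp_le_exp.mpr (neg_le_neg key)
  linarith

end Vale.Agent.P046
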