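import Vale.Agent.Lib.P046.S1MartAl
import Vale.Agent.Lib.P046.S1MartBe
import Vale.Agent.Lib.P046.S1MartGa
import Vale.Agent.Lib.P046.S1MartC
import Vale.Agent.Lib.P046.S1MartN
import Vale.Agent.Lib.P046.S1CloseAl
import Vale.Agent.Lib.P046.S1CloseBe
import Vale.Agent.Lib.P046.S1CloseGa
import Vale.Agent.Lib.P046.S1CloseC
import Vale.Agent.Lib.P046.S1CloseN

/-!
# S1: with high probability all histories up to the horizon are good
-/

namespace Vale.Agent.P046

open Finset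

variable {n J : ℕ} {L : ℝ}

/-- all closures together -/
theorem Gd_of_MBs (P : Par n J L) (l : List (Tr n)) (hl : l.length ≤ J) (ho : Okp n L l)
    (hm : MBs n L l) : Gd n L l :=
  ⟨fun _ _ huv => close_al P l hl ho hm huv, fun _ _ huv => close_be P l hl ho hm huv,
    fun _ _ huv => close_ga P l hl ho hm huv,
    fun hq _ _ _ huv huw hvw => close_C_sparse P l hl ho hq huv huw hvw,
    fun hq _ _ _ huv huw hvw => close_C_dense P l hl ho hm hq huv huw hvw,
    close_N P l hl ho hm⟩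

theorem Ok_of_MBs (P : Par n J L) (l : List (Tr n)) (hl : l.length ≤ J) (hm : MBs n L l) :
    Ok n L l := by
  induction l with
  | nil => exact ⟨Gd_of_MBs P [] (by simp) trivial hm, trivial⟩
  | cons t l ih =>
    have hl' : l.length ≤ J := by simp at hl; omega
    have ho : Okp n L (t :: l) := ih hl' hm.2
    exact ⟨Gd_of_MBs P (t :: l) hl ho hm, ho⟩

/-- union bound -/
theorem s1main_union {ι : Type} [Fintype ι] (j : ℕ) (E : ι → List (Tr n) → Prop)
    [∀ a l, Decidable (E a l)] [∀ l, Decidable (∃ a, E a l)] (δ : ℝ)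
    (h : ∀ a, EL j (fun l => if E a l then (1 : ℝ) else 0) ≤ δ) :
    EL j (fun l => if ∃ a, E a l then (1 : ℝ) else 0) ≤ Fintype.card ι * δ := by
  have h0 : ∀ (a : ι) (l : List (Tr n)), (0 : ℝ) ≤ if E a l then (1 : ℝ) else 0 := by
    intro a l
    split_ifs
    · exact zero_le_one
    · exact le_rfl
  calc EL j (fun l => if ∃ a, E a l then (1 : ℝ) else 0)
      ≤ EL j (fun l => ∑ a, if E a l then (1 : ℝ) else 0) := by
        refine EL_mono j fun l => ?_
        by_cases h1 : ∃ a, E a l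
        · rw [if_pos h1]
          obtain ⟨a, ha⟩ := h1
          have h2 := Finset.single_le_sum (f := fun a => if E a l then (1 : ℝ) else 0)
            (fun a _ => h0 a l) (Finset.mem_univ a)
          simp only [if_pos ha] at h2
          exact h2
        · rw [if_neg h1]
          exact Finset.sum_nonneg fun a _ => h0 a l
    _ = ∑ a, EL j (fun l => if E a l then (1 : ℝ) else 0) := EL_sum _ _ _
    _ ≤ ∑ _a : ι, δ := Finset.sum_le_sum fun a _ => h a
    _ = Fintype.card ι * δ := by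
        rw [Finset.sum_const, nsmul_eq_mul, Finset.card_univ]

theorem s1main_cond (hn : 0 < n) (j : ℕ) (q : Prop) (E' E : List (Tr n) → Prop)
    [DecidablePred E'] [DecidablePred E] (δ : ℝ) (hδ : 0 ≤ δ) (hE : ∀ l, E' l → q ∧ E l)
    (h : q → EL j (fun l => if E l then (1 : ℝ) else 0) ≤ δ) :
    EL j (fun l => if E' l then (1 : ℝ) else 0) ≤ δ := by
  by_cases hq : q
  · refine (EL_mono j fun l => ?_).trans (h hq)
    by_cases hE' : E' l
    · rw [if_pos hE', if_pos (hE l hE').2]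
    · rw [if_neg hE']
      split_ifs
      · exact zero_le_one
      · exact le_rfl
  · refine (EL_mono j (g := fun _ => 0) fun l => ?_).trans (by rw [EL_const hn]; exact hδ)
    rw [if_neg (fun h' => hq (hE l h').1)]

theorem s1main_five (M A1 A2 A3 A4 A5 : Prop) [Decidable M] [Decidable A1] [Decidable A2]
    [Decidable A3] [Decidable A4] [Decidable A5] (h : ¬A1 → ¬A2 → ¬A3 → ¬A4 → ¬A5 → M) :
    (if M then (0 : ℝ) else 1) ≤ ((((if A1 then (1 : ℝ) else 0) + (if A2 then (1 : ℝ) else 0)) +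
      (if A3 then (1 : ℝ) else 0)) + (if A4 then (1 : ℝ) else 0)) +
        (if A5 then (1 : ℝ) else 0) := by
  by_cases hM : M
  · rw [if_pos hM]
    positivity
  · rw [if_neg hM]
    by_cases h1 : A1
    · rw [if_pos h1]
      have : (0 : ℝ) ≤ (if A2 then (1 : ℝ) else 0) + (if A3 then (1 : ℝ) else 0) +
        (if A4 then (1 : ℝ) else 0) + (if A5 then (1 : ℝ) else 0) := by positivity
      linarith
    by_cases h2 : A2
    · rw [if_neg h1, if_pos h2]
      have : (0 : ℝ) ≤ (if A3 then (1 : ℝ) else 0) +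
        (if A4 then (1 : ℝ) else 0) + (if A5 then (1 : ℝ) else 0) := by positivity
      linarith
    by_cases h3 : A3
    · rw [if_neg h1, if_neg h2, if_pos h3]
      have : (0 : ℝ) ≤ (if A4 then (1 : ℝ) else 0) + (if A5 then (1 : ℝ) else 0) := by positivity
      linarith
    by_cases h4 : A4
    · rw [if_neg h1, if_neg h2, if_neg h3, if_pos h4]
      have : (0 : ℝ) ≤ (if A5 then (1 : ℝ) else 0) := by positivity
      linarith
    by_cases h5 : A5
    · rw [if_neg h1, if_neg h2, if_neg h3, if_neg h4, if_pos h5]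
      linarith
    exact absurd (h h1 h2 h3 h4 h5) hM

theorem s1main_EL5 (j : ℕ) (M A1 A2 A3 A4 A5 : List (Tr n) → Prop) [DecidablePred M]
    [DecidablePred A1] [DecidablePred A2] [DecidablePred A3] [DecidablePred A4] [DecidablePred A5]
    (h : ∀ l, l.length = j → ¬A1 l → ¬A2 l → ¬A3 l → ¬A4 l → ¬A5 l → M l) :
    EL j (fun l => if M l then (0 : ℝ) else 1) ≤
      (((EL j (fun l => if A1 l then (1 : ℝ) else 0) +
        EL j (fun l => if A2 l then (1 : ℝ) else 0)) +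
        EL j (fun l => if A3 l then (1 : ℝ) else 0)) +
        EL j (fun l => if A4 l then (1 : ℝ) else 0)) +
        EL j (fun l => if A5 l then (1 : ℝ) else 0) := by
  rw [← EL_add, ← EL_add, ← EL_add, ← EL_add]
  exact EL_mono_len j _ _ fun l hl => s1main_five _ _ _ _ _ _ (h l hl)

open Classical in
theorem s1main_al (P : Par n J L) {j : ℕ} (δ : ℝ) (hδ0 : 0 ≤ δ)
    (h : ∀ u v : Fin n, u ≠ v → EL j (fun l => if L / 10 * √(hh n j) <
      |mart (Ok n L) (Fal n u v) l| then (1 : ℝ) else 0) ≤ δ) :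
    EL j (fun l => if ∃ p : Fin n × Fin n, p.1 ≠ p.2 ∧ L / 10 * √(hh n j) <
      |mart (Ok n L) (Fal n p.1 p.2) l| then (1 : ℝ) else 0) ≤
      Fintype.card (Fin n × Fin n) * δ :=
  s1main_union j (fun (p : Fin n × Fin n) l => p.1 ≠ p.2 ∧ L / 10 * √(hh n j) <
      |mart (Ok n L) (Fal n p.1 p.2) l|) δ fun p => s1main_cond P.hn j (p.1 ≠ p.2)
    (fun l => p.1 ≠ p.2 ∧ L / 10 * √(hh n j) < |mart (Ok n L) (Fal n p.1 p.2) l|)
    (fun l => L / 10 * √(hh n j) < |mart (Ok n L) (Fal n p.1 p.2) l|) δ hδ0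
    (fun _ h => h) (h p.1 p.2)

open Classical in
theorem s1main_be (P : Par n J L) {j : ℕ} (δ : ℝ) (hδ0 : 0 ≤ δ)
    (h : ∀ u v : Fin n, u ≠ v → EL j (fun l => if L / 1000 * bb n j + L ^ 4 * hh n j <
      |mart (Ok n L) (Fbe n u v) l| then (1 : ℝ) else 0) ≤ δ) :
    EL j (fun l => if ∃ p : Fin n × Fin n, p.1 ≠ p.2 ∧ L / 1000 * bb n j + L ^ 4 * hh n j <
      |mart (Ok n L) (Fbe n p.1 p.2) l| then (1 : ℝ) else 0) ≤
      Fintype.card (Fin n × Fin n) * δ :=
  s1main_union j (fun (p : Fin n × Fin n) l => p.1 ≠ p.2 ∧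
      L / 1000 * bb n j + L ^ 4 * hh n j < |mart (Ok n L) (Fbe n p.1 p.2) l|) δ
    fun p => s1main_cond P.hn j (p.1 ≠ p.2)
    (fun l => p.1 ≠ p.2 ∧ L / 1000 * bb n j + L ^ 4 * hh n j <
      |mart (Ok n L) (Fbe n p.1 p.2) l|)
    (fun l => L / 1000 * bb n j + L ^ 4 * hh n j < |mart (Ok n L) (Fbe n p.1 p.2) l|) δ hδ0
    (fun _ h => h) (h p.1 p.2)

open Classical in
theorem s1main_ga (P : Par n J L) {j : ℕ} (δ : ℝ) (hδ0 : 0 ≤ δ)
    (h : ∀ u v : Fin n, u ≠ v → EL j (fun l => if L ^ 3 <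
      |mart (Ok n L) (Fga n u v) l| then (1 : ℝ) else 0) ≤ δ) :
    EL j (fun l => if ∃ p : Fin n × Fin n, p.1 ≠ p.2 ∧ L ^ 3 <
      |mart (Ok n L) (Fga n p.1 p.2) l| then (1 : ℝ) else 0) ≤
      Fintype.card (Fin n × Fin n) * δ :=
  s1main_union j (fun (p : Fin n × Fin n) l => p.1 ≠ p.2 ∧ L ^ 3 <
      |mart (Ok n L) (Fga n p.1 p.2) l|) δ fun p => s1main_cond P.hn j (p.1 ≠ p.2)
    (fun l => p.1 ≠ p.2 ∧ L ^ 3 < |mart (Ok n L) (Fga n p.1 p.2) l|)
    (fun l => L ^ 3 < |mart (Ok n L) (Fga n p.1 p.2) l|) δ hδ0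
    (fun _ h => h) (h p.1 p.2)

open Classical in
theorem s1main_C (P : Par n J L) {j : ℕ} (δ : ℝ) (hδ0 : 0 ≤ δ)
    (h : 1600 * L ^ 2 ≤ qq n j → ∀ u v w : Fin n, u ≠ v → u ≠ w → v ≠ w →
      EL j (fun l => if L / √(qq n j) <
        |mart (Ok n L) (FC n u v w) l| then (1 : ℝ) else 0) ≤ δ) :
    EL j (fun l => if ∃ p : Fin n × Fin n × Fin n,
      (1600 * L ^ 2 ≤ qq n j ∧ p.1 ≠ p.2.1 ∧ p.1 ≠ p.2.2 ∧ p.2.1 ≠ p.2.2) ∧
      L / √(qq n j) < |mart (Ok n L) (FC n p.1 p.2.1 p.2.2) l| then (1 : ℝ) else 0) ≤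
      Fintype.card (Fin n × Fin n × Fin n) * δ :=
  s1main_union j (fun (p : Fin n × Fin n × Fin n) l =>
      (1600 * L ^ 2 ≤ qq n j ∧ p.1 ≠ p.2.1 ∧ p.1 ≠ p.2.2 ∧ p.2.1 ≠ p.2.2) ∧
      L / √(qq n j) < |mart (Ok n L) (FC n p.1 p.2.1 p.2.2) l|) δ
    fun p => s1main_cond P.hn j
    (1600 * L ^ 2 ≤ qq n j ∧ p.1 ≠ p.2.1 ∧ p.1 ≠ p.2.2 ∧ p.2.1 ≠ p.2.2)
    (fun l => (1600 * L ^ 2 ≤ qq n j ∧ p.1 ≠ p.2.1 ∧ p.1 ≠ p.2.2 ∧ p.2.1 ≠ p.2.2) ∧
      L / √(qq n j) < |mart (Ok n L) (FC n p.1 p.2.1 p.2.2) l|)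
    (fun l => L / √(qq n j) < |mart (Ok n L) (FC n p.1 p.2.1 p.2.2) l|) δ hδ0
    (fun _ h => h) (fun hp => h hp.1 p.1 p.2.1 p.2.2 hp.2.1 hp.2.2.1 hp.2.2.2)

theorem s1main_MB {l : List (Tr n)}
    (e1 : ¬ ∃ p : Fin n × Fin n, p.1 ≠ p.2 ∧
      L / 10 * √(hh n l.length) < |mart (Ok n L) (Fal n p.1 p.2) l|)
    (e2 : ¬ ∃ p : Fin n × Fin n, p.1 ≠ p.2 ∧ L / 1000 * bb n l.length + L ^ 4 * hh n l.length <
      |mart (Ok n L) (Fbe n p.1 p.2) l|)
    (e3 : ¬ ∃ p : Fin n × Fin n, p.1 ≠ p.2 ∧ L ^ 3 < |mart (Ok n L) (Fga n p.1 p.2) l|)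
    (e4 : ¬ ∃ p : Fin n × Fin n × Fin n,
      (1600 * L ^ 2 ≤ qq n l.length ∧ p.1 ≠ p.2.1 ∧ p.1 ≠ p.2.2 ∧ p.2.1 ≠ p.2.2) ∧
      L / √(qq n l.length) < |mart (Ok n L) (FC n p.1 p.2.1 p.2.2) l|)
    (e5 : ¬ √(hh n l.length) < |mart (Ok n L) (FN n) l|) : MB n L l where
  al_le := fun u v huv => not_lt.mp fun hcon => e1 ⟨(u, v), huv, hcon⟩
  be_le := fun u v huv => not_lt.mp fun hcon => e2 ⟨(u, v), huv, hcon⟩
  ga_le := fun u v huv => not_lt.mp fun hcon => e3 ⟨(u, v), huv, hcon⟩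
  C_le := fun hq u v w huv huw hvw =>
    not_lt.mp fun hcon => e4 ⟨(u, v, w), ⟨hq, huv, huw, hvw⟩, hcon⟩
  Ne_le := not_lt.mp e5

open Classical in
/-- union bound over the pairs, the triples and the single edge martingale -/
theorem MB_prob (P : Par n J L) {j : ℕ} (hj : j ≤ J) :
    EL j (fun l => if MB n L l then 0 else 1) ≤
      ((n : ℝ) ^ 3 + 3 * n ^ 2 + 1) * (2 * Real.exp (-(100 * (1 + Real.log n)))) := by
  have h1 := fun (u v : Fin n) (huv : u ≠ v) => mart_al_tail P hj huv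
  have h2 := fun (u v : Fin n) (huv : u ≠ v) => mart_be_tail P hj huv
  have h3 := fun (u v : Fin n) (huv : u ≠ v) => mart_ga_tail P hj huv
  have h4 := fun (hq : 1600 * L ^ 2 ≤ qq n j) (u v w : Fin n) (huv : u ≠ v) (huw : u ≠ w)
    (hvw : v ≠ w) => mart_C_tail P hj hq huv huw hvw
  have h5 := mart_N_tail P hj
  have hδ0 : 0 ≤ 2 * Real.exp (-(100 * (1 + Real.log n))) := by positivity
  revert h1 h2 h3 h4 h5 hδ0
  generalize 2 * Real.exp (-(100 * (1 + Real.log n))) = δ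
  intro h1 h2 h3 h4 h5 hδ0
  have hc2 : (Fintype.card (Fin n × Fin n) : ℝ) = (n : ℝ) ^ 2 := by
    rw [Fintype.card_prod, Fintype.card_fin]
    push_cast
    ring
  have hc3 : (Fintype.card (Fin n × Fin n × Fin n) : ℝ) = (n : ℝ) ^ 3 := by
    rw [Fintype.card_prod, Fintype.card_prod, Fintype.card_fin]
    push_cast
    ring
  have hfin : ((n : ℝ) ^ 3 + 3 * n ^ 2 + 1) * δ =
      (((n : ℝ) ^ 2 * δ + (n : ℝ) ^ 2 * δ) + (n : ℝ) ^ 2 * δ) + (n : ℝ) ^ 3 * δ + δ := by ring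
  rw [hfin, ← hc2, ← hc3]
  have k1 := s1main_al P δ hδ0 h1
  have k2 := s1main_be P δ hδ0 h2
  have k3 := s1main_ga P δ hδ0 h3
  have k4 := s1main_C P δ hδ0 h4
  refine (s1main_EL5 j (MB n L) _ _ _ _ _ ?_).trans
    (add_le_add (add_le_add (add_le_add (add_le_add k1 k2) k3) k4) h5)
  intro l hl e1 e2 e3 e4 e5
  subst hl
  exact s1main_MB e1 e2 e3 e4 e5

open Classical in
/-- union bound over the times -/
theorem MBs_prob (P : Par n J L) {j : ℕ} (hj : j ≤ J) :
    EL j (fun l => if MBs n L l then 0 else 1) ≤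
      (j + 1) * (((n : ℝ) ^ 3 + 3 * n ^ 2 + 1) *
        (2 * Real.exp (-(100 * (1 + Real.log n))))) := by
  induction j with
  | zero =>
    have h1 := MB_prob P (Nat.zero_le J)
    have h2 : EL 0 (fun l => if MBs n L l then (0 : ℝ) else 1) =
        EL 0 (fun l => if MB n L l then (0 : ℝ) else 1) := rfl
    rw [h2]
    push_cast
    linarith
  | succ j ih =>
    have h1 := MB_prob P hj
    have h2 := ih (by omega)
    have h3 : EL (j + 1) (fun l => if MBs n L l then (0 : ℝ) else 1) ≤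
        EL (j + 1) (fun l => if MB n L l then (0 : ℝ) else 1) +
          EL j (fun l => if MBs n L l then (0 : ℝ) else 1) := by
      have h4 : EL j (fun l => if MBs n L l then (0 : ℝ) else 1) =
          EL j (fun l => avg fun _ : Tr n => if MBs n L l then (0 : ℝ) else 1) := by
        refine EL_congr_len j _ _ fun l _ => ?_
        rw [avg_const P.hn]
      rw [h4]
      show EL j (fun l => avg fun t => if MBs n L (t :: l) then (0 : ℝ) else 1) ≤
        EL j (fun l => avg fun t => if MB n L (t :: l) then (0 : ℝ) else 1) +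
          EL j (fun l => avg fun _ : Tr n => if MBs n L l then (0 : ℝ) else 1)
      rw [← EL_add]
      refine EL_mono j fun l => ?_
      rw [← avg_add]
      refine avg_mono fun t => ?_
      by_cases e1 : MB n L (t :: l)
      · by_cases e2 : MBs n L l
        · rw [if_pos (show MBs n L (t :: l) from ⟨e1, e2⟩), if_pos e1, if_pos e2]
          norm_num
        · rw [if_neg (show ¬ MBs n L (t :: l) from fun h => e2 h.2), if_pos e1, if_neg e2]
          norm_num
      · rw [if_neg (show ¬ MBs n L (t :: l) from fun h => e1 h.1), if_neg e1]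
        by_cases e2 : MBs n L l
        · rw [if_pos e2]
          norm_num
        · rw [if_neg e2]
          norm_num
    refine h3.trans ?_
    push_cast
    linarith

open Classical in
/-- **S1.** -/
theorem S1 (P : Par n J L) :
    EL J (fun l => if Ok n L l then 0 else 1) ≤ 1 / (n : ℝ) ^ 10 := by
  have h1 : EL J (fun l => if Ok n L l then (0 : ℝ) else 1) ≤
      EL J (fun l => if MBs n L l then (0 : ℝ) else 1) := by
    refine EL_mono_len J _ _ fun l hl => ?_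
    by_cases e1 : MBs n L l
    · rw [if_pos e1, if_pos (Ok_of_MBs P l hl.le e1)]
    · rw [if_neg e1]
      split_ifs
      · exact zero_le_one
      · exact le_rfl
  refine h1.trans ((MBs_prob P le_rfl).trans ?_)
  have hn1 : (1 : ℝ) ≤ n := by exact_mod_cast P.hn
  have hn0 : (0 : ℝ) < n := by linarith
  have hexp : Real.exp (-(100 * (1 + Real.log n))) ≤ 1 / (100 * (n : ℝ) ^ 16) := by
    rw [Real.exp_neg, ← one_div]
    refine one_div_le_one_div_of_le (by positivity) ?_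
    have e1 : Real.exp (100 * (1 + Real.log n)) = Real.exp 100 * (n : ℝ) ^ 100 := by
      rw [mul_add, mul_one, Real.exp_add]
      have e2 : Real.exp (100 * Real.log n) = (n : ℝ) ^ 100 := by
        have e3 := Real.exp_nat_mul (Real.log n) 100
        rw [Real.exp_log hn0] at e3
        rw [← e3]
        norm_num
      rw [e2]
    rw [e1]
    have e4 : (100 : ℝ) ≤ Real.exp 100 := by
      have := Real.add_one_le_exp (100 : ℝ)
      linarith
    have e5 : (n : ℝ) ^ 16 ≤ (n : ℝ) ^ 100 := pow_le_pow_right₀ hn1 (by norm_num)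
    exact mul_le_mul e4 e5 (by positivity) (by positivity)
  have hJ := P.J_le
  have hpoly : (n : ℝ) ^ 3 + 3 * n ^ 2 + 1 ≤ 5 * (n : ℝ) ^ 3 := by
    have e1 : (n : ℝ) ^ 2 ≤ (n : ℝ) ^ 3 := pow_le_pow_right₀ hn1 (by norm_num)
    have e2 : (1 : ℝ) ≤ (n : ℝ) ^ 3 := one_le_pow₀ hn1
    linarith
  have hE0 : 0 ≤ Real.exp (-(100 * (1 + Real.log n))) := (Real.exp_pos _).le
  calc ((J : ℝ) + 1) * (((n : ℝ) ^ 3 + 3 * n ^ 2 + 1) *
        (2 * Real.exp (-(100 * (1 + Real.log n)))))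
      ≤ (n : ℝ) ^ 3 * ((5 * (n : ℝ) ^ 3) * (2 * (1 / (100 * (n : ℝ) ^ 16)))) := by
        refine mul_le_mul hJ (mul_le_mul hpoly (by linarith) (by positivity) (by positivity))
          (by positivity) (by positivity)
    _ = (1 / 10) * (1 / (n : ℝ) ^ 10) := by
        field_simp
        ring
    _ ≤ 1 / (n : ℝ) ^ 10 := by
        have : 0 ≤ 1 / (n : ℝ) ^ 10 := by positivity
        linarith

end Vale.Agent.P046
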