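import Vale.Agent.Lib.P046.Stop

/-!
# The final graph is triangle-free
-/

namespace Vale.Agent.P046

open Finset

theorem final_cliqueFree (n : ℕ) (G : SimpleGraph (Fin n)) (hG : G ∈ (finalGraph n).support) :
    G.CliqueFree 3 := by
  classical
  by_contra hcon
  set f : SimpleGraph (Fin n) → ℝ := fun G => if G.CliqueFree 3 then 0 else 1 with hf
  have h1 : Ef f = Ef (fun _ => 0) := Ef_congr _ _ fun G' hG' => by simp [hf, hG']
  have h2 : ex (finalGraph n) f = 0 := by
    rw [ex_finalGraph, h1, ← ex_finalGraph, ex_const]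
  have h3 : ((finalGraph n) G).toReal * f G = 0 := by
    unfold ex at h2
    rw [Finset.sum_eq_zero_iff_of_nonneg] at h2
    · exact h2 G (mem_univ _)
    · intro G' _
      refine mul_nonneg ENNReal.toReal_nonneg ?_
      simp only [hf]
      split_ifs <;> norm_num
  rw [PMF.mem_support_iff] at hG
  have h4 : ((finalGraph n) G).toReal ≠ 0 :=
    (ENNReal.toReal_pos hG (PMF.apply_ne_top _ _)).ne'
  have h5 : f G = 1 := by simp [hf, hcon]
  rw [h5, mul_one] at h3
  exact h4 h3

end Vale.Agent.P046
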