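import Vale.Agent.Lib.P046.S1Bridge
import Vale.Agent.Lib.P046.S1Main
import Vale.Agent.Lib.P046.HMain
import Vale.Agent.Lib.P046.Stopped

/-!
# The limit theorem for the number of edges left by random triangle removal
-/

namespace Vale.Agent.P046

open Filter Topology

theorem s1Statement : S1Statement := S1Statement_of fun _ _ _ P => by
  classical
  refine le_trans (le_of_eq ?_) (S1 P)
  congr

theorem s2Statement : S2Statement := fun ε hε => H.S2_main ε hε

theorem final_theorem :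
    (∀ ε : ℝ, 0 < ε → Tendsto (fun n : ℕ => ((finalGraph n).toOuterMeasure
      {G | ε < |(Nat.card G.edgeSet : ℝ) / (n : ℝ) ^ (3 / 2 : ℝ) - 1 / (2 * √2)|}).toReal)
        atTop (𝓝 0)) ∧
    Tendsto (fun n : ℕ => (∑ G : SimpleGraph (Fin n),
      (finalGraph n G).toReal * (Nat.card G.edgeSet : ℝ)) / (n : ℝ) ^ (3 / 2 : ℝ))
        atTop (𝓝 (1 / (2 * √2))) :=
  limit_theorem s1Statement s2Statement

theorem prob_ne_top {n : ℕ} (S : Set (SimpleGraph (Fin n))) :
    (finalGraph n).toOuterMeasure S ≠ ⊤ := by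
  classical
  rw [PMF.toOuterMeasure_apply_fintype]
  refine (ENNReal.sum_lt_top.2 fun G _ => ?_).ne
  by_cases h : G ∈ S
  · rw [Set.indicator_of_mem h]
    exact (PMF.apply_ne_top _ _).lt_top
  · rw [Set.indicator_of_notMem h]
    exact ENNReal.zero_lt_top

theorem final_theorem' :
    (∀ (n : ℕ) (G : SimpleGraph (Fin n)), G ∈ (finalGraph n).support → G.CliqueFree 3) ∧
    (∀ ε : ℝ, 0 < ε → Tendsto (fun n : ℕ => (finalGraph n).toOuterMeasure
      {G | ε < |(Nat.card G.edgeSet : ℝ) / (n : ℝ) ^ (3 / 2 : ℝ) - 1 / (2 * √2)|})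
        atTop (𝓝 0)) ∧
    Tendsto (fun n : ℕ => (∑ G : SimpleGraph (Fin n),
      (finalGraph n G).toReal * (Nat.card G.edgeSet : ℝ)) / (n : ℝ) ^ (3 / 2 : ℝ))
        atTop (𝓝 (1 / (2 * √2))) := by
  refine ⟨final_cliqueFree, fun ε hε => ?_, final_theorem.2⟩
  exact (ENNReal.tendsto_toReal_zero_iff fun n => prob_ne_top _).1 (final_theorem.1 ε hε)

end Vale.Agent.P046
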