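import Mathlib

/-!
# The random triangle removal process

`step G` is the law of the graph obtained from `G` by deleting the three edges of a uniformly
chosen triangle of `G` (and `G` itself if `G` has no triangle).  `process n k` is the law of the
graph after `k` steps from the complete graph.  Every effective step deletes three edges, so after
`n.choose 2` steps the process has stopped.
-/

namespace Vale.Agent.P046

open Finset

/-- Delete from `G` the edges inside the vertex set `s`. -/
def removeTriangle {n : ℕ} (G : SimpleGraph (Fin n)) (s : Finset (Fin n)) :
    SimpleGraph (Fin n) :=
  G.deleteEdges {e | ∀ v ∈ e, v ∈ s}

open Classical in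
/-- One step of the random triangle removal process: a triangle of `G` is chosen uniformly at
random among all triangles of `G` and its three edges are deleted; nothing happens if `G` has no
triangle. -/
noncomputable def step {n : ℕ} (G : SimpleGraph (Fin n)) : PMF (SimpleGraph (Fin n)) :=
  if h : (G.cliqueFinset 3).Nonempty then
    (PMF.uniformOfFinset (G.cliqueFinset 3) h).map (removeTriangle G)
  else PMF.pure G

/-- The law of the graph after `k` steps of the process started from the graph `G`. -/
noncomputable def processFrom {n : ℕ} (G : SimpleGraph (Fin n)) : ℕ → PMF (SimpleGraph (Fin n))
  | 0 => PMF.pure G
  | k + 1 => (processFrom G k).bind step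

/-- The law of the final graph: the process from the complete graph, run for `n.choose 2` steps
(each effective step deletes three edges, so the process has stopped by then). -/
noncomputable def finalGraph (n : ℕ) : PMF (SimpleGraph (Fin n)) :=
  processFrom ⊤ (n.choose 2)

/-- The law of the number `F_n` of edges of the final graph. -/
noncomputable def finalEdges (n : ℕ) : PMF ℕ :=
  (finalGraph n).map fun G => Nat.card G.edgeSet

end Vale.Agent.P046
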