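import Vale.Agent.Lib.P046.HDefs

/-!
# Locally sparse hypergraphs have tree-like balls
-/

namespace Vale.Agent.P046.H

set_option linter.unusedSectionVars false

open Finset

variable {V : Type*} [Fintype V] [DecidableEq V]

/-- The vertices of the hyperedges in `F`, and `e`. -/
def supp (e : V) (F : Finset (Finset V)) : Finset V := insert e (F.biUnion id)

/-- The families of hyperedges that can be grown from the vertex `e`. -/
inductive Grow (E : Finset (Finset V)) (e : V) : Finset (Finset V) → Prop
  | nil : Grow E e ∅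
  | cons {F : Finset (Finset V)} {T : Finset V} : Grow E e F → T ∈ E → T ∉ F →
      ¬ Disjoint T (supp e F) → Grow E e (insert T F)

/-- Every family of at most `M` hyperedges grown from `e` is a hypertree. -/
def Sparse (E : Finset (Finset V)) (e : V) (M : ℕ) : Prop :=
  ∀ F, Grow E e F → F.card ≤ M → (supp e F).card = 2 * F.card + 1

theorem mem_supp {e : V} {F : Finset (Finset V)} {x : V} :
    x ∈ supp e F ↔ x = e ∨ ∃ T ∈ F, x ∈ T := by
  simp [supp]

theorem supp_insert (e : V) (F : Finset (Finset V)) (T : Finset V) :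
    supp e (insert T F) = supp e F ∪ T := by
  ext x
  simp only [mem_supp, mem_insert, mem_union, exists_eq_or_imp]
  constructor
  · rintro (h | h | h)
    · exact Or.inl (Or.inl h)
    · exact Or.inr h
    · exact Or.inl (Or.inr h)
  · rintro ((h | h) | h)
    · exact Or.inl h
    · exact Or.inr (Or.inr h)
    · exact Or.inr (Or.inl h)

variable {E : Finset (Finset V)} {e : V} {M : ℕ}

theorem supp_mono {F F' : Finset (Finset V)} (h : F ⊆ F') : supp e F ⊆ supp e F' := by
  intro x hx
  rw [mem_supp] at hx ⊢
  rcases hx with hx | ⟨T, hT, hx⟩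
  · exact Or.inl hx
  · exact Or.inr ⟨T, h hT, hx⟩

/-- In a locally sparse hypergraph a new hyperedge meets the grown family in one vertex. -/
theorem Sparse.inter (hs : Sparse E e M) (hE : ∀ T ∈ E, T.card = 3) {F : Finset (Finset V)}
    {T : Finset V} (hF : Grow E e F) (hc : F.card + 1 ≤ M) (hT : T ∈ E) (hTF : T ∉ F) {v : V}
    (hv : v ∈ T) (hvF : v ∈ supp e F) : T ∩ supp e F = {v} := by
  have hnd : ¬ Disjoint T (supp e F) := fun h => Finset.disjoint_left.1 h hv hvF
  have h1 := hs F hF (by omega)
  have h2 := hs _ (Grow.cons hF hT hTF hnd) (by rw [card_insert_of_notMem hTF]; exact hc)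
  rw [supp_insert, card_insert_of_notMem hTF] at h2
  have h3 := Finset.card_union_add_card_inter (supp e F) T
  have h4 : (supp e F ∩ T).card = 1 := by
    have := hE T hT
    omega
  obtain ⟨w, hw⟩ := Finset.card_eq_one.1 h4
  rw [Finset.inter_comm, hw]
  have : v ∈ supp e F ∩ T := mem_inter.2 ⟨hvF, hv⟩
  rw [hw, mem_singleton] at this
  rw [this]

theorem Sparse.notMem (hs : Sparse E e M) (hE : ∀ T ∈ E, T.card = 3) {F : Finset (Finset V)}
    {T : Finset V} (hF : Grow E e F) (hc : F.card + 1 ≤ M) (hT : T ∈ E) (hTF : T ∉ F) {v w : V}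
    (hv : v ∈ T) (hvF : v ∈ supp e F) (hw : w ∈ T) (hwv : w ≠ v) : w ∉ supp e F := by
  intro hwF
  have h := hs.inter hE hF hc hT hTF hv hvF
  have : w ∈ T ∩ supp e F := mem_inter.2 ⟨hw, hwF⟩
  rw [h, mem_singleton] at this
  exact hwv this

theorem mem_inc {E : Finset (Finset V)} {D : Finset V} {v : V} {T : Finset V} :
    T ∈ inc E D v ↔ T ∈ E ∧ v ∈ T ∧ Disjoint T D := by
  simp [inc]

theorem mem_Dep_succ {E : Finset (Finset V)} {k : ℕ} {D : Finset V} {v : V} {S : Finset V} :
    S ∈ Dep E (k + 1) D v ↔ S ∈ inc E D v ∨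
      ∃ T ∈ inc E D v, ∃ f ∈ T.erase v, S ∈ Dep E k (insert v D) f := by
  rw [Dep]
  simp only [mem_union, mem_biUnion]

/-- Walking from `f` to the hyperedge `S`, away from `D`. -/
theorem walk (hs : Sparse E e M) (hE : ∀ T ∈ E, T.card = 3) (k : ℕ) :
    ∀ (D : Finset V) (f : V) (F : Finset (Finset V)) (S : Finset V), Grow E e F →
      (∀ T ∈ F, ¬ Disjoint T D) → f ∈ supp e F → F.card + k ≤ M → S ∈ Dep E k D f →
      ∃ F', Grow E e F' ∧ F ⊆ F' ∧ S ∈ F' ∧ F'.card ≤ F.card + k ∧
        ∀ S' ∈ F', S' ∉ F → ∀ x ∈ S', x ∈ supp e F → x = f := by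
  induction k with
  | zero =>
    intro D f F S _ _ _ _ hS
    simp [Dep] at hS
  | succ k ih =>
    intro D f F S hF hD hf hc hS
    have hnew : ∀ T ∈ inc E D f, T ∉ F := by
      intro T hT hTF
      exact hD T hTF (mem_inc.1 hT).2.2
    have hgrow : ∀ T ∈ inc E D f, Grow E e (insert T F) := fun T hT =>
      Grow.cons hF (mem_inc.1 hT).1 (hnew T hT)
        fun h => Finset.disjoint_left.1 h (mem_inc.1 hT).2.1 hf
    rcases mem_Dep_succ.1 hS with hS | ⟨T, hT, g, hg, hS⟩
    · refine ⟨insert S F, hgrow S hS, Finset.subset_insert _ _, mem_insert_self _ _, ?_, ?_⟩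
      · rw [card_insert_of_notMem (hnew S hS)]
        omega
      · intro S' hS' hS'F x hx hxF
        rcases mem_insert.1 hS' with rfl | hS'
        · by_contra hne
          exact hs.notMem hE hF (by omega) (mem_inc.1 hS).1 (hnew _ hS) (mem_inc.1 hS).2.1 hf hx
            hne hxF
        · exact absurd hS' hS'F
    · have hgT := (mem_erase.1 hg)
      have hgF : g ∉ supp e F := hs.notMem hE hF (by omega) (mem_inc.1 hT).1 (hnew _ hT)
        (mem_inc.1 hT).2.1 hf hgT.2 hgT.1
      have q1 : ∀ T' ∈ insert T F, ¬ Disjoint T' (insert f D) := by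
        intro T' hT'
        rcases mem_insert.1 hT' with rfl | hT'
        · exact fun h => Finset.disjoint_left.1 h (mem_inc.1 hT).2.1 (mem_insert_self _ _)
        · exact fun h => hD T' hT' (h.mono_right (Finset.subset_insert _ _))
      have q2 : g ∈ supp e (insert T F) := mem_supp.2 (Or.inr ⟨T, mem_insert_self _ _, hgT.2⟩)
      have q3 : (insert T F).card + k ≤ M := by
        rw [card_insert_of_notMem (hnew T hT)]
        omega
      obtain ⟨F', h1, h2, h3, h4, h5⟩ := ih (insert f D) g (insert T F) S (hgrow T hT) q1 q2 q3 hS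
      refine ⟨F', h1, (Finset.subset_insert _ _).trans h2, h3, ?_, ?_⟩
      · rw [card_insert_of_notMem (hnew T hT)] at h4
        omega
      · intro S' hS' hS'F x hx hxF
        by_cases hST : S' = T
        · subst hST
          by_contra hne
          exact hs.notMem hE hF (by omega) (mem_inc.1 hT).1 (hnew _ hT) (mem_inc.1 hT).2.1 hf hx
            hne hxF
        · have hn : S' ∉ insert T F := by
            rw [mem_insert]
            rintro (h | h)
            · exact hST h
            · exact hS'F h
          have := h5 S' hS' hn x hx (supp_mono (Finset.subset_insert _ _) hxF)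
          exact absurd (this ▸ hxF) hgF

/-- A hyperedge reached from `f` is outside of the families that do not contain `f` again. -/
theorem walk_avoid (hs : Sparse E e M) (hE : ∀ T ∈ E, T.card = 3) (k : ℕ) :
    ∀ (D : Finset V) (f : V) (F F' : Finset (Finset V)) (S : Finset V), Grow E e F' → F ⊆ F' →
      (∀ T ∈ F, ¬ Disjoint T D) → f ∈ supp e F → (∀ T ∈ F', T ∉ F → f ∉ T) → F'.card + k ≤ M →
      S ∈ Dep E k D f → S ∉ F' := by
  induction k with
  | zero =>
    intro D f F F' S _ _ _ _ _ _ hS
    simp [Dep] at hS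
  | succ k ih =>
    intro D f F F' S hF' hsub hD hf hav hc hS
    have hnew : ∀ T ∈ inc E D f, T ∉ F' := by
      intro T hT hTF
      by_cases h : T ∈ F
      · exact hD T h (mem_inc.1 hT).2.2
      · exact hav T hTF h (mem_inc.1 hT).2.1
    have hf' : f ∈ supp e F' := supp_mono hsub hf
    rcases mem_Dep_succ.1 hS with hS | ⟨T, hT, g, hg, hS⟩
    · exact hnew S hS
    · have hgT := (mem_erase.1 hg)
      have hgF : g ∉ supp e F' := hs.notMem hE hF' (by omega) (mem_inc.1 hT).1 (hnew _ hT)
        (mem_inc.1 hT).2.1 hf' hgT.2 hgT.1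
      have := ih (insert f D) g (insert T F) (insert T F') S
        (Grow.cons hF' (mem_inc.1 hT).1 (hnew T hT)
          fun h => Finset.disjoint_left.1 h (mem_inc.1 hT).2.1 hf')
        (Finset.insert_subset_insert _ hsub) ?_ ?_ ?_ ?_ hS
      · exact fun h => this (mem_insert_of_mem h)
      · intro T' hT'
        rcases mem_insert.1 hT' with rfl | hT'
        · exact fun h => Finset.disjoint_left.1 h (mem_inc.1 hT).2.1 (mem_insert_self _ _)
        · exact fun h => hD T' hT' (h.mono_right (Finset.subset_insert _ _))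
      · rw [mem_supp]
        exact Or.inr ⟨T, mem_insert_self _ _, hgT.2⟩
      · intro T' hT' hT'F hgT'
        rcases mem_insert.1 hT' with rfl | hT'
        · exact hT'F (mem_insert_self _ _)
        · exact hgF (mem_supp.2 (Or.inr ⟨T', hT', hgT'⟩))
      · rw [card_insert_of_notMem (hnew T hT)]
        omega

theorem treeB_aux (hs : Sparse E e M) (hE : ∀ T ∈ E, T.card = 3) (k : ℕ) :
    ∀ (D : Finset V) (v : V) (P : Finset V) (F : Finset (Finset V)), Grow E e F →
      (∀ T ∈ F, ¬ Disjoint T D) → v ∈ supp e F → v ∉ D → D ⊆ supp e F →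
      (∀ T ∈ F, v ∈ T → T = P) → (v ∈ P → ¬ Disjoint P D) → F.card + 2 * k + 2 ≤ M →
      TreeB E k D v P := by
  induction k with
  | zero => intros; trivial
  | succ k ih =>
    intro D v P F hF hD hv hvD hDs hFP hP hc
    have hnew : ∀ T ∈ inc E D v, T ∉ F := by
      intro T hT hTF
      exact hD T hTF (mem_inc.1 hT).2.2
    have hgrow : ∀ T ∈ inc E D v, Grow E e (insert T F) := fun T hT =>
      Grow.cons hF (mem_inc.1 hT).1 (hnew T hT)
        fun h => Finset.disjoint_left.1 h (mem_inc.1 hT).2.1 hv
    refine ⟨?_, ?_, ?_⟩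
    · ext T
      rw [mem_inc, mem_erase, mem_filter]
      constructor
      · rintro ⟨h1, h2, h3⟩
        exact ⟨fun h => hP (h ▸ h2) (h ▸ h3), h1, h2⟩
      · rintro ⟨h1, h2, h3⟩
        refine ⟨h2, h3, ?_⟩
        have hTF : T ∉ F := fun h => h1 (hFP T h h3)
        rw [Finset.disjoint_left]
        intro x hx hxD
        exact hs.notMem hE hF (by omega) h2 hTF h3 hv hx (fun h => hvD (h ▸ hxD)) (hDs hxD)
    · intro T hT f hf
      have hfT := mem_erase.1 hf
      have hfF : f ∉ supp e F := hs.notMem hE hF (by omega) (mem_inc.1 hT).1 (hnew _ hT)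
        (mem_inc.1 hT).2.1 hv hfT.2 hfT.1
      refine ih (insert v D) f T (insert T F) (hgrow T hT) ?_ ?_ ?_ ?_ ?_ ?_ ?_
      · intro T' hT'
        rcases mem_insert.1 hT' with rfl | hT'
        · exact fun h => Finset.disjoint_left.1 h (mem_inc.1 hT).2.1 (mem_insert_self _ _)
        · exact fun h => hD T' hT' (h.mono_right (Finset.subset_insert _ _))
      · rw [mem_supp]
        exact Or.inr ⟨T, mem_insert_self _ _, hfT.2⟩
      · rw [mem_insert]
        rintro (h | h)
        · exact hfT.1 h
        · exact Finset.disjoint_left.1 (mem_inc.1 hT).2.2 hfT.2 h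
      · intro x hx
        rcases mem_insert.1 hx with rfl | hx
        · exact supp_mono (Finset.subset_insert _ _) hv
        · exact supp_mono (Finset.subset_insert _ _) (hDs hx)
      · intro T' hT' hfT'
        rcases mem_insert.1 hT' with rfl | hT'
        · rfl
        · exact absurd (mem_supp.2 (Or.inr ⟨T', hT', hfT'⟩)) hfF
      · exact fun _ h => Finset.disjoint_left.1 h (mem_inc.1 hT).2.1 (mem_insert_self _ _)
      · rw [card_insert_of_notMem (hnew T hT)]
        omega
    · intro T hT f hf T' hT' f' hf' hne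
      have hfT := mem_erase.1 hf
      have hfT' := mem_erase.1 hf'
      -- the family with `T` and `T'`
      have key : ∃ F₀, Grow E e F₀ ∧ F₀.card ≤ F.card + 2 ∧ T ∈ F₀ ∧ T' ∈ F₀ ∧
          (∀ S ∈ F₀, ¬ Disjoint S (insert v D)) := by
        have hD' : ∀ S ∈ F, ¬ Disjoint S (insert v D) := fun S hS h =>
          hD S hS (h.mono_right (Finset.subset_insert _ _))
        have hv1 : ∀ S ∈ inc E D v, ¬ Disjoint S (insert v D) := fun S hS h =>
          Finset.disjoint_left.1 h (mem_inc.1 hS).2.1 (mem_insert_self _ _)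
        by_cases hTT : T' = T
        · refine ⟨insert T F, hgrow T hT, ?_, mem_insert_self _ _, ?_, ?_⟩
          · rw [card_insert_of_notMem (hnew T hT)]
            omega
          · rw [hTT]
            exact mem_insert_self _ _
          · intro S hS
            rcases mem_insert.1 hS with rfl | hS
            · exact hv1 _ hT
            · exact hD' S hS
        · have hn : T' ∉ insert T F := by
            rw [mem_insert]
            rintro (h | h)
            · exact hTT h
            · exact hnew T' hT' h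
          refine ⟨insert T' (insert T F), Grow.cons (hgrow T hT) (mem_inc.1 hT').1 hn ?_, ?_,
            mem_insert_of_mem (mem_insert_self _ _), mem_insert_self _ _, ?_⟩
          · exact fun h => Finset.disjoint_left.1 h (mem_inc.1 hT').2.1
              (supp_mono (Finset.subset_insert _ _) hv)
          · rw [card_insert_of_notMem hn, card_insert_of_notMem (hnew T hT)]
          · intro S hS
            rcases mem_insert.1 hS with rfl | hS
            · exact hv1 _ hT'
            · rcases mem_insert.1 hS with rfl | hS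
              · exact hv1 _ hT
              · exact hD' S hS
      obtain ⟨F₀, g1, g2, g3, g4, g5⟩ := key
      have hff : f' ≠ f := by
        rintro rfl
        have hTT : T ≠ T' := fun h => hne (by rw [h])
        have hn : T' ∉ insert T F := by
          rw [mem_insert]
          rintro (h | h)
          · exact hTT h.symm
          · exact hnew T' hT' h
        have := hs.notMem hE (hgrow T hT) (by rw [card_insert_of_notMem (hnew T hT)]; omega)
          (mem_inc.1 hT').1 hn (mem_inc.1 hT').2.1 (supp_mono (Finset.subset_insert _ _) hv)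
          hfT'.2 hfT'.1
        exact this (mem_supp.2 (Or.inr ⟨T, mem_insert_self _ _, hfT.2⟩))
      rw [Finset.disjoint_left]
      intro S hS hS'
      obtain ⟨F', h1, h2, h3, h4, h5⟩ := walk hs hE k (insert v D) f F₀ S g1 g5
        (mem_supp.2 (Or.inr ⟨T, g3, hfT.2⟩)) (by omega) hS
      have hf'0 : f' ∈ supp e F₀ := mem_supp.2 (Or.inr ⟨T', g4, hfT'.2⟩)
      exact walk_avoid hs hE k (insert v D) f' F₀ F' S h1 h2 g5 hf'0
        (fun S' hS' hS'F hx => hff (h5 S' hS' hS'F f' hx hf'0)) (by omega) hS' h3

/-- The ball of radius `R` around `e` is a tree. -/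
theorem treeB_of_sparse (hE : ∀ T ∈ E, T.card = 3) (R : ℕ) (hs : Sparse E e (2 * R + 2)) :
    TreeB E R ∅ e ∅ :=
  treeB_aux hs hE R ∅ e ∅ ∅ Grow.nil (by simp) (by simp [supp]) (by simp) (by simp) (by simp)
    (by simp) (by simp)

end Vale.Agent.P046.H
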