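import Vale.Agent.Lib.P046.Hyp
import Vale.Agent.Lib.P046.Sparse

/-!
# Edges outside of dense spots have tree-like balls
-/

namespace Vale.Agent.P046

open Finset

variable {n : ℕ}

/-- The vertices of the edges in `C`. -/
def verts (C : Finset (Sym2 (Fin n))) : Finset (Fin n) := univ.filter fun v => ∃ c ∈ C, v ∈ c

/-- The edge `e` lies in a dense spot with at most `m` vertices. -/
def Dense (G : SimpleGraph (Fin n)) (m : ℕ) (e : Sym2 (Fin n)) : Prop :=
  ∃ W : Finset (Fin n), W.card ≤ m ∧ (∀ v ∈ e, v ∈ W) ∧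
    2 * W.card ≤ ((edges G).filter fun c => ∀ v ∈ c, v ∈ W).card + 2

theorem mem_verts {C : Finset (Sym2 (Fin n))} {v : Fin n} : v ∈ verts C ↔ ∃ c ∈ C, v ∈ c := by
  simp [verts]

theorem hyp_cases {G : SimpleGraph (Fin n)} {T : Finset (Sym2 (Fin n))} (hT : T ∈ hyp G)
    {c : Sym2 (Fin n)} (hc : c ∈ T) : ∃ x y z, x ≠ y ∧ x ≠ z ∧ y ≠ z ∧ c = s(x, y) ∧
      T = {s(x, y), s(x, z), s(y, z)} ∧ G.Adj x y ∧ G.Adj x z ∧ G.Adj y z := by
  classical
  have hT' : T ∈ (G.cliqueFinset 3).image edgesOf := by
    unfold hyp at hT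
    convert hT
  obtain ⟨s, hs, rfl⟩ := Finset.mem_image.1 hT'
  obtain ⟨x, y, z, hxy, hxz, hyz, rfl⟩ :=
    SimpleGraph.is3Clique_iff.1 (SimpleGraph.mem_cliqueFinset_iff.1 hs)
  rw [edgesOf_triple x y z hxy.ne hxz.ne hyz.ne] at hc ⊢
  simp only [mem_insert, mem_singleton] at hc
  rcases hc with rfl | rfl | rfl
  · exact ⟨x, y, z, hxy.ne, hxz.ne, hyz.ne, rfl, rfl, hxy, hxz, hyz⟩
  · refine ⟨x, z, y, hxz.ne, hxy.ne, hyz.ne.symm, rfl, ?_, hxz, hxy, hyz.symm⟩
    ext c
    simp only [mem_insert, mem_singleton, Sym2.eq_swap (a := z) (b := y)]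
    tauto
  · refine ⟨y, z, x, hyz.ne, hxy.ne.symm, hxz.ne.symm, rfl, ?_, hyz, hxy.symm, hxz.symm⟩
    ext c
    simp only [mem_insert, mem_singleton, Sym2.eq_swap (a := z) (b := x),
      Sym2.eq_swap (a := y) (b := x)]
    tauto

theorem tri_aux (x y z a b : Fin n) (hab : a ≠ b) (ha : a = x ∨ a = y) (hb : b = x ∨ b = y) :
    ({s(z, a), s(z, b), s(a, b)} : Finset (Sym2 (Fin n))) = {s(x, y), s(x, z), s(y, z)} := by
  rcases ha with rfl | rfl <;> rcases hb with rfl | rfl
  · exact absurd rfl hab
  · ext c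
    simp only [mem_insert, mem_singleton, Sym2.eq_swap (a := z)]
    tauto
  · ext c
    simp only [mem_insert, mem_singleton, Sym2.eq_swap (a := z),
      Sym2.eq_swap (a := a) (b := b)]
    tauto
  · exact absurd rfl hab

theorem hyp_cases_mem {G : SimpleGraph (Fin n)} {T : Finset (Sym2 (Fin n))} (hT : T ∈ hyp G)
    {c : Sym2 (Fin n)} (hc : c ∈ T) {z : Fin n} (hz : z ∈ c) : ∃ a b, a ≠ b ∧
      T = {s(z, a), s(z, b), s(a, b)} := by
  obtain ⟨x', y', z', hxy', hxz', hyz', hd', hTe, -, -, -⟩ := hyp_cases hT hc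
  rw [hd', Sym2.mem_iff] at hz
  rcases hz with h | h
  · subst h
    exact ⟨y', z', hyz', hTe⟩
  · subst h
    refine ⟨x', z', hxz', ?_⟩
    rw [hTe]
    ext c
    simp only [mem_insert, mem_singleton, Sym2.eq_swap (a := z) (b := x')]
    tauto

theorem verts_union (C : Finset (Sym2 (Fin n))) (x y z : Fin n) (hcC : s(x, y) ∈ C) :
    verts (C ∪ {s(x, y), s(x, z), s(y, z)}) = insert z (verts C) := by
  have hx : x ∈ verts C := mem_verts.2 ⟨_, hcC, by simp⟩
  have hy : y ∈ verts C := mem_verts.2 ⟨_, hcC, by simp⟩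
  ext v
  rw [mem_verts, mem_insert, mem_verts]
  constructor
  · rintro ⟨d, hd, hv⟩
    rw [mem_union] at hd
    rcases hd with hd | hd
    · exact Or.inr ⟨d, hd, hv⟩
    · simp only [mem_insert, mem_singleton] at hd
      rcases hd with rfl | rfl | rfl
      · exact Or.inr ⟨_, hcC, hv⟩
      · rw [Sym2.mem_iff] at hv
        rcases hv with rfl | rfl
        · exact Or.inr (mem_verts.1 hx)
        · exact Or.inl rfl
      · rw [Sym2.mem_iff] at hv
        rcases hv with rfl | rfl
        · exact Or.inr (mem_verts.1 hy)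
        · exact Or.inl rfl
  · rintro (rfl | ⟨d, hd, hv⟩)
    · exact ⟨s(x, v), by simp, by simp⟩
    · exact ⟨d, mem_union_left _ hd, hv⟩

theorem two_tree (G : SimpleGraph (Fin n)) (e : Sym2 (Fin n)) (he : e ∈ edges G)
    (F : Finset (Finset (Sym2 (Fin n)))) (hF : H.Grow (hyp G) e F) :
    H.supp e F ⊆ edges G ∧ (verts (H.supp e F)).card ≤ F.card + 2 ∧
      2 * (verts (H.supp e F)).card ≤ (H.supp e F).card + 3 ∧
      ((H.supp e F).card + 3 ≤ 2 * (verts (H.supp e F)).card →
        (H.supp e F).card = 2 * F.card + 1 ∧ ∀ T ∈ hyp G, T ⊆ H.supp e F → T ∈ F) := by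
  induction hF with
  | nil =>
    have h1 : H.supp e ∅ = {e} := by simp [H.supp]
    rw [h1]
    have h2 : (verts {e}).card = 2 := by
      revert he
      induction e using Sym2.ind with
      | _ a b =>
        intro he
        have hab : G.Adj a b := by
          rw [mem_edges] at he
          exact he
        have : verts {s(a, b)} = {a, b} := by
          ext v
          simp [mem_verts]
        rw [this, Finset.card_pair hab.ne]
    rw [h2]
    refine ⟨by simpa using he, by simp, by simp, fun _ => ⟨by simp, ?_⟩⟩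
    intro T hT hTe
    have h3 := (hyp_subset_edges G T hT).2
    have h4 := Finset.card_le_card hTe
    rw [h3] at h4
    simp at h4
  | @cons F T hF hT hTF hnd ih =>
    obtain ⟨i1, i2, i3, i4⟩ := ih
    set C := H.supp e F with hC
    rw [H.supp_insert, ← hC, card_insert_of_notMem hTF]
    obtain ⟨c, hcT, hcC⟩ := Finset.not_disjoint_iff.1 hnd
    obtain ⟨x, y, z, hxy, hxz, hyz, rfl, rfl, axy, axz, ayz⟩ := hyp_cases hT hcT
    have hCT : C ∪ {s(x, y), s(x, z), s(y, z)} = insert s(x, z) (insert s(y, z) C) := by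
      ext d
      simp only [mem_union, mem_insert, mem_singleton]
      constructor
      · rintro (h | rfl | h | h)
        · exact Or.inr (Or.inr h)
        · exact Or.inr (Or.inr hcC)
        · exact Or.inl h
        · exact Or.inr (Or.inl h)
      · rintro (h | h | h)
        · exact Or.inr (Or.inr (Or.inl h))
        · exact Or.inr (Or.inr (Or.inr h))
        · exact Or.inl h
    have hx : x ∈ verts C := mem_verts.2 ⟨_, hcC, by simp⟩
    have hy : y ∈ verts C := mem_verts.2 ⟨_, hcC, by simp⟩
    have hsub : C ∪ {s(x, y), s(x, z), s(y, z)} ⊆ edges G := by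
      apply Finset.union_subset i1
      intro d hd
      simp only [mem_insert, mem_singleton] at hd
      rw [mem_edges]
      rcases hd with rfl | rfl | rfl
      · exact axy
      · exact axz
      · exact ayz
    have hverts := verts_union C x y z hcC
    rw [hverts]
    by_cases hz : z ∈ verts C
    · rw [Finset.insert_eq_of_mem hz]
      have hle : C.card ≤ (C ∪ {s(x, y), s(x, z), s(y, z)}).card :=
        Finset.card_le_card Finset.subset_union_left
      refine ⟨hsub, by omega, by omega, fun h => ?_⟩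
      exfalso
      obtain ⟨_, j2⟩ := i4 (by omega)
      have heq : C = C ∪ {s(x, y), s(x, z), s(y, z)} :=
        Finset.eq_of_subset_of_card_le Finset.subset_union_left (by omega)
      refine hTF (j2 _ hT ?_)
      rw [heq]
      exact Finset.subset_union_right
    · rw [card_insert_of_notMem hz]
      have hn1 : s(y, z) ∉ C := fun h => hz (mem_verts.2 ⟨_, h, by simp⟩)
      have hn2 : s(x, z) ∉ insert s(y, z) C := by
        rw [mem_insert]
        rintro (h | h)
        · rw [Sym2.eq_iff] at h
          rcases h with ⟨h, _⟩ | ⟨h, _⟩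
          · exact hxy h
          · exact hxz h
        · exact hz (mem_verts.2 ⟨_, h, by simp⟩)
      have hcard : (C ∪ {s(x, y), s(x, z), s(y, z)}).card = C.card + 2 := by
        rw [hCT, card_insert_of_notMem hn2, card_insert_of_notMem hn1]
      rw [hcard]
      refine ⟨hsub, by omega, by omega, fun h => ?_⟩
      obtain ⟨j1, j2⟩ := i4 (by omega)
      refine ⟨by omega, fun T' hT' hT'C => ?_⟩
      by_cases hT'' : T' ⊆ C
      · exact mem_insert_of_mem (j2 _ hT' hT'')
      · rw [Finset.not_subset] at hT''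
        obtain ⟨d, hdT', hdC⟩ := hT''
        -- `d` contains `z`
        have hzd : z ∈ d := by
          have := hT'C hdT'
          rw [hCT, mem_insert, mem_insert] at this
          rcases this with rfl | rfl | h
          · simp
          · simp
          · exact absurd h hdC
        have hedge : ∀ a, s(z, a) ∈ T' → a = x ∨ a = y := by
          intro a ha
          have := hT'C ha
          rw [hCT, mem_insert, mem_insert] at this
          rcases this with h | h | h
          · rw [Sym2.eq_iff] at h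
            rcases h with ⟨h1, h2⟩ | ⟨_, h2⟩
            · exact absurd h1.symm hxz
            · exact Or.inl h2
          · rw [Sym2.eq_iff] at h
            rcases h with ⟨h1, h2⟩ | ⟨_, h2⟩
            · exact absurd h1.symm hyz
            · exact Or.inr h2
          · exact absurd (mem_verts.2 ⟨_, h, by simp⟩) hz
        obtain ⟨a, b, hab, hTe⟩ := hyp_cases_mem hT' hdT' hzd
        apply mem_insert.2
        left
        rw [hTe]
        apply tri_aux x y z a b hab
        · apply hedge
          rw [hTe]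
          simp
        · apply hedge
          rw [hTe]
          simp

theorem treeB_of_not_dense (G : SimpleGraph (Fin n)) (e : Sym2 (Fin n)) (he : e ∈ edges G)
    (R : ℕ) (h : ¬ Dense G (2 * R + 4) e) : H.TreeB (hyp G) R ∅ e ∅ := by
  refine H.treeB_of_sparse (fun T hT => (hyp_subset_edges G T hT).2) R fun F hF hFc => ?_
  obtain ⟨h1, h2, h3, h4⟩ := two_tree G e he F hF
  by_contra hne
  apply h
  refine ⟨verts (H.supp e F), by omega, ?_, ?_⟩
  · intro v hv
    exact mem_verts.2 ⟨e, H.mem_supp.2 (Or.inl rfl), hv⟩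
  · have h5 : ¬ ((H.supp e F).card + 3 ≤ 2 * (verts (H.supp e F)).card) := fun hh =>
      hne (h4 hh).1
    have h6 : (H.supp e F).card ≤
        ((edges G).filter fun c => ∀ v ∈ c, v ∈ verts (H.supp e F)).card := by
      apply Finset.card_le_card
      intro c hc
      exact mem_filter.2 ⟨h1 hc, fun v hv => mem_verts.2 ⟨c, hc, hv⟩⟩
    omega

end Vale.Agent.P046
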