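import Vale.Agent.Lib.P046.Survival
import Vale.Agent.Lib.P046.TwoTree

/-!
# Few edges lie in dense spots
-/

namespace Vale.Agent.P046

open Finset

variable {n : ℕ}

theorem card_edgesOf_le (W : Finset (Fin n)) : (edgesOf W).card ≤ W.card ^ 2 := by
  classical
  have : edgesOf W ⊆ (W ×ˢ W).image fun q => s(q.1, q.2) := by
    intro e he
    induction e using Sym2.ind with
    | _ a b =>
      rw [mem_edgesOf] at he
      exact mem_image.2 ⟨(a, b), mem_product.2 ⟨he.2.1, he.2.2⟩, rfl⟩
  refine (Finset.card_le_card this).trans (Finset.card_image_le.trans ?_)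
  rw [card_product, sq]

open Classical in
theorem dense_le (G : SimpleGraph (Fin n)) (m : ℕ) :
    ((edges G).filter (Dense G m)).card ≤
      ∑ W ∈ univ.filter (fun W : Finset (Fin n) => 2 ≤ W.card ∧ W.card ≤ m),
        m ^ 2 * ∑ S ∈ (edgesOf W).powersetCard (2 * W.card - 2), if S ⊆ edges G then 1 else 0 := by
  have h1 : (edges G).filter (Dense G m) ⊆
      ((univ.filter (fun W : Finset (Fin n) => 2 ≤ W.card ∧ W.card ≤ m)).filter fun W =>
        2 * W.card ≤ ((edges G).filter fun c => ∀ v ∈ c, v ∈ W).card + 2).biUnion edgesOf := by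
    intro e he
    rw [mem_filter] at he
    obtain ⟨heG, W, hW1, hW2, hW3⟩ := he
    rw [mem_biUnion]
    refine ⟨W, ?_, ?_⟩
    · rw [mem_filter, mem_filter]
      refine ⟨⟨mem_univ _, ?_, hW1⟩, hW3⟩
      induction e using Sym2.ind with
      | _ a b =>
        rw [mem_edges] at heG
        have hab : G.Adj a b := heG
        rw [← Finset.card_pair hab.ne]
        apply Finset.card_le_card
        intro v hv
        apply hW2
        rw [Sym2.mem_iff]
        simpa using hv
    · induction e using Sym2.ind with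
      | _ a b =>
        rw [mem_edges] at heG
        have hab : G.Adj a b := heG
        rw [mem_edgesOf]
        exact ⟨hab.ne, hW2 a (by simp), hW2 b (by simp)⟩
  refine (Finset.card_le_card h1).trans (Finset.card_biUnion_le.trans ?_)
  rw [Finset.sum_filter]
  refine Finset.sum_le_sum fun W hW => ?_
  rw [mem_filter] at hW
  split_ifs with h
  · have h2 : (edgesOf W).card ≤ m ^ 2 :=
      (card_edgesOf_le W).trans (Nat.pow_le_pow_left hW.2.2 2)
    have h3 : 1 ≤ ∑ S ∈ (edgesOf W).powersetCard (2 * W.card - 2),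
        if S ⊆ edges G then 1 else 0 := by
      obtain ⟨S, hS1, hS2⟩ := Finset.exists_subset_card_eq
        (s := (edges G).filter fun c => ∀ v ∈ c, v ∈ W) (n := 2 * W.card - 2) (by omega)
      have hmem : S ∈ (edgesOf W).powersetCard (2 * W.card - 2) := by
        rw [mem_powersetCard]
        refine ⟨fun c hc => ?_, hS2⟩
        have := hS1 hc
        rw [mem_filter] at this
        obtain ⟨hc1, hc2⟩ := this
        induction c using Sym2.ind with
        | _ a b =>
          rw [mem_edges] at hc1
          have hab : G.Adj a b := hc1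
          rw [mem_edgesOf]
          exact ⟨hab.ne, hc2 a (by simp), hc2 b (by simp)⟩
      have hone : (if S ⊆ edges G then 1 else 0) = 1 :=
        if_pos fun c hc => (mem_filter.1 (hS1 hc)).1
      calc 1 = (if S ⊆ edges G then 1 else 0) := hone.symm
        _ ≤ _ := Finset.single_le_sum (f := fun S => if S ⊆ edges G then 1 else 0)
            (fun _ _ => Nat.zero_le _) hmem
    nlinarith
  · exact Nat.zero_le _

open Classical in
/-- The sum over the vertex sets. -/
theorem sum_sets_le (m : ℕ) (x : ℝ) (hx : 0 ≤ x) (hx1 : 1 ≤ n * x) :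
    ∑ W ∈ univ.filter (fun W : Finset (Fin n) => 2 ≤ W.card ∧ W.card ≤ m), x ^ (W.card - 1) ≤
      m * (n * (n * x) ^ m) := by
  have hmaps : ∀ W ∈ univ.filter (fun W : Finset (Fin n) => 2 ≤ W.card ∧ W.card ≤ m),
      W.card ∈ Icc 2 m := by
    intro W hW
    rw [mem_filter] at hW
    exact mem_Icc.2 hW.2
  rw [← Finset.sum_fiberwise_of_maps_to hmaps]
  have hterm : ∀ w ∈ Icc 2 m,
      ∑ W ∈ (univ.filter (fun W : Finset (Fin n) => 2 ≤ W.card ∧ W.card ≤ m)).filter
        (fun W => W.card = w), x ^ (W.card - 1) ≤ n * (n * x) ^ m := by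
    intro w hw
    rw [mem_Icc] at hw
    rw [Finset.sum_congr rfl (g := fun _ => x ^ (w - 1)) fun W hW => by rw [(mem_filter.1 hW).2],
      Finset.sum_const, nsmul_eq_mul]
    have h1 : ((univ.filter (fun W : Finset (Fin n) => 2 ≤ W.card ∧ W.card ≤ m)).filter
        (fun W => W.card = w)).card ≤ n ^ w := by
      refine (Finset.card_le_card (t := Finset.powersetCard w univ) ?_).trans ?_
      · intro W hW
        rw [mem_filter] at hW
        exact mem_powersetCard.2 ⟨Finset.subset_univ _, hW.2⟩
      · rw [card_powersetCard, card_univ, Fintype.card_fin]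
        exact Nat.choose_le_pow n w
    have h2 : (((univ.filter (fun W : Finset (Fin n) => 2 ≤ W.card ∧ W.card ≤ m)).filter
        (fun W => W.card = w)).card : ℝ) ≤ (n : ℝ) ^ w := by exact_mod_cast h1
    calc _ ≤ (n : ℝ) ^ w * x ^ (w - 1) := by gcongr
      _ = n * (n * x) ^ (w - 1) := by
          rw [mul_pow, ← mul_assoc, ← pow_succ']
          congr 3
          omega
      _ ≤ _ := by
          gcongr
          omega
  refine (Finset.sum_le_sum hterm).trans ?_
  rw [Finset.sum_const, nsmul_eq_mul]
  have h3 : (Icc 2 m).card ≤ m := by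
    rw [Nat.card_Icc]
    omega
  have h4 : ((Icc 2 m).card : ℝ) ≤ m := by exact_mod_cast h3
  gcongr

open Classical in
/-- The expected number of edges in dense spots. -/
theorem dense_count (hn : 0 < n) (P : List (Tr n) → Prop) (δ : ℝ)
    (hδ : δ ≤ 1 / 2) (hP : ∀ l : List (Tr n), P l → ∀ e ∈ edges (gr l),
      (1 - δ) * yy n l.length ≤ H.deg (hyp (gr l)) e) (J m : ℕ)
    (hS : ∀ j < J, (2 * m : ℝ) ≤ δ * yy n j)
    (hJ : δ * Real.log (n / yy n J) ≤ 1)
    (hy : 1 ≤ (m : ℝ) ^ 4 * Real.exp 2 * yy n J) :
    EL J (fun l => if HistOK P l then (((edges (gr l)).filter (Dense (gr l) m)).card : ℝ) else 0) ≤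
      (m : ℝ) ^ 3 * n * ((m : ℝ) ^ 4 * Real.exp 2 * yy n J) ^ m := by
  have hn' : (0 : ℝ) < n := by exact_mod_cast hn
  have hyp := yy_pos hn J
  set q : ℝ := Real.exp 1 * √(yy n J / n) with hq
  have hq0 : 0 ≤ q := by positivity
  have hq2 : q ^ 2 = Real.exp 2 * yy n J / n := by
    rw [hq, mul_pow, Real.sq_sqrt (by positivity), ← Real.exp_nat_mul]
    norm_num
    ring
  set x : ℝ := (m : ℝ) ^ 4 * q ^ 2 with hx
  have hnx : n * x = (m : ℝ) ^ 4 * Real.exp 2 * yy n J := by
    rw [hx, hq2]
    field_simp
  set WW := univ.filter (fun W : Finset (Fin n) => 2 ≤ W.card ∧ W.card ≤ m) with hWW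
  calc EL J (fun l => if HistOK P l then
        (((edges (gr l)).filter (Dense (gr l) m)).card : ℝ) else 0)
      ≤ EL J (fun l => ∑ W ∈ WW, (m : ℝ) ^ 2 * ∑ S ∈ (edgesOf W).powersetCard (2 * W.card - 2),
          if S ⊆ edges (gr l) ∧ HistOK P l then (1 : ℝ) else 0) := by
        apply EL_mono
        intro l
        by_cases h : HistOK P l
        · rw [if_pos h]
          have h1 := dense_le (gr l) m
          have h2 : (((edges (gr l)).filter (Dense (gr l) m)).card : ℝ) ≤
              ((∑ W ∈ WW, m ^ 2 * ∑ S ∈ (edgesOf W).powersetCard (2 * W.card - 2),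
                if S ⊆ edges (gr l) then 1 else 0 : ℕ) : ℝ) := by exact_mod_cast h1
          refine h2.trans (le_of_eq ?_)
          push_cast
          refine Finset.sum_congr rfl fun W _ => ?_
          congr 1
          refine Finset.sum_congr rfl fun S _ => ?_
          refine if_congr ?_ rfl rfl
          exact ⟨fun hh => ⟨hh, h⟩, fun hh => hh.1⟩
        · rw [if_neg h]
          refine Finset.sum_nonneg fun W _ => mul_nonneg (by positivity)
            (Finset.sum_nonneg fun S _ => ?_)
          split_ifs <;> norm_num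
    _ = ∑ W ∈ WW, (m : ℝ) ^ 2 * ∑ S ∈ (edgesOf W).powersetCard (2 * W.card - 2),
          EL J (fun l => if S ⊆ edges (gr l) ∧ HistOK P l then (1 : ℝ) else 0) := by
        rw [EL_sum]
        refine Finset.sum_congr rfl fun W _ => ?_
        rw [EL_mul, EL_sum]
    _ ≤ ∑ W ∈ WW, (m : ℝ) ^ 2 * x ^ (W.card - 1) := by
        refine Finset.sum_le_sum fun W hW => ?_
        rw [hWW, mem_filter] at hW
        gcongr
        have h1 : ∀ S ∈ (edgesOf W).powersetCard (2 * W.card - 2),
            EL J (fun l => if S ⊆ edges (gr l) ∧ HistOK P l then (1 : ℝ) else 0) ≤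
              q ^ (2 * W.card - 2) := by
          intro S hS'
          rw [mem_powersetCard] at hS'
          have h2 := survive hn P S δ hδ hP J (fun j hj => ?_) hJ
          · rwa [hS'.2] at h2
          · refine le_trans ?_ (hS j hj)
            have : S.card ≤ 2 * m := by omega
            exact_mod_cast this
        refine (Finset.sum_le_sum h1).trans ?_
        rw [Finset.sum_const, nsmul_eq_mul, card_powersetCard]
        have h3 : ((edgesOf W).card.choose (2 * W.card - 2) : ℝ) ≤
            ((m : ℝ) ^ 2) ^ (2 * W.card - 2) := by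
          have h4 : (edgesOf W).card ≤ m ^ 2 :=
            (card_edgesOf_le W).trans (Nat.pow_le_pow_left hW.2.2 2)
          have h5 : (edgesOf W).card.choose (2 * W.card - 2) ≤ (m ^ 2) ^ (2 * W.card - 2) :=
            (Nat.choose_le_pow _ _).trans (Nat.pow_le_pow_left h4 _)
          exact_mod_cast h5
        calc _ ≤ ((m : ℝ) ^ 2) ^ (2 * W.card - 2) * q ^ (2 * W.card - 2) := by gcongr
          _ = x ^ (W.card - 1) := by
            rw [← mul_pow, hx]
            have h6 : 2 * W.card - 2 = 2 * (W.card - 1) := by omega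
            rw [h6, pow_mul]
            congr 1
            ring
    _ = (m : ℝ) ^ 2 * ∑ W ∈ WW, x ^ (W.card - 1) := by rw [Finset.mul_sum]
    _ ≤ (m : ℝ) ^ 2 * (m * (n * (n * x) ^ m)) := by
        gcongr
        exact sum_sets_le m x (by positivity) (by rw [hnx]; exact hy)
    _ = _ := by
        rw [hnx]
        ring

end Vale.Agent.P046
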