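import Vale.Agent.Lib.P046.CaseOne

/-!
# From the mean error to the limit theorems
-/

namespace Vale.Agent.P046

open Finset MeasureTheory Filter Topology

theorem er_eq {n : ℕ} (hn : 0 < n) (G : SimpleGraph (Fin n)) :
    |(Nat.card G.edgeSet : ℝ) / (n : ℝ) ^ (3 / 2 : ℝ) - 1 / (2 * √2)| =
      1 / (2 * √2) * er G := by
  unfold er NN
  have h0 : (0 : ℝ) < n := by exact_mod_cast hn
  have h1 : (0 : ℝ) < (n : ℝ) ^ (3 / 2 : ℝ) := by positivity
  have h2 : (0 : ℝ) < 1 / (2 * √2) := by positivity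
  rw [← abs_of_pos h2, ← abs_mul, abs_of_pos h2]
  congr 1
  field_simp

theorem extract (h : ∀ ε : ℝ, 0 < ε → ∀ᶠ n : ℕ in atTop,
      Ef er (⊤ : SimpleGraph (Fin n)) ≤ ε) :
    (∀ ε : ℝ, 0 < ε → Tendsto (fun n : ℕ => ((finalGraph n).toOuterMeasure
      {G | ε < |(Nat.card G.edgeSet : ℝ) / (n : ℝ) ^ (3 / 2 : ℝ) - 1 / (2 * √2)|}).toReal)
        atTop (𝓝 0)) ∧
    Tendsto (fun n : ℕ => (∑ G : SimpleGraph (Fin n),
      (finalGraph n G).toReal * (Nat.card G.edgeSet : ℝ)) / (n : ℝ) ^ (3 / 2 : ℝ))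
        atTop (𝓝 (1 / (2 * √2))) := by
  classical
  have h2 : (0 : ℝ) < 1 / (2 * √2) := by positivity
  have h3 : 1 / (2 * √2) ≤ (1 : ℝ) := by
    have : (1 : ℝ) ≤ √2 := Real.one_le_sqrt.2 (by norm_num)
    rw [div_le_one (by positivity)]
    linarith
  constructor
  · intro ε hε
    rw [Metric.tendsto_atTop]
    intro η hη
    obtain ⟨N, hN⟩ := eventually_atTop.1 ((h (ε * η / 2) (by positivity)).and
      (eventually_gt_atTop 0))
    refine ⟨N, fun n hn => ?_⟩
    obtain ⟨h4, hn0⟩ := hN n hn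
    rw [Real.dist_0_eq_abs, abs_of_nonneg ENNReal.toReal_nonneg, toOuterMeasure_toReal]
    have h5 : ex (finalGraph n) (fun G => if G ∈ {G : SimpleGraph (Fin n) |
        ε < |(Nat.card G.edgeSet : ℝ) / (n : ℝ) ^ (3 / 2 : ℝ) - 1 / (2 * √2)|} then 1 else 0) ≤
          ex (finalGraph n) (fun G => 1 / ε * er G) := by
      apply ex_mono
      intro G
      have her : 0 ≤ er G := abs_nonneg _
      split_ifs with hG
      · rw [Set.mem_ofPred_eq, er_eq hn0] at hG
        rw [one_div_mul_eq_div, le_div_iff₀ hε]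
        nlinarith
      · positivity
    rw [ex_mul, ex_finalGraph n er] at h5
    have h6 : 1 / ε * Ef er (⊤ : SimpleGraph (Fin n)) ≤ 1 / ε * (ε * η / 2) := by gcongr
    have h7 : 1 / ε * (ε * η / 2) = η / 2 := by field_simp
    linarith
  · rw [Metric.tendsto_atTop]
    intro η hη
    obtain ⟨N, hN⟩ := eventually_atTop.1 ((h (η / 2) (by positivity)).and
      (eventually_gt_atTop 0))
    refine ⟨N, fun n hn => ?_⟩
    obtain ⟨h4, hn0⟩ := hN n hn
    rw [Real.dist_eq]
    have h5 : (∑ G : SimpleGraph (Fin n), (finalGraph n G).toReal * (Nat.card G.edgeSet : ℝ)) /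
        (n : ℝ) ^ (3 / 2 : ℝ) - 1 / (2 * √2) =
        ex (finalGraph n) (fun G => (Nat.card G.edgeSet : ℝ) / (n : ℝ) ^ (3 / 2 : ℝ) -
          1 / (2 * √2)) := by
      have h6 := ex_add (finalGraph n)
        (fun G => (Nat.card G.edgeSet : ℝ) / (n : ℝ) ^ (3 / 2 : ℝ)) (fun _ => -(1 / (2 * √2)))
      rw [ex_const] at h6
      simp only [← sub_eq_add_neg] at h6
      rw [h6]
      congr 1
      unfold ex
      rw [Finset.sum_div]
      exact Finset.sum_congr rfl fun G _ => by ring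
    rw [h5]
    have h7 : |ex (finalGraph n) (fun G => (Nat.card G.edgeSet : ℝ) / (n : ℝ) ^ (3 / 2 : ℝ) -
          1 / (2 * √2))| ≤ ex (finalGraph n) er := by
      unfold ex
      refine (Finset.abs_sum_le_sum_abs _ _).trans (Finset.sum_le_sum fun G _ => ?_)
      rw [abs_mul, abs_of_nonneg ENNReal.toReal_nonneg, er_eq hn0]
      have her : 0 ≤ er G := abs_nonneg _
      have : 1 / (2 * √2) * er G ≤ er G := by nlinarith
      exact mul_le_mul_of_nonneg_left this ENNReal.toReal_nonneg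
    rw [ex_finalGraph n er] at h7
    linarith

end Vale.Agent.P046
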