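import Mathlib

namespace Vale.Agent.P046.H
open Finset MeasureTheory
noncomputable section

private theorem HBarrier_gt (g : ℝ → ℝ) (g' x : ℝ) (h : HasDerivAt g g' x) (hp : 0 < g') :
    ∀ᶠ w in nhdsWithin x (Set.Ioi x), g x < g w := by
  have h1 := hasDerivAt_iff_tendsto_slope.1 h
  have h2 : ∀ᶠ w in nhdsWithin x {x}ᶜ, 0 < slope g x w := h1.eventually (lt_mem_nhds hp)
  have h3 : ∀ᶠ w in nhdsWithin x (Set.Ioi x), 0 < slope g x w :=
    h2.filter_mono (nhdsWithin_mono x (fun w (hw : x < w) => ne_of_gt hw))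
  filter_upwards [h3, self_mem_nhdsWithin] with w hw hxw
  have hxw' : 0 < w - x := sub_pos.2 hxw
  rw [slope_def_field] at hw
  have := (div_pos_iff_of_pos_right hxw').1 hw
  linarith

/-- barrier lemma -/
theorem barrier {ι : Type*} (s : Finset ι) (f f' B B' : ι → ℝ → ℝ) (b : ℝ) (hb : 0 ≤ b)
    (hf : ∀ i ∈ s, ContinuousOn (f i) (Set.Icc 0 b))
    (hB : ∀ i ∈ s, ContinuousOn (B i) (Set.Icc 0 b))
    (hf' : ∀ i ∈ s, ∀ u ∈ Set.Ioo 0 b, HasDerivAt (f i) (f' i u) u)
    (hB' : ∀ i ∈ s, ∀ u ∈ Set.Ioo 0 b, HasDerivAt (B i) (B' i u) u)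
    (h0 : ∀ i ∈ s, |f i 0| < B i 0)
    (hstep : ∀ u ∈ Set.Ioo 0 b, (∀ j ∈ s, |f j u| ≤ B j u) →
      ∀ i ∈ s, |f i u| = B i u → |f' i u| < B' i u) :
    ∀ u ∈ Set.Icc 0 b, ∀ i ∈ s, |f i u| ≤ B i u := by
  have key : Set.Icc 0 b ⊆ {w : ℝ | ∀ i ∈ s, |f i w| ≤ B i w} := by
    apply IsClosed.Icc_subset_of_forall_mem_nhdsWithin
    · have : ({w : ℝ | ∀ i ∈ s, |f i w| ≤ B i w} ∩ Set.Icc 0 b) =
          (⋂ i ∈ s, (Set.Icc 0 b ∩ {w | |f i w| ≤ B i w})) ∩ Set.Icc 0 b := by
        ext w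
        simp only [Set.mem_inter_iff, Set.mem_ofPred_eq, Set.mem_iInter]
        exact ⟨fun h => ⟨fun i hi => ⟨h.2, h.1 i hi⟩, h.2⟩, fun h => ⟨fun i hi => (h.1 i hi).2, h.2⟩⟩
      rw [this]
      refine IsClosed.inter ?_ isClosed_Icc
      refine isClosed_biInter (fun i hi => ?_)
      have := ContinuousOn.preimage_isClosed_of_isClosed (f := fun w => B i w - |f i w|)
        ((hB i hi).sub (hf i hi).abs) isClosed_Icc (isClosed_Ici (a := (0 : ℝ)))
      have he : (Set.Icc 0 b ∩ {w | |f i w| ≤ B i w}) =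
          (Set.Icc 0 b ∩ (fun w => B i w - |f i w|) ⁻¹' Set.Ici (0 : ℝ)) := by
        ext w
        simp
      rw [he]
      exact this
    · intro i hi
      exact (h0 i hi).le
    · rintro x ⟨hx, hx0⟩
      have hall : ∀ i ∈ s, ∀ᶠ w in nhdsWithin x (Set.Ioi x), |f i w| ≤ B i w := by
        intro i hi
        by_cases hlt : |f i x| < B i x
        · have hxI : x ∈ Set.Icc 0 b := ⟨hx0.1, hx0.2.le⟩
          have hc : ContinuousWithinAt (fun w => B i w - |f i w|) (Set.Icc 0 b) x :=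
            ((hB i hi).sub (hf i hi).abs) x hxI
          have h1 : ∀ᶠ w in nhdsWithin x (Set.Icc 0 b), 0 < B i w - |f i w| :=
            hc.eventually (lt_mem_nhds (sub_pos.2 hlt))
          have h2 : nhdsWithin x (Set.Ioi x) ≤ nhdsWithin x (Set.Icc 0 b) := by
            rw [← nhdsWithin_Ioo_eq_nhdsGT hx0.2]
            exact nhdsWithin_mono x (fun w hw => ⟨hx0.1.trans hw.1.le, hw.2.le⟩)
          filter_upwards [h1.filter_mono h2] with w hw
          linarith
        · have hxe : |f i x| = B i x := le_antisymm (hx i hi) (not_lt.1 hlt)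
          have hx0' : x ≠ 0 := by
            rintro rfl
            exact hlt (h0 i hi)
          have hxI : x ∈ Set.Ioo 0 b := ⟨lt_of_le_of_ne hx0.1 (Ne.symm hx0'), hx0.2⟩
          have hd := hstep x hxI hx i hi hxe
          rw [abs_lt] at hd
          have h1 := HBarrier_gt _ _ x ((hB' i hi x hxI).sub (hf' i hi x hxI)) (by linarith)
          have h2 := HBarrier_gt _ _ x ((hB' i hi x hxI).add (hf' i hi x hxI)) (by linarith)
          filter_upwards [h1, h2] with w hw1 hw2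
          simp only [Pi.sub_apply, Pi.add_apply] at hw1 hw2
          have hb := abs_le.1 (hx i hi)
          rw [abs_le]
          constructor <;> linarith
      have := (Filter.eventually_all_finset s).2 hall
      filter_upwards [this] with w hw
      exact hw
  exact fun u hu => key hu

end

end Vale.Agent.P046.H
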