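import Mathlib

/-!
# Hypergraph definitions: exploration recursion and tree-like balls

`E` is a finite set of hyperedges (finite sets of vertices of type `V`), `l T` is the label of the
hyperedge `T`.
-/

namespace Vale.Agent.P046.H

open Finset MeasureTheory

variable {V : Type*} [Fintype V] [DecidableEq V]

/-- The degree of `v`. -/
def deg (E : Finset (Finset V)) (v : V) : ℕ := (E.filter fun T => v ∈ T).card

/-- The hyperedges at `v` that avoid `D`. -/
def inc (E : Finset (Finset V)) (D : Finset V) (v : V) : Finset (Finset V) :=
  E.filter fun T => v ∈ T ∧ Disjoint T D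

/-- The exploration recursion: `a E k D v u l` is (the depth `k` approximation of) the indicator
that `v` is not matched before time `u` by the greedy matching of the hyperedges avoiding `D`. -/
noncomputable def a (E : Finset (Finset V)) : ℕ → Finset V → V → ℝ → (Finset V → ℝ) → ℝ
  | 0, _, _, _, _ => 1
  | k + 1, D, v, u, l => ∏ T ∈ inc E D v,
      (1 - if l T < u then ∏ f ∈ T.erase v, a E k (insert v D) f (l T) l else 0)

/-- The indicator that `v` is left by the greedy matching. -/
noncomputable def surv (E : Finset (Finset V)) (v : V) (l : Finset V → ℝ) : ℝ :=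
  a E (Fintype.card V + 1) ∅ v 1 l

/-- Independent uniform labels in `[0,1]`. -/
noncomputable def mu (V : Type*) [Fintype V] : Measure (Finset V → ℝ) :=
  Measure.pi fun _ : Finset V => (volume.restrict (Set.Icc (0 : ℝ) 1))

/-- The hyperedges seen by the exploration of depth `k`. -/
def Dep (E : Finset (Finset V)) : ℕ → Finset V → V → Finset (Finset V)
  | 0, _, _ => ∅
  | k + 1, D, v => inc E D v ∪
      (inc E D v).biUnion fun T => (T.erase v).biUnion fun f => Dep E k (insert v D) f

/-- The ball of depth `k` around `v` (explored away from `D`, with parent hyperedge `P`) is a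
tree. -/
def TreeB (E : Finset (Finset V)) : ℕ → Finset V → V → Finset V → Prop
  | 0, _, _, _ => True
  | k + 1, D, v, P =>
      inc E D v = (E.filter fun T => v ∈ T).erase P ∧
      (∀ T ∈ inc E D v, ∀ f ∈ T.erase v, TreeB E k (insert v D) f T) ∧
      (∀ T ∈ inc E D v, ∀ f ∈ T.erase v, ∀ T' ∈ inc E D v, ∀ f' ∈ T'.erase v,
        (T, f) ≠ (T', f') → Disjoint (Dep E k (insert v D) f) (Dep E k (insert v D) f'))

end Vale.Agent.P046.H
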