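import Vale.Agent.Lib.P046.HDefs2

/-!
P046, part S2, module H02: integral form of Gronwall's inequality.
-/

namespace Vale.Agent.P046.H

open Finset MeasureTheory

noncomputable section

theorem gronwall_int (f f' β γ : ℝ → ℝ) (b : ℝ) (hb : 0 ≤ b)
    (hf : ContinuousOn f (Set.Icc 0 b))
    (hf' : ∀ u ∈ Set.Ioo 0 b, HasDerivAt f (f' u) u)
    (hβ : ContinuousOn β (Set.Icc 0 b)) (hγ : ContinuousOn γ (Set.Icc 0 b))
    (hβ0 : ∀ u ∈ Set.Icc 0 b, 0 ≤ β u) (hγ0 : ∀ u ∈ Set.Icc 0 b, 0 ≤ γ u)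
    (hineq : ∀ u ∈ Set.Ioo 0 b, f' u ≤ β u * f u + γ u) :
    ∀ u ∈ Set.Icc 0 b, f u ≤ (f 0 + ∫ s in (0 : ℝ)..u, γ s) *
      Real.exp (∫ s in (0 : ℝ)..u, β s) := by
  have hprimc : ∀ g : ℝ → ℝ, ContinuousOn g (Set.Icc 0 b) →
      ContinuousOn (fun u => ∫ s in (0 : ℝ)..u, g s) (Set.Icc 0 b) := by
    intro g hg
    have h1 : IntegrableOn g (Set.uIcc 0 b) := by
      rw [Set.uIcc_of_le hb]
      exact hg.integrableOn_Icc
    have h2 := intervalIntegral.continuousOn_primitive_interval h1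
    rwa [Set.uIcc_of_le hb] at h2
  have hprimd : ∀ g : ℝ → ℝ, ContinuousOn g (Set.Icc 0 b) → ∀ u ∈ Set.Ioo 0 b,
      HasDerivAt (fun u => ∫ s in (0 : ℝ)..u, g s) (g u) u := by
    intro g hg u hu
    apply intervalIntegral.integral_hasDerivAt_right
    · apply ContinuousOn.intervalIntegrable
      rw [Set.uIcc_of_le hu.1.le]
      exact hg.mono (Set.Icc_subset_Icc le_rfl hu.2.le)
    · exact (hg.mono Set.Ioo_subset_Icc_self).stronglyMeasurableAtFilter isOpen_Ioo u hu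
    · exact hg.continuousAt (Icc_mem_nhds hu.1 hu.2)
  obtain ⟨Bt, hBt⟩ : ∃ Bt : ℝ → ℝ, Bt = fun u => ∫ s in (0 : ℝ)..u, β s := ⟨_, rfl⟩
  obtain ⟨Gt, hGt⟩ : ∃ Gt : ℝ → ℝ, Gt = fun u => ∫ s in (0 : ℝ)..u, γ s := ⟨_, rfl⟩
  have hBc : ContinuousOn Bt (Set.Icc 0 b) := by rw [hBt]; exact hprimc β hβ
  have hGc : ContinuousOn Gt (Set.Icc 0 b) := by rw [hGt]; exact hprimc γ hγ
  have hBd : ∀ u ∈ Set.Ioo 0 b, HasDerivAt Bt (β u) u := by rw [hBt]; exact hprimd β hβ
  have hGd : ∀ u ∈ Set.Ioo 0 b, HasDerivAt Gt (γ u) u := by rw [hGt]; exact hprimd γ hγ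
  have hB0 : ∀ u ∈ Set.Icc 0 b, 0 ≤ Bt u := by
    intro u hu
    rw [hBt]
    apply intervalIntegral.integral_nonneg hu.1
    intro x hx
    exact hβ0 x ⟨hx.1, hx.2.trans hu.2⟩
  have hder : ∀ u ∈ Set.Ioo 0 b, HasDerivAt (fun u => f u * Real.exp (-Bt u) - Gt u)
      (f' u * Real.exp (-Bt u) + f u * (Real.exp (-Bt u) * -β u) - γ u) u := by
    intro u hu
    exact ((hf' u hu).fun_mul ((hBd u hu).neg.exp)).fun_sub (hGd u hu)
  have hanti : AntitoneOn (fun u => f u * Real.exp (-Bt u) - Gt u) (Set.Icc 0 b) := by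
    apply antitoneOn_of_deriv_nonpos (convex_Icc 0 b)
    · exact (hf.mul hBc.neg.rexp).sub hGc
    · rw [interior_Icc]
      intro u hu
      exact (hder u hu).differentiableAt.differentiableWithinAt
    · rw [interior_Icc]
      intro u hu
      rw [(hder u hu).deriv]
      have h1 := hineq u hu
      have h2 := hB0 u (Set.Ioo_subset_Icc_self hu)
      have h3 := hγ0 u (Set.Ioo_subset_Icc_self hu)
      have h4 : Real.exp (-Bt u) ≤ 1 := by
        rw [Real.exp_le_one_iff]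
        linarith
      have h5 : 0 < Real.exp (-Bt u) := Real.exp_pos _
      have h6 : (f' u - β u * f u) * Real.exp (-Bt u) ≤ γ u * Real.exp (-Bt u) :=
        mul_le_mul_of_nonneg_right (by linarith) h5.le
      have h7 : γ u * Real.exp (-Bt u) ≤ γ u * 1 := mul_le_mul_of_nonneg_left h4 h3
      linarith
  intro u hu
  have h1 := hanti ⟨le_rfl, hb⟩ hu hu.1
  have hB00 : Bt 0 = 0 := by
    rw [hBt]
    exact intervalIntegral.integral_same
  have hG00 : Gt 0 = 0 := by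
    rw [hGt]
    exact intervalIntegral.integral_same
  simp only [hB00, hG00, neg_zero, Real.exp_zero, mul_one, sub_zero] at h1
  have h2 : f u * Real.exp (-Bt u) ≤ f 0 + Gt u := by linarith
  have h3 : f u = f u * Real.exp (-Bt u) * Real.exp (Bt u) := by
    rw [mul_assoc, ← Real.exp_add, neg_add_cancel, Real.exp_zero, mul_one]
  have h4 : f u ≤ (f 0 + Gt u) * Real.exp (Bt u) := by
    rw [h3]
    exact mul_le_mul_of_nonneg_right h2 (Real.exp_pos _).le
  rw [hBt, hGt] at h4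
  exact h4

end

end Vale.Agent.P046.H
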