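import Vale.Agent.Lib.P046.Stop
import Vale.Agent.Lib.P046.HDefs

/-!
# The hypergraph of triangles of a graph
-/

namespace Vale.Agent.P046

open Finset

variable {n : ℕ}

/-- The edges (pairs of different vertices) inside the vertex set `s`. -/
def edgesOf (s : Finset (Fin n)) : Finset (Sym2 (Fin n)) :=
  univ.filter fun e => ¬ e.IsDiag ∧ ∀ v ∈ e, v ∈ s

open Classical in
/-- The edges of `G` as a finite set. -/
noncomputable def edges (G : SimpleGraph (Fin n)) : Finset (Sym2 (Fin n)) :=
  univ.filter fun e => e ∈ G.edgeSet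

open Classical in
/-- The hypergraph of the triangles of `G`: its vertices are the edges of `G`. -/
noncomputable def hyp (G : SimpleGraph (Fin n)) : Finset (Finset (Sym2 (Fin n))) :=
  (G.cliqueFinset 3).image edgesOf

theorem mem_edges (G : SimpleGraph (Fin n)) (e : Sym2 (Fin n)) : e ∈ edges G ↔ e ∈ G.edgeSet := by
  classical
  simp [edges]

theorem mem_edgesOf (s : Finset (Fin n)) (a b : Fin n) :
    s(a, b) ∈ edgesOf s ↔ a ≠ b ∧ a ∈ s ∧ b ∈ s := by
  simp [edgesOf]

theorem edgesOf_triple (x y z : Fin n) (hxy : x ≠ y) (hxz : x ≠ z) (hyz : y ≠ z) :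
    edgesOf ({x, y, z} : Finset (Fin n)) = {s(x, y), s(x, z), s(y, z)} := by
  ext e
  induction e using Sym2.ind with
  | _ a b =>
    rw [mem_edgesOf]
    simp only [Finset.mem_insert, Finset.mem_singleton, Sym2.eq_iff]
    constructor
    · rintro ⟨hne, rfl | rfl | rfl, rfl | rfl | rfl⟩ <;> simp_all
    · rintro ((⟨rfl, rfl⟩ | ⟨rfl, rfl⟩) | (⟨rfl, rfl⟩ | ⟨rfl, rfl⟩) | (⟨rfl, rfl⟩ | ⟨rfl, rfl⟩)) <;>
        simp_all [eq_comm]

theorem card_edgesOf (s : Finset (Fin n)) (hs : s.card = 3) : (edgesOf s).card = 3 := by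
  obtain ⟨x, y, z, hxy, hxz, hyz, rfl⟩ := Finset.card_eq_three.1 hs
  rw [edgesOf_triple x y z hxy hxz hyz, Finset.card_eq_three]
  refine ⟨s(x, y), s(x, z), s(y, z), ?_, ?_, ?_, rfl⟩
  · simp [hyz, hxz]
  · simp [hxy, hxz]
  · simp [hxy, hxz]

theorem Hyp_edgesOf_inter_eq (s t : Finset (Fin n)) :
    edgesOf s ∩ edgesOf t = edgesOf (s ∩ t) := by
  ext e
  induction e using Sym2.ind with
  | _ a b =>
    rw [Finset.mem_inter, mem_edgesOf, mem_edgesOf, mem_edgesOf, Finset.mem_inter,
      Finset.mem_inter]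
    tauto

theorem Hyp_card_edgesOf_le_one (u : Finset (Fin n)) (hu : u.card ≤ 2) :
    (edgesOf u).card ≤ 1 := by
  rw [Finset.card_le_one]
  intro e he e' he'
  induction e using Sym2.ind with
  | _ a b =>
    induction e' using Sym2.ind with
    | _ c d =>
      rw [mem_edgesOf] at he he'
      obtain ⟨hab, ha, hb⟩ := he
      obtain ⟨hcd, hc, hd⟩ := he'
      have h1 : ({a, b} : Finset (Fin n)) = u := by
        apply Finset.eq_of_subset_of_card_le
        · intro x hx
          simp only [Finset.mem_insert, Finset.mem_singleton] at hx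
          rcases hx with rfl | rfl <;> assumption
        · rw [Finset.card_pair hab]
          exact hu
      rw [← h1] at hc hd
      simp only [Finset.mem_insert, Finset.mem_singleton] at hc hd
      rw [Sym2.eq_iff]
      rcases hc with rfl | rfl <;> rcases hd with rfl | rfl <;> simp_all

/-- Two different 3-sets of vertices share at most one edge. -/
theorem edgesOf_inter (s t : Finset (Fin n)) (hs : s.card = 3) (ht : t.card = 3) (hst : s ≠ t) :
    (edgesOf s ∩ edgesOf t).card ≤ 1 := by
  rw [Hyp_edgesOf_inter_eq]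
  apply Hyp_card_edgesOf_le_one
  by_contra h
  push Not at h
  have h1 : s ∩ t = s :=
    Finset.eq_of_subset_of_card_le Finset.inter_subset_left (by omega)
  have h2 : s ∩ t = t :=
    Finset.eq_of_subset_of_card_le Finset.inter_subset_right (by omega)
  exact hst (h1.symm.trans h2)

theorem edgesOf_injOn (s t : Finset (Fin n)) (hs : s.card = 3) (ht : t.card = 3)
    (h : edgesOf s = edgesOf t) : s = t := by
  by_contra hst
  have h1 := edgesOf_inter s t hs ht hst
  rw [← h, Finset.inter_self, card_edgesOf s hs] at h1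
  omega

theorem edges_removeTriangle (G : SimpleGraph (Fin n)) (s : Finset (Fin n)) :
    edges (removeTriangle G s) = edges G \ edgesOf s := by
  ext e
  induction e using Sym2.ind with
  | _ a b =>
    rw [Finset.mem_sdiff, mem_edges, mem_edges, mem_edgesOf, SimpleGraph.mem_edgeSet,
      SimpleGraph.mem_edgeSet, removeTriangle_adj]
    constructor
    · rintro ⟨h1, h2⟩
      exact ⟨h1, fun h3 => h2 ⟨h3.2.1, h3.2.2⟩⟩
    · rintro ⟨h1, h2⟩
      exact ⟨h1, fun h3 => h2 ⟨h1.ne, h3.1, h3.2⟩⟩

theorem hyp_subset_edges (G : SimpleGraph (Fin n)) (T : Finset (Sym2 (Fin n))) (hT : T ∈ hyp G) :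
    T ⊆ edges G ∧ T.card = 3 := by
  classical
  unfold hyp at hT
  rw [Finset.mem_image] at hT
  obtain ⟨s, hs, rfl⟩ := hT
  rw [SimpleGraph.mem_cliqueFinset_iff, SimpleGraph.isNClique_iff] at hs
  refine ⟨?_, card_edgesOf s hs.2⟩
  intro e he
  induction e using Sym2.ind with
  | _ a b =>
    rw [mem_edgesOf] at he
    rw [mem_edges, SimpleGraph.mem_edgeSet]
    exact hs.1 he.2.1 he.2.2 he.1

open Classical in
theorem cliqueFinset_removeTriangle (G : SimpleGraph (Fin n)) (s : Finset (Fin n))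
    (hs : s ∈ G.cliqueFinset 3) :
    (removeTriangle G s).cliqueFinset 3 =
      (G.cliqueFinset 3).filter fun t => Disjoint (edgesOf t) (edgesOf s) := by
  ext t
  rw [Finset.mem_filter, SimpleGraph.mem_cliqueFinset_iff, SimpleGraph.mem_cliqueFinset_iff,
    SimpleGraph.isNClique_iff, SimpleGraph.isNClique_iff, Finset.disjoint_left]
  constructor
  · rintro ⟨h1, h2⟩
    refine ⟨⟨fun a ha b hb hab => ?_, h2⟩, ?_⟩
    · exact ((removeTriangle_adj G s a b).1 (h1 ha hb hab)).1
    · intro e he he'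
      induction e using Sym2.ind with
      | _ a b =>
        rw [mem_edgesOf] at he he'
        exact ((removeTriangle_adj G s a b).1 (h1 he.2.1 he.2.2 he.1)).2 ⟨he'.2.1, he'.2.2⟩
  · rintro ⟨⟨h1, h2⟩, h3⟩
    refine ⟨fun a ha b hb hab => ?_, h2⟩
    rw [removeTriangle_adj]
    refine ⟨h1 ha hb hab, fun h4 => ?_⟩
    have h5 : s(a, b) ∈ edgesOf t := (mem_edgesOf t a b).2 ⟨hab, ha, hb⟩
    exact h3 h5 ((mem_edgesOf s a b).2 ⟨hab, h4.1, h4.2⟩)

open Classical in
theorem hyp_removeTriangle (G : SimpleGraph (Fin n)) (s : Finset (Fin n))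
    (hs : s ∈ G.cliqueFinset 3) :
    hyp (removeTriangle G s) = (hyp G).filter fun T => Disjoint T (edgesOf s) := by
  unfold hyp
  rw [Finset.filter_image, cliqueFinset_removeTriangle G s hs]

theorem card_hyp (G : SimpleGraph (Fin n)) :
    (hyp G).card = (by classical exact (G.cliqueFinset 3).card) := by
  classical
  unfold hyp
  apply Finset.card_image_of_injOn
  intro s hs t ht hst
  simp only [Finset.mem_coe, SimpleGraph.mem_cliqueFinset_iff, SimpleGraph.isNClique_iff]
    at hs ht
  exact edgesOf_injOn s t hs.2 ht.2 hst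

theorem card_edges (G : SimpleGraph (Fin n)) : (edges G).card = Nat.card G.edgeSet := by
  classical
  rw [Nat.card_eq_fintype_card, ← SimpleGraph.edgeFinset_card]
  congr 1
  ext e
  simp [edges]

/-- The hypergraph degree of an edge `ab` is the number of common neighbours of `a` and `b`. -/
theorem deg_hyp (G : SimpleGraph (Fin n)) (a b : Fin n) (hab : G.Adj a b) :
    H.deg (hyp G) s(a, b) = Nat.card {c : Fin n // G.Adj a c ∧ G.Adj b c} := by
  classical
  rw [Nat.card_eq_fintype_card, Fintype.card_subtype]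
  unfold H.deg
  symm
  refine Finset.card_bij (fun c _ => edgesOf {a, b, c}) ?_ ?_ ?_
  · intro c hc
    rw [Finset.mem_filter] at hc
    obtain ⟨-, h1, h2⟩ := hc
    rw [Finset.mem_filter, mem_edgesOf]
    refine ⟨?_, hab.ne, by simp, by simp⟩
    unfold hyp
    rw [Finset.mem_image]
    refine ⟨{a, b, c}, ?_, rfl⟩
    rw [SimpleGraph.mem_cliqueFinset_iff]
    exact SimpleGraph.is3Clique_iff.2 ⟨a, b, c, hab, h1, h2, rfl⟩
  · intro c hc d hd hcd
    rw [Finset.mem_filter] at hc hd
    obtain ⟨-, h1, h2⟩ := hc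
    obtain ⟨-, h3, h4⟩ := hd
    have h5 : ({a, b, c} : Finset (Fin n)) = {a, b, d} := by
      apply edgesOf_injOn _ _ _ _ hcd
      · exact Finset.card_eq_three.2 ⟨a, b, c, hab.ne, h1.ne, h2.ne, rfl⟩
      · exact Finset.card_eq_three.2 ⟨a, b, d, hab.ne, h3.ne, h4.ne, rfl⟩
    have h6 : c ∈ ({a, b, d} : Finset (Fin n)) := by
      rw [← h5]
      simp
    simp only [Finset.mem_insert, Finset.mem_singleton] at h6
    rcases h6 with h6 | h6 | h6
    · exact absurd h6.symm h1.ne
    · exact absurd h6.symm h2.ne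
    · exact h6
  · intro T hT
    rw [Finset.mem_filter] at hT
    obtain ⟨hT, he⟩ := hT
    unfold hyp at hT
    rw [Finset.mem_image] at hT
    obtain ⟨s, hs, rfl⟩ := hT
    rw [SimpleGraph.mem_cliqueFinset_iff, SimpleGraph.isNClique_iff] at hs
    rw [mem_edgesOf] at he
    obtain ⟨hs1, hs2⟩ := hs
    obtain ⟨-, ha, hb⟩ := he
    have h1 : ((s.erase a).erase b).card = 1 := by
      rw [Finset.card_erase_of_mem (Finset.mem_erase.2 ⟨hab.ne.symm, hb⟩),
        Finset.card_erase_of_mem ha, hs2]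
    obtain ⟨c, hc⟩ := Finset.card_eq_one.1 h1
    have hc1 : c ∈ (s.erase a).erase b := by
      rw [hc]
      simp
    rw [Finset.mem_erase, Finset.mem_erase] at hc1
    obtain ⟨hcb, hca, hcs⟩ := hc1
    refine ⟨c, ?_, ?_⟩
    · rw [Finset.mem_filter]
      exact ⟨Finset.mem_univ _, hs1 ha hcs hca.symm, hs1 hb hcs hcb.symm⟩
    · have h2 : ({a, b, c} : Finset (Fin n)) = s := by
        apply Finset.eq_of_subset_of_card_le
        · intro x hx
          simp only [Finset.mem_insert, Finset.mem_singleton] at hx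
          rcases hx with rfl | rfl | rfl <;> assumption
        · rw [hs2, Finset.card_eq_three.2 ⟨a, b, c, hab.ne, hca.symm, hcb.symm, rfl⟩]
      rw [h2]

end Vale.Agent.P046
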