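import Vale.Agent.Lib.P046.Chain

/-!
# The lazy chain

In one step of the lazy chain an ordered triple `t` of vertices is chosen uniformly (among all
`n ^ 3` of them), and its edges are deleted if it is a triangle.  The final expectation `Ef f` of
the original process is harmonic for the lazy chain.
-/

namespace Vale.Agent.P046

open Finset

variable {n : ℕ}

/-- Ordered triples of vertices. -/
abbrev Tr (n : ℕ) := Fin n × Fin n × Fin n

/-- The vertex set of a triple. -/
def tri (t : Tr n) : Finset (Fin n) := {t.1, t.2.1, t.2.2}

/-- The triple `t` is a triangle of `G`. -/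
def IsTri (G : SimpleGraph (Fin n)) (t : Tr n) : Prop :=
  G.Adj t.1 t.2.1 ∧ G.Adj t.1 t.2.2 ∧ G.Adj t.2.1 t.2.2

open Classical in
/-- One step of the lazy chain with the triple `t`. -/
noncomputable def lstep (G : SimpleGraph (Fin n)) (t : Tr n) : SimpleGraph (Fin n) :=
  if IsTri G t then removeTriangle G (tri t) else G

/-- The expectation operator of one step of the lazy chain. -/
noncomputable def L (f : SimpleGraph (Fin n) → ℝ) (G : SimpleGraph (Fin n)) : ℝ :=
  (∑ t : Tr n, f (lstep G t)) / (n : ℝ) ^ 3

theorem isTri_iff (G : SimpleGraph (Fin n)) (t : Tr n) : IsTri G t ↔ G.IsNClique 3 (tri t) := by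
  unfold IsTri tri
  rw [SimpleGraph.is3Clique_triple_iff]

open Classical in
theorem card_fiber (s : Finset (Fin n)) (hs : s.card = 3) :
    (univ.filter fun t : Tr n => tri t = s).card = 6 := by
  obtain ⟨x, y, z, hxy, hxz, hyz, rfl⟩ := Finset.card_eq_three.1 hs
  have h : (univ.filter fun t : Tr n => tri t = {x, y, z}) =
      {(x, y, z), (x, z, y), (y, x, z), (y, z, x), (z, x, y), (z, y, x)} := by
    ext ⟨a, b, c⟩
    rw [Finset.mem_filter]
    simp only [mem_univ, true_and, mem_insert, mem_singleton, Prod.mk.injEq]
    unfold tri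
    simp only
    constructor
    · intro h
      have ha : a ∈ ({x, y, z} : Finset (Fin n)) := by rw [← h]; simp
      have hb : b ∈ ({x, y, z} : Finset (Fin n)) := by rw [← h]; simp
      have hc : c ∈ ({x, y, z} : Finset (Fin n)) := by rw [← h]; simp
      have hcard : ({a, b, c} : Finset (Fin n)).card = 3 := by
        rw [h]
        exact Finset.card_eq_three.2 ⟨x, y, z, hxy, hxz, hyz, rfl⟩
      have hab : a ≠ b := by
        rintro rfl
        rw [Finset.insert_eq_of_mem (by simp)] at hcard
        have := Finset.card_le_two (a := a) (b := c)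
        omega
      have hac : a ≠ c := by
        rintro rfl
        rw [Finset.insert_eq_of_mem (by simp)] at hcard
        have := Finset.card_le_two (a := b) (b := a)
        omega
      have hbc : b ≠ c := by
        rintro rfl
        rw [Finset.pair_eq_singleton] at hcard
        have := Finset.card_le_two (a := a) (b := b)
        omega
      clear h hcard
      simp only [mem_insert, mem_singleton] at ha hb hc
      rcases ha with rfl | rfl | rfl <;> rcases hb with rfl | rfl | rfl <;>
        rcases hc with rfl | rfl | rfl <;> simp_all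
    · rintro (⟨rfl, rfl, rfl⟩ | ⟨rfl, rfl, rfl⟩ | ⟨rfl, rfl, rfl⟩ | ⟨rfl, rfl, rfl⟩ |
        ⟨rfl, rfl, rfl⟩ | ⟨rfl, rfl, rfl⟩) <;> ext v <;> simp only [mem_insert, mem_singleton] <;>
        tauto
  rw [h]
  rw [card_insert_of_notMem, card_insert_of_notMem, card_insert_of_notMem, card_insert_of_notMem,
    card_insert_of_notMem, card_singleton] <;>
    simp [hxy, hxz, hyz, hxy.symm, hxz.symm, hyz.symm]

open Classical in
/-- A sum over the ordered triples that are triangles is six times the sum over the triangles. -/
theorem sum_isTri (G : SimpleGraph (Fin n)) (h : Finset (Fin n) → ℝ) :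
    ∑ t ∈ univ.filter (fun t : Tr n => IsTri G t), h (tri t) =
      6 * ∑ s ∈ G.cliqueFinset 3, h s := by
  have hm : ∀ t ∈ univ.filter (fun t : Tr n => IsTri G t), tri t ∈ G.cliqueFinset 3 := by
    intro t ht
    rw [mem_filter] at ht
    rw [SimpleGraph.mem_cliqueFinset_iff]
    exact (isTri_iff G t).1 ht.2
  rw [← Finset.sum_fiberwise_of_maps_to hm, Finset.mul_sum]
  refine Finset.sum_congr rfl fun s hs => ?_
  have hs' := SimpleGraph.mem_cliqueFinset_iff.1 hs
  have hf : (univ.filter fun t : Tr n => IsTri G t).filter (fun t => tri t = s) =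
      univ.filter fun t : Tr n => tri t = s := by
    ext t
    simp only [mem_filter, mem_univ, true_and, and_iff_right_iff_imp]
    rintro rfl
    exact (isTri_iff G t).2 hs'
  rw [hf, Finset.sum_congr rfl (g := fun _ => h s) (fun t ht => by rw [(mem_filter.1 ht).2]),
    Finset.sum_const, card_fiber s hs'.card_eq]
  simp

/-- Harmonic functions of the original step are harmonic for the lazy step. -/
theorem L_of_T (hn : 0 < n) (f : SimpleGraph (Fin n) → ℝ) (hf : T f = f) : L f = f := by
  classical
  funext G
  have hn' : (n : ℝ) ^ 3 ≠ 0 := by positivity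
  unfold L
  rw [div_eq_iff hn']
  have h1 : ∑ t : Tr n, f (lstep G t) =
      ∑ t ∈ univ.filter (fun t : Tr n => IsTri G t), f (removeTriangle G (tri t)) +
        ∑ t ∈ univ.filter (fun t : Tr n => ¬ IsTri G t), f G := by
    rw [← Finset.sum_filter_add_sum_filter_not univ (fun t : Tr n => IsTri G t)]
    congr 1
    · exact Finset.sum_congr rfl fun t ht => by rw [lstep, if_pos (mem_filter.1 ht).2]
    · exact Finset.sum_congr rfl fun t ht => by rw [lstep, if_neg (mem_filter.1 ht).2]
  have h2 : ∑ t ∈ univ.filter (fun t : Tr n => IsTri G t), f (removeTriangle G (tri t)) =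
      ∑ t ∈ univ.filter (fun t : Tr n => IsTri G t), f G := by
    rw [sum_isTri G fun s => f (removeTriangle G s), sum_isTri G fun _ => f G]
    congr 1
    have hT := congrFun hf G
    unfold T at hT
    by_cases hne : (G.cliqueFinset 3).Nonempty
    · rw [if_pos hne] at hT
      have hc : ((G.cliqueFinset 3).card : ℝ) ≠ 0 := by
        exact_mod_cast (Finset.card_pos.2 hne).ne'
      rw [div_eq_iff hc] at hT
      rw [hT, Finset.sum_const, nsmul_eq_mul, mul_comm]
    · rw [Finset.not_nonempty_iff_eq_empty] at hne
      rw [hne]
      simp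
  rw [h1, h2, Finset.sum_filter_add_sum_filter_not, Finset.sum_const, card_univ]
  simp [Fintype.card_prod, Fintype.card_fin]
  ring

end Vale.Agent.P046
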