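import Mathlib

/-!
# Growth estimates for the parameters
-/

namespace Vale.Agent.P046

open Filter Topology

theorem pow_le_exp (C : ℝ) (k : ℕ) (c : ℝ) (hc : 0 < c) :
    ∀ᶠ x : ℝ in atTop, C * x ^ k ≤ Real.exp (c * x) := by
  have h := (isLittleO_pow_exp_pos_mul_atTop k hc).bound
    (show (0 : ℝ) < 1 / (|C| + 1) by positivity)
  filter_upwards [h, eventually_ge_atTop 0] with x hx hx0
  rw [Real.norm_eq_abs, Real.norm_eq_abs, abs_of_nonneg (Real.exp_pos _).le,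
    abs_of_nonneg (by positivity)] at hx
  have h1 : (|C| + 1) * x ^ k ≤ Real.exp (c * x) := by
    rw [one_div, inv_mul_eq_div, le_div_iff₀ (by positivity)] at hx
    linarith
  have h2 : C * x ^ k ≤ (|C| + 1) * x ^ k := by
    have : C ≤ |C| + 1 := by linarith [le_abs_self C]
    gcongr
  linarith

/-- The range of the final degree. -/
def Rg (x y : ℝ) : Prop := Real.exp (x / 100) ≤ y ∧ y ≤ 2 * Real.exp (x / 100)

theorem Rg.log_le {x y : ℝ} (h : Rg x y) : Real.log y ≤ x / 100 + 1 := by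
  have hy : 0 < y := (Real.exp_pos _).trans_le h.1
  rw [Real.log_le_iff_le_exp hy, Real.exp_add]
  refine h.2.trans ?_
  have : 2 ≤ Real.exp 1 := by
    have := Real.add_one_le_exp 1
    linarith
  nlinarith [Real.exp_pos (x / 100)]

theorem Rg.le_log {x y : ℝ} (h : Rg x y) : x / 100 ≤ Real.log y := by
  have hy : 0 < y := (Real.exp_pos _).trans_le h.1
  rw [Real.le_log_iff_exp_le hy]
  exact h.1

/-- The size of the logarithmic factor. -/
noncomputable def L0 (x : ℝ) : ℝ := 10 ^ 8 * (1 + x ^ 2)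

theorem L0_pow_le (k : ℕ) (C c : ℝ) (hC : 0 ≤ C) (hc : 0 < c) :
    ∀ᶠ x : ℝ in atTop, C * (L0 x) ^ k ≤ Real.exp (c * x) := by
  filter_upwards [pow_le_exp (C * (2 * 10 ^ 8) ^ k) (2 * k) c hc, eventually_ge_atTop 1]
    with x hx hx1
  refine le_trans ?_ hx
  have h1 : L0 x ≤ 2 * 10 ^ 8 * x ^ 2 := by
    unfold L0
    nlinarith
  have h0 : 0 ≤ L0 x := by
    unfold L0
    positivity
  calc C * (L0 x) ^ k ≤ C * (2 * 10 ^ 8 * x ^ 2) ^ k := by gcongr
    _ = _ := by rw [mul_pow, ← pow_mul]; ring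

theorem par_l1 : ∀ᶠ x : ℝ in atTop, ∀ y, Rg x y → (L0 x) ^ 20 ≤ y := by
  filter_upwards [L0_pow_le 20 1 (1 / 100) (by norm_num) (by norm_num)] with x hx y hy
  rw [one_mul, one_div_mul_eq_div] at hx
  exact hx.trans hy.1

theorem par_l2 : ∀ᶠ x : ℝ in atTop, ∀ y, Rg x y →
    ((L0 x) ^ 6) ^ 20 ≤ Real.exp (√(Real.log y) / 25) := by
  have h := pow_le_exp ((2 * 10 ^ 8) ^ 120) (4 * 120) (1 / 250) (by norm_num)
  filter_upwards [Real.tendsto_sqrt_atTop.eventually h, eventually_ge_atTop 1] with x hx hx1 y hy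
  have hx0 : (0 : ℝ) ≤ x := by linarith
  have h1 : L0 x ≤ 2 * 10 ^ 8 * x ^ 2 := by
    unfold L0
    nlinarith
  have h0 : 0 ≤ L0 x := by
    unfold L0
    positivity
  have key : ∀ k : ℕ, (2 * 10 ^ 8 * x ^ 2) ^ k = (2 * 10 ^ 8) ^ k * √x ^ (4 * k) := by
    intro k
    rw [mul_pow]
    congr 1
    have : √x ^ (4 * k) = ((√x ^ 2) ^ 2) ^ k := by
      rw [← pow_mul, ← pow_mul]
      congr 1
      ring
    rw [this, Real.sq_sqrt hx0]
  have h2 : ((L0 x) ^ 6) ^ 20 ≤ (2 * 10 ^ 8) ^ 120 * √x ^ (4 * 120) := by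
    rw [← key 120, ← pow_mul]
    exact pow_le_pow_left₀ h0 h1 _
  refine h2.trans (hx.trans (Real.exp_le_exp.2 ?_))
  have h3 : √x / 10 ≤ √(Real.log y) := by
    have : √x / 10 = √(x / 100) := by
      rw [Real.sqrt_div hx0]
      congr 1
      rw [show (100 : ℝ) = 10 ^ 2 by norm_num, Real.sqrt_sq (by norm_num)]
    rw [this]
    exact Real.sqrt_le_sqrt hy.le_log
  linarith

theorem par_y0 (Y0 : ℝ) : ∀ᶠ x : ℝ in atTop, ∀ y, Rg x y → Y0 ≤ y := by
  filter_upwards [pow_le_exp Y0 0 (1 / 100) (by norm_num)] with x hx y hy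
  rw [pow_zero, mul_one, one_div_mul_eq_div] at hx
  exact hx.trans hy.1

theorem par_p4 : ∀ᶠ x : ℝ in atTop, ∀ y, Rg x y →
    (3 * y) ^ (1000 * Real.log y) ≤ Real.exp (3 / 2 * x ^ 2) / 4 := by
  filter_upwards [eventually_ge_atTop 1000] with x hx y hy
  have hy0 : 0 < y := (Real.exp_pos _).trans_le hy.1
  have h1 := hy.log_le
  have h2 := hy.le_log
  rw [Real.rpow_def_of_pos (by positivity), Real.log_mul (by norm_num) hy0.ne']
  have h3 : Real.log 3 ≤ 2 := by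
    rw [Real.log_le_iff_le_exp (by norm_num)]
    have := Real.add_one_le_exp 2
    linarith
  have h4 : (4 : ℝ) ≤ Real.exp 3 := by
    have := Real.add_one_le_exp 3
    linarith
  rw [le_div_iff₀ (by norm_num)]
  have h5 : (Real.log 3 + Real.log y) * (1000 * Real.log y) ≤
      (x / 100 + 3) * (1000 * (x / 100 + 1)) := by
    have : 0 ≤ Real.log y := by linarith
    refine mul_le_mul (by linarith) (by linarith) (by linarith) (by linarith)
  calc Real.exp ((Real.log 3 + Real.log y) * (1000 * Real.log y)) * 4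
      ≤ Real.exp ((x / 100 + 3) * (1000 * (x / 100 + 1))) * Real.exp 3 := by gcongr
    _ = Real.exp ((x / 100 + 3) * (1000 * (x / 100 + 1)) + 3) := by rw [Real.exp_add]
    _ ≤ _ := by
      rw [Real.exp_le_exp]
      nlinarith

/-- The number of vertices of the dense spots. -/
noncomputable def mm (y : ℝ) : ℕ := 2 * ⌈100 * Real.log y⌉₊ + 4

theorem mm_le {x y : ℝ} (hx : 0 ≤ x) (hy : Rg x y) : (mm y : ℝ) ≤ 2 * x + 206 := by
  unfold mm
  push_cast
  have h1 := hy.log_le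
  have h2 := hy.le_log
  have h3 : (⌈100 * Real.log y⌉₊ : ℝ) ≤ 100 * Real.log y + 1 :=
    (Nat.ceil_lt_add_one (by linarith)).le
  linarith

theorem par_m1 : ∀ᶠ x : ℝ in atTop, ∀ y, Rg x y → 2 * (mm y : ℝ) ≤ 1 / (1 + x ^ 2) * y := by
  filter_upwards [pow_le_exp 1000 3 (1 / 100) (by norm_num), eventually_ge_atTop 1]
    with x hx hx1 y hy
  have h1 := mm_le (by linarith) hy
  have h2 := hy.1
  rw [one_div_mul_eq_div] at hx
  rw [one_div_mul_eq_div, le_div_iff₀ (by positivity)]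
  have h3 : 2 * (mm y : ℝ) * (1 + x ^ 2) ≤ 2 * (2 * x + 206) * (1 + x ^ 2) := by gcongr
  nlinarith [pow_pos (show 0 < x by linarith) 2, pow_pos (show 0 < x by linarith) 3,
    mul_nonneg (show 0 ≤ x - 1 by linarith) (sq_nonneg x)]

theorem par_mm : ∀ᶠ x : ℝ in atTop, ∀ y, Rg x y →
    (mm y : ℝ) ^ 4 * Real.exp 2 * y ≤ Real.exp (x / 50) := by
  filter_upwards [pow_le_exp (2 * Real.exp 2 * 300 ^ 4) 4 (1 / 100) (by norm_num),
    eventually_ge_atTop 1] with x hx hx1 y hy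
  have h1 := mm_le (by linarith) hy
  have h2 : (mm y : ℝ) ≤ 300 * x := by linarith
  rw [one_div_mul_eq_div] at hx
  have hy0 : 0 < y := (Real.exp_pos _).trans_le hy.1
  calc (mm y : ℝ) ^ 4 * Real.exp 2 * y ≤ (300 * x) ^ 4 * Real.exp 2 *
        (2 * Real.exp (x / 100)) := by
        gcongr
        exact hy.2
    _ = (2 * Real.exp 2 * 300 ^ 4 * x ^ 4) * Real.exp (x / 100) := by ring
    _ ≤ Real.exp (x / 100) * Real.exp (x / 100) := by gcongr
    _ = Real.exp (x / 50) := by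
      rw [← Real.exp_add]
      congr 1
      ring

theorem par_d1 (ε : ℝ) (hε : 0 < ε) : ∀ᶠ x : ℝ in atTop, ∀ y, Rg x y →
    16 * (mm y : ℝ) ^ 3 * y ^ 3 * ((mm y : ℝ) ^ 4 * Real.exp 2 * y) ^ (mm y) ≤
      ε * Real.exp (x ^ 2 / 2) := by
  filter_upwards [par_mm, eventually_ge_atTop 1000,
    pow_le_exp (16 / ε) 0 1 (by norm_num)] with x hmm hx1 hεx y hy
  have h0 := hmm y hy
  have hy0 : 0 < y := (Real.exp_pos _).trans_le hy.1
  have hy1 : 1 ≤ y := (Real.one_le_exp (by linarith)).trans hy.1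
  have hm1 : (4 : ℝ) ≤ mm y := by
    unfold mm
    push_cast
    have : (0 : ℝ) ≤ (⌈100 * Real.log y⌉₊ : ℝ) := by positivity
    linarith
  set z := (mm y : ℝ) ^ 4 * Real.exp 2 * y with hz
  have hmz : (mm y : ℝ) ^ 3 * y ^ 3 ≤ z ^ 3 := by
    rw [hz, ← mul_pow]
    have h2 : (1 : ℝ) ≤ Real.exp 2 := Real.one_le_exp (by norm_num)
    have h3 : (mm y : ℝ) ≤ (mm y : ℝ) ^ 4 := le_self_pow₀ (by linarith) (by norm_num)
    gcongr
    calc (mm y : ℝ) ≤ (mm y : ℝ) ^ 4 * 1 := by linarith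
      _ ≤ _ := by gcongr
  have hz0 : 0 < z := by positivity
  have h16 : 16 ≤ ε * Real.exp x := by
    rw [pow_zero, mul_one, one_mul, div_le_iff₀ hε] at hεx
    linarith
  have hm2 := mm_le (by linarith) hy
  calc 16 * (mm y : ℝ) ^ 3 * y ^ 3 * z ^ (mm y)
      = 16 * ((mm y : ℝ) ^ 3 * y ^ 3) * z ^ (mm y) := by ring
    _ ≤ 16 * z ^ 3 * z ^ (mm y) := by gcongr
    _ = 16 * z ^ (mm y + 3) := by rw [pow_add]; ring
    _ ≤ (ε * Real.exp x) * (Real.exp (x / 50)) ^ (mm y + 3) := by gcongr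
    _ = ε * Real.exp (x + (mm y + 3) * (x / 50)) := by
      rw [← Real.exp_nat_mul, mul_assoc, ← Real.exp_add]
      push_cast
      ring_nf
    _ ≤ ε * Real.exp (x ^ 2 / 2) := by
      gcongr
      have : ((mm y : ℝ) + 3) * (x / 50) ≤ (2 * x + 209) * (x / 50) :=
        mul_le_mul_of_nonneg_right (by linarith) (by linarith)
      nlinarith

theorem par_h1 (ε : ℝ) (hε : 0 < ε) : ∀ᶠ x : ℝ in atTop, ∀ y, Rg x y →
    L0 x * (1 + x ^ 2) ≤ ε * √y := by
  filter_upwards [L0_pow_le 4 (1 / ε ^ 2) (1 / 100) (by positivity) (by norm_num),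
    eventually_ge_atTop 1] with x hx hx1 y hy
  have h1 : (1 + x ^ 2) ≤ L0 x := by
    unfold L0
    nlinarith
  have h0 : 0 < L0 x := by
    unfold L0
    positivity
  rw [one_div_mul_eq_div (100 : ℝ) x] at hx
  have h2 : L0 x * (1 + x ^ 2) ≤ L0 x ^ 2 := by nlinarith
  have h3 : L0 x ^ 2 / ε ≤ √y := by
    apply Real.le_sqrt_of_sq_le
    refine le_trans (le_of_eq ?_) (hx.trans hy.1)
    field_simp
  rw [div_le_iff₀ hε] at h3
  linarith

theorem par_i1 : ∀ᶠ x : ℝ in atTop, ∀ y, Rg x y → y ^ 3 * 24 ≤ Real.exp (x ^ 2) := by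
  filter_upwards [eventually_ge_atTop 1000] with x hx y hy
  have hy0 : 0 < y := (Real.exp_pos _).trans_le hy.1
  have h1 : y ^ 3 ≤ (2 * Real.exp (x / 100)) ^ 3 := by
    gcongr
    exact hy.2
  have h2 : (192 : ℝ) ≤ Real.exp x := by
    have := Real.add_one_le_exp x
    linarith
  calc y ^ 3 * 24 ≤ (2 * Real.exp (x / 100)) ^ 3 * 24 := by gcongr
    _ = Real.exp (x / 100) ^ 3 * 192 := by ring
    _ ≤ Real.exp (x / 100) ^ 3 * Real.exp x := by gcongr
    _ = Real.exp (3 * (x / 100) + x) := by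
      rw [← Real.exp_nat_mul, ← Real.exp_add]
      norm_num
    _ ≤ _ := by
      rw [Real.exp_le_exp]
      nlinarith

end Vale.Agent.P046
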