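import Vale.Agent.Lib.P046.Extract
import Vale.Agent.Lib.P046.Params
import Vale.Agent.Lib.P046.HDefs2

/-!
# The mean error tends to zero
-/

namespace Vale.Agent.P046

open Finset MeasureTheory Filter Topology

/-- The statement of the deterministic theorem S2. -/
def S2Statement : Prop :=
  ∀ ε : ℝ, 0 < ε → ∃ Y0 : ℝ, ∀ (V : Type) [Fintype V] [DecidableEq V]
    (Vs : Finset V) (E : Finset (Finset V)) (y L : ℝ), Y0 ≤ y → 1 ≤ L →
    L ^ 20 ≤ Real.exp (Real.sqrt (Real.log y) / 25) → H.HReg Vs E y L →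
    (∃ B : Finset V, (B.card : ℝ) ≤ Vs.card / y ^ 2 ∧
      ∀ v ∈ Vs, v ∉ B → H.TreeB E ⌈100 * Real.log y⌉₊ ∅ v ∅) →
    (3 * y) ^ (1000 * Real.log y) ≤ Vs.card →
    ∫ l, ((∑ v ∈ Vs, H.surv E v l) / (Vs.card / Real.sqrt (2 * y)) - 1) ^ 2 ∂(H.mu V) ≤ ε

/-- Regularity of the graph `G` at codegree `y`. -/
structure GoodG {n : ℕ} (G : SimpleGraph (Fin n)) (y L : ℝ) : Prop where
  p1 : ∀ e ∈ edges G, |(H.deg (hyp G) e : ℝ) - y| ≤ L * √y
  p2 : y ^ 3 ≤ n → ∀ e ∈ edges G,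
    |∑ T ∈ H.star (hyp G) e, ∑ f ∈ T.erase e, ((H.deg (hyp G) f : ℝ) - y)| ≤ L ^ 6 * y
  ne : |((edges G).card : ℝ) - √y * (n : ℝ) ^ (3 / 2 : ℝ) / 2| ≤
    4 * L / √y * (√y * (n : ℝ) ^ (3 / 2 : ℝ) / 2)

/-- The statement of the dynamic concentration theorem S1. -/
def S1Statement : Prop :=
  ∀ (n J : ℕ) (L : ℝ), 0 < n → 10 ^ 8 * (1 + Real.log n) ≤ L → L ^ 20 ≤ yy n J →
    ∃ P : List (Tr n) → Prop, (∀ l : List (Tr n), l.length ≤ J → P l →
      GoodG (gr l) (yy n l.length) L) ∧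
      EL J (fun l => by classical exact if P l ∧ HistOK P l then (0 : ℝ) else 1) ≤
        1 / (n : ℝ) ^ 2

variable {n : ℕ}

theorem yy_anti (hn : 0 < n) {i j : ℕ} (h : i ≤ j) : yy n j ≤ yy n i := by
  unfold yy
  have : (0 : ℝ) < n := by exact_mod_cast hn
  have : (i : ℝ) ≤ j := by exact_mod_cast h
  gcongr

/-- The time at which the degree is about `Y`. -/
theorem exists_time (hn : 0 < n) (Y : ℝ) (hY1 : 1 ≤ Y) (hY : 24 * Y ≤ n) :
    ∃ J : ℕ, Y ≤ yy n J ∧ yy n J ≤ 2 * Y := by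
  have hn' : (0 : ℝ) < n := by exact_mod_cast hn
  have hn1 : (1 : ℝ) ≤ n := by exact_mod_cast hn
  have hY0 : 0 < Y := by linarith
  have h0 : 0 ≤ (n : ℝ) ^ 2 * (n / Y - 1) / 12 := by
    have : 1 ≤ (n : ℝ) / Y := by
      rw [le_div_iff₀ hY0]
      linarith
    have : 0 ≤ (n : ℝ) / Y - 1 := by linarith
    positivity
  refine ⟨⌊(n : ℝ) ^ 2 * (n / Y - 1) / 12⌋₊, ?_, ?_⟩
  · have h1 := Nat.floor_le h0
    set J := ⌊(n : ℝ) ^ 2 * (n / Y - 1) / 12⌋₊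
    unfold yy
    rw [le_div_iff₀ (by positivity)]
    have h2 : 12 * (J : ℝ) / (n : ℝ) ^ 2 ≤ n / Y - 1 := by
      rw [div_le_iff₀ (by positivity)]
      linarith
    have h3 : Y * (1 + 12 * (J : ℝ) / (n : ℝ) ^ 2) ≤ Y * (n / Y) := by
      gcongr
      linarith
    have h4 : Y * (n / Y) = n := by field_simp
    linarith
  · have h1 := Nat.lt_floor_add_one ((n : ℝ) ^ 2 * (n / Y - 1) / 12)
    set J := ⌊(n : ℝ) ^ 2 * (n / Y - 1) / 12⌋₊
    unfold yy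
    rw [div_le_iff₀ (by positivity)]
    have h2 : n / Y - 1 ≤ 12 * (J : ℝ) / (n : ℝ) ^ 2 + 12 / (n : ℝ) ^ 2 := by
      rw [← add_div, le_div_iff₀ (by positivity)]
      linarith
    have h3 : 12 / (n : ℝ) ^ 2 ≤ n / Y / 2 := by
      rw [div_le_iff₀ (by positivity), div_div, div_mul_eq_mul_div, le_div_iff₀ (by positivity)]
      have : (1 : ℝ) ≤ (n : ℝ) ^ 2 := one_le_pow₀ hn1
      nlinarith
    have h4 : Y * (n / Y) = n := by field_simp
    have h5 : 2 * Y * (n / Y - n / Y / 2) ≤ 2 * Y * (1 + 12 * (J : ℝ) / (n : ℝ) ^ 2) := by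
      gcongr
      linarith
    nlinarith

theorem HistOK_le (P : List (Tr n) → Prop) (J : ℕ) (l : List (Tr n)) (hl : l.length ≤ J + 1) :
    HistOK (fun l => P l ∧ l.length ≤ J) l ↔ HistOK P l := by
  induction l with
  | nil => rfl
  | cons t l ih =>
    simp only [List.length_cons] at hl
    simp only [HistOK]
    rw [ih (by omega)]
    constructor
    · rintro ⟨h1, h2⟩
      exact ⟨h1.1, h2⟩
    · rintro ⟨h1, h2⟩
      exact ⟨⟨h1, by omega⟩, h2⟩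

end Vale.Agent.P046
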