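import Vale.Agent.Lib.P046.MainA

/-!
# The mean error tends to zero: proof
-/

namespace Vale.Agent.P046

open Finset MeasureTheory Filter Topology

/-- All parameter inequalities. -/
structure PP (Y0 ε x y : ℝ) : Prop where
  rg : Rg x y
  x1 : 1000 ≤ x
  y0 : Y0 ≤ y
  l1 : (L0 x) ^ 20 ≤ y
  l2 : ((L0 x) ^ 6) ^ 20 ≤ Real.exp (√(Real.log y) / 25)
  p4 : (3 * y) ^ (1000 * Real.log y) ≤ Real.exp (3 / 2 * x ^ 2) / 4
  m1 : 2 * (mm y : ℝ) ≤ 1 / (1 + x ^ 2) * y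
  d1 : 16 * (mm y : ℝ) ^ 3 * y ^ 3 * ((mm y : ℝ) ^ 4 * Real.exp 2 * y) ^ (mm y) ≤
      ε * Real.exp (x ^ 2 / 2)
  h1 : L0 x * (1 + x ^ 2) ≤ 1 * √y
  h2 : L0 x * (1 + x ^ 2) ≤ ε * √y
  i1 : y ^ 3 * 24 ≤ Real.exp (x ^ 2)

theorem par_all (Y0 ε : ℝ) (hε : 0 < ε) : ∀ᶠ x : ℝ in atTop, ∀ y, Rg x y → PP Y0 ε x y := by
  filter_upwards [eventually_ge_atTop 1000, par_y0 Y0, par_l1, par_l2, par_p4, par_m1,
    par_d1 ε hε, par_h1 1 one_pos, par_h1 ε hε, par_i1] with x a1 a2 a3 a4 a5 a6 a7 a8 a9 a10 y hy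
  exact ⟨hy, a1, a2 y hy, a3 y hy, a4 y hy, a5 y hy, a6 y hy, a7 y hy, a8 y hy, a9 y hy, a10 y hy⟩

variable {n : ℕ}

/-- The size of the graph. -/
theorem card_bounds (hn : 0 < n) (G : SimpleGraph (Fin n)) (y L δ : ℝ) (hy : 0 < y)
    (hg : GoodG G y L) (hL : 4 * L ≤ δ * √y) (hδ : δ ≤ 1 / 2) :
    √y * (n : ℝ) ^ (3 / 2 : ℝ) / 4 ≤ (edges G).card ∧
      |((edges G).card : ℝ) / √(2 * y) / NN n - 1| ≤ δ := by
  have hn' : (0 : ℝ) < n := by exact_mod_cast hn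
  have hN : (0 : ℝ) < (n : ℝ) ^ (3 / 2 : ℝ) := by positivity
  have hs : 0 < √y := Real.sqrt_pos.2 hy
  set K := √y * (n : ℝ) ^ (3 / 2 : ℝ) / 2 with hK
  have hK0 : 0 < K := by positivity
  have h1 : |((edges G).card : ℝ) - K| ≤ δ * K := by
    refine hg.ne.trans ?_
    have : 4 * L / √y ≤ δ := by
      rw [div_le_iff₀ hs]
      exact hL
    gcongr
  constructor
  · have h2 := (abs_le.1 h1).1
    have h3 : √y * (n : ℝ) ^ (3 / 2 : ℝ) / 4 = K / 2 := by rw [hK]; ring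
    rw [h3]
    nlinarith
  · have h4 : ((edges G).card : ℝ) / √(2 * y) / NN n = (edges G).card / K := by
      unfold NN
      rw [hK, Real.sqrt_mul (by norm_num)]
      have h5 : √2 * √2 = 2 := Real.mul_self_sqrt (by norm_num)
      field_simp
    rw [h4]
    have h6 : ((edges G).card : ℝ) / K - 1 = ((edges G).card - K) / K := by field_simp
    rw [h6, abs_div, abs_of_pos hK0, div_le_iff₀ hK0]
    exact h1

/-- `P` up to time `J`. -/
def PJ (P : List (Tr n) → Prop) (J : ℕ) (l : List (Tr n)) : Prop := P l ∧ l.length ≤ J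

/-- The setting of the final estimate. -/
structure Ctx (n J : ℕ) (P : List (Tr n) → Prop) (Y0 η x : ℝ) : Prop where
  hn : 0 < n
  hη0 : 0 < η
  hη1 : η ≤ 1 / 8
  hx2 : x ^ 2 = Real.log n
  hexp : Real.exp (x ^ 2) = n
  hpp : PP Y0 (η / 4) x (yy n J)
  hP : ∀ l : List (Tr n), l.length ≤ J → P l → GoodG (gr l) (yy n l.length) (L0 x)
  hnl : 4 / η ≤ (n : ℝ)

namespace Ctx

variable {J : ℕ} {P : List (Tr n) → Prop} {Y0 η x : ℝ}

theorem hn' (c : Ctx n J P Y0 η x) : (0 : ℝ) < n := by exact_mod_cast c.hn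

theorem hn1 (c : Ctx n J P Y0 η x) : (1 : ℝ) ≤ n := by exact_mod_cast c.hn

theorem y0 (c : Ctx n J P Y0 η x) : 0 < yy n J := yy_pos c.hn J

theorem y1 (c : Ctx n J P Y0 η x) : 1 ≤ yy n J :=
  (Real.one_le_exp (by linarith [c.hpp.x1])).trans c.hpp.rg.1

theorem L1 (_ : Ctx n J P Y0 η x) : 1 ≤ L0 x := by
  unfold L0
  nlinarith [sq_nonneg x]

theorem N0 (c : Ctx n J P Y0 η x) : (0 : ℝ) < (n : ℝ) ^ (3 / 2 : ℝ) := by
  have := c.hn'
  positivity

theorem Nexp (c : Ctx n J P Y0 η x) : (n : ℝ) ^ (3 / 2 : ℝ) = Real.exp (3 / 2 * x ^ 2) := by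
  rw [Real.rpow_def_of_pos c.hn', c.hx2]
  ring_nf

theorem half (c : Ctx n J P Y0 η x) : Real.exp (x ^ 2 / 2) * n = (n : ℝ) ^ (3 / 2 : ℝ) := by
  rw [c.Nexp]
  nth_rw 1 [← c.hexp]
  rw [← Real.exp_add]
  ring_nf

theorem sy (c : Ctx n J P Y0 η x) : 1 ≤ √(yy n J) ∧ √(yy n J) ≤ yy n J := by
  have h1 : 1 ≤ √(yy n J) := Real.one_le_sqrt.2 c.y1
  refine ⟨h1, ?_⟩
  have := Real.mul_self_sqrt c.y0.le
  nlinarith

theorem L4 (c : Ctx n J P Y0 η x) : 4 * L0 x ≤ η * √(yy n J) := by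
  have h1 := c.hpp.h2
  have h2 : L0 x ≤ L0 x * (1 + x ^ 2) := by nlinarith [sq_nonneg x, c.L1]
  linarith

theorem good (c : Ctx n J P Y0 η x) (l : List (Tr n)) (hl : l.length = J) (hPl : PJ P J l) :
    GoodG (gr l) (yy n J) (L0 x) := by
  have := c.hP l hl.le hPl.1
  rwa [hl] at this

theorem degs (c : Ctx n J P Y0 η x) (l : List (Tr n)) (hPl : PJ P J l) (e : Sym2 (Fin n))
    (he : e ∈ edges (gr l)) :
    (1 - 1 / (1 + x ^ 2)) * yy n l.length ≤ H.deg (hyp (gr l)) e := by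
  have h1 := (c.hP l hPl.2 hPl.1).p1 e he
  have h2 := (abs_le.1 h1).1
  set yl := yy n l.length with hyl
  have hyl0 : 0 < yl := yy_pos c.hn _
  have h3 : yy n J ≤ yl := yy_anti c.hn hPl.2
  have h4 : √(yy n J) ≤ √yl := Real.sqrt_le_sqrt h3
  have h5 := c.hpp.h1
  have h6 : L0 x * √yl ≤ 1 / (1 + x ^ 2) * yl := by
    rw [one_div_mul_eq_div, le_div_iff₀ (by positivity)]
    have h7 : L0 x * (1 + x ^ 2) ≤ √yl := by linarith
    calc L0 x * √yl * (1 + x ^ 2) = (L0 x * (1 + x ^ 2)) * √yl := by ring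
      _ ≤ √yl * √yl := by gcongr
      _ = yl := Real.mul_self_sqrt hyl0.le
  linarith

/-- The threshold for the number of edges in dense spots. -/
noncomputable def thr (n J : ℕ) : ℝ := (n : ℝ) ^ (3 / 2 : ℝ) / (4 * (yy n J) ^ 2)

theorem thr_pos (c : Ctx n J P Y0 η x) : 0 < thr n J := by
  have := c.N0
  have := c.y0
  unfold thr
  positivity

/-- The bound of the expected number of edges in dense spots. -/
noncomputable def DD (n J : ℕ) : ℝ :=
  (mm (yy n J) : ℝ) ^ 3 * n * ((mm (yy n J) : ℝ) ^ 4 * Real.exp 2 * yy n J) ^ (mm (yy n J))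

theorem hreg (c : Ctx n J P Y0 η x) (G : SimpleGraph (Fin n)) (hg : GoodG G (yy n J) (L0 x)) :
    H.HReg (edges G) (hyp G) (yy n J) (L0 x ^ 6) := by
  refine ⟨fun T hT => (hyp_subset_edges _ T hT).1, fun T hT => (hyp_subset_edges _ T hT).2,
    fun e he => ?_, fun e he => ?_⟩
  · refine (hg.p1 e he).trans ?_
    have : L0 x ≤ L0 x ^ 6 := le_self_pow₀ c.L1 (by norm_num)
    gcongr
  · refine hg.p2 ?_ e he
    have := c.hpp.i1
    rw [c.hexp] at this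
    have : 0 ≤ yy n J ^ 3 := pow_nonneg c.y0.le 3
    linarith

theorem card3 (c : Ctx n J P Y0 η x) (G : SimpleGraph (Fin n))
    (hg : GoodG G (yy n J) (L0 x)) : (n : ℝ) ^ (3 / 2 : ℝ) / 4 ≤ (edges G).card := by
  obtain ⟨hc1, _⟩ := card_bounds c.hn G (yy n J) (L0 x) η c.y0 hg c.L4 (by linarith [c.hη1])
  refine le_trans ?_ hc1
  nlinarith [c.sy.1, c.N0]

theorem case1 (c : Ctx n J P Y0 η x)
    (hY0 : ∀ (V : Type) [Fintype V] [DecidableEq V]
      (Vs : Finset V) (E : Finset (Finset V)) (y L : ℝ), Y0 ≤ y → 1 ≤ L →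
      L ^ 20 ≤ Real.exp (Real.sqrt (Real.log y) / 25) → H.HReg Vs E y L →
      (∃ B : Finset V, (B.card : ℝ) ≤ Vs.card / y ^ 2 ∧
        ∀ v ∈ Vs, v ∉ B → H.TreeB E ⌈100 * Real.log y⌉₊ ∅ v ∅) →
      (3 * y) ^ (1000 * Real.log y) ≤ Vs.card →
      ∫ l, ((∑ v ∈ Vs, H.surv E v l) / (Vs.card / Real.sqrt (2 * y)) - 1) ^ 2 ∂(H.mu V) ≤ η ^ 2)
    (G : SimpleGraph (Fin n)) (hg : GoodG G (yy n J) (L0 x))
    (hd : (by classical exact (((edges G).filter (Dense G (mm (yy n J)))).card : ℝ)) ≤ thr n J) :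
    Ef er G ≤ 3 * η := by
  classical
  obtain ⟨_, hc2⟩ := card_bounds c.hn G (yy n J) (L0 x) η c.y0 hg c.L4 (by linarith [c.hη1])
  have hc3 := c.card3 G hg
  have hcpos : 0 < (edges G).card := by
    have : (0 : ℝ) < (edges G).card := lt_of_lt_of_le (by have := c.N0; positivity) hc3
    exact_mod_cast this
  have hB : (((edges G).filter (Dense G (mm (yy n J)))).card : ℝ) ≤
      (edges G).card / (yy n J) ^ 2 := by
    refine le_trans (le_trans (le_of_eq (by congr)) hd) ?_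
    unfold thr
    have hy2 : 0 < (yy n J) ^ 2 := pow_pos c.y0 2
    rw [div_le_div_iff₀ (by positivity) hy2]
    nlinarith
  have hT : ∀ v ∈ edges G, v ∉ (edges G).filter (Dense G (mm (yy n J))) →
      H.TreeB (hyp G) ⌈100 * Real.log (yy n J)⌉₊ ∅ v ∅ := by
    intro e he hne
    apply treeB_of_not_dense _ _ he
    intro hdense
    exact hne (mem_filter.2 ⟨he, hdense⟩)
  have hp4 : (3 * (yy n J)) ^ (1000 * Real.log (yy n J)) ≤ (edges G).card := by
    refine le_trans ?_ hc3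
    rw [c.Nexp]
    exact c.hpp.p4
  have hS2' := hY0 (Sym2 (Fin n)) (edges G) (hyp G) (yy n J) (L0 x ^ 6) c.hpp.y0
    (one_le_pow₀ c.L1) c.hpp.l2 (c.hreg G hg) ⟨_, hB, hT⟩ hp4
  have := case_one c.hn G (yy n J) η η c.y0 c.hη0 (by linarith [c.hη1]) hcpos hS2' hc2
  linarith

theorem case2 (c : Ctx n J P Y0 η x) (G : SimpleGraph (Fin n))
    (hg : GoodG G (yy n J) (L0 x)) : Ef er G ≤ 4 * yy n J := by
  obtain ⟨hc1, hc2⟩ := card_bounds c.hn G (yy n J) (L0 x) η c.y0 hg c.L4 (by linarith [c.hη1])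
  refine (Ef_er_le c.hn _).trans ?_
  have h1 := (abs_le.1 hc2).2
  have hη1 := c.hη1
  have h2 : ((edges G).card : ℝ) / √(2 * yy n J) / NN n ≤ 9 / 8 := by linarith
  have hy0 := c.y0
  have h3 : 0 < √(2 * yy n J) := by positivity
  have hN0 := NN_pos c.hn
  have h4 : ((edges G).card : ℝ) / NN n ≤ 9 / 8 * √(2 * yy n J) := by
    have : ((edges G).card : ℝ) / NN n =
        ((edges G).card : ℝ) / √(2 * yy n J) / NN n * √(2 * yy n J) := by field_simp
    rw [this]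
    gcongr
  rw [Real.sqrt_mul (by norm_num)] at h4
  have hs2 : √2 ≤ 3 / 2 := by
    rw [Real.sqrt_le_left (by norm_num)]
    norm_num
  obtain ⟨g1, g2⟩ := c.sy
  have h5 : √2 * √(yy n J) ≤ 3 / 2 * yy n J := by
    have : 0 ≤ √2 := Real.sqrt_nonneg _
    nlinarith
  linarith [c.y1]

theorem case3 (c : Ctx n J P Y0 η x) (G : SimpleGraph (Fin n)) : Ef er G ≤ 4 * n := by
  refine (Ef_er_le c.hn _).trans ?_
  have hn1 := c.hn1
  have hn' := c.hn'
  have hN := c.N0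
  have hN0 := NN_pos c.hn
  have hNN : NN n = (n : ℝ) ^ (3 / 2 : ℝ) / (2 * √2) := rfl
  have hs2 : √2 ≤ 3 / 2 := by
    rw [Real.sqrt_le_left (by norm_num)]
    norm_num
  have hs20 : 0 < √2 := by positivity
  have h1 : ((edges G).card : ℝ) ≤ (n : ℝ) ^ 2 := by
    have h2 := card_edgeSet_le G
    rw [← card_edges] at h2
    have h3 : n.choose 2 ≤ n ^ 2 := Nat.choose_le_pow n 2
    exact_mod_cast h2.trans h3
  have h2 : (n : ℝ) ≤ (n : ℝ) ^ (3 / 2 : ℝ) := by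
    nth_rw 1 [← Real.rpow_one (n : ℝ)]
    exact Real.rpow_le_rpow_of_exponent_le hn1 (by norm_num)
  have h3 : ((edges G).card : ℝ) / NN n ≤ 3 * n := by
    rw [div_le_iff₀ hN0, hNN]
    have h4 : (n : ℝ) ^ 2 ≤ n * (n : ℝ) ^ (3 / 2 : ℝ) := by
      rw [sq]
      gcongr
    have h5 : n * (n : ℝ) ^ (3 / 2 : ℝ) ≤ 3 * n * ((n : ℝ) ^ (3 / 2 : ℝ) / (2 * √2)) := by
      have h6 : 3 * n * ((n : ℝ) ^ (3 / 2 : ℝ) / (2 * √2)) =
        n * (n : ℝ) ^ (3 / 2 : ℝ) * (3 / (2 * √2)) := by ring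
      rw [h6]
      have h7 : 1 ≤ 3 / (2 * √2) := by
        rw [le_div_iff₀ (by positivity)]
        linarith
      exact le_mul_of_one_le_right (by positivity) h7
    linarith
  linarith

open Classical in
theorem dense (c : Ctx n J P Y0 η x) :
    EL J (fun l => if HistOK (PJ P J) l then
      (((edges (gr l)).filter (Dense (gr l) (mm (yy n J)))).card : ℝ) else 0) ≤
        thr n J * (DD n J / thr n J) := by
  have hy0 := c.y0
  have hy1 := c.y1
  have hn' := c.hn'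
  have hx1 := c.hpp.x1
  have h1 := dense_count c.hn (PJ P J) (1 / (1 + x ^ 2)) ?_ c.degs J (mm (yy n J)) ?_ ?_ ?_
  · refine h1.trans (le_of_eq ?_)
    have := c.thr_pos
    unfold DD
    field_simp
  · rw [div_le_div_iff₀ (by positivity) (by norm_num)]
    nlinarith
  · intro j hj
    refine c.hpp.m1.trans ?_
    have : yy n J ≤ yy n j := yy_anti c.hn hj.le
    gcongr
  · have h2 : Real.log (n / yy n J) ≤ x ^ 2 := by
      rw [c.hx2]
      apply Real.log_le_log (by positivity)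
      rw [div_le_iff₀ hy0]
      nlinarith
    rw [one_div_mul_eq_div, div_le_one (by positivity)]
    linarith
  · have hm4 : (1 : ℝ) ≤ (mm (yy n J) : ℝ) ^ 4 := by
      apply one_le_pow₀
      unfold mm
      push_cast
      have : (0 : ℝ) ≤ (⌈100 * Real.log (yy n J)⌉₊ : ℝ) := by positivity
      linarith
    have h2 : (1 : ℝ) ≤ Real.exp 2 := Real.one_le_exp (by norm_num)
    calc (1 : ℝ) = 1 * 1 * 1 := by norm_num
      _ ≤ _ := by gcongr

theorem fin1 (c : Ctx n J P Y0 η x) : 4 * yy n J * (DD n J / thr n J) ≤ η := by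
  have hy0 := c.y0
  have hn' := c.hn'
  have hN := c.N0
  have hη0 := c.hη0
  have h2 : 4 * yy n J * (DD n J / thr n J) = 16 * (mm (yy n J) : ℝ) ^ 3 * yy n J ^ 3 *
      ((mm (yy n J) : ℝ) ^ 4 * Real.exp 2 * yy n J) ^ (mm (yy n J)) * n /
        (n : ℝ) ^ (3 / 2 : ℝ) := by
    unfold DD thr
    field_simp
    ring
  rw [h2, div_le_iff₀ hN, ← c.half]
  have h3 := c.hpp.d1
  have h4 : 16 * (mm (yy n J) : ℝ) ^ 3 * yy n J ^ 3 *
      ((mm (yy n J) : ℝ) ^ 4 * Real.exp 2 * yy n J) ^ (mm (yy n J)) * n ≤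
        η / 4 * Real.exp (x ^ 2 / 2) * n := by gcongr
  have h5 : 0 ≤ Real.exp (x ^ 2 / 2) * n := by positivity
  nlinarith

theorem fin2 (c : Ctx n J P Y0 η x) : 4 * (n : ℝ) * (1 / (n : ℝ) ^ 2) ≤ η := by
  have hn' := c.hn'
  have hnl := c.hnl
  have h3 : 4 * (n : ℝ) * (1 / (n : ℝ) ^ 2) = 4 / n := by field_simp
  rw [h3, div_le_iff₀ hn']
  rw [div_le_iff₀ c.hη0] at hnl
  linarith

end Ctx

theorem HistOK_PJ (P : List (Tr n) → Prop) (J : ℕ) (l : List (Tr n)) (hl : l.length ≤ J + 1) :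
    HistOK (PJ P J) l ↔ HistOK P l := HistOK_le P J l hl

/-- The choice of the time. -/
theorem exists_ctx (hS1 : S1Statement) (Y0 η : ℝ) (hη0 : 0 < η) (hη1 : η ≤ 1 / 8) :
    ∀ᶠ n : ℕ in atTop, ∃ (J : ℕ) (P : List (Tr n) → Prop) (x : ℝ), Ctx n J P Y0 η x ∧
      EL J (fun l => by classical exact if P l ∧ HistOK P l then (0 : ℝ) else 1) ≤
        1 / (n : ℝ) ^ 2 := by
  have hlog : Tendsto (fun n : ℕ => √(Real.log n)) atTop atTop :=
    Real.tendsto_sqrt_atTop.comp (Real.tendsto_log_atTop.comp tendsto_natCast_atTop_atTop)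
  have hlarge : ∀ᶠ n : ℕ in atTop, 4 / η ≤ (n : ℝ) :=
    tendsto_natCast_atTop_atTop.eventually (eventually_ge_atTop _)
  filter_upwards [hlog.eventually (par_all Y0 (η / 4) (by positivity)), hlarge,
    eventually_gt_atTop 0] with n hPP hnl hn
  set x : ℝ := √(Real.log n) with hx
  have hn' : (0 : ℝ) < n := by exact_mod_cast hn
  have hn1 : (1 : ℝ) ≤ n := by exact_mod_cast hn
  have hlogn : 0 ≤ Real.log n := Real.log_nonneg hn1
  have hx2 : x ^ 2 = Real.log n := Real.sq_sqrt hlogn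
  have hexp : Real.exp (x ^ 2) = n := by rw [hx2, Real.exp_log hn']
  have hx1 : 1000 ≤ x := by
    have : Rg x (Real.exp (x / 100)) := ⟨le_rfl, by linarith [Real.exp_pos (x / 100)]⟩
    exact (hPP _ this).x1
  have hrg0 : Rg x (2 * Real.exp (x / 100)) := ⟨by linarith [Real.exp_pos (x / 100)], le_rfl⟩
  have hYn : 24 * Real.exp (x / 100) ≤ n := by
    have h1 := (hPP _ hrg0).i1
    rw [hexp] at h1
    have h2 : (1 : ℝ) ≤ 2 * Real.exp (x / 100) := by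
      have := Real.add_one_le_exp (x / 100)
      linarith
    have h3 : 2 * Real.exp (x / 100) ≤ (2 * Real.exp (x / 100)) ^ 3 :=
      le_self_pow₀ h2 (by norm_num)
    linarith [Real.exp_pos (x / 100)]
  obtain ⟨J, hJ1, hJ2⟩ := exists_time hn (Real.exp (x / 100)) (Real.one_le_exp (by linarith)) hYn
  have hpp : PP Y0 (η / 4) x (yy n J) := hPP _ ⟨hJ1, hJ2⟩
  obtain ⟨P, hP, hbad⟩ := hS1 n J (L0 x) hn (by rw [L0, hx2]) hpp.l1
  exact ⟨J, P, x, ⟨hn, hη0, hη1, hx2, hexp, hpp, hP, hnl⟩, hbad⟩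

theorem main_error (hS1 : S1Statement) (hS2 : S2Statement) (ε : ℝ) (hε : 0 < ε) :
    ∀ᶠ n : ℕ in atTop, Ef er (⊤ : SimpleGraph (Fin n)) ≤ ε := by
  classical
  set η : ℝ := min (ε / 8) (1 / 8) with hη
  have hη0 : 0 < η := by positivity
  have hηε : η ≤ ε / 8 := min_le_left _ _
  have hη1 : η ≤ 1 / 8 := min_le_right _ _
  obtain ⟨Y0, hY0⟩ := hS2 (η ^ 2) (by positivity)
  filter_upwards [exists_ctx hS1 Y0 η hη0 hη1] with n hctx
  obtain ⟨J, P, x, c, hbad⟩ := hctx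
  have hy0 := c.y0
  have hn' := c.hn'
  have hfinal := assemble c.hn J (mm (yy n J)) (PJ P J) er (3 * η) (4 * yy n J) (4 * n)
    (1 / (n : ℝ) ^ 2) (Ctx.DD n J / Ctx.thr n J) (Ctx.thr n J) c.thr_pos (by positivity)
    (by positivity) (by positivity) ?_ ?_ ?_ ?_ ?_
  · have h1 := c.fin1
    have h2 := c.fin2
    linarith
  · refine le_trans (le_of_eq ?_) hbad
    apply EL_congr_len
    intro l hl
    refine if_congr ?_ rfl rfl
    rw [HistOK_PJ P J l (by omega)]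
    exact ⟨fun h => ⟨h.1.1, h.2⟩, fun h => ⟨⟨h.1, hl.le⟩, h.2⟩⟩
  · intro l hl hPl hd
    exact c.case1 hY0 (gr l) (c.good l hl hPl) (le_trans (le_of_eq (by congr)) hd)
  · intro l hl hPl
    exact c.case2 (gr l) (c.good l hl hPl)
  · intro l hl
    exact c.case3 (gr l)
  · exact le_trans (le_of_eq (by congr)) c.dense

/-- The limit theorem, given S1 and S2. -/
theorem limit_theorem (hS1 : S1Statement) (hS2 : S2Statement) :
    (∀ ε : ℝ, 0 < ε → Tendsto (fun n : ℕ => ((finalGraph n).toOuterMeasure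
      {G | ε < |(Nat.card G.edgeSet : ℝ) / (n : ℝ) ^ (3 / 2 : ℝ) - 1 / (2 * √2)|}).toReal)
        atTop (𝓝 0)) ∧
    Tendsto (fun n : ℕ => (∑ G : SimpleGraph (Fin n),
      (finalGraph n G).toReal * (Nat.card G.edgeSet : ℝ)) / (n : ℝ) ^ (3 / 2 : ℝ))
        atTop (𝓝 (1 / (2 * √2))) :=
  extract fun ε hε => main_error hS1 hS2 ε hε

end Vale.Agent.P046
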