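import Vale.Agent.Lib.P046.S1D

/-!
# S1: linear algebra of the operators (no combinatorics)

All statements are direct: unfold the definitions, `Finset.sum` linearity, `ring`.
-/

namespace Vale.Agent.P046

open Finset

variable {n : ℕ} (G : SimpleGraph (Fin n)) (h : ℝ) (t : Tr n) (u v : Fin n)

theorem aj_nonneg : 0 ≤ aj G u v := by
  unfold aj
  split_ifs <;> norm_num

theorem aj_le_one : aj G u v ≤ 1 := by
  unfold aj
  split_ifs <;> norm_num

theorem aj_self : aj G u u = 0 := by
  unfold aj
  simp

theorem aj_symm : aj G u v = aj G v u := by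
  unfold aj
  by_cases h1 : G.Adj u v
  · rw [if_pos h1, if_pos h1.symm]
  · rw [if_neg h1, if_neg fun h2 => h1 h2.symm]

theorem aj_mul_self : aj G u v * aj G u v = aj G u v := by
  unfold aj
  split_ifs <;> norm_num

theorem aj_ne_zero (hx : aj G u v ≠ 0) : u ≠ v := by
  rintro rfl
  exact hx (aj_self G u)

/-- the step only deletes edges -/
theorem aj_lstep_le : aj (lstep G t) u v ≤ aj G u v := by
  have hle : lstep G t ≤ G := by
    unfold lstep
    split_ifs
    · exact SimpleGraph.deleteEdges_le _
    · exact le_refl _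
  unfold aj
  by_cases h1 : (lstep G t).Adj u v
  · rw [if_pos h1, if_pos (hle h1)]
  · rw [if_neg h1]
    split_ifs <;> norm_num

theorem HH_congr {x x' : Fin n → Fin n → ℝ} (hx : ∀ a b, a ≠ b → x a b = x' a b) :
    HH G h x u v = HH G h x' u v := by
  unfold HH
  congr 1
  apply Finset.sum_congr rfl
  intro w _
  by_cases h1 : u = w
  · subst h1
    simp [aj_self]
  · by_cases h2 : v = w
    · subst h2
      simp [aj_self]
    · rw [hx u w h1, hx v w h2]

theorem HH_add (x x' : Fin n → Fin n → ℝ) :
    HH G h (fun a b => x a b + x' a b) u v = HH G h x u v + HH G h x' u v := by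
  unfold HH
  rw [← mul_add, ← Finset.sum_add_distrib]
  congr 1
  apply Finset.sum_congr rfl
  intro w _
  ring

theorem HH_sub (x x' : Fin n → Fin n → ℝ) :
    HH G h (fun a b => x a b - x' a b) u v = HH G h x u v - HH G h x' u v := by
  unfold HH
  rw [← mul_sub, ← Finset.sum_sub_distrib]
  congr 1
  apply Finset.sum_congr rfl
  intro w _
  ring

theorem HH_smul (c : ℝ) (x : Fin n → Fin n → ℝ) :
    HH G h (fun a b => c * x a b) u v = c * HH G h x u v := by
  unfold HH
  rw [mul_left_comm]
  congr 1
  rw [Finset.mul_sum]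
  apply Finset.sum_congr rfl
  intro w _
  ring

theorem HH_one : HH G h (fun _ _ => 1) u v = 2 * zz G h u v := by
  unfold HH zz
  rw [mul_left_comm]
  congr 1
  rw [Finset.mul_sum]
  apply Finset.sum_congr rfl
  intro w _
  ring

theorem HH_symm (x : Fin n → Fin n → ℝ) : HH G h x u v = HH G h x v u := by
  unfold HH
  congr 1
  apply Finset.sum_congr rfl
  intro w _
  ring

theorem DD_symm (x : Fin n → Fin n → ℝ) : DD G h t x u v = DD G h t x v u := by
  unfold DD lam
  congr 1
  apply Finset.sum_congr rfl
  intro w _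
  ring

theorem zz_symm : zz G h u v = zz G h v u := by
  unfold zz
  congr 1
  apply Finset.sum_congr rfl
  intro w _
  ring

/-- monotonicity of the positive operator -/
theorem HH_mono (hh0 : 0 ≤ h) {x x' : Fin n → Fin n → ℝ} (hx : ∀ a b, a ≠ b → x a b ≤ x' a b) :
    HH G h x u v ≤ HH G h x' u v := by
  unfold HH
  apply mul_le_mul_of_nonneg_left _ hh0
  apply Finset.sum_le_sum
  intro w _
  by_cases h1 : u = w
  · subst h1
    simp [aj_self]
  · by_cases h2 : v = w
    · subst h2
      simp [aj_self]
    · apply mul_le_mul_of_nonneg_left _ (mul_nonneg (aj_nonneg G u w) (aj_nonneg G v w))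
      exact add_le_add (hx u w h1) (hx v w h2)

theorem HH_abs_le (hh0 : 0 ≤ h) (x : Fin n → Fin n → ℝ) :
    |HH G h x u v| ≤ HH G h (fun a b => |x a b|) u v := by
  unfold HH
  rw [abs_mul, abs_of_nonneg hh0]
  apply mul_le_mul_of_nonneg_left _ hh0
  refine (Finset.abs_sum_le_sum_abs _ _).trans ?_
  apply Finset.sum_le_sum
  intro w _
  rw [abs_mul, abs_of_nonneg (mul_nonneg (aj_nonneg G u w) (aj_nonneg G v w))]
  apply mul_le_mul_of_nonneg_left _ (mul_nonneg (aj_nonneg G u w) (aj_nonneg G v w))
  exact abs_add_le _ _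

/-- the average over the triple commutes with the operator -/
theorem avg_HH (f : Tr n → Fin n → Fin n → ℝ) :
    avg (fun t => HH G h (f t) u v) = HH G h (fun a b => avg fun t => f t a b) u v := by
  unfold avg HH
  rw [← Finset.mul_sum, Finset.sum_comm, mul_div_assoc]
  congr 1
  rw [Finset.sum_div]
  apply Finset.sum_congr rfl
  intro w _
  rw [← Finset.mul_sum, Finset.sum_add_distrib, mul_div_assoc, add_div]

theorem DD_add (x x' : Fin n → Fin n → ℝ) :
    DD G h t (fun a b => x a b + x' a b) u v = DD G h t x u v + DD G h t x' u v := by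
  unfold DD
  rw [← mul_add, ← Finset.sum_add_distrib]
  congr 1
  apply Finset.sum_congr rfl
  intro w _
  ring

theorem DD_sub (x x' : Fin n → Fin n → ℝ) :
    DD G h t (fun a b => x a b - x' a b) u v = DD G h t x u v - DD G h t x' u v := by
  unfold DD
  rw [← mul_sub, ← Finset.sum_sub_distrib]
  congr 1
  apply Finset.sum_congr rfl
  intro w _
  ring

theorem DD_one : DD G h t (fun _ _ => 1) u v = 2 * de G h t u v := by
  unfold DD de
  rw [mul_left_comm]
  congr 1
  rw [Finset.mul_sum]
  apply Finset.sum_congr rfl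
  intro w _
  ring

theorem zz_lstep : zz (lstep G t) h u v = zz G h u v - de G h t u v := by
  unfold zz de lam
  rw [← mul_sub, ← Finset.sum_sub_distrib]
  congr 1
  apply Finset.sum_congr rfl
  intro w _
  ring

theorem al_lstep : al (lstep G t) h u v = al G h u v - de G h t u v := by
  unfold al
  rw [zz_lstep]
  ring

theorem HH_lstep (x : Fin n → Fin n → ℝ) :
    HH (lstep G t) h x u v = HH G h x u v - DD G h t x u v := by
  unfold HH DD lam
  rw [← mul_sub, ← Finset.sum_sub_distrib]
  congr 1
  apply Finset.sum_congr rfl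
  intro w _
  ring

/-- `H' z' - 2 z'` with `H' = H - D`, `z' = z - de`, `D 1 = 2 de`. -/
theorem be_lstep : be (lstep G t) h u v =
    be G h u v - HH G h (de G h t) u v - DD G h t (al (lstep G t) h) u v := by
  have h1 : zz (lstep G t) h = fun a b => zz G h a b - de G h t a b := by
    ext a b
    exact zz_lstep G h t a b
  have h2 : HH G h (zz (lstep G t) h) u v = HH G h (zz G h) u v - HH G h (de G h t) u v := by
    rw [h1]
    exact HH_sub G h u v _ _
  have h3 : DD G h t (zz (lstep G t) h) u v =
      DD G h t (al (lstep G t) h) u v + 2 * de G h t u v := by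
    have h4 : zz (lstep G t) h = fun a b => al (lstep G t) h a b + 1 := by
      ext a b
      unfold al
      ring
    have h5 := DD_add G h t u v (al (lstep G t) h) (fun _ _ => 1)
    rw [DD_one] at h5
    rw [← h5]
    conv_lhs => rw [h4]
  unfold be
  rw [HH_lstep, h2, h3, zz_lstep]
  ring

/-- `(H' - 1) be' = (H - 1) be + (H - 1) (be' - be) - D be'`. -/
theorem ga_lstep : ga (lstep G t) h u v = ga G h u v +
    (HH G h (fun a b => be (lstep G t) h a b - be G h a b) u v -
      (be (lstep G t) h u v - be G h u v)) - DD G h t (be (lstep G t) h) u v := by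
  unfold ga
  rw [HH_lstep, HH_sub]
  ring

theorem HH_zz : HH G h (zz G h) u v = be G h u v + 2 * zz G h u v := by
  unfold be
  ring

theorem HH_al : HH G h (al G h) u v = be G h u v := by
  have h1 : al G h = fun a b => zz G h a b - 1 := rfl
  have h2 := HH_sub G h u v (zz G h) (fun _ _ => 1)
  rw [HH_one, HH_zz] at h2
  rw [h1]
  rw [h2]
  ring

theorem HH_be : HH G h (be G h) u v = ga G h u v + be G h u v := by
  unfold ga
  ring

theorem zz_scale (s : ℝ) : zz G (s * h) u v = s * zz G h u v := by
  unfold zz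
  ring

theorem HH_scale (s : ℝ) (x : Fin n → Fin n → ℝ) : HH G (s * h) x u v = s * HH G h x u v := by
  unfold HH
  ring

theorem al_scale (s : ℝ) : al G (s * h) u v = s * zz G h u v - 1 := by
  unfold al
  rw [zz_scale]

theorem be_scale (s : ℝ) : be G (s * h) u v =
    s ^ 2 * be G h u v + (2 * s ^ 2 - 2 * s) * zz G h u v := by
  have h1 : zz G (s * h) = fun a b => s * zz G h a b := by
    ext a b
    exact zz_scale G h a b s
  unfold be
  rw [HH_scale, h1, HH_smul, HH_zz]
  ring

theorem ga_scale (s : ℝ) : ga G (s * h) u v =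
    s ^ 3 * ga G h u v + (3 * s ^ 3 - 3 * s ^ 2) * be G h u v +
      (4 * s ^ 3 - 6 * s ^ 2 + 2 * s) * zz G h u v := by
  have h1 : be G (s * h) = fun a b => s ^ 2 * be G h a b + (2 * s ^ 2 - 2 * s) * zz G h a b := by
    ext a b
    exact be_scale G h a b s
  have h2 := HH_add G h u v (fun a b => s ^ 2 * be G h a b)
    (fun a b => (2 * s ^ 2 - 2 * s) * zz G h a b)
  rw [HH_smul, HH_smul, HH_be, HH_zz] at h2
  change HH G (s * h) (be G (s * h)) u v - be G (s * h) u v = _
  rw [HH_scale, h1, h2]
  ring

end Vale.Agent.P046
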