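import Vale.Agent.Lib.P046.S1Lam

/-!
# S1: averages over the triple of the lost paths
-/

namespace Vale.Agent.P046

open Finset

variable {n : ℕ} (G : SimpleGraph (Fin n)) (h : ℝ) (u v w : Fin n)

/-- Kronecker delta. -/
private def s1avg_dl (a u : Fin n) : ℝ := if a = u then 1 else 0

/-- The indicator of a triangle. -/
private noncomputable def s1avg_T (a b c : Fin n) : ℝ := aj G a b * aj G a c * aj G b c

private theorem s1avg_T_symm1 (a b c : Fin n) : s1avg_T G b a c = s1avg_T G a b c := by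
  unfold s1avg_T
  rw [aj_symm G b a]
  ring

private theorem s1avg_T_symm2 (a b c : Fin n) : s1avg_T G a c b = s1avg_T G a b c := by
  unfold s1avg_T
  rw [aj_symm G c b]
  ring

private theorem s1avg_A (F : Fin n → Fin n → Fin n → ℝ) :
    ∑ a, ∑ b, ∑ c, F a b c * (s1avg_dl a u * s1avg_dl b w) = ∑ x, F u w x := by
  have h1 : ∀ a b c, F a b c * (s1avg_dl a u * s1avg_dl b w) =
      if a = u then (if b = w then F u w c else 0) else 0 := by
    intro a b c
    unfold s1avg_dl
    split_ifs with h1 h2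
    · rw [h1, h2]
      ring
    · ring
    · ring
    · ring
  simp only [h1, Finset.sum_ite_irrel, Finset.sum_const_zero, Finset.sum_ite_eq',
    Finset.mem_univ, if_true]

private theorem s1avg_B (F : Fin n → Fin n → Fin n → ℝ) :
    ∑ a, ∑ b, ∑ c, F a b c * (s1avg_dl a u * s1avg_dl c w) = ∑ x, F u x w := by
  have h1 : ∀ a b c, F a b c * (s1avg_dl a u * s1avg_dl c w) =
      if a = u then (if c = w then F u b w else 0) else 0 := by
    intro a b c
    unfold s1avg_dl
    split_ifs with h1 h2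
    · rw [h1, h2]
      ring
    · ring
    · ring
    · ring
  simp only [h1, Finset.sum_ite_irrel, Finset.sum_const_zero, Finset.sum_ite_eq',
    Finset.mem_univ, if_true]

private theorem s1avg_C (F : Fin n → Fin n → Fin n → ℝ) :
    ∑ a, ∑ b, ∑ c, F a b c * (s1avg_dl b u * s1avg_dl c w) = ∑ x, F x u w := by
  have h1 : ∀ a b c, F a b c * (s1avg_dl b u * s1avg_dl c w) =
      if b = u then (if c = w then F a u w else 0) else 0 := by
    intro a b c
    unfold s1avg_dl
    split_ifs with h1 h2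
    · rw [h1, h2]
      ring
    · ring
    · ring
    · ring
  simp only [h1, Finset.sum_ite_irrel, Finset.sum_const_zero, Finset.sum_ite_eq',
    Finset.mem_univ, if_true]

private theorem s1avg_E (F : Fin n → Fin n → Fin n → ℝ) :
    ∑ a, ∑ b, ∑ c, F a b c * (s1avg_dl a u * s1avg_dl b v * s1avg_dl c w) = F u v w := by
  have h1 : ∀ a b c, F a b c * (s1avg_dl a u * s1avg_dl b v * s1avg_dl c w) =
      if a = u then (if b = v then (if c = w then F u v w else 0) else 0) else 0 := by
    intro a b c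
    unfold s1avg_dl
    split_ifs with h1 h2 h3
    · rw [h1, h2, h3]
      ring
    · ring
    · ring
    · ring
    · ring
    · ring
    · ring
    · ring
  simp only [h1, Finset.sum_ite_irrel, Finset.sum_const_zero, Finset.sum_ite_eq',
    Finset.mem_univ, if_true]

private theorem s1avg_mem {a b c : Fin n} (hab : a ≠ b) (hac : a ≠ c) (hbc : b ≠ c) :
    (if u ∈ tri (a, b, c) then (1 : ℝ) else 0) =
      s1avg_dl a u + s1avg_dl b u + s1avg_dl c u := by
  unfold s1avg_dl tri
  simp only [mem_insert, mem_singleton]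
  by_cases h1 : u = a
  · subst h1
    simp [hab.symm, hac.symm]
  · by_cases h2 : u = b
    · subst h2
      simp [hab, hbc.symm]
    · by_cases h3 : u = c
      · subst h3
        simp [hac, hbc]
      · have h1' : ¬ a = u := fun h => h1 h.symm
        have h2' : ¬ b = u := fun h => h2 h.symm
        have h3' : ¬ c = u := fun h => h3 h.symm
        simp [h1, h2, h3, h1', h2', h3']

private theorem s1avg_T_eq_zero {a b c : Fin n} (hT : ¬ IsTri G (a, b, c)) :
    s1avg_T G a b c = 0 := by
  unfold IsTri at hT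
  simp only [not_and_or] at hT
  unfold s1avg_T aj
  rcases hT with h1 | h1 | h1 <;> simp [h1]

private theorem s1avg_T_eq_one {a b c : Fin n} (hT : IsTri G (a, b, c)) :
    s1avg_T G a b c = 1 := by
  obtain ⟨h1, h2, h3⟩ := hT
  simp only at h1 h2 h3
  unfold s1avg_T aj
  simp [h1, h2, h3]

private theorem s1avg_dl_mul (huw : u ≠ w) (a : Fin n) : s1avg_dl a u * s1avg_dl a w = 0 := by
  unfold s1avg_dl
  split_ifs with h1 h2
  · exact absurd (h1.symm.trans h2) huw
  · ring
  · ring
  · ring

open Classical in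
private theorem s1avg_sum (f : Tr n → ℝ) :
    ∑ t, f t = ∑ a, ∑ b, ∑ c, f (a, b, c) := by
  rw [Fintype.sum_prod_type]
  refine Finset.sum_congr rfl fun a _ => ?_
  rw [Fintype.sum_prod_type]

open Classical in
private theorem s1avg_pt2 (huw : u ≠ w) (a b c : Fin n) :
    (if IsTri G (a, b, c) ∧ u ∈ tri (a, b, c) ∧ w ∈ tri (a, b, c) then (1 : ℝ) else 0) =
      s1avg_T G a b c * (s1avg_dl a u * s1avg_dl b w) +
      s1avg_T G a b c * (s1avg_dl a w * s1avg_dl b u) +
      s1avg_T G a b c * (s1avg_dl a u * s1avg_dl c w) +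
      s1avg_T G a b c * (s1avg_dl a w * s1avg_dl c u) +
      s1avg_T G a b c * (s1avg_dl b u * s1avg_dl c w) +
      s1avg_T G a b c * (s1avg_dl b w * s1avg_dl c u) := by
  by_cases hT : IsTri G (a, b, c)
  · have h1 := s1avg_mem u hT.1.ne hT.2.1.ne hT.2.2.ne
    have h2 := s1avg_mem w hT.1.ne hT.2.1.ne hT.2.2.ne
    simp only at h1 h2
    have hi : (if IsTri G (a, b, c) ∧ u ∈ tri (a, b, c) ∧ w ∈ tri (a, b, c)
        then (1 : ℝ) else 0) = (if u ∈ tri (a, b, c) then 1 else 0) *
          (if w ∈ tri (a, b, c) then 1 else 0) := by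
      by_cases hu : u ∈ tri (a, b, c) <;> by_cases hw : w ∈ tri (a, b, c) <;> simp [hT, hu, hw]
    rw [hi, h1, h2, s1avg_T_eq_one G hT]
    have ha := s1avg_dl_mul u w huw a
    have hb := s1avg_dl_mul u w huw b
    have hc := s1avg_dl_mul u w huw c
    linear_combination ha + hb + hc
  · rw [if_neg (fun h => hT h.1), s1avg_T_eq_zero G hT]
    ring

open Classical in
/-- The number of ordered triples that are triangles containing the edge `u w` is six times the
codegree: position of `u`, position of `w`, third vertex `x` (`u ≠ w`, since adjacent). -/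
theorem avg_mem_two (huw : u ≠ w) : avg (fun t : Tr n =>
    if IsTri G t ∧ u ∈ tri t ∧ w ∈ tri t then 1 else 0) =
      6 / (n : ℝ) ^ 3 * (aj G u w * ∑ x, aj G u x * aj G w x) := by
  have hS : ∀ x, s1avg_T G u w x = aj G u w * (aj G u x * aj G w x) := by
    intro x
    unfold s1avg_T
    ring
  have hS' : ∑ x, s1avg_T G u w x = aj G u w * ∑ x, aj G u x * aj G w x := by
    rw [Finset.mul_sum]
    exact Finset.sum_congr rfl fun x _ => hS x
  have h1 : ∑ x, s1avg_T G w u x = ∑ x, s1avg_T G u w x :=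
    Finset.sum_congr rfl fun x _ => s1avg_T_symm1 G u w x
  have h2 : ∑ x, s1avg_T G u x w = ∑ x, s1avg_T G u w x :=
    Finset.sum_congr rfl fun x _ => s1avg_T_symm2 G u w x
  have h3 : ∑ x, s1avg_T G w x u = ∑ x, s1avg_T G u w x := by
    rw [← h1]
    exact Finset.sum_congr rfl fun x _ => s1avg_T_symm2 G w u x
  have h4 : ∑ x, s1avg_T G x u w = ∑ x, s1avg_T G u w x := by
    rw [← h2]
    exact Finset.sum_congr rfl fun x _ => s1avg_T_symm1 G u x w
  have h5 : ∑ x, s1avg_T G x w u = ∑ x, s1avg_T G u w x := by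
    rw [← h3]
    exact Finset.sum_congr rfl fun x _ => s1avg_T_symm1 G w x u
  unfold avg
  rw [s1avg_sum]
  simp only [s1avg_pt2 G u w huw, Finset.sum_add_distrib]
  rw [s1avg_A u w, s1avg_A w u, s1avg_B u w, s1avg_B w u, s1avg_C u w, s1avg_C w u, h1, h2, h3,
    h4, h5, hS']
  ring

open Classical in
private theorem s1avg_pt3 (huv : u ≠ v) (huw : u ≠ w) (hvw : v ≠ w) (a b c : Fin n) :
    (if IsTri G (a, b, c) ∧ u ∈ tri (a, b, c) ∧ v ∈ tri (a, b, c) ∧ w ∈ tri (a, b, c)
      then (1 : ℝ) else 0) =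
      s1avg_T G a b c * (s1avg_dl a u * s1avg_dl b v * s1avg_dl c w) +
      s1avg_T G a b c * (s1avg_dl a u * s1avg_dl b w * s1avg_dl c v) +
      s1avg_T G a b c * (s1avg_dl a v * s1avg_dl b u * s1avg_dl c w) +
      s1avg_T G a b c * (s1avg_dl a v * s1avg_dl b w * s1avg_dl c u) +
      s1avg_T G a b c * (s1avg_dl a w * s1avg_dl b u * s1avg_dl c v) +
      s1avg_T G a b c * (s1avg_dl a w * s1avg_dl b v * s1avg_dl c u) := by
  by_cases hT : IsTri G (a, b, c)
  · have h1 := s1avg_mem u hT.1.ne hT.2.1.ne hT.2.2.ne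
    have h2 := s1avg_mem v hT.1.ne hT.2.1.ne hT.2.2.ne
    have h3 := s1avg_mem w hT.1.ne hT.2.1.ne hT.2.2.ne
    simp only at h1 h2 h3
    have hi : (if IsTri G (a, b, c) ∧ u ∈ tri (a, b, c) ∧ v ∈ tri (a, b, c) ∧ w ∈ tri (a, b, c)
      then (1 : ℝ) else 0) = (if u ∈ tri (a, b, c) then 1 else 0) *
        ((if v ∈ tri (a, b, c) then 1 else 0) * (if w ∈ tri (a, b, c) then 1 else 0)) := by
      by_cases hu : u ∈ tri (a, b, c) <;> by_cases hv : v ∈ tri (a, b, c) <;>
        by_cases hw : w ∈ tri (a, b, c) <;> simp [hT, hu, hv, hw]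
    rw [hi, h1, h2, h3, s1avg_T_eq_one G hT]
    have ha1 := s1avg_dl_mul u v huv a
    have hb1 := s1avg_dl_mul u v huv b
    have hc1 := s1avg_dl_mul u v huv c
    have ha2 := s1avg_dl_mul u w huw a
    have hb2 := s1avg_dl_mul u w huw b
    have hc2 := s1avg_dl_mul u w huw c
    have ha3 := s1avg_dl_mul v w hvw a
    have hb3 := s1avg_dl_mul v w hvw b
    have hc3 := s1avg_dl_mul v w hvw c
    linear_combination (s1avg_dl a w + s1avg_dl b w + s1avg_dl c w) * ha1 +
      (s1avg_dl a w + s1avg_dl b w + s1avg_dl c w) * hb1 +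
      (s1avg_dl a w + s1avg_dl b w + s1avg_dl c w) * hc1 +
      (s1avg_dl b v + s1avg_dl c v) * ha2 + (s1avg_dl a v + s1avg_dl c v) * hb2 +
      (s1avg_dl a v + s1avg_dl b v) * hc2 +
      (s1avg_dl b u + s1avg_dl c u) * ha3 + (s1avg_dl a u + s1avg_dl c u) * hb3 +
      (s1avg_dl a u + s1avg_dl b u) * hc3
  · rw [if_neg (fun h => hT h.1), s1avg_T_eq_zero G hT]
    ring

open Classical in
/-- The number of ordered triples that are triangles and equal `{u, v, w}` as sets. -/
theorem avg_mem_three (huv : u ≠ v) (huw : u ≠ w) (hvw : v ≠ w) : avg (fun t : Tr n =>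
    if IsTri G t ∧ u ∈ tri t ∧ v ∈ tri t ∧ w ∈ tri t then 1 else 0) =
      6 / (n : ℝ) ^ 3 * (aj G u v * aj G u w * aj G v w) := by
  unfold avg
  rw [s1avg_sum]
  simp only [s1avg_pt3 G u v w huv huw hvw, Finset.sum_add_distrib]
  rw [s1avg_E u v w, s1avg_E u w v, s1avg_E v u w, s1avg_E v w u, s1avg_E w u v, s1avg_E w v u]
  unfold s1avg_T
  rw [aj_symm G w v, aj_symm G v u, aj_symm G w u]
  ring

/-- Inclusion-exclusion from `lam_eq_ite`, `avg_mem_two`, `avg_mem_three` (if `w = u` or `w = v`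
both sides vanish). -/
theorem avg_lam (hn : 0 < n) (hh0 : 0 < h) (huv : u ≠ v) : avg (fun t => lam G t u v w) =
    epr n h * (aj G u w * aj G v w * (zz G h u w + zz G h v w - h * aj G u v)) := by
  classical
  by_cases hA : G.Adj u w ∧ G.Adj v w
  · obtain ⟨hA1, hA2⟩ := hA
    have huw := hA1.ne
    have hvw := hA2.ne
    have e1 : aj G u w = 1 := by
      unfold aj
      simp [hA1]
    have e2 : aj G v w = 1 := by
      unfold aj
      simp [hA2]
    have hpt : ∀ t : Tr n, lam G t u v w =
        (if IsTri G t ∧ u ∈ tri t ∧ w ∈ tri t then (1 : ℝ) else 0) +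
        (if IsTri G t ∧ v ∈ tri t ∧ w ∈ tri t then (1 : ℝ) else 0) -
        (if IsTri G t ∧ u ∈ tri t ∧ v ∈ tri t ∧ w ∈ tri t then (1 : ℝ) else 0) := by
      intro t
      rw [lam_eq_ite]
      by_cases hT : IsTri G t <;> by_cases hu : u ∈ tri t <;> by_cases hv : v ∈ tri t <;>
        by_cases hw : w ∈ tri t <;> simp [hT, hu, hv, hw, hA1, hA2]
    have h1 : avg (fun t => lam G t u v w) =
        avg (fun t : Tr n => if IsTri G t ∧ u ∈ tri t ∧ w ∈ tri t then (1 : ℝ) else 0) +
        avg (fun t : Tr n => if IsTri G t ∧ v ∈ tri t ∧ w ∈ tri t then (1 : ℝ) else 0) -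
        avg (fun t : Tr n => if IsTri G t ∧ u ∈ tri t ∧ v ∈ tri t ∧ w ∈ tri t
          then (1 : ℝ) else 0) := by
      simp only [hpt]
      rw [avg_sub, avg_add]
    rw [h1, avg_mem_two G u w huw, avg_mem_two G v w hvw, avg_mem_three G u v w huv huw hvw,
      e1, e2]
    unfold epr zz
    have hn3 : (n : ℝ) ^ 3 ≠ 0 := by positivity
    field_simp
  · have h1 : ∀ t : Tr n, lam G t u v w = 0 := by
      intro t
      rw [lam_eq_ite, if_neg]
      rintro ⟨-, h1, h2, -⟩
      exact hA ⟨h1, h2⟩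
    have h2 : aj G u w * aj G v w = 0 := by
      rw [not_and_or] at hA
      unfold aj
      rcases hA with hA | hA <;> simp [hA]
    simp only [h1]
    rw [avg_const hn, h2]
    ring

private theorem s1avg_avg_sum (f : Fin n → Tr n → ℝ) :
    avg (fun t => ∑ w, f w t) = ∑ w, avg (fun t => f w t) := by
  unfold avg
  rw [Finset.sum_comm, Finset.sum_div]

theorem avg_de (hn : 0 < n) (hh0 : 0 < h) (huv : u ≠ v) : avg (fun t => de G h t u v) =
    epr n h * (HH G h (zz G h) u v - h * aj G u v * zz G h u v) := by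
  unfold de
  rw [avg_mul, s1avg_avg_sum]
  have h1 : ∀ w, avg (fun t => lam G t u v w) =
      epr n h * (aj G u w * aj G v w * (zz G h u w + zz G h v w)) -
      epr n h * (h * aj G u v) * (aj G u w * aj G v w) := by
    intro w
    rw [avg_lam G h u v w hn hh0 huv]
    ring
  rw [Finset.sum_congr rfl fun w _ => h1 w, Finset.sum_sub_distrib, ← Finset.mul_sum,
    ← Finset.mul_sum]
  have h2 : HH G h (zz G h) u v = h * ∑ w, aj G u w * aj G v w * (zz G h u w + zz G h v w) := rfl
  have h3 : zz G h u v = h * ∑ w, aj G u w * aj G v w := rfl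
  rw [h2, h3]
  ring

theorem avg_DD (hn : 0 < n) (hh0 : 0 < h) (huv : u ≠ v) (x : Fin n → Fin n → ℝ) :
    avg (fun t => DD G h t x u v) = epr n h * (2 * HH G h x u v +
      h * ∑ w, aj G u w * aj G v w * ((x u w + x v w) * (al G h u w + al G h v w)) -
        h * aj G u v * HH G h x u v) := by
  unfold DD
  rw [avg_mul, s1avg_avg_sum]
  have h1 : ∀ w, avg (fun t => lam G t u v w * (x u w + x v w)) =
      epr n h * 2 * (aj G u w * aj G v w * (x u w + x v w)) +
      epr n h * (aj G u w * aj G v w * ((x u w + x v w) * (al G h u w + al G h v w))) -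
      epr n h * (h * aj G u v) * (aj G u w * aj G v w * (x u w + x v w)) := by
    intro w
    have h2 : (fun t => lam G t u v w * (x u w + x v w)) =
        fun t => (x u w + x v w) * lam G t u v w := by
      funext t
      ring
    rw [h2, avg_mul, avg_lam G h u v w hn hh0 huv]
    unfold al
    ring
  rw [Finset.sum_congr rfl fun w _ => h1 w, Finset.sum_sub_distrib, Finset.sum_add_distrib,
    ← Finset.mul_sum, ← Finset.mul_sum, ← Finset.mul_sum]
  have h2 : HH G h x u v = h * ∑ w, aj G u w * aj G v w * (x u w + x v w) := rfl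
  rw [h2]
  ring

open Classical in
private theorem s1avg_pt1 (a b c : Fin n) :
    (if IsTri G (a, b, c) ∧ u ∈ tri (a, b, c) then (1 : ℝ) else 0) =
      s1avg_T G a b c * s1avg_dl a u + s1avg_T G a b c * s1avg_dl b u +
      s1avg_T G a b c * s1avg_dl c u := by
  by_cases hT : IsTri G (a, b, c)
  · have h1 := s1avg_mem u hT.1.ne hT.2.1.ne hT.2.2.ne
    simp only at h1
    have hi : (if IsTri G (a, b, c) ∧ u ∈ tri (a, b, c) then (1 : ℝ) else 0) =
        (if u ∈ tri (a, b, c) then 1 else 0) := by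
      simp [hT]
    rw [hi, h1, s1avg_T_eq_one G hT]
    ring
  · rw [if_neg (fun h => hT h.1), s1avg_T_eq_zero G hT]
    ring

open Classical in
/-- The probability that the triple is a triangle containing `u`. -/
theorem avg_mem_one : avg (fun t : Tr n => if IsTri G t ∧ u ∈ tri t then 1 else 0) =
    3 / (n : ℝ) ^ 3 * ∑ b, aj G u b * ∑ x, aj G u x * aj G b x := by
  have hS : ∑ b, aj G u b * ∑ x, aj G u x * aj G b x = ∑ b, ∑ x, s1avg_T G u b x := by
    refine Finset.sum_congr rfl fun b _ => ?_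
    rw [Finset.mul_sum]
    refine Finset.sum_congr rfl fun x _ => ?_
    unfold s1avg_T
    ring
  have h1 : ∑ a, ∑ b, ∑ c, s1avg_T G a b c * s1avg_dl a u = ∑ b, ∑ x, s1avg_T G u b x := by
    have h : ∀ a b c, s1avg_T G a b c * s1avg_dl a u = if a = u then s1avg_T G u b c else 0 := by
      intro a b c
      unfold s1avg_dl
      split_ifs with h1
      · rw [h1]
        ring
      · ring
    simp only [h, Finset.sum_ite_irrel, Finset.sum_const_zero, Finset.sum_ite_eq',
      Finset.mem_univ, if_true]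
  have h2 : ∑ a, ∑ b, ∑ c, s1avg_T G a b c * s1avg_dl b u = ∑ b, ∑ x, s1avg_T G u b x := by
    rw [← h1, Finset.sum_comm]
    refine Finset.sum_congr rfl fun a _ => Finset.sum_congr rfl fun b _ =>
      Finset.sum_congr rfl fun c _ => ?_
    rw [s1avg_T_symm1]
  have h3 : ∑ a, ∑ b, ∑ c, s1avg_T G a b c * s1avg_dl c u = ∑ b, ∑ x, s1avg_T G u b x := by
    rw [← h2]
    refine Finset.sum_congr rfl fun a _ => ?_
    rw [Finset.sum_comm]
    refine Finset.sum_congr rfl fun b _ => Finset.sum_congr rfl fun c _ => ?_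
    rw [s1avg_T_symm2]
  unfold avg
  rw [s1avg_sum]
  simp only [s1avg_pt1 G u, Finset.sum_add_distrib]
  rw [h1, h2, h3, hS]
  ring

open Classical in
/-- The probability that the triple is a triangle. -/
theorem avg_isTri : avg (fun t : Tr n => if IsTri G t then 1 else 0) =
    1 / (n : ℝ) ^ 3 * ∑ a, ∑ b, aj G a b * ∑ x, aj G a x * aj G b x := by
  have hpt : ∀ a b c : Fin n, (if IsTri G (a, b, c) then (1 : ℝ) else 0) =
      aj G a b * (aj G a c * aj G b c) := by
    intro a b c
    have h1 : aj G a b * (aj G a c * aj G b c) = s1avg_T G a b c := by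
      unfold s1avg_T
      ring
    rw [h1]
    split_ifs with hT
    · exact (s1avg_T_eq_one G hT).symm
    · exact (s1avg_T_eq_zero G hT).symm
  unfold avg
  rw [s1avg_sum]
  simp only [hpt, ← Finset.mul_sum]
  ring

end Vale.Agent.P046
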