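import Vale.Agent.Lib.P046.S1D
import Vale.Agent.Lib.P046.MainB

/-!
# From the codegree functions to the degrees of the hypergraph of triangles
-/

namespace Vale.Agent.P046

open Finset

variable {n : ℕ}

open Classical in
theorem aj_mul (G : SimpleGraph (Fin n)) (a b w : Fin n) :
    aj G a w * aj G b w = if G.Adj a w ∧ G.Adj b w then 1 else 0 := by
  unfold aj
  by_cases h1 : G.Adj a w <;> by_cases h2 : G.Adj b w <;> simp [h1, h2]

theorem deg_eq (G : SimpleGraph (Fin n)) (a b : Fin n) (hab : G.Adj a b) :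
    (H.deg (hyp G) s(a, b) : ℝ) = ∑ w, aj G a w * aj G b w := by
  classical
  rw [deg_hyp G a b hab]
  simp only [aj_mul]
  rw [Finset.sum_ite, Finset.sum_const_zero, add_zero, Finset.sum_const, nsmul_eq_mul, mul_one,
    Nat.card_eq_fintype_card, Fintype.card_subtype]

theorem sum_star (G : SimpleGraph (Fin n)) (a b : Fin n) (hab : G.Adj a b)
    (g : Sym2 (Fin n) → ℝ) : ∑ T ∈ H.star (hyp G) s(a, b), ∑ f ∈ T.erase s(a, b), g f =
      ∑ w, aj G a w * aj G b w * (g s(a, w) + g s(b, w)) := by
  classical
  have h1 : ∑ w, aj G a w * aj G b w * (g s(a, w) + g s(b, w)) =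
      ∑ w ∈ univ.filter (fun w => G.Adj a w ∧ G.Adj b w), (g s(a, w) + g s(b, w)) := by
    rw [Finset.sum_filter]
    refine Finset.sum_congr rfl fun w _ => ?_
    rw [aj_mul]
    split_ifs <;> ring
  rw [h1]
  symm
  refine Finset.sum_bij (fun w _ => ({s(a, b), s(a, w), s(b, w)} : Finset (Sym2 (Fin n))))
    ?_ ?_ ?_ ?_
  · intro w hw
    rw [mem_filter] at hw
    rw [H.star, mem_filter]
    refine ⟨?_, by simp⟩
    have : edgesOf {a, b, w} ∈ (G.cliqueFinset 3).image edgesOf := by
      refine mem_image_of_mem _ ?_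
      rw [SimpleGraph.mem_cliqueFinset_iff, SimpleGraph.is3Clique_triple_iff]
      exact ⟨hab, hw.2.1, hw.2.2⟩
    rw [edgesOf_triple a b w hab.ne hw.2.1.ne hw.2.2.ne] at this
    unfold hyp
    convert this
  · intro w hw w' hw' h
    rw [mem_filter] at hw hw'
    have h2 : s(a, w) ∈ ({s(a, b), s(a, w'), s(b, w')} : Finset (Sym2 (Fin n))) := by
      rw [← h]
      simp
    simp only [mem_insert, mem_singleton, Sym2.eq_iff] at h2
    rcases h2 with (⟨_, h⟩ | ⟨h, _⟩) | (⟨_, h⟩ | ⟨h, _⟩) | (⟨h, _⟩ | ⟨h, _⟩)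
    · exact absurd h.symm hw.2.2.ne
    · exact absurd h hab.ne
    · exact h
    · exact absurd h hw'.2.1.ne
    · exact absurd h hab.ne
    · exact absurd h hw'.2.1.ne
  · intro T hT
    rw [H.star, mem_filter] at hT
    obtain ⟨x, y, z, hxy, hxz, hyz, h2, h3, h4, h5, h6⟩ := hyp_cases hT.1 hT.2
    rw [Sym2.eq_iff] at h2
    rcases h2 with ⟨rfl, rfl⟩ | ⟨rfl, rfl⟩
    · exact ⟨z, by simp [h5, h6], h3.symm⟩
    · refine ⟨z, by simp [h5, h6], ?_⟩
      rw [h3]
      ext c
      simp only [mem_insert, mem_singleton, Sym2.eq_swap (a := a) (b := b)]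
      tauto
  · intro w hw
    rw [mem_filter] at hw
    have hn1 : s(a, b) ∉ ({s(a, w), s(b, w)} : Finset (Sym2 (Fin n))) := by
      simp only [mem_insert, mem_singleton, Sym2.eq_iff]
      rintro ((⟨_, h⟩ | ⟨h, _⟩) | (⟨h, _⟩ | ⟨h, _⟩))
      · exact hw.2.2.ne h
      · exact hw.2.1.ne h
      · exact hab.ne h
      · exact hw.2.1.ne h
    rw [Finset.erase_insert hn1, Finset.sum_pair]
    intro h
    rw [Sym2.eq_iff] at h
    rcases h with ⟨h, _⟩ | ⟨h, _⟩
    · exact hab.ne h
    · exact hw.2.1.ne h

theorem Ne_eq (G : SimpleGraph (Fin n)) : Ne G = (edges G).card := by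
  classical
  have h1 : ∀ u, ∑ v, aj G u v = (G.degree u : ℝ) := by
    intro u
    unfold aj
    rw [Finset.sum_ite, Finset.sum_const_zero, add_zero, Finset.sum_const, nsmul_eq_mul, mul_one]
    rw [← SimpleGraph.card_neighborFinset_eq_degree]
    congr 2
    ext v
    simp
  unfold Ne
  simp only [h1]
  have h2 := G.sum_degrees_eq_twice_card_edges
  have h3 : (∑ v, (G.degree v : ℝ)) = 2 * (G.edgeFinset.card : ℝ) := by exact_mod_cast h2
  rw [h3]
  have h4 : (edges G).card = G.edgeFinset.card := by
    congr 1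
    ext e
    simp [mem_edges]
  rw [h4]
  ring

theorem yy_eq (j : ℕ) : yy n j = 1 / hh n j := by
  unfold yy hh
  rw [one_div_div]

theorem bridge_hh_pos (hn : 0 < n) (j : ℕ) : 0 < hh n j := by
  unfold hh
  positivity

/-- A good history gives a regular graph. -/
theorem goodG_of_Gd (hn : 0 < n) (L : ℝ) (hL : 2 ≤ L) (l : List (Tr n)) (h : Gd n L l) :
    GoodG (gr l) (yy n l.length) L := by
  have hn' : (0 : ℝ) < n := by exact_mod_cast hn
  set G := gr l with hG
  set y := yy n l.length with hy
  set k := hh n l.length with hk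
  have hk0 : 0 < k := bridge_hh_pos hn _
  have hyk : y = 1 / k := yy_eq _
  have hy0 : 0 < y := by rw [hyk]; positivity
  have hky : k = 1 / y := by rw [hyk]; field_simp
  have hsk : √k = 1 / √y := by rw [hky, Real.sqrt_div zero_le_one, Real.sqrt_one]
  have hsy : 0 < √y := Real.sqrt_pos.2 hy0
  have hyy : √y * √y = y := Real.mul_self_sqrt hy0.le
  refine ⟨?_, ?_, ?_⟩
  · intro e he
    induction e using Sym2.ind with
    | _ a b =>
      rw [mem_edges] at he
      have hab : G.Adj a b := he
      have h1 := h.al_le a b hab.ne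
      rw [deg_eq G a b hab]
      unfold al zz at h1
      have h2 : ∑ w, aj G a w * aj G b w - y = y * (k * ∑ w, aj G a w * aj G b w - 1) := by
        rw [hky]
        field_simp
      rw [h2, abs_mul, abs_of_pos hy0]
      calc y * |k * ∑ w, aj G a w * aj G b w - 1| ≤ y * (L * √k) := by gcongr
        _ = L * √y := by
          rw [hsk]
          field_simp
          nlinarith
  · intro hyn e he
    induction e using Sym2.ind with
    | _ a b =>
      rw [mem_edges] at he
      have hab : G.Adj a b := he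
      have h1 := h.be_le a b hab.ne
      rw [sum_star G a b hab]
      have h2 : ∑ w, aj G a w * aj G b w * ((H.deg (hyp G) s(a, w) : ℝ) - y +
          ((H.deg (hyp G) s(b, w) : ℝ) - y)) = y ^ 2 * be G k a b := by
        have h3 : ∀ w, aj G a w * aj G b w * ((H.deg (hyp G) s(a, w) : ℝ) - y +
            ((H.deg (hyp G) s(b, w) : ℝ) - y)) =
              y * (aj G a w * aj G b w * (zz G k a w + zz G k b w)) -
                2 * y * (aj G a w * aj G b w) := by
          intro w
          classical
          rw [aj_mul]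
          split_ifs with hw
          · rw [deg_eq G a w hw.1, deg_eq G b w hw.2]
            unfold zz
            rw [hky]
            field_simp
            ring
          · ring
        rw [Finset.sum_congr rfl fun w _ => h3 w, Finset.sum_sub_distrib, ← Finset.mul_sum,
          ← Finset.mul_sum]
        unfold be HH
        have h4 : y ^ 2 * (k * ∑ w, aj G a w * aj G b w * (zz G k a w + zz G k b w) -
            2 * zz G k a b) = y * (y * k) * (∑ w, aj G a w * aj G b w *
              (zz G k a w + zz G k b w)) - 2 * y * (y * zz G k a b) := by ring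
        have h5 : y * k = 1 := by rw [hky]; field_simp
        have h6 : y * zz G k a b = ∑ w, aj G a w * aj G b w := by
          unfold zz
          rw [← mul_assoc, h5, one_mul]
        rw [h4, h5, h6]
        ring
      rw [h2, abs_mul, abs_of_pos (by positivity : 0 < y ^ 2)]
      have hbb : y * bb n l.length ≤ 1 := by
        unfold bb
        rw [← hk]
        have h7 : 0 ≤ k / n := by positivity
        have h8 : y ^ 4 * (k / n) ≤ 1 := by
          have : y ^ 4 * (k / n) = y ^ 3 / n := by
            rw [hky]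
            field_simp
          rw [this, div_le_one hn']
          exact hyn
        have h9 : (y * √√(k / n)) ^ 4 ≤ 1 := by
          rw [mul_pow]
          have : √√(k / n) ^ 4 = k / n := by
            have e1 : √√(k / n) ^ 4 = (√√(k / n) ^ 2) ^ 2 := by ring
            rw [e1, Real.sq_sqrt (Real.sqrt_nonneg _), Real.sq_sqrt h7]
          rw [this]
          exact h8
        by_contra hcon
        rw [not_le] at hcon
        have := one_lt_pow₀ hcon (show (4 : ℕ) ≠ 0 by norm_num)
        linarith
      have hL5 : L ^ 5 + L / 100 ≤ L ^ 6 := by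
        have h10 : 0 < L ^ 5 := by positivity
        have h11 : L ≤ L ^ 5 := le_self_pow₀ (by linarith) (by norm_num)
        have h12 : L ^ 6 = L ^ 5 * L := by ring
        nlinarith
      calc y ^ 2 * |be G k a b| ≤ y ^ 2 * (L / 100 * bb n l.length + L ^ 5 * k) := by gcongr
        _ = L / 100 * y * (y * bb n l.length) + L ^ 5 * y * (y * k) := by ring
        _ ≤ L / 100 * y * 1 + L ^ 5 * y * 1 := by
          have h5 : y * k = 1 := by rw [hky]; field_simp
          rw [h5]
          gcongr
        _ = (L ^ 5 + L / 100) * y := by ring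
        _ ≤ L ^ 6 * y := by gcongr
  · have h1 := h.Ne_le
    rw [Ne_eq] at h1
    have h2 : N0 n l.length = √y * (n : ℝ) ^ (3 / 2 : ℝ) / 2 := by
      unfold N0
      rw [← hk, Real.sqrt_mul hn'.le, hsk]
      have h3 : (n : ℝ) ^ (3 / 2 : ℝ) = n * √n := by
        rw [Real.sqrt_eq_rpow, show (3 / 2 : ℝ) = 1 + 1 / 2 by norm_num, Real.rpow_add hn',
          Real.rpow_one]
      rw [h3]
      have h4 : 0 < √(n : ℝ) := Real.sqrt_pos.2 hn'
      have h5 : √(n : ℝ) * √(n : ℝ) = n := Real.mul_self_sqrt hn'.le
      field_simp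
      nlinarith
    rw [h2] at h1
    refine h1.trans (le_of_eq ?_)
    rw [← hk, hsk]
    ring

theorem histOK_iff (L : ℝ) (l : List (Tr n)) : HistOK (Gd n L) l ↔ Okp n L l := by
  induction l with
  | nil => rfl
  | cons t l ih => simp only [HistOK, Okp, ih]

open Classical in
/-- S1 in the form needed for the assembly. -/
theorem S1Statement_of (h : ∀ (n J : ℕ) (L : ℝ), Par n J L →
    EL J (fun l => if Ok n L l then (0 : ℝ) else 1) ≤ 1 / (n : ℝ) ^ 10) : S1Statement := by
  intro n J L hn hL hy
  have hn' : (0 : ℝ) < n := by exact_mod_cast hn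
  have hn1 : (1 : ℝ) ≤ n := by exact_mod_cast hn
  have hlog : 0 ≤ Real.log n := Real.log_nonneg hn1
  have hpar : Par n J L := by
    refine ⟨hn, hL, ?_⟩
    rw [yy_eq] at hy
    rw [le_div_iff₀ (bridge_hh_pos hn J)] at hy
    linarith
  refine ⟨Gd n L, fun l _ hl => goodG_of_Gd hn L (by linarith) l hl, ?_⟩
  refine le_trans (le_of_eq ?_) ((h n J L hpar).trans ?_)
  · apply EL_congr_len
    intro l _
    refine if_congr ?_ rfl rfl
    rw [histOK_iff]
    rfl
  · have : (n : ℝ) ^ 2 ≤ (n : ℝ) ^ 10 := pow_le_pow_right₀ hn1 (by norm_num)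
    exact one_div_le_one_div_of_le (by positivity) this

end Vale.Agent.P046
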