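import Vale.Agent.Lib.P046.S1N1

/-!
# S1: the cancellation of the vertex modes in `(H - 1) H δ`

`f = H δ = h^2 N1`.  Let `t` be a triangle of `G`, `u ≠ v`, `g := (H f)_uv - f_uv`.

(0) always `0 ≤ f ≤ 4.2 h`, so `|g| ≤ 13.1 h`.
(1) `u, v ∉ tri t`: `f_uv ≤ 12 h^2`.  In `(H f)_uv = h ∑_w a_uw a_vw (f_uw + f_vw)` the terms
with `w ∉ tri t` have `f_uw, f_vw ≤ 12 h^2` (total `≤ 24 h^2 z`), the at most 3 terms with
`w ∈ tri t` have `f_uw, f_vw ≤ h^2 (2 M + 12)`, `M = 2 q + 6400 L^2`, `h q ≤ 1`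
(total `≤ 6 h^3 (2 M + 12) ≤ 25 h^2`).  So `|g| ≤ 65 h^2`.
(2) `u ∈ tri t`, `v ∉ tri t`, sparse case `q < 1600 L^2`, `M = 9600 L^2`:
`0 ≤ f_uv ≤ h^2 (2 M + 12)`, and `0 ≤ (H f)_uv ≤ 1.001 (h^2 (2 M + 12) + 12 h^2) + 2 h * 8.4 h`
so `|g| ≤ 20000 L^2 h^2`.
(3) `u ∈ tri t`, `v ∉ tri t`, dense case: by `N1_of_mem`,
`f_uv = h^2 ∑_{b ∈ (tri t).erase u} C3 u v b + O(8 h^2)`, the same for `f_uw`, `w ∉ tri t`, while
`f_vw ≤ 12 h^2` for `w ∉ tri t` and all `f ≤ 4.2 h` for the at most two `w ∈ tri t`.  With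
`C3 = q + O(20 L √q)`, `h * #(N(u) ∩ N(v)) = z = 1 + O(L √h)`, `√h q ≤ √q`, `h q ≤ 1`:
`|g| ≤ h^2 (2 (L √q + 2 + 40.1 L √q) + 45) ≤ 90 L √q h^2` (using `√q ≥ 40 L`).
-/

namespace Vale.Agent.P046

open Finset

variable {n : ℕ} {G : SimpleGraph (Fin n)} {h L q : ℝ}

/-- `q h ≤ 1`, `h` small: the constants -/
theorem s1cancela_small (R : Reg G h L q) : L ^ 2 * h ≤ 1 / 10 ^ 8 ∧ h ≤ 1 / 10 ^ 8 := by
  have h1 := R.h_small'
  have hL := R.hL
  have h0 := R.hpos
  have hL1 : 1 ≤ L := le_trans (by norm_num) hL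
  have h2 : L ^ 2 ≤ L ^ 19 := pow_le_pow_right₀ hL1 (by norm_num)
  have h3 : 1 ≤ L ^ 19 := one_le_pow₀ hL1
  constructor
  · exact (mul_le_mul_of_nonneg_right h2 h0.le).trans h1
  · calc h = 1 * h := (one_mul h).symm
      _ ≤ L ^ 19 * h := mul_le_mul_of_nonneg_right h3 h0.le
      _ ≤ _ := h1

/-- splitting the common neighbours into those inside and those outside the triple -/
theorem s1cancela_HH_le (R : Reg G h L q) {x : Fin n → Fin n → ℝ} {A B : ℝ} (hA : 0 ≤ A)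
    (hB : 0 ≤ B) {u v : Fin n} (huv : u ≠ v) (t : Tr n)
    (h1 : ∀ w, w ∉ tri t → u ≠ w → v ≠ w → x u w + x v w ≤ A)
    (h2 : ∀ w, w ∈ tri t → u ≠ w → v ≠ w → x u w + x v w ≤ B) :
    HH G h x u v ≤ 1001 / 1000 * A + 3 * h * B := by
  have hterm : ∀ w, aj G u w * aj G v w * (x u w + x v w) ≤
      aj G u w * aj G v w * A + (if w ∈ tri t then B else 0) := by
    intro w
    have hu0 := aj_nonneg G u w
    have hv0 := aj_nonneg G v w
    have hu1 := aj_le_one G u w
    have hv1 := aj_le_one G v w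
    have hp0 : 0 ≤ aj G u w * aj G v w := mul_nonneg hu0 hv0
    have hp1 : aj G u w * aj G v w ≤ 1 := mul_le_one₀ hu1 hv0 hv1
    by_cases hz : aj G u w * aj G v w = 0
    · rw [hz, zero_mul, zero_mul, zero_add]
      split_ifs
      · exact hB
      · exact le_rfl
    · have huw : u ≠ w := aj_ne_zero G u w (left_ne_zero_of_mul hz)
      have hvw : v ≠ w := aj_ne_zero G v w (right_ne_zero_of_mul hz)
      by_cases hw : w ∈ tri t
      · rw [if_pos hw]
        have h3 := mul_le_mul_of_nonneg_left (h2 w hw huw hvw) hp0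
        have h4 : aj G u w * aj G v w * B ≤ 1 * B := mul_le_mul_of_nonneg_right hp1 hB
        have h5 : 0 ≤ aj G u w * aj G v w * A := mul_nonneg hp0 hA
        linarith
      · rw [if_neg hw, add_zero]
        exact mul_le_mul_of_nonneg_left (h1 w hw huw hvw) hp0
  have hsum := Finset.sum_le_sum fun w (_ : w ∈ (univ : Finset (Fin n))) => hterm w
  rw [Finset.sum_add_distrib, ← Finset.sum_mul] at hsum
  have hcard : ∑ w : Fin n, (if w ∈ tri t then B else 0) ≤ 3 * B := by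
    rw [← Finset.sum_filter, Finset.sum_const, nsmul_eq_mul]
    refine mul_le_mul_of_nonneg_right ?_ hB
    have h3 : (univ.filter fun w => w ∈ tri t) ⊆ tri t := fun w hw => (mem_filter.1 hw).2
    have h4 : (tri t).card ≤ 3 := Finset.card_le_three
    exact_mod_cast (card_le_card h3).trans h4
  have hz := R.zz_le huv
  have hh0 := R.hpos
  have h3 : HH G h x u v ≤ h * ((∑ w, aj G u w * aj G v w) * A + 3 * B) := by
    unfold HH
    exact mul_le_mul_of_nonneg_left (hsum.trans (add_le_add le_rfl hcard)) hh0.le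
  have h4 : h * ((∑ w, aj G u w * aj G v w) * A + 3 * B) = zz G h u v * A + 3 * h * B := by
    unfold zz
    ring
  rw [h4] at h3
  have h5 := mul_le_mul_of_nonneg_right hz hA
  linarith

theorem s1cancela_nonneg (R : Reg G h L q) (u v : Fin n) (t : Tr n) :
    0 ≤ HH G h (HH G h (de G h t)) u v := by
  unfold HH
  refine mul_nonneg R.hpos.le (Finset.sum_nonneg fun w _ => ?_)
  refine mul_nonneg (mul_nonneg (aj_nonneg G u w) (aj_nonneg G v w)) (add_nonneg ?_ ?_)
  · exact R.HHde_nonneg u w t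
  · exact R.HHde_nonneg v w t

/-- the first jump, one end in the triple -/
theorem s1cancela_one_end (R : Reg G h L q) {u v : Fin n} (huv : u ≠ v) (t : Tr n)
    (hno : ¬ (u ∈ tri t ∧ v ∈ tri t)) :
    HH G h (de G h t) u v ≤ h ^ 2 * (2 * (2 * q + 6400 * L ^ 2) + 12) := by
  rw [HHde_eq]
  refine mul_le_mul_of_nonneg_left ?_ (sq_nonneg h)
  have hM0 : 0 ≤ 2 * q + 6400 * L ^ 2 := by
    have := R.hq
    positivity
  exact N1_le G t u v huv R.C_le hM0 hno

theorem s1cancela_no_end (R : Reg G h L q) {u v : Fin n} (t : Tr n)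
    (hu : u ∉ tri t) (hv : v ∉ tri t) : HH G h (de G h t) u v ≤ h ^ 2 * 12 := by
  have _ := R.hpos
  rw [HHde_eq]
  exact mul_le_mul_of_nonneg_left (N1_le_of_notMem G t u v hu hv) (sq_nonneg h)

theorem cancel_zero (R : Reg G h L q) {u v : Fin n} (huv : u ≠ v) (t : Tr n) :
    |HH G h (HH G h (de G h t)) u v - HH G h (de G h t) u v| ≤ 14 * h := by
  have hh0 := R.hpos
  have h1 := R.HHde_le huv t
  have h2 := R.HHde_nonneg u v t
  have h3 := s1cancela_nonneg R u v t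
  have h4 : |HH G h (HH G h (de G h t)) u v| ≤ 21 / 10 * (42 / 10 * h) := by
    refine HH_bound' R (by positivity) (fun a b hab => ?_) huv
    rw [abs_of_nonneg (R.HHde_nonneg a b t)]
    exact R.HHde_le hab t
  rw [abs_of_nonneg h3] at h4
  rw [abs_le]
  constructor <;> linarith

theorem cancel_one (R : Reg G h L q) {u v : Fin n} (huv : u ≠ v) (t : Tr n)
    (hu : u ∉ tri t) (hv : v ∉ tri t) :
    |HH G h (HH G h (de G h t)) u v - HH G h (de G h t) u v| ≤ 65 * h ^ 2 := by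
  have hh0 := R.hpos
  have hq0 := R.hq
  have hqh := R.hqh
  obtain ⟨hs1, hs2⟩ := s1cancela_small R
  have h1 := s1cancela_no_end R t hu hv
  have h2 := R.HHde_nonneg u v t
  have h3 := s1cancela_nonneg R u v t
  have h4 : HH G h (HH G h (de G h t)) u v ≤ 1001 / 1000 * (24 * h ^ 2) +
      3 * h * (2 * (h ^ 2 * (2 * (2 * q + 6400 * L ^ 2) + 12))) := by
    refine s1cancela_HH_le R (by positivity) (by positivity) huv t ?_ ?_
    · intro w hw _ _
      have h5 := s1cancela_no_end R t hu hw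
      have h6 := s1cancela_no_end R t hv hw
      linarith
    · intro w _ huw hvw
      have h5 := s1cancela_one_end R huw t (fun hc => hu hc.1)
      have h6 := s1cancela_one_end R hvw t (fun hc => hv hc.1)
      linarith
  have h5 : 3 * h * (2 * (h ^ 2 * (2 * (2 * q + 6400 * L ^ 2) + 12))) =
      h ^ 2 * (24 * (q * h) + 76800 * (L ^ 2 * h) + 72 * h) := by ring
  have h6 : h ^ 2 * (24 * (q * h) + 76800 * (L ^ 2 * h) + 72 * h) ≤ h ^ 2 * 25 := by
    refine mul_le_mul_of_nonneg_left ?_ (sq_nonneg h)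
    linarith
  rw [h5] at h4
  have h7 := sq_nonneg h
  rw [abs_le]
  constructor <;> linarith

theorem cancel_two (R : Reg G h L q) {u v : Fin n} (huv : u ≠ v) (t : Tr n)
    (hu : u ∈ tri t) (hv : v ∉ tri t) (hq : q < 1600 * L ^ 2) :
    |HH G h (HH G h (de G h t)) u v - HH G h (de G h t) u v| ≤ 20000 * L ^ 2 * h ^ 2 := by
  have _ := hu
  have hh0 := R.hpos
  have hq0 := R.hq
  have hL := R.hL
  have h1 := s1cancela_one_end R huv t (fun hc => hv hc.2)
  have h2 := R.HHde_nonneg u v t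
  have h3 := s1cancela_nonneg R u v t
  have h4 : HH G h (HH G h (de G h t)) u v ≤
      1001 / 1000 * (h ^ 2 * (2 * (2 * q + 6400 * L ^ 2) + 12) + h ^ 2 * 12) +
      3 * h * (2 * (42 / 10 * h)) := by
    refine s1cancela_HH_le R (by positivity) (by positivity) huv t ?_ ?_
    · intro w hw huw _
      exact add_le_add (s1cancela_one_end R huw t (fun hc => hw hc.2))
        (s1cancela_no_end R t hv hw)
    · intro w _ huw hvw
      have h5 := R.HHde_le huw t
      have h6 := R.HHde_le hvw t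
      linarith
  have hL2 : 10 ^ 16 ≤ L ^ 2 := by nlinarith
  have h5 : 1001 / 1000 * (h ^ 2 * (2 * (2 * q + 6400 * L ^ 2) + 12) + h ^ 2 * 12) +
      3 * h * (2 * (42 / 10 * h)) =
      h ^ 2 * (1001 / 1000 * (4 * q + 12800 * L ^ 2 + 24) + 252 / 10) := by ring
  have h6 : h ^ 2 * (1001 / 1000 * (4 * q + 12800 * L ^ 2 + 24) + 252 / 10) ≤
      h ^ 2 * (20000 * L ^ 2) := by
    refine mul_le_mul_of_nonneg_left ?_ (sq_nonneg h)
    linarith
  have h7 : h ^ 2 * (2 * (2 * q + 6400 * L ^ 2) + 12) ≤ h ^ 2 * (20000 * L ^ 2) := by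
    refine mul_le_mul_of_nonneg_left ?_ (sq_nonneg h)
    linarith
  rw [h5] at h4
  rw [abs_le]
  constructor <;> linarith

end Vale.Agent.P046
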