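import Vale.Agent.Lib.P046.S1N1

/-!
# S1: the cancellation of the vertex modes in `(H - 1) H δ`

`f = H δ = h^2 N1`.  Let `t` be a triangle of `G`, `u ≠ v`, `g := (H f)_uv - f_uv`.

(0) always `0 ≤ f ≤ 4.2 h`, so `|g| ≤ 13.1 h`.
(1) `u, v ∉ tri t`: `f_uv ≤ 12 h^2`.  In `(H f)_uv = h ∑_w a_uw a_vw (f_uw + f_vw)` the terms
with `w ∉ tri t` have `f_uw, f_vw ≤ 12 h^2` (total `≤ 24 h^2 z`), the at most 3 terms with
`w ∈ tri t` have `f_uw, f_vw ≤ h^2 (2 M + 12)`, `M = 2 q + 6400 L^2`, `h q ≤ 1`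
(total `≤ 6 h^3 (2 M + 12) ≤ 25 h^2`).  So `|g| ≤ 65 h^2`.
(2) `u ∈ tri t`, `v ∉ tri t`, sparse case `q < 1600 L^2`, `M = 9600 L^2`:
`0 ≤ f_uv ≤ h^2 (2 M + 12)`, and `0 ≤ (H f)_uv ≤ 1.001 (h^2 (2 M + 12) + 12 h^2) + 2 h * 8.4 h`
so `|g| ≤ 20000 L^2 h^2`.
(3) `u ∈ tri t`, `v ∉ tri t`, dense case: by `N1_of_mem`,
`f_uv = h^2 ∑_{b ∈ (tri t).erase u} C3 u v b + O(8 h^2)`, the same for `f_uw`, `w ∉ tri t`, while
`f_vw ≤ 12 h^2` for `w ∉ tri t` and all `f ≤ 4.2 h` for the at most two `w ∈ tri t`.  With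
`C3 = q + O(20 L √q)`, `h * #(N(u) ∩ N(v)) = z = 1 + O(L √h)`, `√h q ≤ √q`, `h q ≤ 1`:
`|g| ≤ h^2 (2 (L √q + 2 + 40.1 L √q) + 45) ≤ 90 L √q h^2` (using `√q ≥ 40 L`).
-/

namespace Vale.Agent.P046

open Finset

variable {n : ℕ} {G : SimpleGraph (Fin n)} {h L q : ℝ}

open Classical in
private theorem s1cancelb_card {t : Tr n} (ht : IsTri G t) {u : Fin n} (hu : u ∈ tri t) :
    ((tri t).erase u).card = 2 := by
  have h3 : (tri t).card = 3 := ((isTri_iff G t).1 ht).card_eq
  rw [Finset.card_erase_of_mem hu, h3]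

open Classical in
private theorem s1cancelb_main (R : Reg G h L q) {u w : Fin n} (t : Tr n) (ht : IsTri G t)
    (hu : u ∈ tri t) (hw : w ∉ tri t) (hq : 1600 * L ^ 2 ≤ q) :
    |N1 G t u w - 2 * q| ≤ 8 + 40 * L * √q := by
  have h1 := N1_of_mem G t u w ht hu hw
  have huw : u ≠ w := fun h => hw (h ▸ hu)
  have h2 : |∑ b ∈ (tri t).erase u, C3 G u w b - 2 * q| ≤ 40 * L * √q := by
    have hc := s1cancelb_card ht hu
    have h3 : (2 : ℝ) * q = ∑ b ∈ (tri t).erase u, q := by
      rw [Finset.sum_const, hc]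
      simp
    rw [h3, ← Finset.sum_sub_distrib]
    refine (Finset.abs_sum_le_sum_abs _ _).trans ?_
    have h4 : ∀ b ∈ (tri t).erase u, |C3 G u w b - q| ≤ 20 * L * √q := by
      intro b hb
      rw [Finset.mem_erase] at hb
      exact R.C_dense hq u w b huw (Ne.symm hb.1) (fun h => hw (h ▸ hb.2))
    refine (Finset.sum_le_sum h4).trans ?_
    rw [Finset.sum_const, hc]
    simp
    linarith
  have h5 := abs_add_le (N1 G t u w - ∑ b ∈ (tri t).erase u, C3 G u w b)
    (∑ b ∈ (tri t).erase u, C3 G u w b - 2 * q)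
  have h6 : N1 G t u w - ∑ b ∈ (tri t).erase u, C3 G u w b +
    (∑ b ∈ (tri t).erase u, C3 G u w b - 2 * q) = N1 G t u w - 2 * q := by ring
  rw [h6] at h5
  linarith

theorem cancel_three (R : Reg G h L q) {u v : Fin n} (huv : u ≠ v) (t : Tr n) (ht : IsTri G t)
    (hu : u ∈ tri t) (hv : v ∉ tri t) (hq : 1600 * L ^ 2 ≤ q) :
    |HH G h (HH G h (de G h t)) u v - HH G h (de G h t) u v| ≤ 90 * L * √q * h ^ 2 := by
  classical
  have hL := R.hL
  have hL0 : (0 : ℝ) < L := by linarith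
  have hh0 := R.hpos
  have hq0 := R.hq
  have hqh := R.hqh
  have hsq : 40 * L ≤ √q := by
    apply Real.le_sqrt_of_sq_le
    nlinarith
  have hsq0 : 0 < √q := by nlinarith
  have hz1 := R.zz_le huv
  have hzab : |zz G h u v - 1| ≤ L * √h := R.al_le u v huv
  have hf : ∀ a b, HH G h (de G h t) a b = h ^ 2 * N1 G t a b := fun a b => HHde_eq G h t a b
  set f : Fin n → Fin n → ℝ := HH G h (de G h t) with hfdef
  -- the pointwise bound
  set Y : ℝ := ∑ w, aj G u w * aj G v w with hY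
  have hzY : zz G h u v = h * Y := rfl
  have hterm : ∀ w, |aj G u w * aj G v w * (f u w + f v w - 2 * q * h ^ 2)| ≤
      aj G u w * aj G v w * (h ^ 2 * (20 + 40 * L * √q)) +
        (if w ∈ (tri t).erase u then 104 / 10 * h else 0) := by
    intro w
    have ha1 := aj_nonneg G u w
    have ha2 := aj_nonneg G v w
    have hp : 0 ≤ aj G u w * aj G v w := mul_nonneg ha1 ha2
    have hp1 : aj G u w * aj G v w ≤ 1 :=
      mul_le_one₀ (aj_le_one G u w) ha2 (aj_le_one G v w)
    have hM : 0 ≤ h ^ 2 * (20 + 40 * L * √q) := by positivity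
    by_cases hz : aj G u w * aj G v w = 0
    · rw [hz]
      simp only [zero_mul, abs_zero, zero_add]
      split_ifs <;> positivity
    · have huw : u ≠ w := aj_ne_zero G u w (left_ne_zero_of_mul hz)
      have hvw : v ≠ w := aj_ne_zero G v w (right_ne_zero_of_mul hz)
      rw [abs_mul, abs_of_nonneg hp]
      by_cases hw : w ∈ tri t
      · have hw' : w ∈ (tri t).erase u := Finset.mem_erase.2 ⟨huw.symm, hw⟩
        rw [if_pos hw']
        have b1 : f u w ≤ 42 / 10 * h := R.HHde_le huw t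
        have b2 : f v w ≤ 42 / 10 * h := R.HHde_le hvw t
        have b3 : 0 ≤ f u w := R.HHde_nonneg u w t
        have b4 : 0 ≤ f v w := R.HHde_nonneg v w t
        have b5 : 2 * q * h ^ 2 ≤ 2 * h := by nlinarith
        have b6 : 0 ≤ 2 * q * h ^ 2 := by positivity
        have b7 : |f u w + f v w - 2 * q * h ^ 2| ≤ 104 / 10 * h := by
          rw [abs_le]
          constructor <;> nlinarith
        calc aj G u w * aj G v w * |f u w + f v w - 2 * q * h ^ 2|
            ≤ 1 * (104 / 10 * h) := mul_le_mul hp1 b7 (abs_nonneg _) (by norm_num)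
          _ ≤ _ := by nlinarith [mul_nonneg hp hM]
      · have hw' : w ∉ (tri t).erase u := fun h => hw (Finset.mem_of_mem_erase h)
        rw [if_neg hw', add_zero]
        refine mul_le_mul_of_nonneg_left ?_ hp
        have c1 := s1cancelb_main R t ht hu hw hq
        have c2 := N1_le_of_notMem G t v w hv hw
        have c3 := N1_nonneg G t v w
        have e1 : f u w + f v w - 2 * q * h ^ 2 =
            h ^ 2 * ((N1 G t u w - 2 * q) + N1 G t v w) := by
          rw [hf, hf]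
          ring
        rw [e1, abs_mul, abs_of_nonneg (by positivity : (0 : ℝ) ≤ h ^ 2)]
        refine mul_le_mul_of_nonneg_left ?_ (by positivity)
        refine (abs_add_le _ _).trans ?_
        rw [abs_of_nonneg c3]
        linarith
  have hsum : |∑ w, aj G u w * aj G v w * (f u w + f v w - 2 * q * h ^ 2)| ≤
      Y * (h ^ 2 * (20 + 40 * L * √q)) + 208 / 10 * h := by
    refine (Finset.abs_sum_le_sum_abs _ _).trans ((Finset.sum_le_sum fun w _ => hterm w).trans ?_)
    rw [Finset.sum_add_distrib, ← Finset.sum_mul, ← hY]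
    have e2 : ∑ w, (if w ∈ (tri t).erase u then 104 / 10 * h else 0) = 208 / 10 * h := by
      rw [← Finset.sum_filter, Finset.sum_const]
      have e3 : Finset.univ.filter (fun w => w ∈ (tri t).erase u) = (tri t).erase u := by
        ext w
        simp
      rw [e3, s1cancelb_card ht hu]
      simp
      ring
    rw [e2]
  have hsplit : HH G h f u v = h * (∑ w, aj G u w * aj G v w * (f u w + f v w - 2 * q * h ^ 2)) +
      2 * q * h ^ 2 * zz G h u v := by
    rw [hzY, hY]
    unfold HH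
    rw [Finset.mul_sum, Finset.mul_sum, Finset.mul_sum, Finset.mul_sum,
      ← Finset.sum_add_distrib]
    refine Finset.sum_congr rfl fun w _ => ?_
    ring
  have hmain := s1cancelb_main R t ht hu hv hq
  have hqs : q * √h ≤ √q := by
    have h1 : √h * √q ≤ 1 := by
      rw [← Real.sqrt_mul hh0.le, ← Real.sqrt_one]
      apply Real.sqrt_le_sqrt
      linarith [mul_comm q h]
    calc q * √h = √q * (√h * √q) := by
          nth_rewrite 1 [← Real.mul_self_sqrt hq0.le]
          ring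
      _ ≤ √q * 1 := mul_le_mul_of_nonneg_left h1 hsq0.le
      _ = √q := mul_one _
  have hLq : 1600 * L ^ 2 ≤ 40 * (L * √q) := by nlinarith
  have hbig : (10 : ℝ) ^ 8 ≤ L * √q := by nlinarith
  have hgoal : HH G h f u v - f u v =
      h * (∑ w, aj G u w * aj G v w * (f u w + f v w - 2 * q * h ^ 2)) +
      h ^ 2 * (2 * q * (zz G h u v - 1) - (N1 G t u v - 2 * q)) := by
    rw [hsplit, hf u v]
    ring
  rw [hgoal]
  refine (abs_add_le _ _).trans ?_
  rw [abs_mul, abs_mul, abs_of_pos hh0, abs_of_nonneg (by positivity : (0 : ℝ) ≤ h ^ 2)]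
  have k1 : |2 * q * (zz G h u v - 1) - (N1 G t u v - 2 * q)| ≤ 2 * (L * √q) + (8 + 40 * L * √q) := by
    refine (abs_sub _ _).trans ?_
    refine add_le_add ?_ hmain
    rw [abs_mul, abs_of_pos (by positivity : (0 : ℝ) < 2 * q)]
    calc 2 * q * |zz G h u v - 1| ≤ 2 * q * (L * √h) :=
          mul_le_mul_of_nonneg_left hzab (by positivity)
      _ = 2 * L * (q * √h) := by ring
      _ ≤ 2 * L * √q := mul_le_mul_of_nonneg_left hqs (by positivity)
      _ = 2 * (L * √q) := by ring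
  have k2 : h * |∑ w, aj G u w * aj G v w * (f u w + f v w - 2 * q * h ^ 2)| ≤
      h ^ 2 * (1001 / 1000 * (20 + 40 * L * √q) + 208 / 10) := by
    calc h * |∑ w, aj G u w * aj G v w * (f u w + f v w - 2 * q * h ^ 2)|
        ≤ h * (Y * (h ^ 2 * (20 + 40 * L * √q)) + 208 / 10 * h) :=
          mul_le_mul_of_nonneg_left hsum hh0.le
      _ = (h * Y) * (h ^ 2 * (20 + 40 * L * √q)) + 208 / 10 * h ^ 2 := by ring
      _ ≤ 1001 / 1000 * (h ^ 2 * (20 + 40 * L * √q)) + 208 / 10 * h ^ 2 := by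
          have : (h * Y) * (h ^ 2 * (20 + 40 * L * √q)) ≤
              1001 / 1000 * (h ^ 2 * (20 + 40 * L * √q)) :=
            mul_le_mul_of_nonneg_right (hzY ▸ hz1) (by positivity)
          linarith
      _ = _ := by ring
  have k3 : h ^ 2 * |2 * q * (zz G h u v - 1) - (N1 G t u v - 2 * q)| ≤
      h ^ 2 * (2 * (L * √q) + (8 + 40 * L * √q)) :=
    mul_le_mul_of_nonneg_left k1 (by positivity)
  have k4 : (1001 / 1000 * (20 + 40 * L * √q) + 208 / 10) + (2 * (L * √q) + (8 + 40 * L * √q)) ≤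
      90 * (L * √q) := by
    nlinarith
  calc _ ≤ h ^ 2 * (1001 / 1000 * (20 + 40 * L * √q) + 208 / 10) +
        h ^ 2 * (2 * (L * √q) + (8 + 40 * L * √q)) := add_le_add k2 k3
    _ = h ^ 2 * ((1001 / 1000 * (20 + 40 * L * √q) + 208 / 10) +
        (2 * (L * √q) + (8 + 40 * L * √q))) := by ring
    _ ≤ h ^ 2 * (90 * (L * √q)) := mul_le_mul_of_nonneg_left k4 (by positivity)
    _ = 90 * L * √q * h ^ 2 := by ring

end Vale.Agent.P046
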