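import Vale.Agent.Lib.P046.Path

/-!
# S1: definitions for the sup-norm analysis of the lazy chain

Everything is defined for all pairs `u v` of vertices, adjacent or not.  The parameter `h` is
`1/y`, where `y` is the typical codegree.
-/

namespace Vale.Agent.P046

open Finset

variable {n : ℕ}

open Classical in
/-- The 0/1 adjacency function. -/
noncomputable def aj (G : SimpleGraph (Fin n)) (u v : Fin n) : ℝ := if G.Adj u v then 1 else 0

/-- The operator `H`. -/
noncomputable def HH (G : SimpleGraph (Fin n)) (h : ℝ) (x : Fin n → Fin n → ℝ)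
    (u v : Fin n) : ℝ :=
  h * ∑ w, aj G u w * aj G v w * (x u w + x v w)

/-- The normalised codegree. -/
noncomputable def zz (G : SimpleGraph (Fin n)) (h : ℝ) (u v : Fin n) : ℝ :=
  h * ∑ w, aj G u w * aj G v w

noncomputable def al (G : SimpleGraph (Fin n)) (h : ℝ) (u v : Fin n) : ℝ := zz G h u v - 1

noncomputable def be (G : SimpleGraph (Fin n)) (h : ℝ) (u v : Fin n) : ℝ :=
  HH G h (zz G h) u v - 2 * zz G h u v

noncomputable def ga (G : SimpleGraph (Fin n)) (h : ℝ) (u v : Fin n) : ℝ :=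
  HH G h (be G h) u v - be G h u v

/-- Triple codegrees. -/
noncomputable def C3 (G : SimpleGraph (Fin n)) (u v w : Fin n) : ℝ :=
  ∑ x, aj G u x * aj G v x * aj G w x

/-- The number of edges. -/
noncomputable def Ne (G : SimpleGraph (Fin n)) : ℝ := (∑ u, ∑ v, aj G u v) / 2

/-- The path `u w v` is lost in the step with the triple `t`. -/
noncomputable def lam (G : SimpleGraph (Fin n)) (t : Tr n) (u v w : Fin n) : ℝ :=
  aj G u w * aj G v w - aj (lstep G t) u w * aj (lstep G t) v w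

/-- The loss of `zz`. -/
noncomputable def de (G : SimpleGraph (Fin n)) (h : ℝ) (t : Tr n) (u v : Fin n) : ℝ :=
  h * ∑ w, lam G t u v w

/-- The loss of the operator `H`. -/
noncomputable def DD (G : SimpleGraph (Fin n)) (h : ℝ) (t : Tr n) (x : Fin n → Fin n → ℝ)
    (u v : Fin n) : ℝ :=
  h * ∑ w, lam G t u v w * (x u w + x v w)

/-- `HH (de) = h ^ 2 * N1`. -/
noncomputable def N1 (G : SimpleGraph (Fin n)) (t : Tr n) (u v : Fin n) : ℝ :=
  ∑ w, aj G u w * aj G v w * ((∑ x, lam G t u w x) + ∑ x, lam G t v w x)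

/-- `1/y_j`. -/
noncomputable def hh (n j : ℕ) : ℝ := (1 + 12 * (j : ℝ) / (n : ℝ) ^ 2) / n

/-- The time increment `6 y / n ^ 3` as a function of `h = 1/y`. -/
noncomputable def epr (n : ℕ) (h : ℝ) : ℝ := 6 / ((n : ℝ) ^ 3 * h)

/-- The time increment of step `j`. -/
noncomputable def ep (n j : ℕ) : ℝ := epr n (hh n j)

/-- The typical triple codegree `n p_j ^ 3`. -/
noncomputable def qq (n j : ℕ) : ℝ := 1 / (√(n : ℝ) * (hh n j * √(hh n j)))

/-- The typical number of edges `p_j n ^ 2 / 2`. -/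
noncomputable def N0 (n j : ℕ) : ℝ := (n : ℝ) ^ 2 / (2 * √(n * hh n j))

/-- Size of the vertex modes, `(n p_j) ^ (-1/2) = (h_j / n) ^ (1/4)`. -/
noncomputable def bb (n j : ℕ) : ℝ := √(√(hh n j / n))

/-- Regularity of a graph at one time (used in all one-step estimates). -/
structure Reg (G : SimpleGraph (Fin n)) (h L q : ℝ) : Prop where
  hL : 10 ^ 8 ≤ L
  hpos : 0 < h
  hn : 1 ≤ n * h
  hsmall : h * L ^ 20 ≤ 1
  hq : 0 < q
  hqh : q * h ≤ 1
  al_le : ∀ u v, u ≠ v → |al G h u v| ≤ L * √h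
  be_le : ∀ u v, u ≠ v → |be G h u v| ≤ L * √h
  ga_le : ∀ u v, u ≠ v → |ga G h u v| ≤ L ^ 5 * h
  C_le : ∀ u v w, u ≠ v → u ≠ w → v ≠ w → C3 G u v w ≤ 2 * q + 6400 * L ^ 2
  C_dense : 1600 * L ^ 2 ≤ q → ∀ u v w, u ≠ v → u ≠ w → v ≠ w →
    |C3 G u v w - q| ≤ 20 * L * √q

/-- The graph after the history `l` is good. -/
structure Gd (n : ℕ) (L : ℝ) (l : List (Tr n)) : Prop where
  al_le : ∀ u v, u ≠ v → |al (gr l) (hh n l.length) u v| ≤ L * √(hh n l.length)
  be_le : ∀ u v, u ≠ v → |be (gr l) (hh n l.length) u v| ≤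
    L / 100 * bb n l.length + L ^ 5 * hh n l.length
  ga_le : ∀ u v, u ≠ v → |ga (gr l) (hh n l.length) u v| ≤ L ^ 5 * hh n l.length
  C_sparse : qq n l.length < 1600 * L ^ 2 → ∀ u v w, u ≠ v → u ≠ w → v ≠ w →
    C3 (gr l) u v w ≤ 6400 * L ^ 2
  C_dense : 1600 * L ^ 2 ≤ qq n l.length → ∀ u v w, u ≠ v → u ≠ w → v ≠ w →
    |C3 (gr l) u v w - qq n l.length| ≤ 20 * L * √(qq n l.length)
  Ne_le : |Ne (gr l) - N0 n l.length| ≤ 4 * L * √(hh n l.length) * N0 n l.length

/-- All strictly earlier histories are good. -/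
def Okp (n : ℕ) (L : ℝ) : List (Tr n) → Prop
  | [] => True
  | _ :: l => Gd n L l ∧ Okp n L l

/-- The history and all earlier ones are good. -/
def Ok (n : ℕ) (L : ℝ) (l : List (Tr n)) : Prop := Gd n L l ∧ Okp n L l

open Classical in
/-- The noise of a function of the history in one step, stopped outside `P`. -/
noncomputable def noise (P : List (Tr n) → Prop) (F : List (Tr n) → ℝ) (l : List (Tr n))
    (t : Tr n) : ℝ :=
  if P l then F (t :: l) - avg (fun t' => F (t' :: l)) else 0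

/-- The stopped martingale part of a function of the history. -/
noncomputable def mart (P : List (Tr n) → Prop) (F : List (Tr n) → ℝ) : List (Tr n) → ℝ
  | [] => 0
  | t :: l => mart P F l + noise P F l t

/-- The five families of functions of the history. -/
noncomputable def Fal (n : ℕ) (u v : Fin n) (l : List (Tr n)) : ℝ :=
  al (gr l) (hh n l.length) u v

noncomputable def Fbe (n : ℕ) (u v : Fin n) (l : List (Tr n)) : ℝ :=
  be (gr l) (hh n l.length) u v

noncomputable def Fga (n : ℕ) (u v : Fin n) (l : List (Tr n)) : ℝ :=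
  ga (gr l) (hh n l.length) u v / hh n l.length

noncomputable def FC (n : ℕ) (u v w : Fin n) (l : List (Tr n)) : ℝ :=
  C3 (gr l) u v w / qq n l.length

noncomputable def FN (n : ℕ) (l : List (Tr n)) : ℝ := Ne (gr l) / N0 n l.length

/-- The martingale bounds at the history `l`. -/
structure MB (n : ℕ) (L : ℝ) (l : List (Tr n)) : Prop where
  al_le : ∀ u v, u ≠ v → |mart (Ok n L) (Fal n u v) l| ≤ L / 10 * √(hh n l.length)
  be_le : ∀ u v, u ≠ v → |mart (Ok n L) (Fbe n u v) l| ≤
    L / 1000 * bb n l.length + L ^ 4 * hh n l.length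
  ga_le : ∀ u v, u ≠ v → |mart (Ok n L) (Fga n u v) l| ≤ L ^ 3
  C_le : 1600 * L ^ 2 ≤ qq n l.length → ∀ u v w, u ≠ v → u ≠ w → v ≠ w →
    |mart (Ok n L) (FC n u v w) l| ≤ L / √(qq n l.length)
  Ne_le : |mart (Ok n L) (FN n) l| ≤ √(hh n l.length)

/-- The martingale bounds at `l` and all earlier histories. -/
def MBs (n : ℕ) (L : ℝ) : List (Tr n) → Prop
  | [] => MB n L []
  | t :: l => MB n L (t :: l) ∧ MBs n L l

/-- The assumptions on the parameters: `J` is the horizon. -/
structure Par (n J : ℕ) (L : ℝ) : Prop where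
  hn : 0 < n
  hL : 10 ^ 8 * (1 + Real.log n) ≤ L
  hJ : hh n J * L ^ 20 ≤ 1

end Vale.Agent.P046
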