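import Vale.Agent.Lib.P046.S1TimeA

/-!
# S1: sums along the time sequences, and the parameters

Sums of `ep_i f_i`: telescoping.  Typical proof: induction on `j` with
`c f_{j+1} - c f_j ≥ ep_j f_j`, using `(1+2ε)^(1/2) ≥ 1 + ε/2`, `(1+2ε)^(1/4) ≥ 1 + ε/3` for
`0 ≤ ε ≤ 1/10` (here `ε = ep n j ≤ 6/n^2`).
-/

namespace Vale.Agent.P046

open Finset

variable {n J : ℕ} {L : ℝ}

theorem s1time_tele (a g : ℕ → ℝ) (h : ∀ i, a i ≤ g (i + 1) - g i) (h0 : 0 ≤ g 0) (j : ℕ) :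
    ∑ i ∈ range j, a i ≤ g j := by
  have h1 : ∑ i ∈ range j, a i ≤ ∑ i ∈ range j, (g (i + 1) - g i) :=
    Finset.sum_le_sum fun i _ => h i
  rw [Finset.sum_range_sub] at h1
  linarith

theorem s1time_ep_small (hn : 100 ≤ n) (j : ℕ) : ep n j ≤ 1 / 10 := by
  have h1 := ep_le (n := n) (by omega) j
  have h2 : (100 : ℝ) ≤ n := by exact_mod_cast hn
  refine h1.trans ?_
  rw [div_le_div_iff₀ (by positivity) (by norm_num)]
  nlinarith

theorem s1time_sqrt {e : ℝ} (h0 : 0 ≤ e) (h1 : e ≤ 1 / 10) : 1 + e / 2 ≤ √(1 + 2 * e) := by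
  apply Real.le_sqrt_of_sq_le
  nlinarith

/-- `log (1 + 2 ε) ≥ ε` -/
theorem sum_ep_le (hn : 100 ≤ n) (j : ℕ) :
    ∑ i ∈ range j, ep n i ≤ Real.log (n * hh n j) := by
  have hn0 : 0 < n := by omega
  have hnR : (0 : ℝ) < n := by exact_mod_cast hn0
  apply s1time_tele (fun i => ep n i) (fun i => Real.log (n * hh n i))
  · intro i
    have h1 := ep_pos hn0 i
    have h2 := s1time_ep_small hn i
    have h3 := hh_pos hn0 i
    have h4 : (n : ℝ) * hh n (i + 1) = (1 + 2 * ep n i) * (n * hh n i) := by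
      rw [hh_succ hn0]
      ring
    have h5 : (0 : ℝ) < 1 + 2 * ep n i := by linarith
    have h6 : (0 : ℝ) < n * hh n i := by positivity
    rw [h4, Real.log_mul h5.ne' h6.ne']
    have h7 := Real.one_sub_inv_le_log_of_pos h5
    have h8 : ep n i ≤ 1 - (1 + 2 * ep n i)⁻¹ := by
      have h9 : 1 - (1 + 2 * ep n i)⁻¹ = 2 * ep n i / (1 + 2 * ep n i) := by
        field_simp
        ring
      rw [h9, le_div_iff₀ h5]
      nlinarith
    linarith
  · beta_reduce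
    rw [hh_zero]
    have h1 : (n : ℝ) * (1 / n) = 1 := by field_simp
    rw [h1, Real.log_one]

/-- `ep_i hh_i = 6/n^3` and `6 j / n^3 ≤ hh_j / 2` -/
theorem sum_ep_hh_mul (hn : 0 < n) (f : ℕ → ℝ) (hf : Monotone f) (hf0 : ∀ i, 0 ≤ f i) (j : ℕ) :
    ∑ i ∈ range j, ep n i * (hh n i * f i) ≤ hh n j * f j / 2 := by
  have hnR : (0 : ℝ) < n := by exact_mod_cast hn
  have h1 : ∀ i ∈ range j, ep n i * (hh n i * f i) ≤ 6 / (n : ℝ) ^ 3 * f j := by
    intro i hi
    rw [← mul_assoc, ep_mul_hh hn]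
    exact mul_le_mul_of_nonneg_left (hf (Finset.mem_range.1 hi).le) (by positivity)
  refine (Finset.sum_le_card_nsmul _ _ _ h1).trans ?_
  rw [Finset.card_range, nsmul_eq_mul]
  have h2 : (j : ℝ) * (6 / (n : ℝ) ^ 3) ≤ hh n j / 2 := by
    unfold hh
    have h3 : (1 + 12 * (j : ℝ) / (n : ℝ) ^ 2) / n / 2 =
        (j : ℝ) * (6 / (n : ℝ) ^ 3) + 1 / (2 * n) := by
      field_simp
      ring
    rw [h3]
    have : (0 : ℝ) < 1 / (2 * n) := by positivity
    linarith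
  have h4 := mul_le_mul_of_nonneg_right h2 (hf0 j)
  calc (j : ℝ) * (6 / (n : ℝ) ^ 3 * f j) = (j : ℝ) * (6 / (n : ℝ) ^ 3) * f j := by ring
    _ ≤ hh n j / 2 * f j := h4
    _ = hh n j * f j / 2 := by ring

theorem sum_ep_hh (hn : 0 < n) (j : ℕ) : ∑ i ∈ range j, ep n i * hh n i ≤ hh n j / 2 := by
  have h := sum_ep_hh_mul hn (fun _ => 1) (fun _ _ _ => le_refl _) (fun _ => zero_le_one) j
  simpa only [mul_one] using h

theorem sum_ep_hh_sq (hn : 0 < n) (j : ℕ) :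
    ∑ i ∈ range j, ep n i * hh n i ^ 2 ≤ hh n j ^ 2 / 2 := by
  have h := sum_ep_hh_mul hn (hh n) (hh_mono n) (fun i => (hh_pos hn i).le) j
  simpa only [← pow_two] using h

theorem sum_ep_sqrt (hn : 100 ≤ n) (j : ℕ) :
    ∑ i ∈ range j, ep n i * √(hh n i) ≤ 2 * √(hh n j) := by
  have hn0 : 0 < n := by omega
  apply s1time_tele (fun i => ep n i * √(hh n i)) (fun i => 2 * √(hh n i))
  · intro i
    have h1 := ep_pos hn0 i
    have h2 := s1time_sqrt h1.le (s1time_ep_small hn i)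
    have h3 := Real.sqrt_nonneg (hh n i)
    rw [hh_succ hn0, Real.sqrt_mul (by linarith)]
    nlinarith
  · positivity

theorem sum_ep_bb (hn : 100 ≤ n) (j : ℕ) :
    ∑ i ∈ range j, ep n i * bb n i ≤ 3 * bb n j := by
  have hn0 : 0 < n := by omega
  have hnR : (0 : ℝ) < n := by exact_mod_cast hn0
  apply s1time_tele (fun i => ep n i * bb n i) (fun i => 3 * bb n i)
  · intro i
    have h1 := ep_pos hn0 i
    have h2 := s1time_ep_small hn i
    have h3 := bb_nonneg n i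
    have h4 := hh_pos hn0 i
    have h5 : (bb n i ^ 2) ^ 2 = hh n i / n := by
      rw [bb_sq, Real.sq_sqrt (by positivity)]
    have h6 : (1 + ep n i / 3) * bb n i ≤ bb n (i + 1) := by
      obtain ⟨e, he⟩ : ∃ e, e = ep n i := ⟨_, rfl⟩
      have h8 : hh n (i + 1) / n = (1 + 2 * ep n i) * (bb n i ^ 2) ^ 2 := by
        rw [h5, hh_succ hn0]
        ring
      unfold bb at h3 h5 h8 ⊢
      rw [h8, ← he]
      rw [← he] at h1 h2
      obtain ⟨B, hB⟩ : ∃ B, B = √√(hh n i / n) := ⟨_, rfl⟩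
      rw [← hB] at h3 ⊢
      apply Real.le_sqrt_of_sq_le
      apply Real.le_sqrt_of_sq_le
      have h7 : (1 + e / 3) ^ 4 ≤ 1 + 2 * e := by
        nlinarith [mul_nonneg h1.le h1.le, mul_nonneg (mul_nonneg h1.le h1.le) h1.le,
          mul_nonneg (mul_nonneg h1.le h1.le) (mul_nonneg h1.le h1.le),
          mul_nonneg h1.le (sub_nonneg.2 h2), mul_nonneg (mul_nonneg h1.le h1.le) (sub_nonneg.2 h2),
          mul_nonneg (mul_nonneg (mul_nonneg h1.le h1.le) h1.le) (sub_nonneg.2 h2)]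
      calc (((1 + e / 3) * B) ^ 2) ^ 2 = (1 + e / 3) ^ 4 * (B ^ 2) ^ 2 := by ring
        _ ≤ (1 + 2 * e) * (B ^ 2) ^ 2 := mul_le_mul_of_nonneg_right h7 (by positivity)
    nlinarith
  · have := bb_nonneg n 0
    positivity

theorem sum_ep_bb_sq (hn : 100 ≤ n) (j : ℕ) :
    ∑ i ∈ range j, ep n i * bb n i ^ 2 ≤ 2 * bb n j ^ 2 := by
  have hn0 : 0 < n := by omega
  apply s1time_tele (fun i => ep n i * bb n i ^ 2) (fun i => 2 * bb n i ^ 2)
  · intro i
    have h1 := ep_pos hn0 i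
    have h2 := s1time_sqrt h1.le (s1time_ep_small hn i)
    rw [bb_sq, bb_sq, hh_succ hn0, mul_div_assoc, Real.sqrt_mul (by linarith)]
    have h3 := Real.sqrt_nonneg (hh n i / n)
    nlinarith
  · positivity

/-- `1/qq = √n hh √hh`: `sum_ep_hh_mul` with `f = √n √hh` -/
theorem sum_ep_inv_qq (hn : 0 < n) (j : ℕ) :
    ∑ i ∈ range j, ep n i / qq n i ≤ 1 / (2 * qq n j) := by
  have hnR : (0 : ℝ) < n := by exact_mod_cast hn
  have hmono : Monotone fun i => √(n : ℝ) * √(hh n i) := by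
    intro a b hab
    exact mul_le_mul_of_nonneg_left (Real.sqrt_le_sqrt (hh_mono n hab)) (Real.sqrt_nonneg _)
  have h := sum_ep_hh_mul hn (fun i => √(n : ℝ) * √(hh n i)) hmono (fun i => by positivity) j
  have e1 : ∀ i, ep n i / qq n i = ep n i * (hh n i * (√(n : ℝ) * √(hh n i))) := by
    intro i
    unfold qq
    rw [one_div, div_inv_eq_mul]
    ring
  have e2 : 1 / (2 * qq n j) = hh n j * (√(n : ℝ) * √(hh n j)) / 2 := by
    unfold qq
    rw [one_div, one_div, mul_inv, inv_inv]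
    ring
  rw [Finset.sum_congr rfl fun i _ => e1 i, e2]
  exact h

/-- `1/N0 = 2 √n √hh / n^2` -/
theorem sum_ep_inv_N0 (hn : 100 ≤ n) (j : ℕ) :
    ∑ i ∈ range j, ep n i / N0 n i ≤ 2 / N0 n j := by
  have hn0 : 0 < n := by omega
  apply s1time_tele (fun i => ep n i / N0 n i) (fun i => 2 / N0 n i)
  · intro i
    have h1 := ep_pos hn0 i
    have h2 := s1time_sqrt h1.le (s1time_ep_small hn i)
    have h3 := N0_pos hn0 i
    have h4 : 0 < √(1 + 2 * ep n i) := lt_of_lt_of_le (by linarith) h2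
    rw [N0_succ hn0]
    have h5 : 2 / (N0 n i / √(1 + 2 * ep n i)) - 2 / N0 n i =
        (2 * √(1 + 2 * ep n i) - 2) / N0 n i := by
      field_simp
    rw [h5, div_le_div_iff_of_pos_right h3]
    linarith
  · have := N0_pos hn0 0
    positivity

namespace Par

theorem L_ge (P : Par n J L) : 10 ^ 8 ≤ L := by
  have h1 : (1 : ℝ) ≤ n := by exact_mod_cast P.hn
  have h2 := Real.log_nonneg h1
  have h3 := P.hL
  linarith

theorem hh_le (P : Par n J L) {j : ℕ} (hj : j ≤ J) : hh n j * L ^ 20 ≤ 1 := by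
  have h1 := P.L_ge
  have h2 : 0 ≤ L ^ 20 := by positivity
  exact (mul_le_mul_of_nonneg_right (hh_mono n hj) h2).trans P.hJ

/-- `1/n ≤ hh n J ≤ L^{-20}` -/
theorem n_ge (P : Par n J L) : L ^ 20 ≤ n := by
  have h1 : (0 : ℝ) < n := by exact_mod_cast P.hn
  have h2 := P.hh_le (Nat.zero_le J)
  rw [hh_zero, one_div, inv_mul_le_iff₀ h1, mul_one] at h2
  exact h2

theorem s1time_L20 (P : Par n J L) : L ≤ L ^ 20 := by
  have h1 := P.L_ge
  have h2 : (1 : ℝ) ≤ L := by linarith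
  calc L = L ^ 1 := (pow_one L).symm
    _ ≤ L ^ 20 := pow_le_pow_right₀ h2 (by norm_num)

theorem n_ge' (P : Par n J L) : 100 ≤ n := by
  have h1 := P.n_ge
  have h2 := P.L_ge
  have h3 := P.s1time_L20
  have h4 : (100 : ℝ) ≤ n := by linarith
  exact_mod_cast h4

/-- `12 J / n^3 ≤ hh n J ≤ 1` -/
theorem s1time_hh_le_one (P : Par n J L) {j : ℕ} (hj : j ≤ J) : hh n j ≤ 1 := by
  have h1 := P.hh_le hj
  have h2 := P.L_ge
  have h3 := P.s1time_L20
  have h4 := hh_pos P.hn j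
  nlinarith

theorem J_le (P : Par n J L) : (J : ℝ) + 1 ≤ (n : ℝ) ^ 3 := by
  have h1 : (0 : ℝ) < n := by exact_mod_cast P.hn
  have h2 := P.s1time_hh_le_one (le_refl J)
  have h3 : (100 : ℝ) ≤ n := by exact_mod_cast P.n_ge'
  unfold hh at h2
  rw [div_le_one h1] at h2
  have h4 : 12 * (J : ℝ) / (n : ℝ) ^ 2 ≤ n := by linarith
  rw [div_le_iff₀ (by positivity)] at h4
  have h5 : (100 : ℝ) ^ 3 ≤ (n : ℝ) ^ 3 := pow_le_pow_left₀ (by norm_num) h3 3
  have h6 : (n : ℝ) * (n : ℝ) ^ 2 = (n : ℝ) ^ 3 := by ring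
  rw [h6] at h4
  have h7 : (0 : ℝ) ≤ J := Nat.cast_nonneg J
  linarith

theorem sum_ep_le_log (P : Par n J L) {j : ℕ} (hj : j ≤ J) :
    ∑ i ∈ range j, ep n i ≤ L / 10 ^ 8 := by
  have h1 : (0 : ℝ) < n := by exact_mod_cast P.hn
  refine (sum_ep_le P.n_ge' j).trans ?_
  have h2 := P.s1time_hh_le_one hj
  have h3 := hh_pos P.hn j
  have h4 : Real.log (n * hh n j) ≤ Real.log n := by
    apply Real.log_le_log (by positivity)
    nlinarith
  have h5 := P.hL
  rw [le_div_iff₀ (by norm_num)]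
  linarith

end Par

end Vale.Agent.P046
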