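import Vale.Agent.Lib.P046.S1Alg
import Vale.Agent.Lib.P046.S1Time

/-!
# S1: the complete graph, and regularity from goodness

For `⊤` and `h = 1/n`: `z_uv = (n-2)/n`, `be = 2 z^2 - 2 z = -4 z / n`,
`ga = (2 z - 1) be`, `C3 = n - 3`, `Ne = n (n - 1) / 2`.
-/

namespace Vale.Agent.P046

open Finset

variable {n J : ℕ} {L : ℝ}

private theorem s1init_aj_top (u v : Fin n) :
    aj (⊤ : SimpleGraph (Fin n)) u v = if u ≠ v then 1 else 0 := by
  unfold aj
  simp only [SimpleGraph.top_adj]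

private theorem s1init_card_two {u v : Fin n} (huv : u ≠ v) :
    ∑ w, aj (⊤ : SimpleGraph (Fin n)) u w * aj (⊤ : SimpleGraph (Fin n)) v w = (n : ℝ) - 2 := by
  have h1 : ∀ w : Fin n, aj (⊤ : SimpleGraph (Fin n)) u w * aj (⊤ : SimpleGraph (Fin n)) v w =
      1 - (if w = u then (1 : ℝ) else 0) - (if w = v then (1 : ℝ) else 0) := by
    intro w
    rw [s1init_aj_top, s1init_aj_top]
    by_cases h1 : w = u
    · subst h1
      simp [huv]
    · by_cases h2 : w = v
      · subst h2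
        simp [h1]
      · have h1' : u ≠ w := fun h => h1 h.symm
        have h2' : v ≠ w := fun h => h2 h.symm
        simp [h1, h2, h1', h2']
  rw [Finset.sum_congr rfl fun w _ => h1 w, Finset.sum_sub_distrib, Finset.sum_sub_distrib,
    Finset.sum_ite_eq', Finset.sum_ite_eq']
  simp
  ring

private theorem s1init_zz_top (hn : 0 < n) {u v : Fin n} (huv : u ≠ v) :
    zz (⊤ : SimpleGraph (Fin n)) (1 / n) u v = ((n : ℝ) - 2) / n := by
  unfold zz
  rw [s1init_card_two huv]
  ring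

theorem al_top (hn : 0 < n) {u v : Fin n} (huv : u ≠ v) :
    al (⊤ : SimpleGraph (Fin n)) (1 / n) u v = -2 / n := by
  unfold al
  rw [s1init_zz_top hn huv]
  have : (n : ℝ) ≠ 0 := by positivity
  field_simp
  ring

/-- the operator on functions constant off the diagonal -/
private theorem s1init_HH_const (hn : 0 < n) {x : Fin n → Fin n → ℝ} {c : ℝ}
    (hx : ∀ a b, a ≠ b → x a b = c) {u v : Fin n} (huv : u ≠ v) :
    HH (⊤ : SimpleGraph (Fin n)) (1 / n) x u v = 2 * (((n : ℝ) - 2) / n) * c := by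
  rw [HH_congr (⊤ : SimpleGraph (Fin n)) (1 / n) u v (x' := fun _ _ => c) hx]
  unfold HH
  rw [← Finset.sum_mul, s1init_card_two huv]
  ring

private theorem s1init_be_eq (hn : 0 < n) {u v : Fin n} (huv : u ≠ v) :
    be (⊤ : SimpleGraph (Fin n)) (1 / n) u v = -4 * (((n : ℝ) - 2) / n) / n := by
  unfold be
  rw [s1init_HH_const hn (c := ((n : ℝ) - 2) / n) (fun a b hab => s1init_zz_top hn hab) huv,
    s1init_zz_top hn huv]
  have : (n : ℝ) ≠ 0 := by positivity
  field_simp
  ring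

private theorem s1init_ratio (hn : 2 ≤ n) :
    0 ≤ ((n : ℝ) - 2) / n ∧ ((n : ℝ) - 2) / n ≤ 1 := by
  have h2 : (2 : ℝ) ≤ n := by exact_mod_cast hn
  constructor
  · exact div_nonneg (by linarith) (by linarith)
  · rw [div_le_one (by linarith)]
    linarith

theorem be_top (hn : 2 ≤ n) {u v : Fin n} (huv : u ≠ v) :
    |be (⊤ : SimpleGraph (Fin n)) (1 / n) u v| ≤ 4 / n := by
  rw [s1init_be_eq (by omega) huv]
  obtain ⟨h0, h1⟩ := s1init_ratio hn
  have hn' : (0 : ℝ) < n := by
    have : (2 : ℝ) ≤ n := by exact_mod_cast hn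
    linarith
  rw [abs_div, abs_of_pos hn']
  apply div_le_div_of_nonneg_right _ hn'.le
  rw [abs_le]
  constructor <;> linarith

theorem ga_top (hn : 2 ≤ n) {u v : Fin n} (huv : u ≠ v) :
    |ga (⊤ : SimpleGraph (Fin n)) (1 / n) u v| ≤ 4 / n := by
  have h1 : ga (⊤ : SimpleGraph (Fin n)) (1 / n) u v =
      (2 * (((n : ℝ) - 2) / n) - 1) * be (⊤ : SimpleGraph (Fin n)) (1 / n) u v := by
    unfold ga
    rw [s1init_HH_const (by omega) (c := -4 * (((n : ℝ) - 2) / n) / n)
      (fun a b hab => s1init_be_eq (by omega) hab) huv, s1init_be_eq (by omega) huv]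
    ring
  rw [h1, abs_mul]
  obtain ⟨h0, h2⟩ := s1init_ratio hn
  have h3 : |2 * (((n : ℝ) - 2) / n) - 1| ≤ 1 := by
    rw [abs_le]
    constructor <;> linarith
  calc |2 * (((n : ℝ) - 2) / n) - 1| * |be (⊤ : SimpleGraph (Fin n)) (1 / n) u v|
      ≤ 1 * |be (⊤ : SimpleGraph (Fin n)) (1 / n) u v| :=
        mul_le_mul_of_nonneg_right h3 (abs_nonneg _)
    _ ≤ 4 / n := by
        rw [one_mul]
        exact be_top hn huv

theorem C3_top {u v w : Fin n} (huv : u ≠ v) (huw : u ≠ w) (hvw : v ≠ w) :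
    C3 (⊤ : SimpleGraph (Fin n)) u v w = n - 3 := by
  have h1 : ∀ x : Fin n, aj (⊤ : SimpleGraph (Fin n)) u x * aj (⊤ : SimpleGraph (Fin n)) v x *
      aj (⊤ : SimpleGraph (Fin n)) w x =
      1 - (if x = u then (1 : ℝ) else 0) - (if x = v then (1 : ℝ) else 0)
        - (if x = w then (1 : ℝ) else 0) := by
    intro x
    rw [s1init_aj_top, s1init_aj_top, s1init_aj_top]
    by_cases h1 : x = u
    · subst h1
      simp [huv, huw]
    · by_cases h2 : x = v
      · subst h2
        simp [h1, hvw]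
      · by_cases h3 : x = w
        · subst h3
          simp [h1, h2]
        · have h1' : u ≠ x := fun h => h1 h.symm
          have h2' : v ≠ x := fun h => h2 h.symm
          have h3' : w ≠ x := fun h => h3 h.symm
          simp [h1, h2, h3, h1', h2', h3']
  unfold C3
  rw [Finset.sum_congr rfl fun x _ => h1 x, Finset.sum_sub_distrib, Finset.sum_sub_distrib,
    Finset.sum_sub_distrib, Finset.sum_ite_eq', Finset.sum_ite_eq', Finset.sum_ite_eq']
  simp
  ring

theorem Ne_top : Ne (⊤ : SimpleGraph (Fin n)) = n * (n - 1) / 2 := by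
  have h1 : ∀ u v : Fin n, aj (⊤ : SimpleGraph (Fin n)) u v =
      1 - (if v = u then (1 : ℝ) else 0) := by
    intro u v
    rw [s1init_aj_top]
    by_cases h : v = u
    · subst h
      simp
    · have h' : u ≠ v := fun h2 => h h2.symm
      simp [h, h']
  unfold Ne
  have h2 : ∀ u : Fin n, ∑ v, aj (⊤ : SimpleGraph (Fin n)) u v = (n : ℝ) - 1 := by
    intro u
    rw [Finset.sum_congr rfl fun v _ => h1 u v, Finset.sum_sub_distrib, Finset.sum_ite_eq']
    simp
  rw [Finset.sum_congr rfl fun u _ => h2 u, Finset.sum_const, nsmul_eq_mul, Finset.card_univ,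
    Fintype.card_fin]

theorem Gd_nil (P : Par n J L) : Gd n L [] := by
  have hL := P.L_ge
  have hn100 : 100 ≤ n := P.n_ge'
  have hn0 : 0 < n := P.hn
  have hnR : (100 : ℝ) ≤ n := by exact_mod_cast hn100
  have hh0 : hh n 0 = 1 / n := hh_zero n
  have hq0 : qq n 0 = n := qq_zero hn0
  have hinv : (0 : ℝ) < 1 / n := by positivity
  have hinv1 : (1 : ℝ) / n ≤ 1 := by
    rw [div_le_one (by linarith)]
    linarith
  have hsq : (1 : ℝ) / n ≤ √(1 / n) := by
    apply Real.le_sqrt_of_sq_le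
    nlinarith
  have hL5 : 4 ≤ L ^ 5 := by
    have : (4 : ℝ) ^ 5 ≤ L ^ 5 := by gcongr; linarith
    linarith
  have h4 : (4 : ℝ) / n ≤ L ^ 5 * (1 / n) := by
    have := mul_le_mul_of_nonneg_right hL5 hinv.le
    calc (4 : ℝ) / n = 4 * (1 / n) := by ring
      _ ≤ _ := this
  refine ⟨?_, ?_, ?_, ?_, ?_, ?_⟩
  · intro u v huv
    simp only [List.length_nil, gr]
    rw [hh0, al_top hn0 huv]
    have h2 : |(-2 : ℝ) / n| = 2 * (1 / n) := by
      rw [abs_div, abs_neg, abs_of_pos (by norm_num : (0 : ℝ) < 2),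
        abs_of_pos (by linarith : (0 : ℝ) < n)]
      ring
    rw [h2]
    nlinarith [Real.sqrt_nonneg ((1 : ℝ) / n)]
  · intro u v huv
    simp only [List.length_nil, gr]
    rw [hh0]
    have h1 := be_top (by omega : 2 ≤ n) huv
    have h2 : 0 ≤ L / 100 * bb n 0 := mul_nonneg (by linarith) (bb_nonneg n 0)
    linarith
  · intro u v huv
    simp only [List.length_nil, gr]
    rw [hh0]
    exact (ga_top (by omega : 2 ≤ n) huv).trans h4
  · intro hq u v w huv huw hvw
    simp only [List.length_nil, gr] at hq ⊢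
    rw [hq0] at hq
    rw [C3_top huv huw hvw]
    nlinarith [sq_nonneg L]
  · intro hq u v w huv huw hvw
    simp only [List.length_nil, gr] at hq ⊢
    rw [hq0, C3_top huv huw hvw]
    have h1 : |(n : ℝ) - 3 - n| = 3 := by
      have : (n : ℝ) - 3 - n = -3 := by ring
      rw [this, abs_neg]
      norm_num
    rw [h1]
    have h2 : (1 : ℝ) ≤ √(n : ℝ) := by
      rw [Real.one_le_sqrt]
      linarith
    nlinarith
  · simp only [List.length_nil, gr]
    rw [Ne_top, N0_zero hn0, hh0]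
    have h1 : |(n : ℝ) * ((n : ℝ) - 1) / 2 - (n : ℝ) ^ 2 / 2| = (n : ℝ) / 2 := by
      have : (n : ℝ) * ((n : ℝ) - 1) / 2 - (n : ℝ) ^ 2 / 2 = -((n : ℝ) / 2) := by ring
      rw [this, abs_neg, abs_of_pos (by linarith)]
    rw [h1]
    have h2 : (n : ℝ) / 2 = 1 / n * ((n : ℝ) ^ 2 / 2) := by
      field_simp
    have h3 : (1 : ℝ) / n ≤ 4 * L * √(1 / n) := by
      nlinarith [Real.sqrt_nonneg ((1 : ℝ) / n)]
    calc (n : ℝ) / 2 = 1 / n * ((n : ℝ) ^ 2 / 2) := h2
      _ ≤ _ := mul_le_mul_of_nonneg_right h3 (by positivity)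

/-- `(L/100) bb + L^5 hh ≤ L √hh`, `hh = √hh √hh`, `L^9 √hh ≤ 1`. -/
theorem Gd.reg (P : Par n J L) {l : List (Tr n)} (hl : l.length ≤ J) (g : Gd n L l) :
    Reg (gr l) (hh n l.length) L (qq n l.length) := by
  have hL := P.L_ge
  have hn0 : 0 < n := P.hn
  have hpos := hh_pos hn0 l.length
  have hsm : hh n l.length * L ^ 20 ≤ 1 := P.hh_le hl
  have hqpos := qq_pos hn0 l.length
  have hLpos : 0 < L := by linarith
  set s := √(hh n l.length) with hs
  have hs0 : 0 ≤ s := Real.sqrt_nonneg _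
  have hss : s * s = hh n l.length := Real.mul_self_sqrt hpos.le
  have h10 : s * L ^ 10 ≤ 1 := by
    have h1 : (s * L ^ 10) ^ 2 ≤ 1 := by
      have : (s * L ^ 10) ^ 2 = (s * s) * L ^ 20 := by ring
      rw [this, hss]
      exact hsm
    nlinarith [mul_nonneg hs0 (pow_nonneg hLpos.le 10)]
  have h4 : L ^ 4 * s ≤ 1 / 2 := by
    have h6 : (2 : ℝ) ≤ L ^ 6 := by
      have : (2 : ℝ) ^ 6 ≤ L ^ 6 := by gcongr; linarith
      linarith
    have h7 : L ^ 4 * s * 2 ≤ L ^ 4 * s * L ^ 6 :=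
      mul_le_mul_of_nonneg_left h6 (by positivity)
    have h8 : L ^ 4 * s * L ^ 6 = s * L ^ 10 := by ring
    linarith
  refine ⟨hL, hpos, one_le_mul_hh hn0 _, hsm, hqpos, qq_mul_hh_le hn0 _, g.al_le, ?_, g.ga_le,
    ?_, g.C_dense⟩
  · intro u v huv
    refine (g.be_le u v huv).trans ?_
    have h1 : bb n l.length ≤ s := bb_le hn0 _
    have h2 : L / 100 * bb n l.length ≤ L / 100 * s :=
      mul_le_mul_of_nonneg_left h1 (by positivity)
    have h3 : L ^ 5 * hh n l.length ≤ L * s * (1 / 2) := by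
      rw [← hss]
      have : L ^ 5 * (s * s) = L * s * (L ^ 4 * s) := by ring
      rw [this]
      exact mul_le_mul_of_nonneg_left h4 (by positivity)
    have h5 : 0 ≤ L * s := by positivity
    nlinarith
  · intro u v w huv huw hvw
    rcases lt_or_ge (qq n l.length) (1600 * L ^ 2) with hq | hq
    · have := g.C_sparse hq u v w huv huw hvw
      linarith
    · have h1 := (abs_le.mp (g.C_dense hq u v w huv huw hvw)).2
      have h2 : √(qq n l.length) * √(qq n l.length) = qq n l.length :=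
        Real.mul_self_sqrt hqpos.le
      nlinarith [sq_nonneg (√(qq n l.length) - 10 * L), sq_nonneg L]

end Vale.Agent.P046
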