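import Vale.Agent.Lib.P046.S1Alg

/-!
# S1: the lost paths
-/

namespace Vale.Agent.P046

open Finset

variable {n : ℕ} (G : SimpleGraph (Fin n)) (h : ℝ) (t : Tr n) (u v w : Fin n)

open Classical in
/-- Unfold `lam`, `aj`, `lstep`, `removeTriangle` (lemma `removeTriangle_adj` in Stop.lean). -/
theorem lam_eq_ite : lam G t u v w =
    if IsTri G t ∧ G.Adj u w ∧ G.Adj v w ∧ w ∈ tri t ∧ (u ∈ tri t ∨ v ∈ tri t) then 1 else 0 := by
  by_cases hT : IsTri G t
  · unfold lam aj lstep
    rw [if_pos hT]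
    simp only [removeTriangle_adj]
    by_cases h1 : G.Adj u w <;> by_cases h2 : G.Adj v w <;> by_cases h3 : w ∈ tri t <;>
      by_cases h4 : u ∈ tri t <;> by_cases h5 : v ∈ tri t <;> simp [h1, h2, h3, h4, h5, hT]
  · unfold lam lstep
    rw [if_neg hT, sub_self, if_neg (fun hc => hT hc.1)]

theorem lam_nonneg : 0 ≤ lam G t u v w := by
  classical
  rw [lam_eq_ite]
  split_ifs <;> norm_num

theorem lam_le_one : lam G t u v w ≤ 1 := by
  classical
  rw [lam_eq_ite]
  split_ifs <;> norm_num

theorem lam_symm : lam G t u v w = lam G t v u w := by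
  classical
  unfold lam
  ring

/-- `lam` is bounded by the path indicator -/
theorem lam_le_aj : lam G t u v w ≤ aj G u w * aj G v w := by
  classical
  rw [lam_eq_ite]
  split_ifs with hc
  · have h1 : aj G u w = 1 := if_pos hc.2.1
    have h2 : aj G v w = 1 := if_pos hc.2.2.1
    rw [h1, h2, mul_one]
  · unfold aj
    split_ifs <;> norm_num

theorem lam_of_not_isTri (ht : ¬ IsTri G t) : lam G t u v w = 0 := by
  classical
  rw [lam_eq_ite, if_neg (fun hc => ht hc.1)]

/-- a lost path determines membership -/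
theorem s1lam_of_ne_zero (hc : lam G t u v w ≠ 0) :
    IsTri G t ∧ G.Adj u w ∧ G.Adj v w ∧ w ∈ tri t ∧ (u ∈ tri t ∨ v ∈ tri t) := by
  classical
  rw [lam_eq_ite] at hc
  by_contra hh
  exact hc (if_neg hh)

theorem s1lam_card_erase (hu : u ∈ tri t) : ((tri t).erase u).card ≤ 2 := by
  classical
  rw [Finset.card_erase_of_mem hu]
  have h1 : (tri t).card ≤ 3 := by
    unfold tri
    exact Finset.card_le_three
  omega

theorem s1lam_sum_le_of_mem (hu : u ∈ tri t) : ∑ w, lam G t u v w ≤ 2 := by
  classical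
  have h1 : ∀ w, lam G t u v w ≤ if w ∈ (tri t).erase u then 1 else 0 := by
    intro w
    by_cases hw : lam G t u v w = 0
    · rw [hw]
      split_ifs <;> norm_num
    · obtain ⟨_, h2, _, h4, _⟩ := s1lam_of_ne_zero G t u v w hw
      rw [if_pos (Finset.mem_erase.2 ⟨h2.ne', h4⟩)]
      exact lam_le_one G t u v w
  refine (Finset.sum_le_sum fun w _ => h1 w).trans ?_
  rw [Finset.sum_ite_mem, Finset.univ_inter, Finset.sum_const, nsmul_eq_mul, mul_one]
  exact_mod_cast s1lam_card_erase t u hu

/-- If `u ∈ tri t` the lost `w` lie in `(tri t).erase u`, if `v ∈ tri t` in `(tri t).erase v`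
(adjacent vertices are different), at most two of them; otherwise there are none. -/
theorem sum_lam_le : ∑ w, lam G t u v w ≤ 2 := by
  classical
  by_cases hu : u ∈ tri t
  · exact s1lam_sum_le_of_mem G t u v hu
  · by_cases hv : v ∈ tri t
    · have h1 := s1lam_sum_le_of_mem G t v u hv
      rwa [Finset.sum_congr rfl fun w _ => lam_symm G t v u w] at h1
    · have h1 : ∀ w ∈ (univ : Finset (Fin n)), lam G t u v w = 0 := by
        intro w _
        by_contra hc
        rcases (s1lam_of_ne_zero G t u v w hc).2.2.2.2 with h2 | h2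
        · exact hu h2
        · exact hv h2
      rw [Finset.sum_eq_zero h1]
      norm_num

theorem sum_lam_nonneg : 0 ≤ ∑ w, lam G t u v w :=
  Finset.sum_nonneg fun w _ => lam_nonneg G t u v w

theorem de_nonneg (hh0 : 0 ≤ h) : 0 ≤ de G h t u v :=
  mul_nonneg hh0 (sum_lam_nonneg G t u v)

theorem de_le (hh0 : 0 ≤ h) : de G h t u v ≤ 2 * h := by
  unfold de
  have := mul_le_mul_of_nonneg_left (sum_lam_le G t u v) hh0
  linarith

theorem de_symm : de G h t u v = de G h t v u := by
  unfold de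
  rw [Finset.sum_congr rfl fun w _ => lam_symm G t u v w]

/-- only off-diagonal values of `x` enter -/
theorem abs_DD_le (hh0 : 0 ≤ h) {x : Fin n → Fin n → ℝ} {X : ℝ}
    (hx : ∀ a b, a ≠ b → |x a b| ≤ X) : |DD G h t x u v| ≤ 2 * X * de G h t u v := by
  unfold DD de
  rw [abs_mul, abs_of_nonneg hh0]
  have h1 : |∑ w, lam G t u v w * (x u w + x v w)| ≤ ∑ w, lam G t u v w * (2 * X) := by
    refine (Finset.abs_sum_le_sum_abs _ _).trans (Finset.sum_le_sum fun w _ => ?_)
    by_cases hw : lam G t u v w = 0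
    · rw [hw]
      simp
    · obtain ⟨_, h2, h3, _, _⟩ := s1lam_of_ne_zero G t u v w hw
      rw [abs_mul, abs_of_nonneg (lam_nonneg G t u v w)]
      refine mul_le_mul_of_nonneg_left ?_ (lam_nonneg G t u v w)
      have h4 := hx u w h2.ne
      have h5 := hx v w h3.ne
      have h6 := abs_add_le (x u w) (x v w)
      linarith
  rw [← Finset.sum_mul] at h1
  have h2 := mul_le_mul_of_nonneg_left h1 hh0
  refine h2.trans (le_of_eq ?_)
  ring

/-- both ends outside the triple: nothing is lost -/
theorem sum_lam_of_notMem (hu : u ∉ tri t) (hv : v ∉ tri t) : ∑ x, lam G t u v x = 0 := by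
  refine Finset.sum_eq_zero fun w _ => ?_
  by_contra hc
  rcases (s1lam_of_ne_zero G t u v w hc).2.2.2.2 with h2 | h2
  · exact hu h2
  · exact hv h2

theorem s1lam_adj_of_isTri (ht : IsTri G t) {a b : Fin n} (ha : a ∈ tri t) (hb : b ∈ tri t)
    (hab : a ≠ b) : G.Adj a b := by
  obtain ⟨h1, h2, h3⟩ := ht
  unfold tri at ha hb
  simp only [Finset.mem_insert, Finset.mem_singleton] at ha hb
  rcases ha with rfl | rfl | rfl <;> rcases hb with rfl | rfl | rfl
  · exact absurd rfl hab
  · exact h1
  · exact h2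
  · exact h1.symm
  · exact absurd rfl hab
  · exact h3
  · exact h2.symm
  · exact h3.symm
  · exact absurd rfl hab

open Classical in
/-- `u` in the triple, `v` not: the lost `x` are the neighbours of `v` in `(tri t).erase u`. -/
theorem sum_lam_of_mem (ht : IsTri G t) (hu : u ∈ tri t) (hv : v ∉ tri t) :
    ∑ x, lam G t u v x = ∑ b ∈ (tri t).erase u, aj G v b := by
  rw [← Finset.sum_subset (Finset.subset_univ ((tri t).erase u))]
  · refine Finset.sum_congr rfl fun b hb => ?_
    obtain ⟨hb1, hb2⟩ := Finset.mem_erase.1 hb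
    have hadj := s1lam_adj_of_isTri G t ht hu hb2 hb1.symm
    rw [lam_eq_ite]
    unfold aj
    by_cases h1 : G.Adj v b
    · rw [if_pos ⟨ht, hadj, h1, hb2, Or.inl hu⟩, if_pos h1]
    · rw [if_neg (fun hc => h1 hc.2.2.1), if_neg h1]
  · intro x _ hx
    by_contra hc
    obtain ⟨_, h2, _, h4, _⟩ := s1lam_of_ne_zero G t u v x hc
    exact hx (Finset.mem_erase.2 ⟨h2.ne', h4⟩)

end Vale.Agent.P046
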