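import Vale.Agent.Lib.P046.S1Init
import Vale.Agent.Lib.P046.S1Freed
import Vale.Agent.Lib.P046.S1VarBe

/-!
# S1: tail bounds for the five families of martingales

Use `mart_tail` with the one-step bounds applied to `Gd.reg` (`Ok n L l` contains `Gd n L l`), note
that `hh n (l.length + 1) = (1 + 2 * epr n h) * h` with `h = hh n l.length` (`hh_succ`).
In each case check `x^2/(4V) ≥ 100 (1 + log n)` and `x/(2b) ≥ 100 (1 + log n)`; recall
`L ≥ 10^8 (1 + log n)`, and `L^20 ≤ n`, `hh ≤ L^{-20}`.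

* al: `v_i = 6 hh_i ep_i = 36/n^3`, `V = 3 hh_j`, `b = 5 hh_j`, `x = L/10 √hh_j`.
* be: `v_i = ep_i (100 bb_i^2 + L^3 hh_i^2)`, `V = 200 bb_j^2 + L^3 hh_j^2`, `b = 12 hh_j`,
  `x = L/1000 bb_j + L^4 hh_j`.
* ga (divided by `hh`): `v_i = ep_i L^3`, `V = L^4`, `b = 40`, `x = L^3`.
* C3 (divided by `qq`), `1600 L^2 ≤ qq n j` (so also for all earlier times; there
  `C3 ≤ 1.5 qq`): `b = 3 / qq_j`, `v_i = 20 ep_i / qq_i`, `V = 10 / qq_j`, `x = L/√qq_j`.
* Ne (divided by `N0`): `b = 3 / N0_j`, `v_i = 5 ep_i / N0_i`, `V = 10/N0_j`, `x = √hh_j`,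
  `hh_j N0_j ≥ n/2`.
-/

namespace Vale.Agent.P046

open Finset

variable {n J : ℕ} {L : ℝ}

theorem s1martal_Fal_cons (hn : 0 < n) (u v : Fin n) (l : List (Tr n)) (t : Tr n) :
    Fal n u v (t :: l) = al (lstep (gr l) t)
      ((1 + 2 * epr n (hh n l.length)) * hh n l.length) u v := by
  have h1 : hh n (l.length + 1) = (1 + 2 * epr n (hh n l.length)) * hh n l.length :=
    hh_succ hn l.length
  unfold Fal
  rw [List.length_cons, h1]
  rfl

theorem s1martal_log (P : Par n J L) : 0 ≤ Real.log n := by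
  apply Real.log_nonneg
  exact_mod_cast P.hn

open Classical in
theorem mart_al_tail (P : Par n J L) {j : ℕ} (hj : j ≤ J) {u v : Fin n} (huv : u ≠ v) :
    EL j (fun l => if L / 10 * √(hh n j) < |mart (Ok n L) (Fal n u v) l| then 1 else 0) ≤
      2 * Real.exp (-(100 * (1 + Real.log n))) := by
  have hn := P.hn
  have hL8 := P.L_ge
  have hL0 : 0 < L := by linarith
  have hh0 : 0 < hh n j := hh_pos hn j
  have hs0 : 0 < √(hh n j) := Real.sqrt_pos.2 hh0
  have hlog := s1martal_log P
  have hreg : ∀ l : List (Tr n), l.length < j → Ok n L l →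
      Reg (gr l) (hh n l.length) L (qq n l.length) :=
    fun l hl hO => Gd.reg P (by omega) hO.1
  have h1 := mart_tail hn (Ok n L) (Fal n u v) j (fun i => 6 * hh n i * ep n i) (5 * hh n j)
    (3 * hh n j) (L / 10 * √(hh n j)) (by positivity) (by positivity) (by positivity)
    (by
      intro l hl hO t
      simp only [s1martal_Fal_cons hn]
      refine (jump_al (hreg l hl hO) huv t).trans ?_
      exact mul_le_mul_of_nonneg_left (hh_mono n hl.le) (by norm_num))
    (by
      intro l hl hO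
      simp only [s1martal_Fal_cons hn]
      exact var_al (hreg l hl hO) huv)
    (by
      intro i
      have h2 := (hh_pos hn i).le
      have h3 := (ep_pos hn i).le
      positivity)
    (by
      have h2 := sum_ep_hh hn j
      have h3 : ∑ i ∈ range j, 6 * hh n i * ep n i = 6 * ∑ i ∈ range j, ep n i * hh n i := by
        rw [Finset.mul_sum]
        exact Finset.sum_congr rfl fun i _ => by ring
      rw [h3]
      linarith)
  refine h1.trans ?_
  apply mul_le_mul_of_nonneg_left _ (by norm_num)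
  apply Real.exp_le_exp.2
  apply neg_le_neg
  have hhsq : √(hh n j) ^ 2 = hh n j := Real.sq_sqrt hh0.le
  have hh1 : hh n j ≤ 1 := by
    have h2 := P.hh_le hj
    have h3 : (1 : ℝ) ≤ L ^ 20 := one_le_pow₀ (by linarith)
    nlinarith
  have hs1 : √(hh n j) ≤ 1 := Real.sqrt_le_one.2 hh1
  have hLl := P.hL
  apply le_min
  · have h2 : (L / 10 * √(hh n j)) ^ 2 / (4 * (3 * hh n j)) = L ^ 2 / 1200 := by
      rw [mul_pow, hhsq]
      field_simp
      ring
    rw [h2]
    nlinarith
  · have h2 : L / 10 * √(hh n j) / (2 * (5 * hh n j)) = L / (100 * √(hh n j)) := by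
      rw [← hhsq]
      field_simp
      rw [Real.sqrt_sq hs0.le]
      ring
    rw [h2, le_div_iff₀ (by positivity)]
    nlinarith

end Vale.Agent.P046
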