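import Vale.Agent.Lib.P046.S1Sup

/-!
# S1: the first jump `H δ = h^2 N1`

`N1 t u v = ∑_{w ∈ N(u) ∩ N(v)} (δ_uw + δ_vw)` with `δ_ab = ∑_x lam G t a b x ≤ 2`,
`δ_ab = 0` if `a, b ∉ tri t`, and `δ_ab = ∑_{x ∈ (tri t).erase a} aj b x` if `a ∈ tri t`,
`b ∉ tri t`.
-/

namespace Vale.Agent.P046

open Finset

variable {n : ℕ} (G : SimpleGraph (Fin n)) (h : ℝ) (t : Tr n) (u v : Fin n)

theorem HHde_eq : HH G h (de G h t) u v = h ^ 2 * N1 G t u v := by
  unfold HH de N1
  rw [Finset.mul_sum, Finset.mul_sum]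
  refine Finset.sum_congr rfl fun w _ => ?_
  ring

theorem N1_nonneg : 0 ≤ N1 G t u v := by
  unfold N1
  refine Finset.sum_nonneg fun w _ => ?_
  exact mul_nonneg (mul_nonneg (aj_nonneg G u w) (aj_nonneg G v w))
    (add_nonneg (sum_lam_nonneg G t u w) (sum_lam_nonneg G t v w))

theorem N1_symm : N1 G t u v = N1 G t v u := by
  unfold N1
  refine Finset.sum_congr rfl fun w _ => ?_
  ring

theorem N1_of_not_isTri (ht : ¬ IsTri G t) : N1 G t u v = 0 := by
  unfold N1
  refine Finset.sum_eq_zero fun w _ => ?_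
  have h1 : ∀ a b, ∑ x, lam G t a b x = 0 := fun a b =>
    Finset.sum_eq_zero fun x _ => lam_of_not_isTri G t a b x ht
  rw [h1, h1]
  ring

/-- each term is at most 4 -/
theorem N1_le_card : N1 G t u v ≤ 4 * ∑ w, aj G u w * aj G v w := by
  unfold N1
  rw [Finset.mul_sum]
  refine Finset.sum_le_sum fun w _ => ?_
  have h1 := sum_lam_le G t u w
  have h2 := sum_lam_le G t v w
  have h3 : 0 ≤ aj G u w * aj G v w := mul_nonneg (aj_nonneg G u w) (aj_nonneg G v w)
  nlinarith

/-- only the `w ∈ tri t` (at most 3) contribute, each at most 4 -/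
theorem N1_le_of_notMem (hu : u ∉ tri t) (hv : v ∉ tri t) : N1 G t u v ≤ 12 := by
  have h1 : N1 G t u v = ∑ w ∈ tri t,
      aj G u w * aj G v w * ((∑ x, lam G t u w x) + ∑ x, lam G t v w x) := by
    unfold N1
    symm
    refine Finset.sum_subset (Finset.subset_univ _) fun w _ hw => ?_
    rw [sum_lam_of_notMem G t u w hu hw, sum_lam_of_notMem G t v w hv hw]
    ring
  have h2 : ∀ w ∈ tri t,
      aj G u w * aj G v w * ((∑ x, lam G t u w x) + ∑ x, lam G t v w x) ≤ 4 := by
    intro w _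
    have h3 := sum_lam_le G t u w
    have h4 := sum_lam_le G t v w
    have h3' := sum_lam_nonneg G t u w
    have h4' := sum_lam_nonneg G t v w
    have h5 : 0 ≤ aj G u w * aj G v w := mul_nonneg (aj_nonneg G u w) (aj_nonneg G v w)
    have h6 : aj G u w * aj G v w ≤ 1 :=
      mul_le_one₀ (aj_le_one G u w) (aj_nonneg G v w) (aj_le_one G v w)
    nlinarith
  have h3 : ((tri t).card : ℝ) ≤ 3 := by
    exact_mod_cast Finset.card_le_three
  have h4 := Finset.sum_le_sum h2
  rw [Finset.sum_const, nsmul_eq_mul] at h4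
  rw [h1]
  linarith

/-- For `w ∉ tri t`: `δ_vw = 0` and `δ_uw = ∑_{b ∈ (tri t).erase u} aj w b`.  For the (at most two)
common neighbours `w ∈ tri t` both `δ_uw + δ_vw` and the term of the right sum are in `[0, 4]`.
`C3 G u v b = ∑ w, aj u w * aj v w * aj b w`. -/
theorem N1_of_mem (ht : IsTri G t) (hu : u ∈ tri t) (hv : v ∉ tri t) :
    |N1 G t u v - ∑ b ∈ (tri t).erase u, C3 G u v b| ≤ 8 := by
  have hcard : ((tri t).erase u).card ≤ 2 := by
    rw [Finset.card_erase_of_mem hu]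
    have : (tri t).card ≤ 3 := Finset.card_le_three
    omega
  have hcard' : (((tri t).erase u).card : ℝ) ≤ 2 := by exact_mod_cast hcard
  have h1 : ∑ b ∈ (tri t).erase u, C3 G u v b =
      ∑ w, aj G u w * aj G v w * ∑ b ∈ (tri t).erase u, aj G b w := by
    unfold C3
    rw [Finset.sum_comm]
    refine Finset.sum_congr rfl fun w _ => ?_
    rw [Finset.mul_sum]
  have h2 : N1 G t u v - ∑ b ∈ (tri t).erase u, C3 G u v b =
      ∑ w ∈ (tri t).erase u, aj G u w * aj G v w *
        (((∑ x, lam G t u w x) + ∑ x, lam G t v w x) - ∑ b ∈ (tri t).erase u, aj G b w) := by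
    rw [h1]
    unfold N1
    rw [← Finset.sum_sub_distrib]
    symm
    have h3 : ∀ w, aj G u w * aj G v w * ((∑ x, lam G t u w x) + ∑ x, lam G t v w x) -
        aj G u w * aj G v w * ∑ b ∈ (tri t).erase u, aj G b w = aj G u w * aj G v w *
        (((∑ x, lam G t u w x) + ∑ x, lam G t v w x) - ∑ b ∈ (tri t).erase u, aj G b w) := by
      intro w
      ring
    simp only [h3]
    refine Finset.sum_subset (Finset.subset_univ _) fun w _ hw => ?_
    by_cases hwu : w = u
    · subst hwu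
      rw [aj_self]
      ring
    · have hwt : w ∉ tri t := fun hh => hw (Finset.mem_erase.2 ⟨hwu, hh⟩)
      rw [sum_lam_of_notMem G t v w hv hwt, sum_lam_of_mem G t u w ht hu hwt]
      have h4 : ∑ b ∈ (tri t).erase u, aj G w b = ∑ b ∈ (tri t).erase u, aj G b w :=
        Finset.sum_congr rfl fun b _ => aj_symm G w b
      rw [h4]
      ring
  rw [h2]
  refine (Finset.abs_sum_le_sum_abs _ _).trans ?_
  have h5 : ∀ w ∈ (tri t).erase u, |aj G u w * aj G v w *
      (((∑ x, lam G t u w x) + ∑ x, lam G t v w x) - ∑ b ∈ (tri t).erase u, aj G b w)| ≤ 4 := by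
    intro w _
    have h3 := sum_lam_le G t u w
    have h4 := sum_lam_le G t v w
    have h3' := sum_lam_nonneg G t u w
    have h4' := sum_lam_nonneg G t v w
    have h5 : 0 ≤ aj G u w * aj G v w := mul_nonneg (aj_nonneg G u w) (aj_nonneg G v w)
    have h6 : aj G u w * aj G v w ≤ 1 :=
      mul_le_one₀ (aj_le_one G u w) (aj_nonneg G v w) (aj_le_one G v w)
    have h7 : 0 ≤ ∑ b ∈ (tri t).erase u, aj G b w := Finset.sum_nonneg fun b _ => aj_nonneg G b w
    have h8 : ∑ b ∈ (tri t).erase u, aj G b w ≤ 2 := by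
      refine (Finset.sum_le_sum fun b _ => aj_le_one G b w).trans ?_
      rw [Finset.sum_const, nsmul_eq_mul, mul_one]
      exact hcard'
    rw [abs_mul, abs_of_nonneg h5]
    have h9 : |((∑ x, lam G t u w x) + ∑ x, lam G t v w x) -
        ∑ b ∈ (tri t).erase u, aj G b w| ≤ 4 := by
      rw [abs_le]
      constructor <;> linarith
    have h10 := abs_nonneg (((∑ x, lam G t u w x) + ∑ x, lam G t v w x) -
        ∑ b ∈ (tri t).erase u, aj G b w)
    nlinarith
  refine (Finset.sum_le_sum h5).trans ?_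
  rw [Finset.sum_const, nsmul_eq_mul]
  linarith

theorem s1n1_aux {M : ℝ} (huv : u ≠ v)
    (hM : ∀ a b c, a ≠ b → a ≠ c → b ≠ c → C3 G a b c ≤ M) (hM0 : 0 ≤ M)
    (ht : IsTri G t) (hu : u ∈ tri t) (hv : v ∉ tri t) : N1 G t u v ≤ 2 * M + 12 := by
  have h1 := (abs_le.1 (N1_of_mem G t u v ht hu hv)).2
  have hcard : ((tri t).erase u).card ≤ 2 := by
    rw [Finset.card_erase_of_mem hu]
    have : (tri t).card ≤ 3 := Finset.card_le_three
    omega
  have hcard' : (((tri t).erase u).card : ℝ) ≤ 2 := by exact_mod_cast hcard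
  have h2 : ∑ b ∈ (tri t).erase u, C3 G u v b ≤ 2 * M := by
    have h3 : ∀ b ∈ (tri t).erase u, C3 G u v b ≤ M := by
      intro b hb
      rw [Finset.mem_erase] at hb
      refine hM u v b huv (Ne.symm hb.1) ?_
      rintro rfl
      exact hv hb.2
    refine (Finset.sum_le_sum h3).trans ?_
    rw [Finset.sum_const, nsmul_eq_mul]
    nlinarith
  linarith

/-- Unless both ends are in the triple. -/
theorem N1_le {M : ℝ} (huv : u ≠ v)
    (hM : ∀ a b c, a ≠ b → a ≠ c → b ≠ c → C3 G a b c ≤ M) (hM0 : 0 ≤ M)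
    (hh' : ¬ (u ∈ tri t ∧ v ∈ tri t)) : N1 G t u v ≤ 2 * M + 12 := by
  by_cases ht : IsTri G t
  · by_cases hu : u ∈ tri t
    · have hv : v ∉ tri t := fun hv => hh' ⟨hu, hv⟩
      exact s1n1_aux G t u v huv hM hM0 ht hu hv
    · by_cases hv : v ∈ tri t
      · rw [N1_symm]
        exact s1n1_aux G t v u huv.symm hM hM0 ht hv hu
      · have := N1_le_of_notMem G t u v hu hv
        linarith
  · rw [N1_of_not_isTri G t u v ht]
    linarith

end Vale.Agent.P046
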