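import Vale.Agent.Lib.P046.S1Avg

/-!
# S1: sup norm bounds for a regular graph
-/

namespace Vale.Agent.P046

open Finset

variable {n : ℕ} {G : SimpleGraph (Fin n)} {h L q : ℝ}

theorem Reg.n_pos (R : Reg G h L q) : 0 < n := by
  rcases Nat.eq_zero_or_pos n with h0 | h0
  · have := R.hn
    rw [h0] at this
    norm_num at this
  · exact h0

theorem s1sup_sqrt (R : Reg G h L q) : L ^ 10 * √h ≤ 1 := by
  have hL := R.hL
  have hh := R.hpos
  have h1 : (L ^ 10 * √h) ^ 2 ≤ 1 := by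
    rw [mul_pow, Real.sq_sqrt hh.le]
    calc (L ^ 10) ^ 2 * h = h * L ^ 20 := by ring
      _ ≤ 1 := R.hsmall
  have h2 : 0 ≤ L ^ 10 * √h := by positivity
  nlinarith

/-- `L ≥ 10^8`, `h ≤ L^{-20}`, hence `√h ≤ L^{-10}`. -/
theorem Reg.h_small (R : Reg G h L q) : L ^ 9 * √h ≤ 1 / 10 ^ 8 := by
  have hL := R.hL
  have h1 := s1sup_sqrt R
  have h2 : 0 ≤ L ^ 9 * √h := by
    have : 0 ≤ L := le_trans (by norm_num) hL
    positivity
  have h3 : (10 ^ 8 : ℝ) * (L ^ 9 * √h) ≤ 1 := by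
    calc (10 ^ 8 : ℝ) * (L ^ 9 * √h) ≤ L * (L ^ 9 * √h) :=
          mul_le_mul_of_nonneg_right hL h2
      _ = L ^ 10 * √h := by ring
      _ ≤ 1 := h1
  rw [le_div_iff₀ (by norm_num)]
  linarith

theorem Reg.h_small' (R : Reg G h L q) : L ^ 19 * h ≤ 1 / 10 ^ 8 := by
  have hL := R.hL
  have h1 := R.hsmall
  have h2 : 0 ≤ L ^ 19 * h := by
    have : 0 ≤ L := le_trans (by norm_num) hL
    have := R.hpos
    positivity
  have h3 : (10 ^ 8 : ℝ) * (L ^ 19 * h) ≤ 1 := by
    calc (10 ^ 8 : ℝ) * (L ^ 19 * h) ≤ L * (L ^ 19 * h) :=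
          mul_le_mul_of_nonneg_right hL h2
      _ = h * L ^ 20 := by ring
      _ ≤ 1 := h1
  rw [le_div_iff₀ (by norm_num)]
  linarith

theorem s1sup_Lsqrt (R : Reg G h L q) : L * √h ≤ 1 / 10 ^ 8 := by
  have hL := R.hL
  have hL1 : 1 ≤ L := le_trans (by norm_num) hL
  refine le_trans ?_ R.h_small
  have : L ≤ L ^ 9 := le_self_pow₀ hL1 (by norm_num)
  exact mul_le_mul_of_nonneg_right this (Real.sqrt_nonneg _)

theorem s1sup_h (R : Reg G h L q) : h ≤ 1 / 10 ^ 8 := by
  have hL := R.hL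
  have hL1 : 1 ≤ L := le_trans (by norm_num) hL
  refine le_trans ?_ R.h_small'
  have : 1 ≤ L ^ 19 := one_le_pow₀ hL1
  have := mul_le_mul_of_nonneg_right this R.hpos.le
  linarith

theorem s1sup_Lsqrt0 (R : Reg G h L q) : 0 ≤ L * √h := by
  have : 0 ≤ L := le_trans (by norm_num) R.hL
  positivity

theorem epr_pos (hn : 0 < n) (hh0 : 0 < h) : 0 < epr n h := by
  unfold epr
  have : (0 : ℝ) < n := by exact_mod_cast hn
  positivity

/-- `ε = 6/(n³h) ≤ 6h²` since `n h ≥ 1`. -/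
theorem Reg.epr_le (R : Reg G h L q) : epr n h ≤ 6 * h ^ 2 := by
  unfold epr
  have hn : (0 : ℝ) < n := by exact_mod_cast R.n_pos
  have hh := R.hpos
  rw [div_le_iff₀ (by positivity)]
  have h1 : (1 : ℝ) ≤ (n * h) ^ 3 := one_le_pow₀ R.hn
  calc (6 : ℝ) ≤ 6 * (n * h) ^ 3 := by linarith
    _ = 6 * h ^ 2 * ((n : ℝ) ^ 3 * h) := by ring

theorem s1sup_zz_le (R : Reg G h L q) {u v : Fin n} (huv : u ≠ v) :
    zz G h u v ≤ 1 + L * √h := by
  have h1 := R.al_le u v huv
  unfold al at h1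
  have := (abs_le.1 h1).2
  linarith

theorem Reg.zz_le (R : Reg G h L q) {u v : Fin n} (huv : u ≠ v) : zz G h u v ≤ 1001 / 1000 := by
  have h1 := s1sup_zz_le R huv
  have h2 := s1sup_Lsqrt R
  norm_num at h2
  linarith

theorem Reg.le_zz (R : Reg G h L q) {u v : Fin n} (huv : u ≠ v) : 999 / 1000 ≤ zz G h u v := by
  have h1 := R.al_le u v huv
  unfold al at h1
  have h3 := (abs_le.1 h1).1
  have h2 := s1sup_Lsqrt R
  norm_num at h2
  linarith

theorem s1sup_HH_const (X : ℝ) (u v : Fin n) :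
    HH G h (fun _ _ => X) u v = X * (2 * zz G h u v) := by
  have h1 := HH_smul G h u v X (fun _ _ => 1)
  rw [HH_one] at h1
  rw [← h1]
  congr 1
  funext a b
  ring

/-- `|(Hx)_uv| ≤ 2 z_uv X` -/
theorem HH_bound (R : Reg G h L q) {x : Fin n → Fin n → ℝ} {X : ℝ} (hX : 0 ≤ X)
    (hx : ∀ a b, a ≠ b → |x a b| ≤ X) {u v : Fin n} (huv : u ≠ v) :
    |HH G h x u v| ≤ 2 * (1 + L * √h) * X := by
  have h1 := HH_abs_le G h u v R.hpos.le x
  have h2 := HH_mono G h u v R.hpos.le (x := fun a b => |x a b|) (x' := fun _ _ => X) hx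
  rw [s1sup_HH_const] at h2
  have h3 := s1sup_zz_le R huv
  have h4 : X * (2 * zz G h u v) ≤ X * (2 * (1 + L * √h)) :=
    mul_le_mul_of_nonneg_left (by linarith) hX
  calc |HH G h x u v| ≤ _ := h1
    _ ≤ _ := h2
    _ ≤ _ := h4
    _ = _ := by ring

theorem HH_bound' (R : Reg G h L q) {x : Fin n → Fin n → ℝ} {X : ℝ} (hX : 0 ≤ X)
    (hx : ∀ a b, a ≠ b → |x a b| ≤ X) {u v : Fin n} (huv : u ≠ v) :
    |HH G h x u v| ≤ 21 / 10 * X := by
  refine (HH_bound R hX hx huv).trans (mul_le_mul_of_nonneg_right ?_ hX)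
  have h2 := s1sup_Lsqrt R
  norm_num at h2
  linarith

/-- `H z = be + 2 z` -/
theorem Reg.HHzz_le (R : Reg G h L q) {u v : Fin n} (huv : u ≠ v) :
    HH G h (zz G h) u v ≤ 21 / 10 := by
  rw [HH_zz]
  have h1 := (abs_le.1 (R.be_le u v huv)).2
  have h2 := R.zz_le huv
  have h3 := s1sup_Lsqrt R
  norm_num at h3
  linarith

theorem Reg.avg_de_le (R : Reg G h L q) {u v : Fin n} (huv : u ≠ v) :
    avg (fun t => de G h t u v) ≤ 21 / 10 * epr n h := by
  rw [avg_de G h u v R.n_pos R.hpos huv]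
  have h0 := (epr_pos R.n_pos R.hpos).le
  have h1 := R.HHzz_le huv
  have h2 : 0 ≤ h * aj G u v * zz G h u v := by
    have := R.le_zz huv
    exact mul_nonneg (mul_nonneg R.hpos.le (aj_nonneg G u v)) (by linarith)
  calc epr n h * (HH G h (zz G h) u v - h * aj G u v * zz G h u v) ≤ epr n h * (21 / 10) :=
        mul_le_mul_of_nonneg_left (by linarith) h0
    _ = _ := by ring

theorem Reg.avg_de_sq_le (R : Reg G h L q) {u v : Fin n} (huv : u ≠ v) :
    avg (fun t => de G h t u v ^ 2) ≤ 42 / 10 * h * epr n h := by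
  have h1 : avg (fun t => de G h t u v ^ 2) ≤ avg (fun t => (2 * h) * de G h t u v) := by
    apply avg_mono
    intro t
    have h2 := de_nonneg G h t u v R.hpos.le
    have h3 := de_le G h t u v R.hpos.le
    rw [pow_two]
    exact mul_le_mul_of_nonneg_right h3 h2
  rw [avg_mul] at h1
  have h4 := R.avg_de_le huv
  have h5 : 2 * h * avg (fun t => de G h t u v) ≤ 2 * h * (21 / 10 * epr n h) :=
    mul_le_mul_of_nonneg_left h4 (by have := R.hpos; linarith)
  calc _ ≤ _ := h1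
    _ ≤ _ := h5
    _ = _ := by ring

theorem s1sup_abs_de (R : Reg G h L q) (t : Tr n) (a b : Fin n) : |de G h t a b| ≤ 2 * h := by
  rw [abs_of_nonneg (de_nonneg G h t a b R.hpos.le)]
  exact de_le G h t a b R.hpos.le

theorem Reg.HHde_le (R : Reg G h L q) {u v : Fin n} (huv : u ≠ v) (t : Tr n) :
    HH G h (de G h t) u v ≤ 42 / 10 * h := by
  have h1 := HH_bound' R (x := de G h t) (X := 2 * h) (by have := R.hpos; linarith)
    (fun a b _ => s1sup_abs_de R t a b) huv
  have h2 := le_abs_self (HH G h (de G h t) u v)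
  linarith

theorem Reg.HHde_nonneg (R : Reg G h L q) (u v : Fin n) (t : Tr n) :
    0 ≤ HH G h (de G h t) u v := by
  unfold HH
  refine mul_nonneg R.hpos.le (Finset.sum_nonneg fun w _ => ?_)
  exact mul_nonneg (mul_nonneg (aj_nonneg G u w) (aj_nonneg G v w))
    (add_nonneg (de_nonneg G h t u w R.hpos.le) (de_nonneg G h t v w R.hpos.le))

/-- `avg_HH`, `HH_mono`, `avg_de_le` -/
theorem Reg.avg_HHde_le (R : Reg G h L q) {u v : Fin n} (huv : u ≠ v) :
    avg (fun t => HH G h (de G h t) u v) ≤ 45 / 10 * epr n h := by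
  rw [avg_HH]
  have h1 := HH_mono G h u v R.hpos.le (x := fun a b => avg fun t => de G h t a b)
    (x' := fun _ _ => 21 / 10 * epr n h) (fun a b hab => R.avg_de_le hab)
  rw [s1sup_HH_const] at h1
  have h0 := (epr_pos R.n_pos R.hpos).le
  have h2 := R.zz_le huv
  have h3 : 21 / 10 * epr n h * (2 * zz G h u v) ≤ 21 / 10 * epr n h * (2 * (1001 / 1000)) :=
    mul_le_mul_of_nonneg_left (by linarith) (by linarith)
  refine h1.trans (h3.trans ?_)
  linarith

theorem Reg.al_lstep_le (R : Reg G h L q) {u v : Fin n} (huv : u ≠ v) (t : Tr n) :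
    |al (lstep G t) h u v| ≤ L * √h + 2 * h := by
  rw [al_lstep]
  have h1 := R.al_le u v huv
  have h2 := s1sup_abs_de R t u v
  exact (abs_sub _ _).trans (add_le_add h1 h2)

theorem s1sup_DD {G : SimpleGraph (Fin n)} {h L q : ℝ} (R : Reg G h L q)
    {x : Fin n → Fin n → ℝ} {X : ℝ} (hX : 0 ≤ X)
    (hx : ∀ a b, a ≠ b → |x a b| ≤ X) (t : Tr n) (u v : Fin n) :
    |DD G h t x u v| ≤ 4 * X * h := by
  have h1 := abs_DD_le G h t u v R.hpos.le hx
  have h2 := de_le G h t u v R.hpos.le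
  have h3 : 2 * X * de G h t u v ≤ 2 * X * (2 * h) :=
    mul_le_mul_of_nonneg_left h2 (by linarith)
  linarith

theorem Reg.dbe_le (R : Reg G h L q) {u v : Fin n} (huv : u ≠ v) (t : Tr n) :
    |be (lstep G t) h u v - be G h u v| ≤ 5 * h := by
  rw [be_lstep]
  have hh := R.hpos
  have h0 := s1sup_Lsqrt0 R
  have h1 : |HH G h (de G h t) u v| ≤ 42 / 10 * h := by
    rw [abs_of_nonneg (R.HHde_nonneg u v t)]
    exact R.HHde_le huv t
  have h2 := s1sup_DD R (x := al (lstep G t) h) (X := L * √h + 2 * h) (by linarith)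
    (fun a b hab => R.al_lstep_le hab t) t u v
  have h3 := s1sup_Lsqrt R
  have h4 := s1sup_h R
  have h5 : 4 * (L * √h + 2 * h) * h ≤ 1 / 10 * h := by
    apply mul_le_mul_of_nonneg_right _ hh.le
    norm_num at h3 h4
    linarith
  have e : be G h u v - HH G h (de G h t) u v - DD G h t (al (lstep G t) h) u v - be G h u v =
      -(HH G h (de G h t) u v + DD G h t (al (lstep G t) h) u v) := by ring
  rw [e, abs_neg]
  refine (abs_add_le _ _).trans ?_
  linarith

theorem Reg.be_lstep_le (R : Reg G h L q) {u v : Fin n} (huv : u ≠ v) (t : Tr n) :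
    |be (lstep G t) h u v| ≤ L * √h + 5 * h := by
  have h1 := R.be_le u v huv
  have h2 := R.dbe_le huv t
  have e : be (lstep G t) h u v = be G h u v + (be (lstep G t) h u v - be G h u v) := by ring
  rw [e]
  exact (abs_add_le _ _).trans (add_le_add h1 h2)

theorem Reg.dga_le (R : Reg G h L q) {u v : Fin n} (huv : u ≠ v) (t : Tr n) :
    |ga (lstep G t) h u v - ga G h u v| ≤ 17 * h := by
  rw [ga_lstep]
  have hh := R.hpos
  have h0 := s1sup_Lsqrt0 R
  have h1 := HH_bound' R (x := fun a b => be (lstep G t) h a b - be G h a b) (X := 5 * h)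
    (by linarith) (fun a b hab => R.dbe_le hab t) huv
  have h2 := R.dbe_le huv t
  have h3 := s1sup_DD R (x := be (lstep G t) h) (X := L * √h + 5 * h) (by linarith)
    (fun a b hab => R.be_lstep_le hab t) t u v
  have h4 := s1sup_Lsqrt R
  have h5 := s1sup_h R
  have h6 : 4 * (L * √h + 5 * h) * h ≤ 1 / 10 * h := by
    apply mul_le_mul_of_nonneg_right _ hh.le
    norm_num at h4 h5
    linarith
  have a1 := abs_le.1 h1
  have a2 := abs_le.1 h2
  have a3 := abs_le.1 h3
  rw [abs_le]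
  constructor
  · linarith [a1.1, a2.2, a3.2]
  · linarith [a1.2, a2.1, a3.1]

/-- The quadratic form `Q(x, w)` is bounded by `4 z X W`. -/
theorem Reg.QQ_le (R : Reg G h L q) {x w : Fin n → Fin n → ℝ} {X W : ℝ} (hX : 0 ≤ X)
    (hW : 0 ≤ W) (hx : ∀ a b, a ≠ b → |x a b| ≤ X) (hw : ∀ a b, a ≠ b → |w a b| ≤ W)
    {u v : Fin n} (huv : u ≠ v) :
    |h * ∑ c, aj G u c * aj G v c * ((x u c + x v c) * (w u c + w v c))| ≤
      41 / 10 * X * W := by
  have hterm : ∀ c ∈ (univ : Finset (Fin n)),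
      |aj G u c * aj G v c * ((x u c + x v c) * (w u c + w v c))| ≤
        aj G u c * aj G v c * (4 * X * W) := by
    intro c _
    by_cases h1 : aj G u c * aj G v c = 0
    · rw [h1]; simp
    · have hu : u ≠ c := aj_ne_zero G u c (left_ne_zero_of_mul h1)
      have hv : v ≠ c := aj_ne_zero G v c (right_ne_zero_of_mul h1)
      have h2 : 0 ≤ aj G u c * aj G v c := mul_nonneg (aj_nonneg G u c) (aj_nonneg G v c)
      rw [abs_mul, abs_of_nonneg h2, abs_mul]
      apply mul_le_mul_of_nonneg_left _ h2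
      have h3 : |x u c + x v c| ≤ 2 * X :=
        (abs_add_le _ _).trans (by linarith [hx u c hu, hx v c hv])
      have h4 : |w u c + w v c| ≤ 2 * W :=
        (abs_add_le _ _).trans (by linarith [hw u c hu, hw v c hv])
      calc |x u c + x v c| * |w u c + w v c| ≤ (2 * X) * (2 * W) :=
            mul_le_mul h3 h4 (abs_nonneg _) (by linarith)
        _ = 4 * X * W := by ring
  rw [abs_mul, abs_of_pos R.hpos]
  have h5 : |∑ c, aj G u c * aj G v c * ((x u c + x v c) * (w u c + w v c))| ≤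
      ∑ c, aj G u c * aj G v c * (4 * X * W) :=
    (Finset.abs_sum_le_sum_abs _ _).trans (Finset.sum_le_sum hterm)
  rw [← Finset.sum_mul] at h5
  have h6 := R.zz_le huv
  unfold zz at h6
  have hXW : 0 ≤ 4 * X * W := by positivity
  calc h * |∑ c, aj G u c * aj G v c * ((x u c + x v c) * (w u c + w v c))|
      ≤ h * ((∑ c, aj G u c * aj G v c) * (4 * X * W)) :=
        mul_le_mul_of_nonneg_left h5 R.hpos.le
    _ = (h * ∑ c, aj G u c * aj G v c) * (4 * X * W) := by ring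
    _ ≤ 1001 / 1000 * (4 * X * W) := mul_le_mul_of_nonneg_right h6 hXW
    _ ≤ 41 / 10 * X * W := by nlinarith

end Vale.Agent.P046
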