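import Vale.Agent.Lib.P046.S1D

/-!
# S1: the time sequences

`hh` is linear in `j` with increment `12/n^3`; `ep_j hh_j = 6/n^3`; `hh_{j+1} = (1 + 2 ep_j) hh_j`;
`qq = n^(-1/2) hh^(-3/2)`, `bb = (hh/n)^(1/4)`, `N0 = n^(3/2) hh^(-1/2) / 2`.
-/

namespace Vale.Agent.P046

open Finset

variable {n J : ℕ} {L : ℝ}

theorem hh_pos (hn : 0 < n) (j : ℕ) : 0 < hh n j := by
  unfold hh
  have : (0 : ℝ) < n := by exact_mod_cast hn
  positivity

theorem hh_zero (n : ℕ) : hh n 0 = 1 / n := by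
  unfold hh
  simp

private theorem s1timea_mul (hn : 0 < n) (j : ℕ) :
    (n : ℝ) * hh n j = 1 + 12 * (j : ℝ) / (n : ℝ) ^ 2 := by
  unfold hh
  have : (0 : ℝ) < n := by exact_mod_cast hn
  field_simp

theorem one_le_mul_hh (hn : 0 < n) (j : ℕ) : 1 ≤ n * hh n j := by
  rw [s1timea_mul hn]
  have : (0 : ℝ) < n := by exact_mod_cast hn
  have h2 : (0 : ℝ) ≤ 12 * (j : ℝ) / (n : ℝ) ^ 2 := by positivity
  linarith

theorem hh_mono (n : ℕ) : Monotone (hh n) := by
  intro i j hij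
  unfold hh
  have h : (i : ℝ) ≤ j := by exact_mod_cast hij
  gcongr

theorem ep_pos (hn : 0 < n) (j : ℕ) : 0 < ep n j := by
  unfold ep epr
  have : (0 : ℝ) < n := by exact_mod_cast hn
  have h2 := hh_pos hn j
  positivity

theorem ep_mul_hh (hn : 0 < n) (j : ℕ) : ep n j * hh n j = 6 / (n : ℝ) ^ 3 := by
  unfold ep epr
  have : (0 : ℝ) < n := by exact_mod_cast hn
  have h2 := hh_pos hn j
  field_simp

theorem ep_le (hn : 0 < n) (j : ℕ) : ep n j ≤ 6 / (n : ℝ) ^ 2 := by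
  unfold ep epr
  have h0 : (0 : ℝ) < n := by exact_mod_cast hn
  have h2 := hh_pos hn j
  have h3 := one_le_mul_hh hn j
  apply div_le_div_of_nonneg_left (by norm_num) (by positivity)
  have h4 : (n : ℝ) ^ 3 * hh n j = (n : ℝ) ^ 2 * (n * hh n j) := by ring
  rw [h4]
  exact le_mul_of_one_le_right (by positivity) h3

theorem hh_succ (hn : 0 < n) (j : ℕ) : hh n (j + 1) = (1 + 2 * ep n j) * hh n j := by
  have h1 := ep_mul_hh hn j
  have h0 : (0 : ℝ) < n := by exact_mod_cast hn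
  have h2 : (1 + 2 * ep n j) * hh n j = hh n j + 2 * (ep n j * hh n j) := by ring
  rw [h2, h1]
  unfold hh
  push_cast
  field_simp
  ring

theorem qq_pos (hn : 0 < n) (j : ℕ) : 0 < qq n j := by
  unfold qq
  have h0 : (0 : ℝ) < n := by exact_mod_cast hn
  have h2 := hh_pos hn j
  positivity

theorem qq_antitone (hn : 0 < n) : Antitone (qq n) := by
  intro i j hij
  unfold qq
  have h0 : (0 : ℝ) < n := by exact_mod_cast hn
  have h1 := hh_pos hn i
  have h2 := hh_pos hn j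
  have h3 := hh_mono n hij
  apply div_le_div_of_nonneg_left (by norm_num) (by positivity)
  gcongr

theorem qq_succ (hn : 0 < n) (j : ℕ) :
    qq n (j + 1) = qq n j / ((1 + 2 * ep n j) * √(1 + 2 * ep n j)) := by
  unfold qq
  have h0 : (0 : ℝ) < n := by exact_mod_cast hn
  have h1 := hh_pos hn j
  have h2 := ep_pos hn j
  have h3 : (0 : ℝ) < 1 + 2 * ep n j := by positivity
  rw [hh_succ hn, Real.sqrt_mul h3.le]
  have h4 : 0 < √(1 + 2 * ep n j) := Real.sqrt_pos.2 h3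
  have h5 : 0 < √(hh n j) := Real.sqrt_pos.2 h1
  have h6 : 0 < √(n : ℝ) := Real.sqrt_pos.2 h0
  field_simp

theorem qq_zero (hn : 0 < n) : qq n 0 = n := by
  unfold qq
  have h0 : (0 : ℝ) < n := by exact_mod_cast hn
  rw [hh_zero, Real.sqrt_div (by norm_num), Real.sqrt_one]
  have h6 : 0 < √(n : ℝ) := Real.sqrt_pos.2 h0
  field_simp

private theorem s1timea_qh (hn : 0 < n) (j : ℕ) : qq n j * hh n j = 1 / √(n * hh n j) := by
  unfold qq
  have h0 : (0 : ℝ) < n := by exact_mod_cast hn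
  have h1 := hh_pos hn j
  rw [Real.sqrt_mul h0.le]
  have h5 : 0 < √(hh n j) := Real.sqrt_pos.2 h1
  have h6 : 0 < √(n : ℝ) := Real.sqrt_pos.2 h0
  field_simp

theorem qq_mul_hh_le (hn : 0 < n) (j : ℕ) : qq n j * hh n j ≤ 1 := by
  rw [s1timea_qh hn]
  have h1 : 1 ≤ √(n * hh n j) := by
    rw [Real.one_le_sqrt]
    exact one_le_mul_hh hn j
  rw [div_le_one (by linarith)]
  exact h1

theorem sqrt_hh_le_inv (hn : 0 < n) (j : ℕ) : √(hh n j) ≤ 1 / √(qq n j) := by
  have h1 := qq_pos hn j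
  rw [le_div_iff₀ (Real.sqrt_pos.2 h1), ← Real.sqrt_mul (hh_pos hn j).le, Real.sqrt_le_left zero_le_one]
  have := qq_mul_hh_le hn j
  linarith

theorem bb_sq (n j : ℕ) : bb n j ^ 2 = √(hh n j / n) := by
  unfold bb
  exact Real.sq_sqrt (Real.sqrt_nonneg _)

theorem qq_mul_hh_sq (hn : 0 < n) (j : ℕ) : qq n j * hh n j ^ 2 = bb n j ^ 2 := by
  rw [bb_sq]
  unfold qq
  have h0 : (0 : ℝ) < n := by exact_mod_cast hn
  have h1 := hh_pos hn j
  rw [Real.sqrt_div h1.le]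
  have h5 : 0 < √(hh n j) := Real.sqrt_pos.2 h1
  have h6 : 0 < √(n : ℝ) := Real.sqrt_pos.2 h0
  have h7 : √(hh n j) ^ 2 = hh n j := Real.sq_sqrt h1.le
  field_simp
  linarith

theorem bb_nonneg (n j : ℕ) : 0 ≤ bb n j := Real.sqrt_nonneg _

theorem bb_mono (hn : 0 < n) : Monotone (bb n) := by
  intro i j hij
  unfold bb
  apply Real.sqrt_le_sqrt
  apply Real.sqrt_le_sqrt
  have h3 := hh_mono n hij
  gcongr

theorem bb_le (hn : 0 < n) (j : ℕ) : bb n j ≤ √(hh n j) := by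
  unfold bb
  apply Real.sqrt_le_sqrt
  have h0 : (0 : ℝ) < n := by exact_mod_cast hn
  have h1 := hh_pos hn j
  rw [Real.sqrt_le_left h1.le, div_le_iff₀ h0]
  have h2 := one_le_mul_hh hn j
  nlinarith

theorem N0_pos (hn : 0 < n) (j : ℕ) : 0 < N0 n j := by
  unfold N0
  have h0 : (0 : ℝ) < n := by exact_mod_cast hn
  have h1 := hh_pos hn j
  positivity

theorem N0_antitone (hn : 0 < n) : Antitone (N0 n) := by
  intro i j hij
  unfold N0
  have h0 : (0 : ℝ) < n := by exact_mod_cast hn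
  have h1 := hh_pos hn i
  have h3 := hh_mono n hij
  apply div_le_div_of_nonneg_left (by positivity) (by positivity)
  gcongr

theorem N0_zero (hn : 0 < n) : N0 n 0 = (n : ℝ) ^ 2 / 2 := by
  unfold N0
  have h0 : (0 : ℝ) < n := by exact_mod_cast hn
  have h1 : (n : ℝ) * hh n 0 = 1 := by
    rw [hh_zero]
    field_simp
  rw [h1, Real.sqrt_one]
  ring

theorem N0_succ (hn : 0 < n) (j : ℕ) : N0 n (j + 1) = N0 n j / √(1 + 2 * ep n j) := by
  unfold N0
  have h0 : (0 : ℝ) < n := by exact_mod_cast hn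
  have h1 := hh_pos hn j
  have h2 := ep_pos hn j
  have h3 : (0 : ℝ) < 1 + 2 * ep n j := by positivity
  have e1 : (n : ℝ) * hh n (j + 1) = (1 + 2 * ep n j) * (n * hh n j) := by
    rw [hh_succ hn]
    ring
  rw [e1, Real.sqrt_mul h3.le]
  have h4 : 0 < √(1 + 2 * ep n j) := Real.sqrt_pos.2 h3
  have h5 : 0 < √(n * hh n j) := Real.sqrt_pos.2 (by positivity)
  field_simp

theorem hh_mul_N0 (hn : 0 < n) (j : ℕ) : (n : ℝ) / 2 ≤ hh n j * N0 n j := by
  unfold N0
  have h0 : (0 : ℝ) < n := by exact_mod_cast hn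
  have h1 := hh_pos hn j
  have h2 := one_le_mul_hh hn j
  have h5 : 0 < √(n * hh n j) := Real.sqrt_pos.2 (by positivity)
  have h6 : √(n * hh n j) ≤ n * hh n j := by
    rw [Real.sqrt_le_left (by positivity)]
    nlinarith
  have h7 : hh n j * ((n : ℝ) ^ 2 / (2 * √(n * hh n j))) =
      n * (n * hh n j) / (2 * √(n * hh n j)) := by
    field_simp
  rw [h7, div_le_div_iff₀ (by norm_num) (by positivity)]
  nlinarith

end Vale.Agent.P046
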