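import Vale.Agent.Lib.P046.S1CancelA
import Vale.Agent.Lib.P046.S1CancelB

/-!
# S1: the variance of `ga`

`g_t := (H f)_uv - f_uv`, `f = H δ`, so `|g_t| ≤ H f + f` and `E (H f + f) ≤ 14.5 ε`
(`avg_HH`, `avg_HHde_le`).

`E g^2`: triangles containing both `u` and `v` have probability `≤ 1.001 ε`
(`avg_mem_two`, `6/n^3 * a * Y = ε a z`) and contribute `196 h^2 * 1.001 ε`; triples with
`u, v ∉ tri t` contribute `≤ 65 h^2 E|g| ≤ 65 * 14.5 h^2 ε`; in the sparse case the rest
contributes `≤ 20000 L^2 h^2 E|g| ≤ 290000 L^2 h^2 ε`; in the dense case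
`P(u ∈ tri t, triangle) = 3/n^3 ∑_b a_ub Y_ub ≤ ε/2 * 1.001 * d_u` and
`(d_u - 1) q / 2 ≤ ∑_{b ∈ N(u), b ≠ v} C3 u v b ≤ ∑_{w ∈ N(u) ∩ N(v)} Y_uw ≤ (1.001/h)^2`, so
`P ≤ 1.6 ε / (q h^2)`, and the contribution of both ends is
`≤ 2 * 8100 L^2 q h^4 * 1.6 ε/(q h^2) = 25920 L^2 h^2 ε`.

`ga' - ga = - g - (H - 1) D al' - D be'` with `|D al'| ≤ 2 (L √h + 2h) δ`,
`|H D al'| ≤ 2 (L √h + 2 h) H δ`, `|D be'| ≤ 2 (L √h + 5 h) δ`; the second moments of `δ`, `H δ`
are `avg_de_sq_le`, `avg_HHde_sq_le` (with `q h^2 ≤ h`).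

`ga⁺ = s^3 ga' + (3 s^3 - 3 s^2) be' + (4 s^3 - 6 s^2 + 2 s) z'` (`ga_scale`).
-/

namespace Vale.Agent.P046

open Finset

variable {n : ℕ} {G : SimpleGraph (Fin n)} {h L q : ℝ}

private theorem s1varga_codeg (R : Reg G h L q) {u x : Fin n} (hux : u ≠ x) :
    ∑ b, aj G u b * aj G x b ≤ 1001 / 1000 / h := by
  have h1 := R.zz_le hux
  unfold zz at h1
  rw [le_div_iff₀ R.hpos]
  linarith

private theorem s1varga_qh2 (R : Reg G h L q) : q * h ^ 2 ≤ 1 / 100 := by
  have hh0 := R.hpos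
  have hq0 := R.hq
  have hL := R.hL
  have h1 := R.h_small'
  have h2 : h ≤ 1 / 100 := by
    have h3 : (1 : ℝ) ≤ L ^ 19 := one_le_pow₀ (by linarith)
    have h4 : 1 * h ≤ L ^ 19 * h := mul_le_mul_of_nonneg_right h3 hh0.le
    have h5 : (1 : ℝ) / 10 ^ 8 ≤ 1 / 100 := by norm_num
    linarith
  calc q * h ^ 2 = (q * h) * h := by ring
    _ ≤ 1 * h := mul_le_mul_of_nonneg_right R.hqh hh0.le
    _ ≤ 1 / 100 := by linarith

/-- the degree bound -/
theorem degree_le (R : Reg G h L q) {u v : Fin n} (huv : u ≠ v) (hq : 1600 * L ^ 2 ≤ q) :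
    ∑ b, aj G u b ≤ 3 / (q * h ^ 2) := by
  have hh0 := R.hpos
  have hq0 := R.hq
  have hL := R.hL
  have hL0 : (0 : ℝ) < L := by linarith
  have hsq : 40 * L ≤ √q := by
    apply Real.le_sqrt_of_sq_le
    nlinarith
  have hsq0 : 0 < √q := by nlinarith
  have hss : √q * √q = q := Real.mul_self_sqrt hq0.le
  have hhalf : 20 * L * √q ≤ q / 2 := by nlinarith
  -- the double count
  have h1 : ∑ b, aj G u b * C3 G u v b = ∑ x, aj G u x * aj G v x * ∑ b, aj G u b * aj G x b := by
    unfold C3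
    simp only [Finset.mul_sum]
    rw [Finset.sum_comm]
    refine Finset.sum_congr rfl fun x _ => Finset.sum_congr rfl fun b _ => ?_
    rw [aj_symm G b x]
    ring
  have h2 : ∑ x, aj G u x * aj G v x * ∑ b, aj G u b * aj G x b ≤
      ∑ x, aj G u x * aj G v x * (1001 / 1000 / h) := by
    refine Finset.sum_le_sum fun x _ => ?_
    have hp : 0 ≤ aj G u x * aj G v x := mul_nonneg (aj_nonneg G u x) (aj_nonneg G v x)
    by_cases hz : aj G u x = 0
    · rw [hz]
      simp
    · exact mul_le_mul_of_nonneg_left (s1varga_codeg R (aj_ne_zero G u x hz)) hp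
  have h3 : ∑ b, aj G u b * C3 G u v b ≤ (1001 / 1000 / h) ^ 2 := by
    rw [h1]
    refine h2.trans ?_
    rw [← Finset.sum_mul]
    calc _ ≤ (1001 / 1000 / h) * (1001 / 1000 / h) :=
          mul_le_mul_of_nonneg_right (s1varga_codeg R huv) (by positivity)
      _ = _ := by ring
  -- the lower bound
  have h4 : ∀ b, aj G u b * (q / 2) ≤ aj G u b * C3 G u v b + (if b = v then q / 2 else 0) := by
    intro b
    have hb0 := aj_nonneg G u b
    have hb1 := aj_le_one G u b
    by_cases hbv : b = v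
    · rw [if_pos hbv]
      have hC : 0 ≤ C3 G u v b := Finset.sum_nonneg fun x _ =>
        mul_nonneg (mul_nonneg (aj_nonneg G u x) (aj_nonneg G v x)) (aj_nonneg G b x)
      have := mul_nonneg hb0 hC
      nlinarith
    · rw [if_neg hbv, add_zero]
      by_cases hz : aj G u b = 0
      · rw [hz]
        simp
      · have hub : u ≠ b := aj_ne_zero G u b hz
        have hd := R.C_dense hq u v b huv hub (Ne.symm hbv)
        rw [abs_le] at hd
        exact mul_le_mul_of_nonneg_left (by linarith) hb0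
  have h5 : (∑ b, aj G u b) * (q / 2) ≤ (1001 / 1000 / h) ^ 2 + q / 2 := by
    rw [Finset.sum_mul]
    refine (Finset.sum_le_sum fun b _ => h4 b).trans ?_
    rw [Finset.sum_add_distrib]
    have : ∑ b : Fin n, (if b = v then q / 2 else 0) = q / 2 := by
      rw [Finset.sum_ite_eq' Finset.univ v]
      simp
    rw [this]
    linarith
  have h6 := s1varga_qh2 R
  rw [le_div_iff₀ (by positivity)]
  have h7 : (∑ b, aj G u b) * (q * h ^ 2) = 2 * h ^ 2 * ((∑ b, aj G u b) * (q / 2)) := by ring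
  rw [h7]
  have h8 : 2 * h ^ 2 * ((∑ b, aj G u b) * (q / 2)) ≤
      2 * h ^ 2 * ((1001 / 1000 / h) ^ 2 + q / 2) :=
    mul_le_mul_of_nonneg_left h5 (by positivity)
  refine h8.trans ?_
  have h9 : 2 * h ^ 2 * ((1001 / 1000 / h) ^ 2 + q / 2) = 2 * (1001 / 1000) ^ 2 + q * h ^ 2 := by
    field_simp
  rw [h9]
  norm_num
  linarith

open Classical in
theorem prob_mem_le (R : Reg G h L q) {u v : Fin n} (huv : u ≠ v) (hq : 1600 * L ^ 2 ≤ q) :
    avg (fun t : Tr n => if IsTri G t ∧ u ∈ tri t then 1 else 0) ≤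
      16 / 10 * epr n h / (q * h ^ 2) := by
  have hh0 := R.hpos
  have hq0 := R.hq
  have hn := R.n_pos
  have hn' : (0 : ℝ) < n := by exact_mod_cast hn
  rw [avg_mem_one]
  have h1 : ∑ b, aj G u b * ∑ x, aj G u x * aj G b x ≤ ∑ b, aj G u b * (1001 / 1000 / h) := by
    refine Finset.sum_le_sum fun b _ => ?_
    by_cases hz : aj G u b = 0
    · rw [hz]
      simp
    · exact mul_le_mul_of_nonneg_left (s1varga_codeg R (aj_ne_zero G u b hz)) (aj_nonneg G u b)
  rw [← Finset.sum_mul] at h1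
  have h2 := degree_le R huv hq
  have h3 : (∑ b, aj G u b) * (1001 / 1000 / h) ≤ 3 / (q * h ^ 2) * (1001 / 1000 / h) :=
    mul_le_mul_of_nonneg_right h2 (by positivity)
  have h4 : 3 / (n : ℝ) ^ 3 * ∑ b, aj G u b * ∑ x, aj G u x * aj G b x ≤
      3 / (n : ℝ) ^ 3 * (3 / (q * h ^ 2) * (1001 / 1000 / h)) :=
    mul_le_mul_of_nonneg_left (h1.trans h3) (by positivity)
  refine h4.trans ?_
  unfold epr
  rw [div_mul_eq_mul_div, div_le_div_iff₀ (by positivity) (by positivity)]
  have : 3 * (3 / (q * h ^ 2) * (1001 / 1000 / h)) * (q * h ^ 2) = 9 * (1001 / 1000) / h := by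
    field_simp
    norm_num
  rw [this]
  have h5 : 16 / 10 * (6 / ((n : ℝ) ^ 3 * h)) * (n : ℝ) ^ 3 = 96 / 10 / h := by
    field_simp
    norm_num
  rw [h5]
  gcongr
  norm_num

private theorem s1varga_nonneg (R : Reg G h L q) (u v : Fin n) (t : Tr n) :
    0 ≤ HH G h (HH G h (de G h t)) u v := by
  unfold HH
  refine mul_nonneg R.hpos.le (Finset.sum_nonneg fun w _ => ?_)
  refine mul_nonneg (mul_nonneg (aj_nonneg G u w) (aj_nonneg G v w)) ?_
  exact add_nonneg (R.HHde_nonneg u w t) (R.HHde_nonneg v w t)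

private theorem s1varga_abs (R : Reg G h L q) (u v : Fin n) (t : Tr n) :
    |HH G h (HH G h (de G h t)) u v - HH G h (de G h t) u v| ≤
      HH G h (HH G h (de G h t)) u v + HH G h (de G h t) u v := by
  have h1 := s1varga_nonneg R u v t
  have h2 := R.HHde_nonneg u v t
  rw [abs_le]
  constructor <;> linarith

private theorem s1varga_avg_abs (R : Reg G h L q) {u v : Fin n} (huv : u ≠ v) :
    avg (fun t => |HH G h (HH G h (de G h t)) u v - HH G h (de G h t) u v|) ≤
      14 * epr n h := by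
  have hε := epr_pos R.n_pos R.hpos
  have h1 : avg (fun t => |HH G h (HH G h (de G h t)) u v - HH G h (de G h t) u v|) ≤
      avg (fun t => HH G h (HH G h (de G h t)) u v + HH G h (de G h t) u v) :=
    avg_mono fun t => s1varga_abs R u v t
  rw [avg_add] at h1
  have h2 := R.avg_HHde_le huv
  have h3 : avg (fun t => HH G h (HH G h (de G h t)) u v) ≤ 21 / 10 * (45 / 10 * epr n h) := by
    rw [avg_HH G h u v fun t => HH G h (de G h t)]
    refine le_trans (le_abs_self _) (HH_bound' R (by positivity) ?_ huv)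
    intro a b hab
    have h4 : 0 ≤ avg fun t => HH G h (de G h t) a b := by
      have h5 := avg_mono (f := fun _ : Tr n => (0 : ℝ)) (g := fun t => HH G h (de G h t) a b)
        fun t => R.HHde_nonneg a b t
      rw [avg_const R.n_pos] at h5
      exact h5
    rw [abs_of_nonneg h4]
    exact R.avg_HHde_le hab
  have h6 : (21 / 10 * (45 / 10 * epr n h) + 45 / 10 * epr n h) ≤ 14 * epr n h := by
    nlinarith
  linarith

open Classical in
private theorem s1varga_two (R : Reg G h L q) {u v : Fin n} (huv : u ≠ v) :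
    avg (fun t : Tr n => if IsTri G t ∧ u ∈ tri t ∧ v ∈ tri t then 1 else 0) ≤
      1001 / 1000 * epr n h := by
  have hh0 := R.hpos
  have hn' : (0 : ℝ) < n := by exact_mod_cast R.n_pos
  rw [avg_mem_two G u v huv]
  have h1 := s1varga_codeg R huv
  have h2 : aj G u v * ∑ x, aj G u x * aj G v x ≤ 1 * (1001 / 1000 / h) :=
    mul_le_mul (aj_le_one G u v) h1
      (Finset.sum_nonneg fun x _ => mul_nonneg (aj_nonneg G u x) (aj_nonneg G v x)) (by norm_num)
  have h3 : 6 / (n : ℝ) ^ 3 * (aj G u v * ∑ x, aj G u x * aj G v x) ≤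
      6 / (n : ℝ) ^ 3 * (1 * (1001 / 1000 / h)) :=
    mul_le_mul_of_nonneg_left h2 (by positivity)
  refine h3.trans (le_of_eq ?_)
  unfold epr
  field_simp

open Classical in
private theorem s1varga_pt (R : Reg G h L q) {u v : Fin n} (huv : u ≠ v) (t : Tr n) :
    (HH G h (HH G h (de G h t)) u v - HH G h (de G h t) u v) ^ 2 ≤
      196 * h ^ 2 * (if IsTri G t ∧ u ∈ tri t ∧ v ∈ tri t then 1 else 0) +
      20000 * L ^ 2 * h ^ 2 * |HH G h (HH G h (de G h t)) u v - HH G h (de G h t) u v| +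
      (if 1600 * L ^ 2 ≤ q then 8100 * L ^ 2 * q * h ^ 4 *
        ((if IsTri G t ∧ u ∈ tri t then 1 else 0) + (if IsTri G t ∧ v ∈ tri t then 1 else 0))
        else 0) := by
  have hh0 := R.hpos
  have hq0 := R.hq
  have hL := R.hL
  have hL0 : (0 : ℝ) < L := by linarith
  have hL2 : 1 ≤ L ^ 2 := one_le_pow₀ (by linarith)
  set g := HH G h (HH G h (de G h t)) u v - HH G h (de G h t) u v with hg
  have hsqabs : g ^ 2 = |g| * |g| := by rw [← sq_abs]; ring
  have hg0 := abs_nonneg g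
  have n1 : (0 : ℝ) ≤ 196 * h ^ 2 * (if IsTri G t ∧ u ∈ tri t ∧ v ∈ tri t then 1 else 0) := by
    split_ifs <;> positivity
  have n2 : (0 : ℝ) ≤ 20000 * L ^ 2 * h ^ 2 * |g| := by positivity
  have n3 : (0 : ℝ) ≤ (if 1600 * L ^ 2 ≤ q then 8100 * L ^ 2 * q * h ^ 4 *
        ((if IsTri G t ∧ u ∈ tri t then 1 else 0) + (if IsTri G t ∧ v ∈ tri t then 1 else 0))
        else 0) := by
    split_ifs <;> positivity
  by_cases ht : IsTri G t
  swap
  · have h0 : ∀ a b, HH G h (de G h t) a b = 0 := by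
      intro a b
      rw [HHde_eq, N1_of_not_isTri G t a b ht, mul_zero]
    have h1 : HH G h (HH G h (de G h t)) u v = 0 := by
      have e0 : HH G h (de G h t) = fun _ _ => 0 := by
        funext a b
        exact h0 a b
      rw [e0]
      unfold HH
      simp
    have h2 : g ^ 2 = 0 := by rw [hg, h1, h0, sub_zero]; norm_num
    rw [h2]
    linarith
  by_cases hu : u ∈ tri t <;> by_cases hv : v ∈ tri t
  · have h1 := cancel_zero R huv t
    rw [← hg] at h1
    have e : (if IsTri G t ∧ u ∈ tri t ∧ v ∈ tri t then (1 : ℝ) else 0) = 1 :=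
      if_pos ⟨ht, hu, hv⟩
    rw [e, hsqabs]
    have h2 : |g| * |g| ≤ (14 * h) * (14 * h) := mul_le_mul h1 h1 hg0 (by positivity)
    linarith
  · by_cases hq : 1600 * L ^ 2 ≤ q
    · have h1 := cancel_three R huv t ht hu hv hq
      rw [← hg] at h1
      have e1 : (if IsTri G t ∧ u ∈ tri t then (1 : ℝ) else 0) = 1 := if_pos ⟨ht, hu⟩
      have e2 : (if IsTri G t ∧ v ∈ tri t then (1 : ℝ) else 0) = 0 := if_neg fun h => hv h.2
      rw [if_pos hq, e1, e2, hsqabs]
      have h2 : |g| * |g| ≤ (90 * L * √q * h ^ 2) * (90 * L * √q * h ^ 2) :=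
        mul_le_mul h1 h1 hg0 (by positivity)
      have h3 : (90 * L * √q * h ^ 2) * (90 * L * √q * h ^ 2) =
          8100 * L ^ 2 * (√q * √q) * h ^ 4 := by ring
      rw [h3, Real.mul_self_sqrt hq0.le] at h2
      linarith
    · have h1 := cancel_two R huv t hu hv (not_le.1 hq)
      rw [← hg] at h1
      have h2 : |g| * |g| ≤ (20000 * L ^ 2 * h ^ 2) * |g| := mul_le_mul_of_nonneg_right h1 hg0
      rw [← hsqabs] at h2
      linarith
  · have e1 : g = HH G h (HH G h (de G h t)) v u - HH G h (de G h t) v u := by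
      rw [hg, HH_symm G h u v, HH_symm G h u v]
    by_cases hq : 1600 * L ^ 2 ≤ q
    · have h1 := cancel_three R huv.symm t ht hv hu hq
      rw [← e1] at h1
      have e1 : (if IsTri G t ∧ u ∈ tri t then (1 : ℝ) else 0) = 0 := if_neg fun h => hu h.2
      have e2 : (if IsTri G t ∧ v ∈ tri t then (1 : ℝ) else 0) = 1 := if_pos ⟨ht, hv⟩
      rw [if_pos hq, e1, e2, hsqabs]
      have h2 : |g| * |g| ≤ (90 * L * √q * h ^ 2) * (90 * L * √q * h ^ 2) :=
        mul_le_mul h1 h1 hg0 (by positivity)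
      have h3 : (90 * L * √q * h ^ 2) * (90 * L * √q * h ^ 2) =
          8100 * L ^ 2 * (√q * √q) * h ^ 4 := by ring
      rw [h3, Real.mul_self_sqrt hq0.le] at h2
      linarith
    · have h1 := cancel_two R huv.symm t hv hu (not_le.1 hq)
      rw [← e1] at h1
      have h2 : |g| * |g| ≤ (20000 * L ^ 2 * h ^ 2) * |g| := mul_le_mul_of_nonneg_right h1 hg0
      rw [← hsqabs] at h2
      linarith
  · have h1 := cancel_one R huv t hu hv
    rw [← hg] at h1
    have h3 : 65 * h ^ 2 ≤ 20000 * L ^ 2 * h ^ 2 :=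
      mul_le_mul_of_nonneg_right (by linarith) (by positivity)
    have h2 : |g| * |g| ≤ (20000 * L ^ 2 * h ^ 2) * |g| :=
      mul_le_mul_of_nonneg_right (h1.trans h3) hg0
    rw [← hsqabs] at h2
    linarith

theorem avg_cancel_sq_le (R : Reg G h L q) {u v : Fin n} (huv : u ≠ v) :
    avg (fun t => (HH G h (HH G h (de G h t)) u v - HH G h (de G h t) u v) ^ 2) ≤
      400000 * L ^ 2 * h ^ 2 * epr n h := by
  classical
  have hh0 := R.hpos
  have hq0 := R.hq
  have hL := R.hL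
  have hL0 : (0 : ℝ) < L := by linarith
  have hL2 : 1 ≤ L ^ 2 := one_le_pow₀ (by linarith)
  have hε := epr_pos R.n_pos hh0
  refine (avg_mono fun t => s1varga_pt R huv t).trans ?_
  rw [avg_add, avg_add, avg_mul, avg_mul]
  have a1 := s1varga_two R huv
  have a2 := s1varga_avg_abs R huv
  have b1 : 196 * h ^ 2 *
      avg (fun t : Tr n => if IsTri G t ∧ u ∈ tri t ∧ v ∈ tri t then (1 : ℝ) else 0) ≤
      196 * h ^ 2 * (1001 / 1000 * epr n h) := mul_le_mul_of_nonneg_left a1 (by positivity)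
  have b2 : 20000 * L ^ 2 * h ^ 2 *
      avg (fun t => |HH G h (HH G h (de G h t)) u v - HH G h (de G h t) u v|) ≤
      20000 * L ^ 2 * h ^ 2 * (14 * epr n h) := mul_le_mul_of_nonneg_left a2 (by positivity)
  have b3 : avg (fun t : Tr n => if 1600 * L ^ 2 ≤ q then 8100 * L ^ 2 * q * h ^ 4 *
        ((if IsTri G t ∧ u ∈ tri t then 1 else 0) + (if IsTri G t ∧ v ∈ tri t then 1 else 0))
        else 0) ≤ 25920 * L ^ 2 * h ^ 2 * epr n h := by
    by_cases hq : 1600 * L ^ 2 ≤ q
    · simp only [if_pos hq]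
      rw [avg_mul, avg_add]
      have c1 := prob_mem_le R huv hq
      have c2 := prob_mem_le R huv.symm hq
      have c3 := mul_le_mul_of_nonneg_left (add_le_add c1 c2)
        (by positivity : 0 ≤ 8100 * L ^ 2 * q * h ^ 4)
      refine c3.trans (le_of_eq ?_)
      field_simp
      norm_num
    · simp only [if_neg hq]
      rw [avg_const R.n_pos]
      positivity
  refine (add_le_add (add_le_add b1 b2) b3).trans ?_
  have c : (196 * (1001 / 1000) + 20000 * L ^ 2 * 14 + 25920 * L ^ 2) ≤ 400000 * L ^ 2 := by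
    nlinarith
  calc _ = (196 * (1001 / 1000) + 20000 * L ^ 2 * 14 + 25920 * L ^ 2) * (h ^ 2 * epr n h) := by
        ring
    _ ≤ (400000 * L ^ 2) * (h ^ 2 * epr n h) := mul_le_mul_of_nonneg_right c (by positivity)
    _ = _ := by ring

end Vale.Agent.P046
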