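import Vale.Agent.Lib.P046.Lazy

/-!
# The process stops
-/

namespace Vale.Agent.P046

open Finset

variable {n : ℕ}

theorem removeTriangle_adj (G : SimpleGraph (Fin n)) (s : Finset (Fin n)) (a b : Fin n) :
    (removeTriangle G s).Adj a b ↔ G.Adj a b ∧ ¬ (a ∈ s ∧ b ∈ s) := by
  unfold removeTriangle
  rw [SimpleGraph.deleteEdges_adj]
  simp

theorem edgeSet_removeTriangle (G : SimpleGraph (Fin n)) (s : Finset (Fin n)) :
    (removeTriangle G s).edgeSet = G.edgeSet \ {e | ∀ v ∈ e, v ∈ s} := by
  unfold removeTriangle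
  rw [SimpleGraph.edgeSet_deleteEdges]

/-- Removing a triangle removes exactly three edges. -/
theorem card_removeTriangle (G : SimpleGraph (Fin n)) (s : Finset (Fin n))
    (hs : G.IsNClique 3 s) :
    Nat.card (removeTriangle G s).edgeSet + 3 = Nat.card G.edgeSet := by
  classical
  obtain ⟨x, y, z, hxy, hxz, hyz, rfl⟩ := SimpleGraph.is3Clique_iff.1 hs
  rw [edgeSet_removeTriangle, Nat.card_coe_set_eq, Nat.card_coe_set_eq]
  have hsub : ({s(x, y), s(x, z), s(y, z)} : Set (Sym2 (Fin n))) ⊆ G.edgeSet := by
    rintro e he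
    simp only [Set.mem_insert_iff, Set.mem_singleton_iff] at he
    rcases he with rfl | rfl | rfl
    · exact hxy
    · exact hxz
    · exact hyz
  have hdiff : G.edgeSet \ {e | ∀ v ∈ e, v ∈ ({x, y, z} : Finset (Fin n))} =
      G.edgeSet \ ({s(x, y), s(x, z), s(y, z)} : Set (Sym2 (Fin n))) := by
    ext e
    induction e using Sym2.ind with
    | _ a b =>
      simp only [Set.mem_sdiff, SimpleGraph.mem_edgeSet, Set.mem_ofPred_eq, Sym2.mem_iff,
        forall_eq_or_imp, forall_eq, Set.mem_insert_iff, Set.mem_singleton_iff,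
        Finset.mem_insert, Finset.mem_singleton, Sym2.eq_iff]
      refine and_congr_right fun hab => not_congr ?_
      have hne := hab.ne
      constructor
      · rintro ⟨rfl | rfl | rfl, rfl | rfl | rfl⟩ <;> simp_all
      · rintro ((⟨rfl, rfl⟩ | ⟨rfl, rfl⟩) | (⟨rfl, rfl⟩ | ⟨rfl, rfl⟩) | (⟨rfl, rfl⟩ | ⟨rfl, rfl⟩)) <;>
          simp
  rw [hdiff]
  have hc : ({s(x, y), s(x, z), s(y, z)} : Set (Sym2 (Fin n))).ncard = 3 := by
    rw [Set.ncard_eq_three]
    refine ⟨s(x, y), s(x, z), s(y, z), ?_, ?_, ?_, rfl⟩
    · simp [hyz.ne, hxz.ne]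
    · simp [hxy.ne, hxz.ne]
    · simp [hxy.ne, hxz.ne]
  have := Set.ncard_sdiff_add_ncard_of_subset hsub (Set.toFinite _)
  rw [hc] at this
  exact this

open Classical in
theorem T_of_empty (f : SimpleGraph (Fin n) → ℝ) (G : SimpleGraph (Fin n))
    (h : ¬ (G.cliqueFinset 3).Nonempty) : T f G = f G := by
  unfold T
  rw [if_neg h]

open Classical in
theorem T_of_nonempty (f : SimpleGraph (Fin n) → ℝ) (G : SimpleGraph (Fin n))
    (h : (G.cliqueFinset 3).Nonempty) :
    T f G = (∑ s ∈ G.cliqueFinset 3, f (removeTriangle G s)) / (G.cliqueFinset 3).card := by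
  unfold T
  rw [if_pos h]

/-- The iterates are stationary after as many steps as there are edges. -/
theorem T_iter_stable (f : SimpleGraph (Fin n) → ℝ) (k : ℕ) (G : SimpleGraph (Fin n))
    (hG : Nat.card G.edgeSet ≤ k) : T^[k + 1] f G = T^[k] f G := by
  classical
  induction k generalizing G with
  | zero =>
    apply T_of_empty
    rintro ⟨s, hs⟩
    have := card_removeTriangle G s (SimpleGraph.mem_cliqueFinset_iff.1 hs)
    omega
  | succ k ih =>
    have h1 : T^[k + 1 + 1] f G = T (T^[k + 1] f) G := by rw [Function.iterate_succ_apply']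
    have h2 : T^[k + 1] f G = T (T^[k] f) G := by rw [Function.iterate_succ_apply']
    rw [h1, h2]
    by_cases hne : (G.cliqueFinset 3).Nonempty
    · rw [T_of_nonempty _ _ hne, T_of_nonempty _ _ hne]
      congr 1
      refine Finset.sum_congr rfl fun s hs => ?_
      have := card_removeTriangle G s (SimpleGraph.mem_cliqueFinset_iff.1 hs)
      exact ih (removeTriangle G s) (by omega)
    · rw [T_of_empty _ _ hne, T_of_empty _ _ hne, h2, T_of_empty _ _ hne]

theorem card_edgeSet_le (G : SimpleGraph (Fin n)) : Nat.card G.edgeSet ≤ n.choose 2 := by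
  classical
  have h := G.card_edgeFinset_le_card_choose_two
  rw [Fintype.card_fin] at h
  rwa [Nat.card_eq_fintype_card, ← SimpleGraph.edgeFinset_card]

theorem T_Ef (f : SimpleGraph (Fin n) → ℝ) : T (Ef f) = Ef f := by
  funext G
  unfold Ef
  rw [← Function.iterate_succ_apply' T]
  exact T_iter_stable f _ G (card_edgeSet_le G)

theorem L_Ef (hn : 0 < n) (f : SimpleGraph (Fin n) → ℝ) : L (Ef f) = Ef f :=
  L_of_T hn _ (T_Ef f)

/-- Final expectations only see triangle-free graphs. -/
theorem Ef_congr (f g : SimpleGraph (Fin n) → ℝ) (h : ∀ G, G.CliqueFree 3 → f G = g G) :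
    Ef f = Ef g := by
  classical
  have key : ∀ (k : ℕ) (G : SimpleGraph (Fin n)), Nat.card G.edgeSet ≤ k →
      T^[k] f G = T^[k] g G := by
    intro k
    induction k with
    | zero =>
      intro G hG
      refine h G fun s hs => ?_
      have := card_removeTriangle G s hs
      omega
    | succ k ih =>
      intro G hG
      rw [Function.iterate_succ_apply', Function.iterate_succ_apply']
      by_cases hne : (G.cliqueFinset 3).Nonempty
      · rw [T_of_nonempty _ _ hne, T_of_nonempty _ _ hne]
        congr 1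
        refine Finset.sum_congr rfl fun s hs => ?_
        have := card_removeTriangle G s (SimpleGraph.mem_cliqueFinset_iff.1 hs)
        exact ih (removeTriangle G s) (by omega)
      · have hfree : G.CliqueFree 3 := fun s hs =>
          hne ⟨s, SimpleGraph.mem_cliqueFinset_iff.2 hs⟩
        rw [T_of_empty _ _ hne, T_of_empty _ _ hne]
        have hit : ∀ (m : ℕ) (F : SimpleGraph (Fin n) → ℝ), T^[m] F G = F G := by
          intro m
          induction m with
          | zero => intro F; rfl
          | succ m ihm => intro F; rw [Function.iterate_succ_apply, ihm, T_of_empty _ _ hne]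
        rw [hit, hit, h G hfree]
  funext G
  exact key _ G (card_edgeSet_le G)

/-- The final expectation is monotone. -/
theorem T_mono (f g : SimpleGraph (Fin n) → ℝ) (h : ∀ G, f G ≤ g G) (G : SimpleGraph (Fin n)) :
    T f G ≤ T g G := by
  classical
  unfold T
  split_ifs with hne
  · gcongr
    exact h _
  · exact h G

theorem T_iter_mono (k : ℕ) (f g : SimpleGraph (Fin n) → ℝ) (h : ∀ G, f G ≤ g G)
    (G : SimpleGraph (Fin n)) : T^[k] f G ≤ T^[k] g G := by
  induction k generalizing f g with
  | zero => exact h G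
  | succ k ih =>
    rw [Function.iterate_succ_apply, Function.iterate_succ_apply]
    exact ih _ _ (T_mono f g h)

theorem Ef_mono (f g : SimpleGraph (Fin n) → ℝ) (h : ∀ G, f G ≤ g G)
    (G : SimpleGraph (Fin n)) : Ef f G ≤ Ef g G := T_iter_mono _ f g h G

/-- Only subgraphs of `G` matter for the final expectation from `G`. -/
theorem T_iter_congr_le (k : ℕ) (f g : SimpleGraph (Fin n) → ℝ) (G : SimpleGraph (Fin n))
    (h : ∀ G' ≤ G, f G' = g G') : T^[k] f G = T^[k] g G := by
  classical
  have hr : ∀ (G' : SimpleGraph (Fin n)) (s : Finset (Fin n)), removeTriangle G' s ≤ G' :=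
    fun G' s => SimpleGraph.deleteEdges_le _
  induction k generalizing G with
  | zero => exact h G le_rfl
  | succ k ih =>
    rw [Function.iterate_succ_apply', Function.iterate_succ_apply']
    by_cases hne : (G.cliqueFinset 3).Nonempty
    · rw [T_of_nonempty _ _ hne, T_of_nonempty _ _ hne]
      congr 1
      exact Finset.sum_congr rfl fun s _ => ih _ fun G' hG' => h G' (hG'.trans (hr G s))
    · rw [T_of_empty _ _ hne, T_of_empty _ _ hne]
      exact ih G h

end Vale.Agent.P046
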