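import Vale.Agent.Lib.P046.Hyp
import Vale.Agent.Lib.P046.Path

/-!
# The probability that a set of edges survives
-/

namespace Vale.Agent.P046

open Finset

variable {n : ℕ}

/-- In a linear hypergraph almost `∑ deg` hyperedges meet the set `S`. -/
theorem sum_deg_le {V : Type*} [Fintype V] [DecidableEq V] (E : Finset (Finset V))
    (hlin : ∀ T ∈ E, ∀ T' ∈ E, T ≠ T' → (T ∩ T').card ≤ 1) (S : Finset V) :
    ∑ v ∈ S, H.deg E v ≤ (E.filter fun T => ¬ Disjoint T S).card + S.card * S.card := by
  have h1 : ∑ v ∈ S, H.deg E v = ∑ T ∈ E, (T ∩ S).card := by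
    unfold H.deg
    simp only [Finset.card_filter]
    rw [Finset.sum_comm]
    refine Finset.sum_congr rfl fun T _ => ?_
    rw [← Finset.card_filter]
    congr 1
    ext v
    simp [and_comm]
  have h2 : ∀ T ∈ E, (T ∩ S).card ≤ (if ¬ Disjoint T S then 1 else 0) + (T ∩ S).offDiag.card := by
    intro T _
    rw [Finset.offDiag_card]
    by_cases h : Disjoint T S
    · rw [Finset.disjoint_iff_inter_eq_empty.1 h]
      simp
    · rw [if_pos h]
      set k := (T ∩ S).card
      have : k * k - k + 1 + (k - 1) ≥ k := by omega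
      rcases Nat.eq_zero_or_pos k with hk | hk
      · omega
      · rcases Nat.lt_or_ge k 2 with hk2 | hk2
        · omega
        · have : 2 * k ≤ k * k := Nat.mul_le_mul_right k hk2
          omega
  have h3 : ∑ T ∈ E, (T ∩ S).offDiag.card ≤ S.card * S.card := by
    rw [← Finset.card_biUnion]
    · refine (Finset.card_le_card (t := S ×ˢ S) ?_).trans (by rw [Finset.card_product])
      intro q hq
      rw [mem_biUnion] at hq
      obtain ⟨T, _, hq⟩ := hq
      rw [mem_offDiag] at hq
      exact mem_product.2 ⟨(mem_inter.1 hq.1).2, (mem_inter.1 hq.2.1).2⟩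
    · intro T hT T' hT' hne
      rw [Function.onFun, Finset.disjoint_left]
      rintro ⟨a, b⟩ hq hq'
      rw [mem_offDiag] at hq hq'
      have := hlin T hT T' hT' hne
      rw [Finset.card_le_one] at this
      exact hq.2.2 (this a (mem_inter.2 ⟨(mem_inter.1 hq.1).1, (mem_inter.1 hq'.1).1⟩) b
        (mem_inter.2 ⟨(mem_inter.1 hq.2.1).1, (mem_inter.1 hq'.2.1).1⟩))
  calc ∑ v ∈ S, H.deg E v = ∑ T ∈ E, (T ∩ S).card := h1
    _ ≤ ∑ T ∈ E, ((if ¬ Disjoint T S then 1 else 0) + (T ∩ S).offDiag.card) :=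
        Finset.sum_le_sum h2
    _ = (E.filter fun T => ¬ Disjoint T S).card + ∑ T ∈ E, (T ∩ S).offDiag.card := by
        rw [Finset.sum_add_distrib, ← Finset.card_filter]
    _ ≤ _ := by omega

theorem hyp_linear (G : SimpleGraph (Fin n)) :
    ∀ T ∈ hyp G, ∀ T' ∈ hyp G, T ≠ T' → (T ∩ T').card ≤ 1 := by
  classical
  intro T hT T' hT' hne
  have e1 : T ∈ (G.cliqueFinset 3).image edgesOf := by
    unfold hyp at hT
    convert hT
  have e2 : T' ∈ (G.cliqueFinset 3).image edgesOf := by
    unfold hyp at hT'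
    convert hT'
  obtain ⟨s, hs, rfl⟩ := Finset.mem_image.1 e1
  obtain ⟨t, ht, rfl⟩ := Finset.mem_image.1 e2
  exact edgesOf_inter s t (SimpleGraph.mem_cliqueFinset_iff.1 hs).card_eq
    (SimpleGraph.mem_cliqueFinset_iff.1 ht).card_eq fun h => hne (by rw [h])

open Classical in
/-- The number of ordered triples whose triangle meets `S`. -/
theorem card_triples_hit (G : SimpleGraph (Fin n)) (S : Finset (Sym2 (Fin n))) :
    (univ.filter fun t : Tr n => IsTri G t ∧ ¬ Disjoint (edgesOf (tri t)) S).card =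
      6 * ((hyp G).filter fun T => ¬ Disjoint T S).card := by
  have h1 := sum_isTri G fun s => if ¬ Disjoint (edgesOf s) S then (1 : ℝ) else 0
  have h2 : ((hyp G).filter fun T => ¬ Disjoint T S).card =
      ((G.cliqueFinset 3).filter fun s => ¬ Disjoint (edgesOf s) S).card := by
    have hh : hyp G = (G.cliqueFinset 3).image edgesOf := by
      unfold hyp
      congr
    rw [hh, Finset.filter_image, Finset.card_image_of_injOn]
    intro s hs t ht h
    have hs' := (mem_filter.1 (Finset.mem_coe.1 hs)).1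
    have ht' := (mem_filter.1 (Finset.mem_coe.1 ht)).1
    exact edgesOf_injOn s t (SimpleGraph.mem_cliqueFinset_iff.1 hs').card_eq
      (SimpleGraph.mem_cliqueFinset_iff.1 ht').card_eq h
  rw [h2]
  rw [Finset.sum_ite, Finset.sum_const_zero, add_zero, Finset.sum_const, Finset.filter_filter,
    nsmul_eq_mul, mul_one, Finset.sum_ite, Finset.sum_const_zero, add_zero, Finset.sum_const,
    nsmul_eq_mul, mul_one] at h1
  exact_mod_cast h1

/-- All proper suffixes of the history satisfy `P`. -/
def HistOK (P : List (Tr n) → Prop) : List (Tr n) → Prop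
  | [] => True
  | _ :: l => P l ∧ HistOK P l

/-- One step: the probability that `S` survives. -/
theorem avg_survive (hn : 0 < n) (G : SimpleGraph (Fin n)) (S : Finset (Sym2 (Fin n)))
    (hS : S ⊆ edges G) (d : ℝ) (hd : ∀ e ∈ S, d ≤ H.deg (hyp G) e) :
    avg (fun t => (by classical exact if S ⊆ edges (lstep G t) then (1 : ℝ) else 0)) ≤
      1 - 6 * (S.card * d - S.card * S.card) / (n : ℝ) ^ 3 := by
  classical
  have hn' : (0 : ℝ) < (n : ℝ) ^ 3 := by positivity
  have hiff : ∀ t : Tr n, S ⊆ edges (lstep G t) ↔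
      ¬ (IsTri G t ∧ ¬ Disjoint (edgesOf (tri t)) S) := by
    intro t
    unfold lstep
    by_cases ht : IsTri G t
    · rw [if_pos ht, edges_removeTriangle]
      simp only [ht, true_and, not_not]
      rw [Finset.subset_sdiff]
      exact ⟨fun h => h.2.symm, fun h => ⟨hS, h.symm⟩⟩
    · rw [if_neg ht]
      simp [ht, hS]
  have hsum : ∑ t : Tr n, (if S ⊆ edges (lstep G t) then (1 : ℝ) else 0) =
      (n : ℝ) ^ 3 - 6 * ((hyp G).filter fun T => ¬ Disjoint T S).card := by
    have h1 := card_triples_hit G S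
    have h2 := Finset.card_filter_add_card_filter_not (s := (univ : Finset (Tr n)))
      (fun t => IsTri G t ∧ ¬ Disjoint (edgesOf (tri t)) S)
    rw [Finset.sum_congr rfl fun t _ => if_congr (hiff t) rfl rfl]
    rw [Finset.sum_ite, Finset.sum_const_zero, add_zero, Finset.sum_const, nsmul_eq_mul, mul_one]
    rw [h1, card_univ] at h2
    have h3 := card_Tr n
    have h4 : ((6 * ((hyp G).filter fun T => ¬ Disjoint T S).card +
      (univ.filter fun t : Tr n => ¬ (IsTri G t ∧ ¬ Disjoint (edgesOf (tri t)) S)).card : ℕ) : ℝ) =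
        (n : ℝ) ^ 3 := by
      rw [← h3]
      exact_mod_cast h2
    push_cast at h4
    linarith
  have hdeg := sum_deg_le (hyp G) (hyp_linear G) S
  have hdeg' : (S.card : ℝ) * d ≤ ∑ v ∈ S, (H.deg (hyp G) v : ℝ) := by
    rw [← nsmul_eq_mul]
    exact Finset.card_nsmul_le_sum _ _ _ hd
  have hdeg'' : ∑ v ∈ S, (H.deg (hyp G) v : ℝ) ≤
      ((hyp G).filter fun T => ¬ Disjoint T S).card + S.card * S.card := by
    exact_mod_cast hdeg
  have hfin : avg (fun t => if S ⊆ edges (lstep G t) then (1 : ℝ) else 0) =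
      1 - 6 * ((hyp G).filter fun T => ¬ Disjoint T S).card / (n : ℝ) ^ 3 := by
    unfold avg
    rw [hsum]
    field_simp
  have hcl : avg (fun t => (by classical exact if S ⊆ edges (lstep G t) then (1 : ℝ) else 0)) =
      avg (fun t => if S ⊆ edges (lstep G t) then (1 : ℝ) else 0) := by
    congr
  rw [hfin]
  have : 6 * (S.card * d - S.card * S.card) / (n : ℝ) ^ 3 ≤
      6 * ((hyp G).filter fun T => ¬ Disjoint T S).card / (n : ℝ) ^ 3 := by
    gcongr
    linarith
  linarith

/-- The trajectory of the codegrees. -/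
noncomputable def yy (n j : ℕ) : ℝ := n / (1 + 12 * j / (n : ℝ) ^ 2)

theorem yy_pos (hn : 0 < n) (j : ℕ) : 0 < yy n j := by
  unfold yy
  positivity

open Classical in
/-- The probability that `S` survives and the history is good. -/
theorem survive_prod (hn : 0 < n) (P : List (Tr n) → Prop) (S : Finset (Sym2 (Fin n))) (δ : ℝ)
    (hP : ∀ l : List (Tr n), P l → ∀ e ∈ edges (gr l),
      (1 - δ) * yy n l.length ≤ H.deg (hyp (gr l)) e) (J : ℕ)
    (hS : ∀ j < J, (S.card : ℝ) ≤ δ * yy n j) :
    EL J (fun l => if S ⊆ edges (gr l) ∧ HistOK P l then (1 : ℝ) else 0) ≤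
      Real.exp (-(6 * S.card * (1 - 2 * δ) / (n : ℝ) ^ 3) * ∑ j ∈ range J, yy n j) := by
  have hn' : (0 : ℝ) < (n : ℝ) ^ 3 := by positivity
  induction J with
  | zero =>
    simp only [EL, Finset.range_zero, Finset.sum_empty, mul_zero, Real.exp_zero]
    split_ifs <;> norm_num
  | succ J ih =>
    have ih' := ih fun j hj => hS j (by omega)
    rw [Finset.sum_range_succ, mul_add, Real.exp_add, EL]
    have hstep : ∀ l : List (Tr n), l.length = J →
        avg (fun t => if S ⊆ edges (gr (t :: l)) ∧ HistOK P (t :: l) then (1 : ℝ) else 0) ≤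
          Real.exp (-(6 * S.card * (1 - 2 * δ) / (n : ℝ) ^ 3) * yy n J) *
            (if S ⊆ edges (gr l) ∧ HistOK P l then (1 : ℝ) else 0) := by
      intro l hl
      by_cases h : S ⊆ edges (gr l) ∧ P l ∧ HistOK P l
      · have h1 : ∀ t, (if S ⊆ edges (gr (t :: l)) ∧ HistOK P (t :: l) then (1 : ℝ) else 0) =
            if S ⊆ edges (lstep (gr l) t) then (1 : ℝ) else 0 := by
          intro t
          refine if_congr ?_ rfl rfl
          rw [gr, HistOK]
          exact ⟨fun hh => hh.1, fun hh => ⟨hh, h.2⟩⟩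
        simp only [h1]
        rw [if_pos ⟨h.1, h.2.2⟩, mul_one]
        have h2 := avg_survive hn (gr l) S h.1 ((1 - δ) * yy n J) fun e he => by
          have := hP l h.2.1 e (h.1 he)
          rwa [hl] at this
        refine (le_trans (le_of_eq (by congr)) h2).trans ?_
        have h3 : 6 * (S.card : ℝ) * (1 - 2 * δ) / (n : ℝ) ^ 3 * yy n J ≤
            6 * (S.card * ((1 - δ) * yy n J) - S.card * S.card) / (n : ℝ) ^ 3 := by
          have h4 := hS J (by omega)
          have h5 : (S.card : ℝ) * S.card ≤ S.card * (δ * yy n J) := by gcongr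
          rw [div_mul_eq_mul_div]
          refine div_le_div_of_nonneg_right ?_ hn'.le
          nlinarith
        have h6 := Real.add_one_le_exp (-(6 * (S.card : ℝ) * (1 - 2 * δ) / (n : ℝ) ^ 3 * yy n J))
        rw [neg_mul]
        linarith
      · have h1 : ∀ t, (if S ⊆ edges (gr (t :: l)) ∧ HistOK P (t :: l) then (1 : ℝ) else 0) = 0 := by
          intro t
          rw [if_neg]
          rintro ⟨h2, h3⟩
          rw [HistOK] at h3
          refine h ⟨h2.trans ?_, h3.1, h3.2⟩
          intro e he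
          rw [mem_edges] at he ⊢
          exact SimpleGraph.edgeSet_mono (gr_cons_le t l) he
        simp only [h1]
        have : avg (n := n) (fun _ => (0 : ℝ)) = 0 := avg_const hn 0
        rw [this]
        have : (0 : ℝ) ≤ if S ⊆ edges (gr l) ∧ HistOK P l then (1 : ℝ) else 0 := by
          split_ifs <;> norm_num
        positivity
    refine (EL_mono_len J _ _ hstep).trans ?_
    rw [EL_mul, mul_comm]
    gcongr

/-- The sum of the trajectory. -/
theorem sum_yy (hn : 0 < n) (J : ℕ) :
    Real.log (n / yy n J) * (n : ℝ) ^ 3 / 12 ≤ ∑ j ∈ range J, yy n j := by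
  have hn' : (0 : ℝ) < n := by exact_mod_cast hn
  have hx : ∀ j : ℕ, (n : ℝ) / yy n j = 1 + 12 * j / (n : ℝ) ^ 2 := by
    intro j
    unfold yy
    field_simp
  induction J with
  | zero => simp [hx]
  | succ J ih =>
    rw [Finset.sum_range_succ]
    have h1 : Real.log (n / yy n (J + 1)) - Real.log (n / yy n J) ≤
        12 / (n : ℝ) ^ 3 * yy n J := by
      rw [← Real.log_div]
      · have h2 : 0 < (n : ℝ) / yy n (J + 1) / (n / yy n J) := by
          have := yy_pos hn (J + 1)
          have := yy_pos hn J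
          positivity
        have h3 := Real.log_le_sub_one_of_pos h2
        refine h3.trans (le_of_eq ?_)
        rw [hx, hx]
        unfold yy
        push_cast
        field_simp
        ring
      · have := yy_pos hn (J + 1)
        positivity
      · have := yy_pos hn J
        positivity
    have h4 : (Real.log (n / yy n (J + 1)) - Real.log (n / yy n J)) * (n : ℝ) ^ 3 / 12 ≤
        yy n J := by
      have : (Real.log (n / yy n (J + 1)) - Real.log (n / yy n J)) * (n : ℝ) ^ 3 / 12 ≤
          12 / (n : ℝ) ^ 3 * yy n J * (n : ℝ) ^ 3 / 12 := by gcongr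
      refine this.trans (le_of_eq ?_)
      field_simp
    linarith [sub_mul (Real.log (n / yy n (J + 1))) (Real.log (n / yy n J)) ((n : ℝ) ^ 3)]

open Classical in
/-- The survival bound. -/
theorem survive (hn : 0 < n) (P : List (Tr n) → Prop) (S : Finset (Sym2 (Fin n))) (δ : ℝ)
    (hδ : δ ≤ 1 / 2) (hP : ∀ l : List (Tr n), P l → ∀ e ∈ edges (gr l),
      (1 - δ) * yy n l.length ≤ H.deg (hyp (gr l)) e) (J : ℕ)
    (hS : ∀ j < J, (S.card : ℝ) ≤ δ * yy n j)
    (hJ : δ * Real.log (n / yy n J) ≤ 1) :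
    EL J (fun l => if S ⊆ edges (gr l) ∧ HistOK P l then (1 : ℝ) else 0) ≤
      (Real.exp 1 * √(yy n J / n)) ^ S.card := by
  have hn' : (0 : ℝ) < n := by exact_mod_cast hn
  refine (survive_prod hn P S δ hP J hS).trans ?_
  have hy := yy_pos hn J
  have h1 : Real.exp 1 * √(yy n J / n) = Real.exp (1 - Real.log (n / yy n J) / 2) := by
    rw [Real.sqrt_eq_rpow, Real.rpow_def_of_pos (by positivity), ← Real.exp_add]
    congr 1
    rw [Real.log_div hy.ne' hn'.ne', Real.log_div hn'.ne' hy.ne']
    ring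
  rw [h1, ← Real.exp_nat_mul, Real.exp_le_exp]
  have h2 := sum_yy hn J
  have h3 : (0 : ℝ) ≤ 6 * S.card * (1 - 2 * δ) / (n : ℝ) ^ 3 := by
    have : 0 ≤ 1 - 2 * δ := by linarith
    positivity
  have h4 := mul_le_mul_of_nonneg_left h2 h3
  have h5 : 6 * (S.card : ℝ) * (1 - 2 * δ) / (n : ℝ) ^ 3 *
      (Real.log (n / yy n J) * (n : ℝ) ^ 3 / 12) =
      S.card * ((1 - 2 * δ) * Real.log (n / yy n J) / 2) := by
    field_simp
    ring
  rw [h5] at h4
  have h6 : (S.card : ℝ) * (δ * Real.log (n / yy n J)) ≤ S.card * 1 := by gcongr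
  rw [neg_mul]
  nlinarith

end Vale.Agent.P046
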